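import Vale.Agent.P225.MathlibUsed

set_option linter.all false

section

section

/-!
# P225, design B, part B2 (dynamics): data and definitions

Everything here is linear ODE theory in finite dimension.  The space of the block `d` is
`ι d → ℝ` with the sup norm (coordinates with respect to a basis of eigenvectors of `M_{J₀}`).
-/

open Set Filter Topology
open scoped ContDiff

namespace Vale.Agent.P225.B2

/-- `β(η) = 1 - e^{-2η}`. -/
noncomputable def beta (x : ℝ) : ℝ := 1 - Real.exp (-2 * x)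

/-- The positive root `s` of `s (s + 2 m P) = C`. -/
noncomputable def sroot (m : ℕ) (P C : ℝ) : ℝ := -(m * P) + √((m * P) ^ 2 + C)

/-- `(w, w1)` solves `w'' + p w' = Q w` on the set `s` (`w1` is the derivative of `w`). -/
structure Sol {V : Type*} [NormedAddCommGroup V] [NormedSpace ℝ V]
    (p : ℝ → ℝ) (Q : ℝ → V →L[ℝ] V) (s : Set ℝ) (w w1 : ℝ → V) : Prop where
  d0 : ∀ t ∈ s, HasDerivAt w (w1 t) t
  d1 : ∀ t ∈ s, HasDerivAt w1 (Q t (w t) - p t • w1 t) t

/-- The smooth monotone step: `0` on `(-∞,1/4]`, `1` on `[3/4,∞)`. -/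
noncomputable def Th (x : ℝ) : ℝ := Real.smoothTransition (2 * x - 1 / 2)

/-- The pulse profile `χ = Th'`, supported in `[1/4,3/4]`, of integral `1`. -/
noncomputable def chi (x : ℝ) : ℝ := deriv Th x

/-- `1/δ(t) = t^{3/4}` -/
noncomputable def rr (t : ℝ) : ℝ := t ^ (3 / 4 : ℝ)

/-- length of the stay at home `L(t) = t^{7/8}` -/
noncomputable def LL (t : ℝ) : ℝ := t ^ (7 / 8 : ℝ)

/-- end of the pulses (a cycle starts at time `t`) -/
noncomputable def T1 (l : ℕ) (t : ℝ) : ℝ := t + l * rr t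

/-- end of the travel -/
noncomputable def T2 (l : ℕ) (t : ℝ) : ℝ := T1 l t + 2 * rr t + LL t

/-- end of the cycle -/
noncomputable def T3 (l : ℕ) (t : ℝ) : ℝ := T2 l t + rr t

/-- the pulses `η_p(τ) = ∑ᵢ δ cᵢ χ(δ(τ-t) - i)`, `δ = 1/r` -/
noncomputable def ep {l : ℕ} (r t : ℝ) (c : Fin l → ℝ) (x : ℝ) : ℝ :=
  ∑ i : Fin l, r⁻¹ * c i * chi ((x - t) / r - (i : ℝ))

/-- the travel profile `η_h(τ) = η₀ Th(δ(τ-T1)) Th(δ(T2-τ))` -/
noncomputable def eh (eta0 : ℝ) (l : ℕ) (t : ℝ) (x : ℝ) : ℝ :=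
  eta0 * Th ((x - T1 l t) / rr t) * Th ((T2 l t - x) / rr t)

section word

variable {V : Type*} [NormedAddCommGroup V] [NormedSpace ℝ V]

/-- The time ordered product `e^{-2κ c_{l-1} M_{l-1}} ⋯ e^{-2κ c_0 M_0}` (the pulse `0` acts
first). -/
noncomputable def wordMap (kap : ℝ) : {l : ℕ} → (Fin l → V →L[ℝ] V) → (Fin l → ℝ) → V →L[ℝ] V
  | 0, _, _ => 1
  | l + 1, M, c => NormedSpace.exp ((-(2 * kap * c (Fin.last l))) • M (Fin.last l)) *
      wordMap kap (fun i : Fin l => M i.castSucc) (fun i : Fin l => c i.castSucc)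

end word

/-- The data of the dynamical part: static data. -/
structure Dat (D : Type) [Fintype D] (ι : D → Type) [∀ d, Fintype (ι d)]
    [∀ d, DecidableEq (ι d)] (𝒥 : Type) where
  /-- `n = 2m + 2` -/
  m : ℕ
  hm : 1 ≤ m
  /-- the limit `Ψ_∞` -/
  Pinf : ℝ
  hP0 : 0 < Pinf
  hP1 : Pinf < 1
  /-- home value of `η` -/
  eta0 : ℝ
  heta0 : 0 ≤ eta0
  strict : Real.exp (2 * eta0) + m * (Pinf * Real.exp (-(eta0 / (2 * m + 1)))) ^ 2 < m + 1
  /-- the degree of the block -/
  deg : D → ℕ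
  hdeg : ∀ d, 1 ≤ deg d
  /-- the home complex structure -/
  J0 : 𝒥
  /-- the operators `M_J` on the block `d` -/
  M : 𝒥 → (d : D) → (ι d → ℝ) →L[ℝ] (ι d → ℝ)
  /-- the eigenvalues of `M_{J₀}` (they are the `μ²`) -/
  mu : (d : D) → ι d → ℝ
  hmu0 : ∀ d i, 0 ≤ mu d i
  hmu : ∀ d i, mu d i ≤ (deg d : ℝ) * (deg d + 2 * m)
  hM0 : ∀ d i, M J0 d (Pi.single i 1) = mu d i • Pi.single i 1

namespace Dat

variable {D : Type} [Fintype D] {ι : D → Type} [∀ d, Fintype (ι d)] [∀ d, DecidableEq (ι d)]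
  {𝒥 : Type} (P : Dat D ι 𝒥)

/-- `C_d = d(d+2m)` -/
noncomputable def C (d : D) : ℝ := (P.deg d : ℝ) * (P.deg d + 2 * P.m)

/-- `σ₀ = Ψ_∞ e^{-η₀/q}` -/
noncomputable def sig0 : ℝ := P.Pinf * Real.exp (-(P.eta0 / (2 * P.m + 1)))

/-- exponent of the limit round cone on block `d` -/
noncomputable def s (d : D) : ℝ := sroot P.m P.Pinf (P.C d)

/-- `κ_d = 1/(2 s_d + 2 m Ψ_∞)` -/
noncomputable def kap (d : D) : ℝ := 1 / (2 * P.s d + 2 * P.m * P.Pinf)

/-- home exponents (with respect to `τ`): `S(S + 2mσ₀) = C_d - β(η₀) μ²` -/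
noncomputable def S (d : D) (i : ι d) : ℝ := sroot P.m P.sig0 (P.C d - beta P.eta0 * P.mu d i)

/-- The control map `(c, λ) ↦ (e^{-λ_d} ∏ e^{-2κ_d cᵢ M_{Jᵢ}})_d`. -/
noncomputable def ctrl {l : ℕ} (word : Fin l → 𝒥) (x : (Fin l → ℝ) × (D → ℝ)) :
    (d : D) → (ι d → ℝ) →L[ℝ] (ι d → ℝ) :=
  fun d => Real.exp (-(x.2 d)) • wordMap (P.kap d) (fun i => P.M (word i) d) x.1

end Dat

/-- The algebraic input (ALG) and the permutation data. -/
structure Ctl {D : Type} [Fintype D] {ι : D → Type} [∀ d, Fintype (ι d)]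
    [∀ d, DecidableEq (ι d)] {𝒥 : Type} (P : Dat D ι 𝒥) where
  /-- length of the word -/
  l : ℕ
  /-- the word -/
  word : Fin l → 𝒥
  /-- the base point -/
  c0 : Fin l → ℝ
  /-- the base point, scalar part -/
  lam0 : D → ℝ
  /-- the derivative of the control map at the base point -/
  F' : ((Fin l → ℝ) × (D → ℝ)) →L[ℝ] ((d : D) → (ι d → ℝ) →L[ℝ] (ι d → ℝ))
  hF : HasStrictFDerivAt (P.ctrl word) F' (c0, lam0)
  hsurj : Function.Surjective F'
  /-- the states in play -/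
  Sset : (d : D) → Finset (ι d)
  /-- the permutation -/
  pi : (d : D) → ι d → ι d
  hpi : ∀ d, ∀ i ∈ Sset d, pi d i ∈ Sset d
  /-- signs -/
  sg : (d : D) → ι d → ℝ
  hsg : ∀ d i, |sg d i| = 1
  hT : ∀ d, ∀ i ∈ Sset d,
    P.ctrl word (c0, lam0) d (Pi.single i 1) = sg d i • Pi.single (pi d i) 1
  /-- the growth bound -/
  k : ℝ
  hk : 0 ≤ k
  havg : ∀ d, ∀ i ∈ Sset d, ∃ N : ℕ, 1 ≤ N ∧ (pi d)^[N] i = i ∧
    ∑ j ∈ Finset.range N, (P.S d ((pi d)^[j] i) - k * P.sig0) < 0

end Vale.Agent.P225.B2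
end
end

section

section

/-!
# P225, design B, part B2: definitions used in the steps

Coordinates: `v = w' + s* w`, `z = w' - s w`, where `s = P.s d`, `s* = P.ss d = s + 2 m Ψ_∞`.
-/

open Set Filter Topology
open scoped ContDiff

namespace Vale.Agent.P225.B2

/-- `Ψ(x) = Ψ_∞ + a x^{-1/2}` for `x ≥ (7/16) t0`, and `1` for `x ≤ (5/16) t0`. -/
noncomputable def PsiG (Pinf a t0 x : ℝ) : ℝ :=
  1 - (1 - Pinf - a * x ^ (-(1 / 2) : ℝ)) * Th (4 * x / t0 - 1)

/-- `η` on one cycle starting at `t`, control `c`. -/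
noncomputable def etaC {l : ℕ} (eta0 t : ℝ) (c : Fin l → ℝ) (x : ℝ) : ℝ :=
  ep (rr t) t c x + eh eta0 l t x

/-- `σ = Ψ e^{-η_h/q}` on one cycle. -/
noncomputable def sigC (m : ℕ) (Ψ : ℝ → ℝ) (eta0 : ℝ) (l : ℕ) (t x : ℝ) : ℝ :=
  Ψ x * Real.exp (-(eh eta0 l t x / (2 * m + 1)))

/-- The potential operator in the pulse phase: `C - ∑ᵢ β(δ cᵢ χ(δ(x-t)-i)) Mᵢ`. -/
noncomputable def Qp {V : Type*} [NormedAddCommGroup V] [NormedSpace ℝ V] {l : ℕ} (C0 : ℝ)
    (M : Fin l → V →L[ℝ] V) (r t : ℝ) (c : Fin l → ℝ) (x : ℝ) : V →L[ℝ] V :=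
  C0 • (1 : V →L[ℝ] V) - ∑ i : Fin l, beta (r⁻¹ * c i * chi ((x - t) / r - (i : ℝ))) • M i

/-- The three curvature inequalities at the point `x`. -/
def Curv (m : ℕ) (σ η : ℝ → ℝ) (x : ℝ) : Prop :=
  0 ≤ -((2 * m + 1) * deriv σ x) - deriv (deriv η) x - σ x * deriv η x - deriv η x ^ 2 ∧
  0 ≤ 2 * m * (Real.exp (2 * η x) - σ x ^ 2) - deriv σ x - (2 * m + 1) * σ x * deriv η x
      - deriv η x ^ 2 - deriv (deriv η) x ∧
  0 ≤ 2 * m + 2 - 2 * Real.exp (2 * η x) - 2 * m * σ x ^ 2 - deriv σ x - σ x * deriv η x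

namespace Dat

variable {D : Type} [Fintype D] {ι : D → Type} [∀ d, Fintype (ι d)] [∀ d, DecidableEq (ι d)]
  {𝒥 : Type} (P : Dat D ι 𝒥)

/-- `s* = s + 2 m Ψ_∞` -/
noncomputable def ss (d : D) : ℝ := P.s d + 2 * P.m * P.Pinf

/-- The coefficient `p = 2 m σ + η'` on one cycle. -/
noncomputable def pC {l : ℕ} (Ψ : ℝ → ℝ) (t : ℝ) (c : Fin l → ℝ) (x : ℝ) : ℝ :=
  2 * P.m * sigC P.m Ψ P.eta0 l t x + deriv (etaC P.eta0 t c) x

/-- The coefficient `Q = C_d - β(η_p) M_{J_i} - β(η_h) M_{J₀}` on one cycle. -/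
noncomputable def QC {l : ℕ} (word : Fin l → 𝒥) (t : ℝ) (c : Fin l → ℝ) (d : D) (x : ℝ) :
    (ι d → ℝ) →L[ℝ] (ι d → ℝ) :=
  Qp (P.C d) (fun i => P.M (word i) d) (rr t) t c x - beta (eh P.eta0 l t x) • P.M P.J0 d

end Dat

/-- The transfer statement for one cycle starting at time `t`: control `c`, memory `Z ↦ Z'`,
multipliers `Λ`. -/
def CycleOK {D : Type} [Fintype D] {ι : D → Type} [∀ d, Fintype (ι d)]
    [∀ d, DecidableEq (ι d)] {𝒥 : Type} (P : Dat D ι 𝒥) (Q : Ctl P) (Ψ : ℝ → ℝ) (t K : ℝ)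
    (Z : (d : D) → (ι d → ℝ) →L[ℝ] (ι d → ℝ)) (c : Fin Q.l → ℝ)
    (Z' : (d : D) → (ι d → ℝ) →L[ℝ] (ι d → ℝ)) (Λ : (d : D) → ι d → ℝ) : Prop :=
  (∀ d i, 0 < Λ d i ∧ Λ d i ≤ Real.exp (P.S d i * LL t + K * rr t)) ∧
  ∀ d, ∀ w w1 : ℝ → (ι d → ℝ),
    Sol (P.pC Ψ t c) (P.QC Q.word t c d) (Icc t (T3 Q.l t)) w w1 →
    w1 t - P.s d • w t = Z d (w1 t + P.ss d • w t) →
    (∀ i, (w1 (T3 Q.l t) + P.ss d • w (T3 Q.l t)) i
        = Λ d i * (P.ctrl Q.word (Q.c0, Q.lam0) d (w1 t + P.ss d • w t)) i) ∧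
      w1 (T3 Q.l t) - P.s d • w (T3 Q.l t)
        = Z' d (w1 (T3 Q.l t) + P.ss d • w (T3 Q.l t))


end Vale.Agent.P225.B2
end
end

section

section

/-!
# P225, design B, part B2: smoothness and supports of the profiles
-/

open Set Filter Topology
open scoped ContDiff

namespace Vale.Agent.P225.B2

theorem Th_contDiff {n : ℕ∞} : ContDiff ℝ n Th := by
  unfold Th
  exact Real.smoothTransition.contDiff.comp (by (clear * -; fun_prop))

theorem Th_zero {x : ℝ} (hx : x ≤ 1 / 4) : Th x = 0 := by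
  unfold Th
  exact Real.smoothTransition.zero_of_nonpos (by linarith)

theorem Th_one {x : ℝ} (hx : 3 / 4 ≤ x) : Th x = 1 := by
  unfold Th
  exact Real.smoothTransition.one_of_one_le (by linarith)

theorem Th_nonneg (x : ℝ) : 0 ≤ Th x := Real.smoothTransition.nonneg _

theorem Th_le_one (x : ℝ) : Th x ≤ 1 := Real.smoothTransition.le_one _

theorem Th_mono : Monotone Th := by
  intro x y h
  exact Real.smoothTransition.monotone (by linarith)

theorem chi_contDiff : ContDiff ℝ ∞ chi := by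
  unfold chi
  have : ContDiff ℝ ∞ (deriv Th) := by
    have h := (contDiff_succ_iff_deriv (n := ∞) (f := Th) (𝕜 := ℝ)).1
      (by simpa using (Th_contDiff (n := ⊤)))
    exact h.2.2
  exact this

theorem chi_nonneg (x : ℝ) : 0 ≤ chi x := Th_mono.deriv_nonneg

theorem chi_left {x : ℝ} (hx : x ≤ 1 / 4) : chi x = 0 := by
  rcases lt_or_eq_of_le hx with h | rfl
  · have : Th =ᶠ[𝓝 x] fun _ => 0 := by
      filter_upwards [Iio_mem_nhds h] with y hy using Th_zero (le_of_lt hy)
    unfold chi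
    rw [this.deriv_eq]
    simp only [deriv_const']
  · have hc : Continuous chi := chi_contDiff.continuous
    have h0 : ∀ y ∈ Iio (1 / 4 : ℝ), chi y = 0 := by
      intro y hy
      have : Th =ᶠ[𝓝 y] fun _ => 0 := by
        filter_upwards [Iio_mem_nhds hy] with z hz using Th_zero (le_of_lt hz)
      unfold chi
      rw [this.deriv_eq]
      simp only [deriv_const']
    have hcl : closure (Iio (1 / 4 : ℝ)) ⊆ {y | chi y = 0} :=
      closure_minimal h0 (isClosed_eq hc continuous_const)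
    exact hcl (by rw [closure_Iio]; exact self_mem_Iic)

theorem chi_right {x : ℝ} (hx : 3 / 4 ≤ x) : chi x = 0 := by
  have h0 : ∀ y ∈ Ioi (3 / 4 : ℝ), chi y = 0 := by
    intro y hy
    have : Th =ᶠ[𝓝 y] fun _ => 1 := by
      filter_upwards [Ioi_mem_nhds hy] with z hz using Th_one (le_of_lt hz)
    unfold chi
    rw [this.deriv_eq]
    simp only [deriv_const']
  have hcl : closure (Ioi (3 / 4 : ℝ)) ⊆ {y | chi y = 0} :=
    closure_minimal h0 (isClosed_eq chi_contDiff.continuous continuous_const)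
  exact hcl (by rw [closure_Ioi]; exact hx)

theorem rr_pos {t : ℝ} (ht : 0 < t) : 0 < rr t := Real.rpow_pos_of_pos ht _

theorem LL_pos {t : ℝ} (ht : 0 < t) : 0 < LL t := Real.rpow_pos_of_pos ht _

theorem T1_ge {l : ℕ} {t : ℝ} (ht : 0 < t) : t ≤ T1 l t := by
  unfold T1
  have := rr_pos ht
  have : 0 ≤ (l : ℝ) * rr t := by (clear * - this; positivity)
  linarith

theorem T2_ge {l : ℕ} {t : ℝ} (ht : 0 < t) : T1 l t + 2 * rr t ≤ T2 l t := by
  unfold T2
  have := LL_pos ht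
  linarith only [this]

theorem T3_eq (l : ℕ) (t : ℝ) : T3 l t = t + (l + 3) * rr t + LL t := by
  unfold T3 T2 T1
  ring

theorem T3_gt {l : ℕ} {t : ℝ} (ht : 0 < t) : t < T3 l t := by
  have h1 := T1_ge (l := l) ht
  have h2 := T2_ge (l := l) ht
  have h3 := rr_pos ht
  unfold T3
  linarith

theorem ep_contDiff {l : ℕ} (r t : ℝ) (c : Fin l → ℝ) : ContDiff ℝ ∞ (ep r t c) := by
  unfold ep
  refine ContDiff.sum fun i _ => ?_
  exact contDiff_const.mul (chi_contDiff.comp (by fun_prop))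

theorem eh_contDiff (eta0 : ℝ) (l : ℕ) (t : ℝ) : ContDiff ℝ ∞ (eh eta0 l t) := by
  unfold eh
  exact (contDiff_const.mul (Th_contDiff.comp (by fun_prop))).mul (Th_contDiff.comp (by fun_prop))

theorem etaC_contDiff {l : ℕ} (eta0 t : ℝ) (c : Fin l → ℝ) : ContDiff ℝ ∞ (etaC eta0 t c) :=
  (ep_contDiff _ _ _).add (eh_contDiff _ _ _)

theorem ep_left {l : ℕ} {r t x : ℝ} (hr : 0 < r) (c : Fin l → ℝ) (hx : x ≤ t + r / 4) :
    ep r t c x = 0 := by
  unfold ep
  refine Finset.sum_eq_zero fun i _ => ?_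
  rw [chi_left, mul_zero]
  have h1 : (x - t) / r ≤ 1 / 4 := by
    rw [div_le_iff₀ hr]; linarith
  have h2 : (0 : ℝ) ≤ (i : ℝ) := by (clear * -; positivity)
  linarith only [h1]

theorem ep_right {l : ℕ} {r t x : ℝ} (hr : 0 < r) (c : Fin l → ℝ)
    (hx : t + l * r - r / 4 ≤ x) : ep r t c x = 0 := by
  unfold ep
  refine Finset.sum_eq_zero fun i _ => ?_
  rw [chi_right, mul_zero]
  have h1 : (l : ℝ) - 1 / 4 ≤ (x - t) / r := by
    rw [le_div_iff₀ hr]; linarith
  have h2 : (i : ℝ) + 1 ≤ l := by exact_mod_cast i.2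
  linarith only [h1, h2]

theorem eh_left {eta0 : ℝ} {l : ℕ} {t x : ℝ} (ht : 0 < t) (hx : x ≤ T1 l t + rr t / 4) :
    eh eta0 l t x = 0 := by
  unfold eh
  rw [Th_zero, mul_zero, zero_mul]
  rw [div_le_iff₀ (rr_pos ht)]; linarith

theorem eh_right {eta0 : ℝ} {l : ℕ} {t x : ℝ} (ht : 0 < t) (hx : T2 l t - rr t / 4 ≤ x) :
    eh eta0 l t x = 0 := by
  unfold eh
  rw [Th_zero (x := (T2 l t - x) / rr t), mul_zero]
  rw [div_le_iff₀ (rr_pos ht)]; (clear * - hx; linarith)

theorem etaC_left {l : ℕ} {eta0 t x : ℝ} (ht : 0 < t) (c : Fin l → ℝ) (hx : x ≤ t + rr t / 4) :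
    etaC eta0 t c x = 0 := by
  unfold etaC
  rw [ep_left (rr_pos ht) c hx, eh_left ht, add_zero]
  have := T1_ge (l := l) ht
  linarith

theorem etaC_right {l : ℕ} {eta0 t x : ℝ} (ht : 0 < t) (c : Fin l → ℝ)
    (hx : T3 l t - rr t ≤ x) : etaC eta0 t c x = 0 := by
  have h2 := T2_ge (l := l) ht
  have h3 := rr_pos ht
  unfold T3 at hx
  unfold etaC
  rw [ep_right (rr_pos ht) c, eh_right ht, add_zero]
  · linarith
  · unfold T1 at h2
    linarith only [hx, h2, h3]

theorem eh_nonneg {eta0 : ℝ} (h : 0 ≤ eta0) (l : ℕ) (t x : ℝ) : 0 ≤ eh eta0 l t x := by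
  unfold eh
  have := Th_nonneg ((x - T1 l t) / rr t)
  have := Th_nonneg ((T2 l t - x) / rr t)
  positivity

theorem eh_le {eta0 : ℝ} (h : 0 ≤ eta0) (l : ℕ) (t x : ℝ) : eh eta0 l t x ≤ eta0 := by
  unfold eh
  have h1 := Th_nonneg ((x - T1 l t) / rr t)
  have h2 := Th_nonneg ((T2 l t - x) / rr t)
  have h3 := Th_le_one ((x - T1 l t) / rr t)
  have h4 := Th_le_one ((T2 l t - x) / rr t)
  calc eta0 * Th ((x - T1 l t) / rr t) * Th ((T2 l t - x) / rr t)
      ≤ eta0 * Th ((x - T1 l t) / rr t) * 1 := by gcongr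
    _ ≤ eta0 * 1 * 1 := by gcongr
    _ = eta0 := by ring

theorem beta_zero : beta 0 = 0 := by simp only [beta, mul_zero, Real.exp_zero, sub_self]

theorem beta_contDiff : ContDiff ℝ ∞ beta := by
  unfold beta
  fun_prop

end Vale.Agent.P225.B2
end
end

section

section

/-! P225, blueprint B2-D1: linear ordinary differential equations with continuous coefficients,
global existence (Dyson series), uniqueness, smoothness, Gronwall bound. -/

namespace Vale.Agent.P225.B

open MeasureTheory Set Filter Topology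
open scoped Interval ContDiff

section Dyson

variable {R : Type*} [NormedRing R] [NormedAlgebra ℝ R] [CompleteSpace R]

/-- Dyson series terms -/
noncomputable def dyson (a : ℝ → R) : ℕ → ℝ → R
  | 0 => fun _ => 1
  | n + 1 => fun t => ∫ s in (0 : ℝ)..t, a s * dyson a n s

omit [CompleteSpace R] in
theorem dyson_continuous {a : ℝ → R} (ha : Continuous a) (n : ℕ) : Continuous (dyson a n) := by
  induction n with
  | zero => exact continuous_const
  | succ n ih =>
    exact intervalIntegral.continuous_primitive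
      (fun x y => (ha.mul ih).intervalIntegrable x y) 0

theorem dyson_hasDerivAt {a : ℝ → R} (ha : Continuous a) (n : ℕ) (t : ℝ) :
    HasDerivAt (dyson a (n + 1)) (a t * dyson a n t) t := by
  have hc := ha.mul (dyson_continuous ha n)
  exact intervalIntegral.integral_hasDerivAt_right (hc.intervalIntegrable 0 t)
    (hc.stronglyMeasurableAtFilter _ _) hc.continuousAt

omit [CompleteSpace R] in
theorem dyson_norm_le {a : ℝ → R} (ha : Continuous a) {M ρ : ℝ} (hM : 0 ≤ M)
    (hb : ∀ t, |t| ≤ ρ → ‖a t‖ ≤ M) (n : ℕ) (t : ℝ) (ht : |t| ≤ ρ) :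
    ‖dyson a n t‖ ≤ ‖(1 : R)‖ * ((M * |t|) ^ n / n.factorial) := by
  induction n generalizing t with
  | zero => simp only [dyson, pow_zero, Nat.factorial_zero, Nat.cast_one, ne_eq, one_ne_zero, not_false_eq_true, div_self, mul_one, Std.le_refl]
  | succ n ih =>
    have hc := ha.mul (dyson_continuous ha n)
    have hsub : ∀ s ∈ Ι 0 t, |s| ≤ ρ := by
      intro s hs
      refine le_trans ?_ ht
      rcases le_total 0 t with h0 | h0
      · rw [uIoc_of_le h0] at hs
        rw [abs_of_nonneg hs.1.le, abs_of_nonneg h0]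
        exact hs.2
      · rw [uIoc_of_ge h0] at hs
        rw [abs_of_nonpos hs.2, abs_of_nonpos h0]
        linarith only [hs.1]
    calc ‖dyson a (n + 1) t‖ ≤ ∫ s in Ι 0 t, ‖a s * dyson a n s‖ :=
          intervalIntegral.norm_integral_le_integral_norm_uIoc
      _ ≤ ∫ s in Ι 0 t, (‖(1 : R)‖ * (M ^ (n + 1) / n.factorial)) * |s - 0| ^ n := by
          refine setIntegral_mono_on ?_ ?_ measurableSet_uIoc fun s hs => ?_
          · exact (hc.norm.intervalIntegrable 0 t).def'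
          · have : Continuous fun s : ℝ =>
                (‖(1 : R)‖ * (M ^ (n + 1) / n.factorial)) * |s - 0| ^ n := by fun_prop
            exact (this.intervalIntegrable 0 t).def'
          · calc ‖a s * dyson a n s‖ ≤ ‖a s‖ * ‖dyson a n s‖ := norm_mul_le _ _
              _ ≤ M * (‖(1 : R)‖ * ((M * |s|) ^ n / n.factorial)) := by
                  gcongr
                  · exact hb s (hsub s hs)
                  · exact ih s (hsub s hs)
              _ = (‖(1 : R)‖ * (M ^ (n + 1) / n.factorial)) * |s - 0| ^ n := by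
                  rw [sub_zero, mul_pow, pow_succ]
                  ring
      _ = ‖(1 : R)‖ * ((M * |t|) ^ (n + 1) / (n + 1).factorial) := by
          rw [MeasureTheory.integral_const_mul, integral_pow_abs_sub_uIoc, sub_zero,
            Nat.factorial_succ, mul_pow]
          push_cast
          (clear * -; field_simp)

/-- a continuous function is bounded on `[-ρ, ρ]` -/
theorem exists_bound {E : Type*} [NormedAddCommGroup E] {a : ℝ → E} (ha : Continuous a)
    (ρ : ℝ) : ∃ M : ℝ, 0 ≤ M ∧ ∀ t, |t| ≤ ρ → ‖a t‖ ≤ M := by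
  obtain ⟨M, hM⟩ := (isCompact_Icc (a := -ρ) (b := ρ)).exists_bound_of_continuousOn
    ha.continuousOn
  refine ⟨max M 0, le_max_right _ _, fun t ht => (hM t ?_).trans (le_max_left _ _)⟩
  exact abs_le.mp ht

theorem dyson_summable {a : ℝ → R} (ha : Continuous a) (t : ℝ) :
    Summable (fun n => dyson a n t) := by
  obtain ⟨M, hM, hb⟩ := exists_bound ha |t|
  refine Summable.of_norm_bounded (g := fun n => ‖(1 : R)‖ * ((M * |t|) ^ n / n.factorial))
    ((Real.summable_pow_div_factorial _).mul_left _) fun n => dyson_norm_le ha hM hb n t le_rfl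

/-- global fundamental solution of a linear ODE in a Banach algebra -/
theorem exists_fund {a : ℝ → R} (ha : Continuous a) :
    ∃ U : ℝ → R, U 0 = 1 ∧ ∀ t, HasDerivAt U (a t * U t) t := by
  refine ⟨fun t => ∑' n, dyson a n t, ?_, fun t => ?_⟩
  · show ∑' n, dyson a n 0 = 1
    rw [tsum_eq_single 0]
    · rfl
    · intro n hn
      obtain ⟨m, rfl⟩ := Nat.exists_eq_succ_of_ne_zero hn
      simp [dyson]
  · set ρ := |t| + 1 with hρ
    have hρ0 : 0 < ρ := by (clear * -; positivity)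
    obtain ⟨M, hM, hb⟩ := exists_bound ha ρ
    set g' : ℕ → ℝ → R := fun n y => match n with
      | 0 => 0
      | n + 1 => a y * dyson a n y with hg'
    set u : ℕ → ℝ := fun n => match n with
      | 0 => 0
      | n + 1 => M * (‖(1 : R)‖ * ((M * ρ) ^ n / n.factorial)) with hu
    have hus : Summable u := by
      rw [← summable_nat_add_iff 1]
      exact ((Real.summable_pow_div_factorial _).mul_left _).mul_left _
    have h := hasDerivAt_tsum_of_isPreconnected (g := dyson a) (g' := g') (u := u)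
      (t := Metric.ball (0 : ℝ) ρ) (y₀ := t) (y := t) hus Metric.isOpen_ball
      (convex_ball (0 : ℝ) ρ).isPreconnected ?_ ?_ ?_ (dyson_summable ha t) ?_
    · have h2 : ∑' n, g' n t = a t * ∑' n, dyson a n t := by
        have hs : Summable (fun n => g' n t) := by
          rw [← summable_nat_add_iff 1]
          exact (dyson_summable ha t).mul_left (a t)
        rw [hs.tsum_eq_zero_add]
        simp only [hg', zero_add]
        exact (dyson_summable ha t).tsum_mul_left (a t)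
      rw [h2] at h
      exact h
    · intro n y _
      cases n with
      | zero => exact hasDerivAt_const y 1
      | succ n => exact dyson_hasDerivAt ha n y
    · intro n y hy
      rw [Metric.mem_ball, dist_zero_right, Real.norm_eq_abs] at hy
      cases n with
      | zero => simp only [hg', norm_zero, hu, Std.le_refl]
      | succ n =>
        simp only [hg', hu]
        calc ‖a y * dyson a n y‖ ≤ ‖a y‖ * ‖dyson a n y‖ := norm_mul_le _ _
          _ ≤ M * (‖(1 : R)‖ * ((M * |y|) ^ n / n.factorial)) := by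
              gcongr
              · exact hb y hy.le
              · exact dyson_norm_le ha hM hb n y hy.le
          _ ≤ M * (‖(1 : R)‖ * ((M * ρ) ^ n / n.factorial)) := by (clear * - hM hy; gcongr)
    · rw [Metric.mem_ball, dist_zero_right, Real.norm_eq_abs]
      linarith only []
    · rw [Metric.mem_ball, dist_zero_right, Real.norm_eq_abs]
      linarith only []

end Dyson

section Lin

variable {X : Type*} [NormedAddCommGroup X] [NormedSpace ℝ X]

/-- global existence for `x' = a(t) x` -/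
theorem lin_exists [CompleteSpace X] {a : ℝ → X →L[ℝ] X} (ha : Continuous a) (t₀ : ℝ) (x₀ : X) :
    ∃ x : ℝ → X, x t₀ = x₀ ∧ ∀ t, HasDerivAt x (a t (x t)) t := by
  obtain ⟨U, hU0, hU⟩ := exists_fund (R := X →L[ℝ] X) (a := fun t => a (t + t₀))
    (ha.comp (continuous_id.add continuous_const))
  refine ⟨fun t => U (t - t₀) x₀, by simp only [sub_self, hU0, one_apply_eq_self], fun t => ?_⟩
  have h1 : HasDerivAt (fun t => U (t - t₀)) (a t * U (t - t₀)) t := by
    have := (hU (t - t₀)).comp_sub_const t t₀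
    simpa only [sub_add_cancel] using this
  exact h1.clm_apply (hasDerivAt_const t x₀) |>.congr_deriv (by simp)

/-- uniqueness on an interval -/
theorem lin_unique_Icc {a : ℝ → X →L[ℝ] X} (ha : Continuous a) {c d : ℝ} {x y : ℝ → X}
    (hx : ∀ t ∈ Icc c d, HasDerivAt x (a t (x t)) t)
    (hy : ∀ t ∈ Icc c d, HasDerivAt y (a t (y t)) t) {t₀ : ℝ} (ht₀ : t₀ ∈ Icc c d)
    (h : x t₀ = y t₀) : ∀ t ∈ Icc c d, x t = y t := by
  obtain ⟨M, hM, hb⟩ := exists_bound ha (max |c| |d|)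
  have hb' : ∀ t ∈ Icc c d, ‖a t‖ ≤ M := fun t ht => hb t (abs_le_max_abs_abs ht.1 ht.2)
  have key : ∀ t ∈ Icc c d, LipschitzOnWith M.toNNReal (fun z => a t z) univ := fun t ht => by
    refine LipschitzOnWith.of_dist_le_mul fun z _ z' _ => ?_
    rw [dist_eq_norm, dist_eq_norm, ← map_sub, Real.coe_toNNReal M hM]
    exact (a t).le_of_opNorm_le (hb' t ht) _
  intro t ht
  rcases le_total t₀ t with h1 | h1
  · have hsub : Icc t₀ t ⊆ Icc c d := Icc_subset_Icc ht₀.1 ht.2
    exact ODE_solution_unique_of_mem_Icc_right (v := fun t z => a t z) (s := fun _ => univ)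
      (K := M.toNNReal) (f := x) (g := y) (a := t₀) (b := t)
      (fun s hs => key s (hsub (Ico_subset_Icc_self hs)))
      (fun s hs => (hx s (hsub hs)).continuousAt.continuousWithinAt)
      (fun s hs => (hx s (hsub (Ico_subset_Icc_self hs))).hasDerivWithinAt) (fun _ _ => mem_univ _)
      (fun s hs => (hy s (hsub hs)).continuousAt.continuousWithinAt)
      (fun s hs => (hy s (hsub (Ico_subset_Icc_self hs))).hasDerivWithinAt) (fun _ _ => mem_univ _)
      h ⟨h1, le_rfl⟩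
  · have hsub : Icc t t₀ ⊆ Icc c d := Icc_subset_Icc ht.1 ht₀.2
    exact ODE_solution_unique_of_mem_Icc_left (v := fun t z => a t z) (s := fun _ => univ)
      (K := M.toNNReal) (f := x) (g := y) (a := t) (b := t₀)
      (fun s hs => key s (hsub (Ioc_subset_Icc_self hs)))
      (fun s hs => (hx s (hsub hs)).continuousAt.continuousWithinAt)
      (fun s hs => (hx s (hsub (Ioc_subset_Icc_self hs))).hasDerivWithinAt) (fun _ _ => mem_univ _)
      (fun s hs => (hy s (hsub hs)).continuousAt.continuousWithinAt)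
      (fun s hs => (hy s (hsub (Ioc_subset_Icc_self hs))).hasDerivWithinAt) (fun _ _ => mem_univ _)
      h ⟨le_rfl, h1⟩

/-- uniqueness on the line -/
theorem lin_unique {a : ℝ → X →L[ℝ] X} (ha : Continuous a) {x y : ℝ → X}
    (hx : ∀ t, HasDerivAt x (a t (x t)) t) (hy : ∀ t, HasDerivAt y (a t (y t)) t) {t₀ : ℝ}
    (h : x t₀ = y t₀) : x = y := by
  funext t
  exact lin_unique_Icc ha (c := min t₀ t) (d := max t₀ t) (fun s _ => hx s) (fun s _ => hy s)
    ⟨min_le_left _ _, le_max_left _ _⟩ h t ⟨min_le_right _ _, le_max_right _ _⟩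

/-- solutions of linear equations with smooth coefficients are smooth -/
theorem lin_smooth {a : ℝ → X →L[ℝ] X} (ha : ContDiff ℝ ∞ a) {x : ℝ → X}
    (hx : ∀ t, HasDerivAt x (a t (x t)) t) : ContDiff ℝ ∞ x := by
  rw [contDiff_infty]
  intro n
  induction n with
  | zero =>
    rw [show ((0 : ℕ) : WithTop ℕ∞) = 0 from rfl, contDiff_zero]
    exact continuous_iff_continuousAt.mpr fun t => (hx t).continuousAt
  | succ n ih =>
    have h1 : deriv x = fun t => a t (x t) := funext fun t => (hx t).deriv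
    have h2 : ContDiff ℝ (n : WithTop ℕ∞) (deriv x) := by
      rw [h1]
      exact (ha.of_le (by exact_mod_cast le_top)).clm_apply ih
    have := contDiff_succ_iff_deriv (n := (n : WithTop ℕ∞)) (f := x)
    push_cast
    rw [this]
    refine ⟨fun t => (hx t).differentiableAt, ?_, h2⟩
    intro h
    exact absurd h (by simp)

/-- Gronwall bound -/
theorem lin_bound {a : ℝ → X →L[ℝ] X} {c d M : ℝ} {x : ℝ → X}
    (hx : ∀ t ∈ Icc c d, HasDerivAt x (a t (x t)) t) (hM : ∀ t ∈ Icc c d, ‖a t‖ ≤ M)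
    {t : ℝ} (ht : t ∈ Icc c d) : ‖x t‖ ≤ ‖x c‖ * Real.exp (M * (t - c)) := by
  have h := norm_le_gronwallBound_of_norm_deriv_right_le (f := x) (f' := fun t => a t (x t))
    (δ := ‖x c‖) (K := M) (ε := 0) (a := c) (b := d)
    (fun s hs => (hx s hs).continuousAt.continuousWithinAt)
    (fun s hs => (hx s (Ico_subset_Icc_self hs)).hasDerivWithinAt) le_rfl
    (fun s hs => by
      rw [add_zero]
      exact (a s).le_of_opNorm_le (hM s (Ico_subset_Icc_self hs)) _) t ht
  rwa [gronwallBound_ε0] at h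

end Lin

section Second

variable {X : Type*} [NormedAddCommGroup X] [NormedSpace ℝ X]

/-- the first order form of `w'' + p w' = Q w` on `X × X` -/
noncomputable def sysCoef (p : ℝ → ℝ) (Q : ℝ → X →L[ℝ] X) (t : ℝ) : (X × X) →L[ℝ] (X × X) :=
  (ContinuousLinearMap.snd ℝ X X).prod
    ((Q t).comp (ContinuousLinearMap.fst ℝ X X) - p t • ContinuousLinearMap.snd ℝ X X)

theorem sysCoef_apply (p : ℝ → ℝ) (Q : ℝ → X →L[ℝ] X) (t : ℝ) (y : X × X) :
    sysCoef p Q t y = (y.2, Q t y.1 - p t • y.2) := rfl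

theorem sysCoef_eq (p : ℝ → ℝ) (Q : ℝ → X →L[ℝ] X) :
    sysCoef p Q = fun t => (ContinuousLinearMap.inl ℝ X X).comp (ContinuousLinearMap.snd ℝ X X) +
      (ContinuousLinearMap.inr ℝ X X).comp
        ((Q t).comp (ContinuousLinearMap.fst ℝ X X) - p t • ContinuousLinearMap.snd ℝ X X) := by
  funext t
  refine ContinuousLinearMap.ext fun y => ?_
  rw [sysCoef_apply]
  simp only [ContinuousLinearMap.comp_sub, ContinuousLinearMap.comp_smulₛₗ, Real.ringHom_apply, add_apply, ContinuousLinearMap.comp_apply, ContinuousLinearMap.coe_snd', ContinuousLinearMap.inl_apply, sub_apply, ContinuousLinearMap.coe_fst', ContinuousLinearMap.inr_apply, smul_apply, Prod.smul_mk, smul_zero, Prod.mk_sub_mk, sub_self, Prod.mk_add_mk, add_zero, zero_add]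

theorem sysCoef_continuous {p : ℝ → ℝ} {Q : ℝ → X →L[ℝ] X} (hp : Continuous p)
    (hQ : Continuous Q) : Continuous (sysCoef p Q) := by
  rw [sysCoef_eq]
  fun_prop

theorem sysCoef_contDiff {p : ℝ → ℝ} {Q : ℝ → X →L[ℝ] X} (hp : ContDiff ℝ ∞ p)
    (hQ : ContDiff ℝ ∞ Q) : ContDiff ℝ ∞ (sysCoef p Q) := by
  rw [sysCoef_eq]
  exact contDiff_const.add (contDiff_const.clm_comp
    ((hQ.clm_comp contDiff_const).sub (hp.smul contDiff_const)))

/-- `w'' + p w' = Q w` on the line, `dw = w'`. -/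
structure Sol2 (p : ℝ → ℝ) (Q : ℝ → X →L[ℝ] X) (w dw : ℝ → X) : Prop where
  d1 : ∀ t, HasDerivAt w (dw t) t
  d2 : ∀ t, HasDerivAt dw (Q t (w t) - p t • dw t) t

theorem sol2_exists [CompleteSpace X] {p : ℝ → ℝ} {Q : ℝ → X →L[ℝ] X} (hp : Continuous p)
    (hQ : Continuous Q) (t₀ : ℝ) (w₀ w₁ : X) :
    ∃ w dw : ℝ → X, Sol2 p Q w dw ∧ w t₀ = w₀ ∧ dw t₀ = w₁ := by
  obtain ⟨x, hx0, hx⟩ := lin_exists (sysCoef_continuous hp hQ) t₀ (w₀, w₁)
  refine ⟨fun t => (x t).1, fun t => (x t).2, ⟨fun t => ?_, fun t => ?_⟩, by simp [hx0],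
    by simp [hx0]⟩
  · exact ((ContinuousLinearMap.fst ℝ X X).hasFDerivAt.comp_hasDerivAt t (hx t))
  · exact ((ContinuousLinearMap.snd ℝ X X).hasFDerivAt.comp_hasDerivAt t (hx t))

theorem Sol2.sys {p : ℝ → ℝ} {Q : ℝ → X →L[ℝ] X} {w dw : ℝ → X} (h : Sol2 p Q w dw) (t : ℝ) :
    HasDerivAt (fun t => (w t, dw t)) (sysCoef p Q t (w t, dw t)) t :=
  (h.d1 t).prodMk (h.d2 t)

theorem sol2_unique {p : ℝ → ℝ} {Q : ℝ → X →L[ℝ] X} (hp : Continuous p) (hQ : Continuous Q)
    {w dw w' dw' : ℝ → X} (h : Sol2 p Q w dw) (h' : Sol2 p Q w' dw') {t₀ : ℝ}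
    (h0 : w t₀ = w' t₀) (h1 : dw t₀ = dw' t₀) : w = w' ∧ dw = dw' := by
  have := lin_unique (sysCoef_continuous hp hQ) h.sys h'.sys (t₀ := t₀) (by rw [h0, h1])
  constructor
  · funext t
    exact congrArg Prod.fst (congrFun this t)
  · funext t
    exact congrArg Prod.snd (congrFun this t)

/-- uniqueness on an interval -/
theorem sol2_unique_Icc {p : ℝ → ℝ} {Q : ℝ → X →L[ℝ] X} (hp : Continuous p) (hQ : Continuous Q)
    {w dw w' dw' : ℝ → X} {c d : ℝ}
    (h1 : ∀ t ∈ Icc c d, HasDerivAt w (dw t) t)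
    (h2 : ∀ t ∈ Icc c d, HasDerivAt dw (Q t (w t) - p t • dw t) t)
    (h1' : ∀ t ∈ Icc c d, HasDerivAt w' (dw' t) t)
    (h2' : ∀ t ∈ Icc c d, HasDerivAt dw' (Q t (w' t) - p t • dw' t) t)
    {t₀ : ℝ} (ht₀ : t₀ ∈ Icc c d) (h : w t₀ = w' t₀) (hd : dw t₀ = dw' t₀) :
    ∀ t ∈ Icc c d, w t = w' t ∧ dw t = dw' t := by
  intro t ht
  have := lin_unique_Icc (sysCoef_continuous hp hQ) (x := fun t => (w t, dw t))
    (y := fun t => (w' t, dw' t)) (fun t ht => (h1 t ht).prodMk (h2 t ht))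
    (fun t ht => (h1' t ht).prodMk (h2' t ht)) ht₀ (by simp only [h, hd]) t ht
  exact ⟨congrArg Prod.fst this, congrArg Prod.snd this⟩

theorem sol2_smooth {p : ℝ → ℝ} {Q : ℝ → X →L[ℝ] X} (hp : ContDiff ℝ ∞ p) (hQ : ContDiff ℝ ∞ Q)
    {w dw : ℝ → X} (h : Sol2 p Q w dw) : ContDiff ℝ ∞ w ∧ ContDiff ℝ ∞ dw := by
  have := lin_smooth (sysCoef_contDiff hp hQ) h.sys
  exact ⟨contDiff_fst.comp this, contDiff_snd.comp this⟩

end Second

end Vale.Agent.P225.B
end
end

section

section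

/-! P225, design B, D1: existence, uniqueness, smoothness and linearity for `Sol`. -/

open Set Filter Topology
open scoped ContDiff

namespace Vale.Agent.P225.B2

variable {V : Type*} [NormedAddCommGroup V] [NormedSpace ℝ V]
  {p : ℝ → ℝ} {Q : ℝ → V →L[ℝ] V}

theorem Sol.mono {s s' : Set ℝ} {w w1 : ℝ → V} (h : Sol p Q s w w1) (hs : s' ⊆ s) :
    Sol p Q s' w w1 :=
  ⟨fun t ht => h.d0 t (hs ht), fun t ht => h.d1 t (hs ht)⟩

theorem Sol.add {s : Set ℝ} {w w1 w' w1' : ℝ → V} (h : Sol p Q s w w1)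
    (h' : Sol p Q s w' w1') : Sol p Q s (fun t => w t + w' t) (fun t => w1 t + w1' t) :=
  ⟨fun t ht => (h.d0 t ht).add (h'.d0 t ht), fun t ht =>
    ((h.d1 t ht).add (h'.d1 t ht)).congr_deriv (by rw [map_add, smul_add]; abel)⟩

theorem Sol.smul {s : Set ℝ} {w w1 : ℝ → V} (h : Sol p Q s w w1) (r : ℝ) :
    Sol p Q s (fun t => r • w t) (fun t => r • w1 t) :=
  ⟨fun t ht => (h.d0 t ht).const_smul r, fun t ht => ((h.d1 t ht).const_smul r).congr_deriv (by
    rw [map_smul, smul_sub, smul_comm r (p t)])⟩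

/-- the coefficients may be changed off the set -/
theorem Sol.congr {s : Set ℝ} {w w1 : ℝ → V} {p' : ℝ → ℝ} {Q' : ℝ → V →L[ℝ] V}
    (h : Sol p Q s w w1) (hp : ∀ t ∈ s, p' t = p t) (hQ : ∀ t ∈ s, Q' t = Q t) :
    Sol p' Q' s w w1 :=
  ⟨h.d0, fun t ht => by rw [hp t ht, hQ t ht]; exact h.d1 t ht⟩

/-- D1, existence -/
theorem sol_exists [CompleteSpace V] (hp : Continuous p) (hQ : Continuous Q) (t₀ : ℝ)
    (w₀ w₁ : V) : ∃ w w1 : ℝ → V, Sol p Q univ w w1 ∧ w t₀ = w₀ ∧ w1 t₀ = w₁ := by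
  obtain ⟨w, dw, h, h0, h1⟩ := B.sol2_exists hp hQ t₀ w₀ w₁
  exact ⟨w, dw, ⟨fun t _ => h.d1 t, fun t _ => h.d2 t⟩, h0, h1⟩

/-- D1, uniqueness on an interval -/
theorem sol_unique_Icc (hp : Continuous p) (hQ : Continuous Q) {a b : ℝ} {w w1 w' w1' : ℝ → V}
    (h : Sol p Q (Icc a b) w w1) (h' : Sol p Q (Icc a b) w' w1') {t₀ : ℝ} (ht₀ : t₀ ∈ Icc a b)
    (h0 : w t₀ = w' t₀) (h1 : w1 t₀ = w1' t₀) : ∀ t ∈ Icc a b, w t = w' t ∧ w1 t = w1' t :=
  B.sol2_unique_Icc hp hQ h.d0 h.d1 h'.d0 h'.d1 ht₀ h0 h1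

/-- D1, uniqueness on the line -/
theorem sol_unique (hp : Continuous p) (hQ : Continuous Q) {w w1 w' w1' : ℝ → V}
    (h : Sol p Q univ w w1) (h' : Sol p Q univ w' w1') {t₀ : ℝ}
    (h0 : w t₀ = w' t₀) (h1 : w1 t₀ = w1' t₀) : w = w' ∧ w1 = w1' :=
  B.sol2_unique hp hQ ⟨fun t => h.d0 t trivial, fun t => h.d1 t trivial⟩
    ⟨fun t => h'.d0 t trivial, fun t => h'.d1 t trivial⟩ h0 h1

/-- D1, smoothness -/
theorem sol_smooth (hp : ContDiff ℝ ∞ p) (hQ : ContDiff ℝ ∞ Q) {w w1 : ℝ → V}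
    (h : Sol p Q univ w w1) : ContDiff ℝ ∞ w ∧ ContDiff ℝ ∞ w1 :=
  B.sol2_smooth hp hQ ⟨fun t => h.d0 t trivial, fun t => h.d1 t trivial⟩

/-- D1, the transfer map between two times is linear: a solution operator -/
theorem sol_transfer [CompleteSpace V] (hp : Continuous p) (hQ : Continuous Q) (t₀ : ℝ) :
    ∃ W W1 : ℝ → V × V →ₗ[ℝ] V, ∀ y : V × V,
      Sol p Q univ (fun t => W t y) (fun t => W1 t y) ∧ W t₀ y = y.1 ∧ W1 t₀ y = y.2 := by
  choose w w1 h h0 h1 using fun y : V × V => sol_exists hp hQ t₀ y.1 y.2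
  have hadd : ∀ y z t, w (y + z) t = w y t + w z t ∧ w1 (y + z) t = w1 y t + w1 z t := by
    intro y z t
    have := sol_unique hp hQ (h (y + z)) ((h y).add (h z)) (t₀ := t₀)
      (by rw [h0, h0, h0]; rfl) (by rw [h1, h1, h1]; rfl)
    exact ⟨congrFun this.1 t, congrFun this.2 t⟩
  have hsmul : ∀ (r : ℝ) y t, w (r • y) t = r • w y t ∧ w1 (r • y) t = r • w1 y t := by
    intro r y t
    have := sol_unique hp hQ (h (r • y)) ((h y).smul r) (t₀ := t₀)
      (by rw [h0, h0]; rfl) (by rw [h1, h1]; rfl)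
    exact ⟨congrFun this.1 t, congrFun this.2 t⟩
  exact ⟨fun t =>
      { toFun := fun y => w y t
        map_add' := fun y z => (hadd y z t).1
        map_smul' := fun r y => (hsmul r y t).1 },
    fun t =>
      { toFun := fun y => w1 y t
        map_add' := fun y z => (hadd y z t).2
        map_smul' := fun r y => (hsmul r y t).2 },
    fun y => ⟨h y, h0 y, h1 y⟩⟩

end Vale.Agent.P225.B2
end
end

section

section

/-!
P225, design B, module D7a: solving the control equation of one cycle by the quantitative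
implicit function theorem.
-/

open Set Filter Topology Metric
open scoped NNReal

namespace Vale.Agent.P225.B2

/-- Quantitative surjectivity near a point where the strict derivative is onto. -/
theorem ift_quant {X Y : Type*} [NormedAddCommGroup X] [NormedSpace ℝ X] [CompleteSpace X]
    [NormedAddCommGroup Y] [NormedSpace ℝ Y] [CompleteSpace Y]
    {f₀ : X → Y} {x₀ : X} {F' : X →L[ℝ] Y} (hF : HasStrictFDerivAt f₀ F' x₀)
    (hsurj : Function.Surjective F') {r : ℝ} (hr : 0 < r) :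
    ∃ om > 0, ∀ f : X → Y, ‖f x₀ - f₀ x₀‖ ≤ om →
      (∀ x ∈ closedBall x₀ r, ∀ y ∈ closedBall x₀ r,
        ‖(f x - f₀ x) - (f y - f₀ y)‖ ≤ om * ‖x - y‖) →
      ∃ x ∈ closedBall x₀ r, f x = f₀ x₀ := by
  set fs := F'.nonlinearRightInverseOfSurjective (LinearMap.range_eq_top.2 hsurj) with hfs
  have hN : 0 < fs.nnnorm := F'.nonlinearRightInverseOfSurjective_nnnorm_pos _
  have hNr : (0:ℝ) < fs.nnnorm := hN
  set c : ℝ≥0 := fs.nnnorm⁻¹ / 4 with hc
  have hcpos : 0 < c := by positivity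
  obtain ⟨s, hs, hlin⟩ := hF.approximates_deriv_on_nhds (c := c) (Or.inr hcpos)
  obtain ⟨r', hr', hsub⟩ := Metric.nhds_basis_closedBall.mem_iff.1 hs
  set r₁ := min r r' with hr₁
  have hr₁pos : 0 < r₁ := lt_min hr hr'
  refine ⟨min (c:ℝ) (c * r₁), lt_min (by exact_mod_cast hcpos) (mul_pos (by exact_mod_cast hcpos) hr₁pos),
    fun f h1 h2 => ?_⟩
  have happ : ApproximatesLinearOn f F' (closedBall x₀ r₁) (2 * c) := by
    intro x hx y hy
    have hx' : x ∈ closedBall x₀ r := closedBall_subset_closedBall (min_le_left _ _) hx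
    have hy' : y ∈ closedBall x₀ r := closedBall_subset_closedBall (min_le_left _ _) hy
    have hx'' : x ∈ s := hsub (closedBall_subset_closedBall (min_le_right _ _) hx)
    have hy'' : y ∈ s := hsub (closedBall_subset_closedBall (min_le_right _ _) hy)
    have h3 := hlin x hx'' y hy''
    have h4 := h2 x hx' y hy'
    have h5 : f x - f y - F' (x - y) = ((f x - f₀ x) - (f y - f₀ y)) + (f₀ x - f₀ y - F' (x - y)) := by
      abel
    rw [h5]
    calc ‖((f x - f₀ x) - (f y - f₀ y)) + (f₀ x - f₀ y - F' (x - y))‖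
        ≤ ‖(f x - f₀ x) - (f y - f₀ y)‖ + ‖f₀ x - f₀ y - F' (x - y)‖ := norm_add_le _ _
      _ ≤ c * ‖x - y‖ + c * ‖x - y‖ := by
          refine add_le_add (h4.trans ?_) h3
          exact mul_le_mul_of_nonneg_right (min_le_left _ _) (norm_nonneg _)
      _ = (2 * c : ℝ≥0) * ‖x - y‖ := by push_cast; ring
  have hsurjOn := happ.surjOn_closedBall_of_nonlinearRightInverse fs hr₁pos.le
    (Subset.refl _)
  have hmem : f₀ x₀ ∈ closedBall (f x₀) (((fs.nnnorm : ℝ)⁻¹ - (2 * c : ℝ≥0)) * r₁) := by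
    rw [mem_closedBall, dist_comm, dist_eq_norm]
    have h6 : ((fs.nnnorm : ℝ)⁻¹ - (2 * c : ℝ≥0)) * r₁ = 2 * (c * r₁) := by
      have : (c : ℝ) = (fs.nnnorm : ℝ)⁻¹ / 4 := by rw [hc]; push_cast; ring
      push_cast
      rw [this]; ring
    rw [h6]
    have h7 : min (c:ℝ) (c * r₁) ≤ c * r₁ := min_le_right _ _
    have h8 : 0 ≤ (c:ℝ) * r₁ := by positivity
    linarith only [h1, h7, h8]
  obtain ⟨x, hx, hfx⟩ := hsurjOn hmem
  exact ⟨x, closedBall_subset_closedBall (min_le_left _ _) hx, hfx⟩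

end Vale.Agent.P225.B2

namespace Vale.Agent.P225.B2

/-- diagonal operator -/
noncomputable def dg {I : Type*} [Fintype I] (a : I → ℝ) : (I → ℝ) →L[ℝ] (I → ℝ) :=
  ContinuousLinearMap.pi fun i => a i • ContinuousLinearMap.proj i

@[simp] theorem dg_apply {I : Type*} [Fintype I] (a x : I → ℝ) (i : I) :
    dg a x i = a i * x i := by
  simp only [dg, ContinuousLinearMap.coe_pi', smul_apply, ContinuousLinearMap.proj_apply, smul_eq_mul]

theorem norm_dg_le {I : Type*} [Fintype I] {a : I → ℝ} {C : ℝ} (hC : 0 ≤ C)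
    (ha : ∀ i, |a i| ≤ C) : ‖dg a‖ ≤ C := by
  refine ContinuousLinearMap.opNorm_le_bound _ hC fun x => ?_
  refine (pi_norm_le_iff_of_nonneg (by (clear * - hC; positivity))).2 fun i => ?_
  rw [dg_apply, norm_mul]
  exact mul_le_mul (by simpa only [Real.norm_eq_abs] using ha i) (norm_le_pi_norm x i) (norm_nonneg _) hC

section

variable {D : Type} [Fintype D] {ι : D → Type} [∀ d, Fintype (ι d)] [∀ d, DecidableEq (ι d)]
  {𝒥 : Type} {P : Dat D ι 𝒥}

/-- the word map of a control datum -/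
noncomputable def Ctl.W (Q : Ctl P) (d : D) (c : Fin Q.l → ℝ) : (ι d → ℝ) →L[ℝ] (ι d → ℝ) :=
  wordMap (P.kap d) (fun i => P.M (Q.word i) d) c

/-- the target of a control datum -/
noncomputable def Ctl.T (Q : Ctl P) (d : D) : (ι d → ℝ) →L[ℝ] (ι d → ℝ) :=
  P.ctrl Q.word (Q.c0, Q.lam0) d

/-- D7, solving step: small Lipschitz perturbations of the word map still reach the target. -/
theorem cycle_solve (Q : Ctl P) {C : ℝ} (hC : 0 ≤ C) :
    ∃ om > 0, ∀ (Phi Zh : (d : D) → (Fin Q.l → ℝ) → (ι d → ℝ) →L[ℝ] (ι d → ℝ))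
      (b : (d : D) → ι d → ℝ),
      (∀ d i, |b d i| ≤ C) →
      (∀ d, ∀ c ∈ closedBall Q.c0 1, ‖Phi d c - Q.W d c‖ ≤ om) →
      (∀ d, ∀ c ∈ closedBall Q.c0 1, ∀ c' ∈ closedBall Q.c0 1,
        ‖(Phi d c - Q.W d c) - (Phi d c' - Q.W d c')‖ ≤ om * ‖c - c'‖) →
      (∀ d, ∀ c ∈ closedBall Q.c0 1, ‖Zh d c‖ ≤ om) →
      (∀ d, ∀ c ∈ closedBall Q.c0 1, ∀ c' ∈ closedBall Q.c0 1,
        ‖Zh d c - Zh d c'‖ ≤ om * ‖c - c'‖) →
      ∃ c ∈ closedBall Q.c0 1, ∃ lam : D → ℝ, (∀ d, |lam d - Q.lam0 d| ≤ 1) ∧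
        ∀ d x i, Phi d c x i + b d i * Zh d c x i = Real.exp (lam d) * Q.T d x i := by
  obtain ⟨om, hom, hsol⟩ := ift_quant Q.hF Q.hsurj one_pos
  set E : ℝ := Real.exp (‖Q.lam0‖ + 1) with hE
  have hEpos : 0 < E := Real.exp_pos _
  refine ⟨om / (2 * E * (1 + C)), by (clear * - hom hC; positivity), fun Phi Zh b hb hP1 hP2 hZ1 hZ2 => ?_⟩
  set o1 := om / (2 * E * (1 + C)) with ho1
  have ho1pos : 0 < o1 := by (clear * - hom hC; positivity)
  have ho1E : 2 * E * (1 + C) * o1 = om := by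
    rw [ho1]; (clear * - hEpos hC hom; field_simp)
  -- the error operator
  set R : (d : D) → (Fin Q.l → ℝ) → (ι d → ℝ) →L[ℝ] (ι d → ℝ) :=
    fun d c => (Phi d c - Q.W d c) + dg (b d) ∘L Zh d c with hR
  have hR1 : ∀ d, ∀ c ∈ closedBall Q.c0 1, ‖R d c‖ ≤ (1 + C) * o1 := by
    intro d c hc
    calc ‖R d c‖ ≤ ‖Phi d c - Q.W d c‖ + ‖dg (b d) ∘L Zh d c‖ := norm_add_le _ _
      _ ≤ o1 + C * o1 := by
          refine add_le_add (hP1 d c hc) ?_
          refine (ContinuousLinearMap.opNorm_comp_le _ _).trans ?_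
          exact mul_le_mul (norm_dg_le hC (hb d)) (hZ1 d c hc) (norm_nonneg _) hC
      _ = (1 + C) * o1 := by ring
  have hR2 : ∀ d, ∀ c ∈ closedBall Q.c0 1, ∀ c' ∈ closedBall Q.c0 1,
      ‖R d c - R d c'‖ ≤ (1 + C) * o1 * ‖c - c'‖ := by
    intro d c hc c' hc'
    have h1 : R d c - R d c' = ((Phi d c - Q.W d c) - (Phi d c' - Q.W d c'))
        + dg (b d) ∘L (Zh d c - Zh d c') := by
      simp only [hR, ContinuousLinearMap.comp_sub]
      abel
    rw [h1]
    calc _ ≤ ‖(Phi d c - Q.W d c) - (Phi d c' - Q.W d c')‖ + ‖dg (b d) ∘L (Zh d c - Zh d c')‖ :=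
          norm_add_le _ _
      _ ≤ o1 * ‖c - c'‖ + C * (o1 * ‖c - c'‖) := by
          refine add_le_add (hP2 d c hc c' hc') ?_
          refine (ContinuousLinearMap.opNorm_comp_le _ _).trans ?_
          exact mul_le_mul (norm_dg_le hC (hb d)) (hZ2 d c hc c' hc') (norm_nonneg _) hC
      _ = (1 + C) * o1 * ‖c - c'‖ := by ring
  -- the map to which the implicit function theorem is applied
  set f : ((Fin Q.l → ℝ) × (D → ℝ)) → ((d : D) → (ι d → ℝ) →L[ℝ] (ι d → ℝ)) :=
    fun x d => Real.exp (-(x.2 d)) • (Q.W d x.1 + R d x.1) with hf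
  have hdiff : ∀ x d, (f x - P.ctrl Q.word x) d = Real.exp (-(x.2 d)) • R d x.1 := by
    intro x d
    simp only [hf, Ctl.W, smul_add, Pi.sub_apply, Dat.ctrl]
    abel
  -- bounds for the scalar factor
  have hball1 : ∀ x ∈ closedBall (Q.c0, Q.lam0) 1, x.1 ∈ closedBall Q.c0 1 := by
    intro x hx
    rw [mem_closedBall, Prod.dist_eq] at hx
    exact mem_closedBall.2 ((le_max_left _ _).trans hx)
  have hball2 : ∀ x ∈ closedBall (Q.c0, Q.lam0) 1, ∀ d, |x.2 d - Q.lam0 d| ≤ 1 := by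
    intro x hx d
    rw [mem_closedBall, Prod.dist_eq] at hx
    have h1 : dist x.2 Q.lam0 ≤ 1 := (le_max_right _ _).trans hx
    rw [dist_eq_norm] at h1
    have h2 := norm_le_pi_norm (x.2 - Q.lam0) d
    simp only [Pi.sub_apply, Real.norm_eq_abs] at h2
    exact h2.trans h1
  have hexp : ∀ x ∈ closedBall (Q.c0, Q.lam0) 1, ∀ d, Real.exp (-(x.2 d)) ≤ E := by
    intro x hx d
    apply Real.exp_le_exp.2
    have h1 := hball2 x hx d
    have h2 := norm_le_pi_norm Q.lam0 d
    rw [Real.norm_eq_abs] at h2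
    have h3 := abs_le.1 h1
    have h4 := abs_le.1 h2
    linarith only [h3, h4]
  have hexpL : ∀ x ∈ closedBall (Q.c0, Q.lam0) 1, ∀ y ∈ closedBall (Q.c0, Q.lam0) 1, ∀ d,
      |Real.exp (-(x.2 d)) - Real.exp (-(y.2 d))| ≤ E * |x.2 d - y.2 d| := by
    intro x hx y hy d
    have key : ∀ u v : ℝ, Real.exp u ≤ E → Real.exp v ≤ E →
        |Real.exp u - Real.exp v| ≤ E * |u - v| := by
      intro u v hu hv
      wlog huv : v ≤ u generalizing u v
      · rw [abs_sub_comm, abs_sub_comm u v]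
        exact this v u hv hu (le_of_not_ge huv)
      have h1 : Real.exp v ≤ Real.exp u := Real.exp_le_exp.2 huv
      rw [abs_of_nonneg (by linarith only [h1]), abs_of_nonneg (by linarith only [huv])]
      have h2 : 1 - (u - v) ≤ Real.exp (v - u) := by
        have := Real.add_one_le_exp (v - u); linarith only [this]
      have h3 : Real.exp v = Real.exp u * Real.exp (v - u) := by
        rw [← Real.exp_add]; ring_nf
      have h4 : 0 ≤ u - v := by linarith only [huv]
      calc Real.exp u - Real.exp v = Real.exp u * (1 - Real.exp (v - u)) := by rw [h3]; ring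
        _ ≤ Real.exp u * (u - v) := by
            apply mul_le_mul_of_nonneg_left _ (Real.exp_pos _).le
            linarith only [h2]
        _ ≤ E * (u - v) := mul_le_mul_of_nonneg_right hu h4
    have := key _ _ (hexp x hx d) (hexp y hy d)
    have h5 : |-(x.2 d) - -(y.2 d)| = |x.2 d - y.2 d| := by
      rw [← abs_neg]; congr 1; ring
    rwa [h5] at this
  have hx0 : (Q.c0, Q.lam0) ∈ closedBall (Q.c0, Q.lam0) (1:ℝ) := mem_closedBall_self zero_le_one
  obtain ⟨x, hx, hfx⟩ := hsol f (by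
      refine (pi_norm_le_iff_of_nonneg hom.le).2 fun d => ?_
      rw [hdiff]
      rw [norm_smul, Real.norm_eq_abs, abs_of_pos (Real.exp_pos _)]
      calc Real.exp (-(Q.lam0 d)) * ‖R d Q.c0‖ ≤ E * ((1 + C) * o1) :=
            mul_le_mul (hexp _ hx0 d) (hR1 d _ (hball1 _ hx0)) (norm_nonneg _) hEpos.le
        _ ≤ 2 * E * (1 + C) * o1 := by
            have : 0 ≤ E * ((1 + C) * o1) := by (clear * - hC hom; positivity)
            linarith only [hom, ho1E]
        _ = om := ho1E) (by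
      intro x hx y hy
      have h1 : (f x - P.ctrl Q.word x) - (f y - P.ctrl Q.word y)
          = fun d => Real.exp (-(x.2 d)) • (R d x.1 - R d y.1)
            + (Real.exp (-(x.2 d)) - Real.exp (-(y.2 d))) • R d y.1 := by
        funext d
        have e1 := hdiff x d
        have e2 := hdiff y d
        rw [Pi.sub_apply, e1, e2]
        module
      rw [h1]
      refine (pi_norm_le_iff_of_nonneg (by (clear * - hom; positivity))).2 fun d => ?_
      have hxy1 : ‖x.1 - y.1‖ ≤ ‖x - y‖ := norm_fst_le (x - y)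
      have hxy2 : |x.2 d - y.2 d| ≤ ‖x - y‖ := by
        have h2 := norm_le_pi_norm (x.2 - y.2) d
        simp only [Pi.sub_apply, Real.norm_eq_abs] at h2
        exact h2.trans (norm_snd_le (x - y))
      have h3 : ‖Real.exp (-(x.2 d)) • (R d x.1 - R d y.1)‖ ≤ E * ((1 + C) * o1 * ‖x - y‖) := by
        rw [norm_smul, Real.norm_eq_abs, abs_of_pos (Real.exp_pos _)]
        refine mul_le_mul (hexp x hx d) ?_ (norm_nonneg _) hEpos.le
        exact (hR2 d _ (hball1 x hx) _ (hball1 y hy)).trans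
          (mul_le_mul_of_nonneg_left hxy1 (by (clear * - hC hom; positivity)))
      have h4 : ‖(Real.exp (-(x.2 d)) - Real.exp (-(y.2 d))) • R d y.1‖
          ≤ E * ‖x - y‖ * ((1 + C) * o1) := by
        rw [norm_smul, Real.norm_eq_abs]
        refine mul_le_mul ((hexpL x hx y hy d).trans ?_) (hR1 d _ (hball1 y hy))
          (norm_nonneg _) (by (clear * -; positivity))
        exact mul_le_mul_of_nonneg_left hxy2 hEpos.le
      calc _ ≤ ‖Real.exp (-(x.2 d)) • (R d x.1 - R d y.1)‖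
            + ‖(Real.exp (-(x.2 d)) - Real.exp (-(y.2 d))) • R d y.1‖ := norm_add_le _ _
        _ ≤ E * ((1 + C) * o1 * ‖x - y‖) + E * ‖x - y‖ * ((1 + C) * o1) := add_le_add h3 h4
        _ = 2 * E * (1 + C) * o1 * ‖x - y‖ := by ring
        _ = om * ‖x - y‖ := by rw [ho1E])
  refine ⟨x.1, hball1 x hx, x.2, hball2 x hx, fun d y i => ?_⟩
  have h1 : f x d = Q.T d := congrFun hfx d
  have h2 : Real.exp (-(x.2 d)) • (Phi d x.1 + dg (b d) ∘L Zh d x.1) = Q.T d := by
    rw [← h1]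
    simp only [hf, hR]
    congr 1
    abel
  have h3 : Phi d x.1 + dg (b d) ∘L Zh d x.1 = Real.exp (x.2 d) • Q.T d := by
    rw [← h2, smul_smul, ← Real.exp_add]
    simp
  have h4 := congrFun (DFunLike.congr_fun h3 y) i
  simpa only [add_apply, ContinuousLinearMap.comp_apply, Pi.add_apply, dg_apply, smul_apply, Pi.smul_apply,     smul_eq_mul] using h4

theorem isUnit_wordMap {V : Type*} [NormedAddCommGroup V] [NormedSpace ℝ V] [CompleteSpace V]
    (kap : ℝ) : ∀ {l : ℕ} (M : Fin l → V →L[ℝ] V) (c : Fin l → ℝ), IsUnit (wordMap kap M c)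
  | 0, _, _ => isUnit_one
  | l + 1, M, c => by
      rw [wordMap]
      refine IsUnit.mul ?_ (isUnit_wordMap kap _ _)
      let _ : NormedAlgebra ℚ (V →L[ℝ] V) := NormedAlgebra.restrictScalars ℚ ℝ _
      exact NormedSpace.isUnit_exp _

end

end Vale.Agent.P225.B2
end
end

section

section

/-!
P225, design B, module D3 (PULSE), part 1: Gronwall type estimates for a slow-fast linear system.
-/

open Set Filter Topology

namespace Vale.Agent.P225.B2

variable {E : Type*} [NormedAddCommGroup E] [NormedSpace ℝ E]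

end Vale.Agent.P225.B2
end
end

section

section

/-! Common definitions for the polynomial algebra of route B (harmonic homogeneous polynomials,
rotation fields, complex structure fields). -/

open MvPolynomial

namespace Vale.Agent.P225.B

variable {R : Type*} [CommRing R] {n : ℕ}

/-- The Laplacian on polynomials. -/
noncomputable def plap (R : Type*) [CommRing R] (n : ℕ) :
    MvPolynomial (Fin n) R →ₗ[R] MvPolynomial (Fin n) R :=
  ∑ i : Fin n, (pderiv i).toLinearMap ∘ₗ (pderiv i).toLinearMap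

/-- Harmonic homogeneous polynomials of degree `d` in `n` variables. -/
noncomputable def HH (R : Type*) [CommRing R] (n d : ℕ) : Submodule R (MvPolynomial (Fin n) R) :=
  homogeneousSubmodule (Fin n) R d ⊓ LinearMap.ker (plap R n)

/-- The derivation `f ↦ (x ↦ Df(x)(Jx))`. -/
noncomputable def xi (J : Matrix (Fin n) (Fin n) R) :
    Derivation R (MvPolynomial (Fin n) R) (MvPolynomial (Fin n) R) :=
  mkDerivation R (fun i => ∑ j, C (J i j) * X j)

/-- The rotation field `x_a ∂_b - x_b ∂_a`. -/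
noncomputable def Lab (a b : Fin n) :
    Derivation R (MvPolynomial (Fin n) R) (MvPolynomial (Fin n) R) :=
  (X a : MvPolynomial (Fin n) R) • pderiv b - (X b : MvPolynomial (Fin n) R) • pderiv a

theorem mem_HH {d : ℕ} {f : MvPolynomial (Fin n) R} :
    f ∈ HH R n d ↔ f.IsHomogeneous d ∧ plap R n f = 0 := by
  simp only [HH, Submodule.mem_inf, mem_homogeneousSubmodule, LinearMap.mem_ker]

theorem plap_apply (f : MvPolynomial (Fin n) R) :
    plap R n f = ∑ i : Fin n, pderiv i (pderiv i f) := by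
  simp only [plap, LinearMap.coe_sum, LinearMap.coe_comp, Derivation.coeFn_coe, Finset.sum_apply, Function.comp_apply]

@[simp] theorem xi_X (J : Matrix (Fin n) (Fin n) R) (i : Fin n) :
    xi J (X i) = ∑ j, C (J i j) * X j := by
  simp only [xi, mkDerivation_X]

theorem Lab_apply (a b : Fin n) (f : MvPolynomial (Fin n) R) :
    (Lab a b : Derivation R _ _) f = X a * pderiv b f - X b * pderiv a f := by
  simp only [Lab, Derivation.coe_sub, Derivation.coe_smul, Pi.sub_apply, Pi.smul_apply, smul_eq_mul]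

end Vale.Agent.P225.B
end
end

section

section

/-!
P225, route B, common definitions and basic facts for the algebra part B3: restriction of
operators to harmonic polynomials, rotations, complex structures, raising operators, blocks.
-/

open MvPolynomial

namespace Vale.Agent.P225.B

section General

variable {R : Type*} [CommRing R] {n : ℕ}

/-- `T` preserves all spaces of harmonic homogeneous polynomials. -/
def Pres (T : Module.End R (MvPolynomial (Fin n) R)) : Prop :=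
  ∀ d, ∀ f ∈ HH R n d, T f ∈ HH R n d

open Classical in
/-- Restriction of an operator to the harmonic polynomials of degree `d` (zero if the operator
does not preserve them). -/
noncomputable def rst (T : Module.End R (MvPolynomial (Fin n) R)) (d : ℕ) :
    Module.End R (HH R n d) :=
  if h : ∀ f ∈ HH R n d, T f ∈ HH R n d then T.restrict h else 0

theorem Pres.rst_coe {T : Module.End R (MvPolynomial (Fin n) R)} (h : Pres T) {d : ℕ}
    (f : HH R n d) : ((rst T d f : HH R n d) : MvPolynomial (Fin n) R) = T f := by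
  have h' : ∀ f ∈ HH R n d, T f ∈ HH R n d := h d
  rw [rst, dif_pos h']
  rfl

theorem Pres.one : Pres (1 : Module.End R (MvPolynomial (Fin n) R)) := fun _ _ hf => hf

theorem Pres.mul {T U : Module.End R (MvPolynomial (Fin n) R)} (hT : Pres T) (hU : Pres U) :
    Pres (T * U) := fun d f hf => hT d _ (hU d f hf)

theorem Pres.add {T U : Module.End R (MvPolynomial (Fin n) R)} (hT : Pres T) (hU : Pres U) :
    Pres (T + U) := fun d f hf => Submodule.add_mem _ (hT d f hf) (hU d f hf)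

theorem Pres.neg {T : Module.End R (MvPolynomial (Fin n) R)} (hT : Pres T) :
    Pres (-T) := fun d f hf => Submodule.neg_mem _ (hT d f hf)

theorem Pres.sub {T U : Module.End R (MvPolynomial (Fin n) R)} (hT : Pres T) (hU : Pres U) :
    Pres (T - U) := fun d f hf => Submodule.sub_mem _ (hT d f hf) (hU d f hf)

theorem Pres.smul {T : Module.End R (MvPolynomial (Fin n) R)} (c : R) (hT : Pres T) :
    Pres (c • T) := fun d f hf => Submodule.smul_mem _ c (hT d f hf)

theorem Pres.pow {T : Module.End R (MvPolynomial (Fin n) R)} (hT : Pres T) (k : ℕ) :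
    Pres (T ^ k) := by
  induction k with
  | zero => rw [pow_zero]; exact Pres.one
  | succ k ih => rw [pow_succ]; exact ih.mul hT

theorem Pres.sum {ι : Type*} (s : Finset ι) {T : ι → Module.End R (MvPolynomial (Fin n) R)}
    (hT : ∀ i ∈ s, Pres (T i)) : Pres (∑ i ∈ s, T i) := by
  intro d f hf
  rw [LinearMap.sum_apply]
  exact Submodule.sum_mem _ fun i hi => hT i hi d f hf

theorem rst_one (d : ℕ) : rst (1 : Module.End R (MvPolynomial (Fin n) R)) d = 1 := by
  ext f : 1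
  exact Subtype.ext (Pres.one.rst_coe f)

theorem rst_mul {T U : Module.End R (MvPolynomial (Fin n) R)} (hT : Pres T) (hU : Pres U)
    (d : ℕ) : rst (T * U) d = rst T d * rst U d := by
  ext f : 1
  apply Subtype.ext
  rw [(hT.mul hU).rst_coe, Module.End.mul_apply, Module.End.mul_apply, hT.rst_coe, hU.rst_coe]

theorem rst_add {T U : Module.End R (MvPolynomial (Fin n) R)} (hT : Pres T) (hU : Pres U)
    (d : ℕ) : rst (T + U) d = rst T d + rst U d := by
  ext f : 1
  apply Subtype.ext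
  rw [(hT.add hU).rst_coe, LinearMap.add_apply, LinearMap.add_apply, Submodule.coe_add,
    hT.rst_coe, hU.rst_coe]

theorem rst_neg {T : Module.End R (MvPolynomial (Fin n) R)} (hT : Pres T)
    (d : ℕ) : rst (-T) d = -rst T d := by
  ext f : 1
  apply Subtype.ext
  rw [hT.neg.rst_coe, LinearMap.neg_apply, LinearMap.neg_apply, Submodule.coe_neg, hT.rst_coe]

theorem rst_sub {T U : Module.End R (MvPolynomial (Fin n) R)} (hT : Pres T) (hU : Pres U)
    (d : ℕ) : rst (T - U) d = rst T d - rst U d := by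
  rw [sub_eq_add_neg, sub_eq_add_neg (rst T d), rst_add hT hU.neg, rst_neg hU]

theorem rst_smul {T : Module.End R (MvPolynomial (Fin n) R)} (c : R) (hT : Pres T)
    (d : ℕ) : rst (c • T) d = c • rst T d := by
  ext f : 1
  apply Subtype.ext
  rw [(hT.smul c).rst_coe, LinearMap.smul_apply, LinearMap.smul_apply, Submodule.coe_smul,
    hT.rst_coe]

theorem rst_pow {T : Module.End R (MvPolynomial (Fin n) R)} (hT : Pres T) (k d : ℕ) :
    rst (T ^ k) d = rst T d ^ k := by
  induction k with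
  | zero => rw [pow_zero, pow_zero, rst_one]
  | succ k ih => rw [pow_succ, pow_succ, rst_mul (hT.pow k) hT, ih]

theorem rst_sum {ι : Type*} (s : Finset ι) {T : ι → Module.End R (MvPolynomial (Fin n) R)}
    (hT : ∀ i ∈ s, Pres (T i)) (d : ℕ) : rst (∑ i ∈ s, T i) d = ∑ i ∈ s, rst (T i) d := by
  ext f : 1
  apply Subtype.ext
  rw [(Pres.sum s hT).rst_coe, LinearMap.sum_apply, LinearMap.sum_apply, Submodule.coe_sum]
  exact Finset.sum_congr rfl fun i hi => ((hT i hi).rst_coe f).symm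

/-- A derivation of the polynomial ring as an operator. -/
noncomputable def dop (D : Derivation R (MvPolynomial (Fin n) R) (MvPolynomial (Fin n) R)) :
    Module.End R (MvPolynomial (Fin n) R) := D.toLinearMap

@[simp] theorem dop_apply (D : Derivation R (MvPolynomial (Fin n) R) (MvPolynomial (Fin n) R))
    (f : MvPolynomial (Fin n) R) : dop D f = D f := rfl

theorem der_sum_apply {ι : Type*} (s : Finset ι)
    (D : ι → Derivation R (MvPolynomial (Fin n) R) (MvPolynomial (Fin n) R))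
    (f : MvPolynomial (Fin n) R) : (∑ i ∈ s, D i) f = ∑ i ∈ s, D i f := by
  induction s using Finset.cons_induction with
  | empty => simp only [Finset.sum_empty, Derivation.coe_zero, Pi.zero_apply]
  | cons a s ha ih => rw [Finset.sum_cons, Finset.sum_cons, Derivation.add_apply, ih]

/-- A derivation is a combination of partial derivatives. -/
theorem der_eq (D : Derivation R (MvPolynomial (Fin n) R) (MvPolynomial (Fin n) R)) :
    D = ∑ i, D (X i) • (pderiv i : Derivation R (MvPolynomial (Fin n) R) _) := by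
  apply derivation_ext
  intro i
  rw [der_sum_apply, Finset.sum_eq_single i]
  · simp only [Derivation.coe_smul, Pi.smul_apply, pderiv_X, Pi.single_eq_same, smul_eq_mul, mul_one]
  · intro j _ hj
    rw [Derivation.coe_smul, Pi.smul_apply, pderiv_X_of_ne hj.symm, smul_zero]
  · intro h
    exact absurd (Finset.mem_univ i) h

theorem xi_eq_sum (J : Matrix (Fin n) (Fin n) R) (f : MvPolynomial (Fin n) R) :
    xi J f = ∑ i, (∑ j, C (J i j) * X j) * pderiv i f := by
  conv_lhs => rw [der_eq (xi J)]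
  rw [der_sum_apply]
  simp only [xi_X, Derivation.coe_smul, Pi.smul_apply, smul_eq_mul]

theorem isHomogeneous_row (v : Fin n → R) :
    (∑ j, C (v j) * X j : MvPolynomial (Fin n) R).IsHomogeneous 1 :=
  IsHomogeneous.sum _ _ _ fun j _ => (isHomogeneous_X R j).C_mul _

theorem pderiv_row (v : Fin n → R) (k : Fin n) :
    pderiv k (∑ j, C (v j) * X j : MvPolynomial (Fin n) R) = C (v k) := by
  rw [map_sum, Finset.sum_eq_single k]
  · rw [pderiv_C_mul, pderiv_X_self, mul_one]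
  · intro j _ hj
    rw [pderiv_C_mul, pderiv_X_of_ne hj, mul_zero]
  · intro h
    exact absurd (Finset.mem_univ k) h

theorem isHomogeneous_xi (J : Matrix (Fin n) (Fin n) R) {f : MvPolynomial (Fin n) R} {d : ℕ}
    (hf : f.IsHomogeneous d) : (xi J f).IsHomogeneous d := by
  rcases Nat.eq_zero_or_pos d with rfl | hd
  · rw [← totalDegree_zero_iff_isHomogeneous, totalDegree_eq_zero_iff_eq_C] at hf
    rw [hf, derivation_C]
    exact isHomogeneous_zero _ _ _
  · rw [xi_eq_sum]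
    refine IsHomogeneous.sum _ _ _ fun i _ => ?_
    have h := (isHomogeneous_row (J i)).mul (hf.pderiv (i := i))
    have e : 1 + (d - 1) = d := by omega
    rwa [e] at h

theorem pderiv_xi (J : Matrix (Fin n) (Fin n) R) (k : Fin n) (f : MvPolynomial (Fin n) R) :
    pderiv k (xi J f) = xi J (pderiv k f) + ∑ i, C (J i k) * pderiv i f := by
  have h : ⁅(pderiv k : Derivation R (MvPolynomial (Fin n) R) _), xi J⁆ =
      ∑ i, (C (J i k) : MvPolynomial (Fin n) R) •
        (pderiv i : Derivation R (MvPolynomial (Fin n) R) _) := by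
    apply derivation_ext
    intro i
    rw [Derivation.commutator_apply, xi_X, pderiv_row (J i), der_sum_apply]
    have h1 : xi J (pderiv k (X i : MvPolynomial (Fin n) R)) = 0 := by
      by_cases hik : i = k
      · subst hik
        rw [pderiv_X_self]
        exact (xi J).map_one_eq_zero
      · rw [pderiv_X_of_ne hik, map_zero]
    rw [h1, sub_zero, Finset.sum_eq_single i]
    · simp only [Derivation.coe_smul, Pi.smul_apply, pderiv_X, Pi.single_eq_same, smul_eq_mul, mul_one]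
    · intro j _ hj
      rw [Derivation.coe_smul, Pi.smul_apply, pderiv_X_of_ne hj.symm, smul_zero]
    · intro h
      exact absurd (Finset.mem_univ i) h
  have h2 := congrArg (fun D : Derivation R (MvPolynomial (Fin n) R) (MvPolynomial (Fin n) R) =>
    D f) h
  simp only [Derivation.commutator_apply, der_sum_apply,
    Derivation.coe_smul, Pi.smul_apply, smul_eq_mul] at h2
  rw [← h2]
  abel

theorem plap_xi {J : Matrix (Fin n) (Fin n) R} (hJ : J.transpose = -J)
    (f : MvPolynomial (Fin n) R) : plap R n (xi J f) = xi J (plap R n f) := by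
  rw [plap_apply, plap_apply, map_sum]
  have h1 : ∀ k, pderiv k (pderiv k (xi J f)) = xi J (pderiv k (pderiv k f)) +
      (∑ i, C (J i k) * pderiv i (pderiv k f) + ∑ i, C (J i k) * pderiv k (pderiv i f)) := by
    intro k
    rw [pderiv_xi, map_add, pderiv_xi, map_sum, add_assoc]
    congr 2
    exact Finset.sum_congr rfl fun i _ => pderiv_C_mul
  rw [Finset.sum_congr rfl fun k _ => h1 k, Finset.sum_add_distrib]
  have h2 : ∑ k, (∑ i, C (J i k) * pderiv i (pderiv k f) +
      ∑ i, C (J i k) * pderiv k (pderiv i f)) = 0 := by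
    rw [Finset.sum_add_distrib]
    have h3 : ∑ k, ∑ i, C (J i k) * pderiv k (pderiv i f) =
        -∑ k, ∑ i, C (J i k) * pderiv i (pderiv k f) := by
      rw [Finset.sum_comm, ← Finset.sum_neg_distrib]
      refine Finset.sum_congr rfl fun k _ => ?_
      rw [← Finset.sum_neg_distrib]
      refine Finset.sum_congr rfl fun i _ => ?_
      have h4 : J k i = -J i k := by
        have := congrFun (congrFun hJ i) k
        simpa using this
      rw [h4, map_neg, neg_mul]
    rw [h3, add_neg_cancel]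
  rw [h2, add_zero]

theorem pres_xi {J : Matrix (Fin n) (Fin n) R} (hJ : J.transpose = -J) : Pres (dop (xi J)) := by
  intro d f hf
  rw [mem_HH] at hf ⊢
  refine ⟨isHomogeneous_xi J hf.1, ?_⟩
  rw [dop_apply, plap_xi hJ, hf.2, map_zero]

theorem Lab_eq_xi (a b : Fin n) :
    (Lab a b : Derivation R _ _) = xi (Matrix.single b a (1 : R) - Matrix.single a b (1 : R)) := by
  apply derivation_ext
  intro i
  rw [Lab_apply, xi_X]
  have h : ∀ c e : Fin n, ∑ j, (C (Matrix.single c e (1 : R) i j) * X j : MvPolynomial (Fin n) R) =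
      if c = i then X e else 0 := by
    intro c e
    split_ifs with h
    · subst h
      rw [Finset.sum_eq_single e]
      · simp only [Matrix.single_apply_same, C_1, one_mul]
      · intro j _ hj
        rw [Matrix.single_apply_of_ne, map_zero, zero_mul]
        exact fun h => hj h.2.symm
      · intro h
        exact absurd (Finset.mem_univ e) h
    · refine Finset.sum_eq_zero fun j _ => ?_
      rw [Matrix.single_apply_of_ne, map_zero, zero_mul]
      exact fun h' => h h'.1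
  have h2 : ∑ j, (C ((Matrix.single b a (1 : R) - Matrix.single a b (1 : R)) i j) * X j :
      MvPolynomial (Fin n) R) = (if b = i then X a else 0) - (if a = i then X b else 0) := by
    rw [← h b a, ← h a b, ← Finset.sum_sub_distrib]
    refine Finset.sum_congr rfl fun j _ => ?_
    rw [Matrix.sub_apply, map_sub, sub_mul]
  rw [h2]
  congr 1
  · by_cases hb : b = i
    · subst hb
      rw [pderiv_X_self, mul_one, if_pos rfl]
    · rw [pderiv_X_of_ne (Ne.symm hb), mul_zero, if_neg hb]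
  · by_cases hb : a = i
    · subst hb
      rw [pderiv_X_self, mul_one, if_pos rfl]
    · rw [pderiv_X_of_ne (Ne.symm hb), mul_zero, if_neg hb]

theorem pres_Lab (a b : Fin n) : Pres (dop (Lab a b : Derivation R _ _)) := by
  rw [Lab_eq_xi]
  apply pres_xi
  rw [Matrix.transpose_sub, Matrix.transpose_single, Matrix.transpose_single, neg_sub]

/-- The substitution `f ↦ f(gᵀ x)`; for orthogonal `g` this is `f(g⁻¹ x)`. -/
noncomputable def rot (g : Matrix (Fin n) (Fin n) R) :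
    MvPolynomial (Fin n) R →ₐ[R] MvPolynomial (Fin n) R :=
  aeval (fun i => ∑ j, C (g j i) * X j)

/-- The substitution as an operator. -/
noncomputable def rop (g : Matrix (Fin n) (Fin n) R) : Module.End R (MvPolynomial (Fin n) R) :=
  (rot g).toLinearMap

@[simp] theorem rop_apply (g : Matrix (Fin n) (Fin n) R) (f : MvPolynomial (Fin n) R) :
    rop g f = rot g f := rfl

@[simp] theorem rot_X (g : Matrix (Fin n) (Fin n) R) (i : Fin n) :
    rot g (X i) = ∑ j, C (g j i) * X j := by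
  simp only [rot, aeval_eq_bind₁, bind₁_X_right]

@[simp] theorem rot_C (g : Matrix (Fin n) (Fin n) R) (a : R) :
    rot g (C a) = C a := by
  simp only [rot, aeval_eq_bind₁, algHom_C, algebraMap_eq]

theorem rot_mul (g h : Matrix (Fin n) (Fin n) R) (f : MvPolynomial (Fin n) R) :
    rot (g * h) f = rot g (rot h f) := by
  have e : rot (g * h) = (rot g).comp (rot h) := by
    apply MvPolynomial.algHom_ext
    intro i
    rw [AlgHom.comp_apply, rot_X, rot_X, map_sum]
    have h1 : ∀ j, (rot g) (C (h j i) * X j) = ∑ k, C (g k j * h j i) * X k := by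
      intro j
      rw [map_mul, rot_C, rot_X, Finset.mul_sum]
      refine Finset.sum_congr rfl fun k _ => ?_
      rw [map_mul]
      ring
    rw [Finset.sum_congr rfl fun j _ => h1 j, Finset.sum_comm]
    refine Finset.sum_congr rfl fun k _ => ?_
    rw [Matrix.mul_apply, map_sum, Finset.sum_mul]
  rw [e]
  rfl

theorem rot_one (f : MvPolynomial (Fin n) R) : rot (1 : Matrix (Fin n) (Fin n) R) f = f := by
  have e : rot (1 : Matrix (Fin n) (Fin n) R) = AlgHom.id R _ := by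
    apply MvPolynomial.algHom_ext
    intro i
    rw [rot_X, AlgHom.id_apply, Finset.sum_eq_single i]
    · simp only [Matrix.one_apply_eq, C_1, one_mul]
    · intro j _ hj
      rw [Matrix.one_apply_ne hj, map_zero, zero_mul]
    · intro h
      exact absurd (Finset.mem_univ i) h
  rw [e]
  rfl

theorem rop_mul (g h : Matrix (Fin n) (Fin n) R) : rop (g * h) = rop g * rop h :=
  LinearMap.ext fun f => rot_mul g h f

theorem rop_one : rop (1 : Matrix (Fin n) (Fin n) R) = 1 :=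
  LinearMap.ext fun f => rot_one f

theorem pderiv_rot (g : Matrix (Fin n) (Fin n) R) (k : Fin n) (f : MvPolynomial (Fin n) R) :
    pderiv k (rot g f) = ∑ i, C (g k i) * rot g (pderiv i f) := by
  induction f using MvPolynomial.induction_on with
  | C a => simp only [algHom_C, algebraMap_eq, derivation_C, map_zero, mul_zero, Finset.sum_const_zero]
  | add p q hp hq =>
    rw [map_add, map_add, hp, hq, ← Finset.sum_add_distrib]
    refine Finset.sum_congr rfl fun i _ => ?_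
    rw [map_add, map_add]
    ring
  | mul_X p j hp =>
    rw [map_mul, pderiv_mul, hp, rot_X, pderiv_row, Finset.sum_mul]
    have h1 : ∀ i, C (g k i) * rot g (pderiv i (p * X j)) =
        C (g k i) * rot g (pderiv i p) * rot g (X j) +
          C (g k i) * rot g (p * pderiv i (X j)) := by
      intro i
      rw [pderiv_mul, map_add, map_mul]
      ring
    rw [Finset.sum_congr rfl fun i _ => h1 i, Finset.sum_add_distrib, rot_X]
    congr 1
    rw [Finset.sum_eq_single j]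
    · rw [pderiv_X_self, mul_one, mul_comm]
    · intro i _ hi
      rw [pderiv_X_of_ne (Ne.symm hi), mul_zero, map_zero, mul_zero]
    · intro h
      exact absurd (Finset.mem_univ j) h

theorem plap_rot {g : Matrix (Fin n) (Fin n) R} (hg : g.transpose * g = 1)
    (f : MvPolynomial (Fin n) R) : plap R n (rot g f) = rot g (plap R n f) := by
  rw [plap_apply, plap_apply, map_sum]
  have h1 : ∀ k, pderiv k (pderiv k (rot g f)) =
      ∑ i, ∑ l, C (g k i * g k l) * rot g (pderiv l (pderiv i f)) := by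
    intro k
    rw [pderiv_rot, map_sum]
    refine Finset.sum_congr rfl fun i _ => ?_
    rw [pderiv_C_mul, pderiv_rot, Finset.mul_sum]
    refine Finset.sum_congr rfl fun l _ => ?_
    rw [map_mul]
    ring
  rw [Finset.sum_congr rfl fun k _ => h1 k, Finset.sum_comm]
  refine Finset.sum_congr rfl fun i _ => ?_
  rw [Finset.sum_comm, Finset.sum_eq_single i]
  · rw [← Finset.sum_mul, ← map_sum]
    have h2 : ∑ k, g k i * g k i = 1 := by
      have := congrFun (congrFun hg i) i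
      simpa only [Matrix.mul_apply, Matrix.transpose_apply, Matrix.one_apply_eq] using this
    rw [h2, map_one, one_mul]
  · intro l _ hl
    rw [← Finset.sum_mul, ← map_sum]
    have h2 : ∑ k, g k i * g k l = 0 := by
      have := congrFun (congrFun hg i) l
      simpa only [Matrix.mul_apply, Matrix.transpose_apply, Matrix.one_apply_ne (Ne.symm hl)] using this
    rw [h2, map_zero, zero_mul]
  · intro h
    exact absurd (Finset.mem_univ i) h

theorem pres_rop {g : Matrix (Fin n) (Fin n) R} (hg : g.transpose * g = 1) : Pres (rop g) := by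
  intro d f hf
  rw [mem_HH] at hf ⊢
  refine ⟨?_, ?_⟩
  · have h := hf.1.aeval (fun i => ∑ j, C (g j i) * X j) (n := 1)
      (fun i => isHomogeneous_row (fun j => g j i))
    rwa [one_mul] at h
  · rw [rop_apply, plap_rot hg, hf.2, map_zero]

/-- Conjugation by an orthogonal matrix turns `ξ_J` into `ξ_{g J gᵀ}`. -/
theorem rot_xi {g : Matrix (Fin n) (Fin n) R} (hg : g.transpose * g = 1)
    (J : Matrix (Fin n) (Fin n) R) (f : MvPolynomial (Fin n) R) :
    rot g (xi J f) = xi (g * J * g.transpose) (rot g f) := by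
  induction f using MvPolynomial.induction_on with
  | C a => simp
  | add p q hp hq => simp only [map_add, hp, hq]
  | mul_X p j hp =>
    rw [Derivation.leibniz, map_add, smul_eq_mul, smul_eq_mul, map_mul, map_mul, hp, map_mul,
      Derivation.leibniz, smul_eq_mul, smul_eq_mul]
    congr 2
    rw [xi_X, rot_X, map_sum, map_sum]
    have h1 : ∀ k, rot g (C (J j k) * X k : MvPolynomial (Fin n) R) =
        ∑ l, C (J j k * g l k) * X l := by
      intro k
      rw [map_mul, rot_C, rot_X, Finset.mul_sum]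
      refine Finset.sum_congr rfl fun l _ => ?_
      rw [map_mul]
      ring
    have h2 : ∀ k, xi (g * J * g.transpose) (C (g k j) * X k : MvPolynomial (Fin n) R) =
        ∑ l, C (g k j * (g * J * g.transpose) k l) * X l := by
      intro k
      rw [C_mul', Derivation.map_smul, xi_X, smul_eq_C_mul, Finset.mul_sum]
      refine Finset.sum_congr rfl fun l _ => ?_
      rw [map_mul]
      ring
    rw [Finset.sum_congr rfl fun k _ => h1 k, Finset.sum_congr rfl fun k _ => h2 k,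
      Finset.sum_comm, Finset.sum_comm (f := fun k l =>
        (C (g k j * (g * J * g.transpose) k l) * X l : MvPolynomial (Fin n) R))]
    refine Finset.sum_congr rfl fun l _ => ?_
    rw [← Finset.sum_mul, ← Finset.sum_mul, ← map_sum, ← map_sum]
    congr 2
    have h3 : ∑ k, g k j * (g * J * g.transpose) k l =
        (g.transpose * (g * J * g.transpose)) j l := by
      rw [Matrix.mul_apply]
      rfl
    have h4 : ∑ k, J j k * g l k = (J * g.transpose) j l := by
      rw [Matrix.mul_apply]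
      rfl
    rw [h3, h4, ← Matrix.mul_assoc, ← Matrix.mul_assoc, hg, Matrix.one_mul]

end General

section Blocks

/-- Families of operators on the harmonic polynomials of degrees `2, …, D`. It is a ring; the
bracket of `X` and `Y` is `X * Y - Y * X`. -/
abbrev BA (R : Type*) [CommRing R] (n D : ℕ) : Type _ :=
  ∀ d : Finset.Icc 2 D, Module.End R (HH R n (d : ℕ))

/-- An operator as a family of blocks. -/
noncomputable def blk {R : Type*} [CommRing R] {n : ℕ} (D : ℕ)
    (T : Module.End R (MvPolynomial (Fin n) R)) : BA R n D := fun d => rst T d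

/-- The orthogonal complex structures. -/
def JJ (n : ℕ) : Set (Matrix (Fin n) (Fin n) ℝ) := {J | J.transpose = -J ∧ J * J = -1}

/-- `M_J = -ξ_J²` on polynomials. -/
noncomputable def MM {R : Type*} [CommRing R] {n : ℕ} (J : Matrix (Fin n) (Fin n) R) :
    Module.End R (MvPolynomial (Fin n) R) := -(dop (xi J) * dop (xi J))

/-- Multiplication of the blocks by scalars. -/
noncomputable def bsc {R : Type*} [CommRing R] {n D : ℕ} (κ : ℕ → R) (T : BA R n D) : BA R n D :=
  fun d => κ d • T d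

theorem pres_MM {R : Type*} [CommRing R] {n : ℕ} {J : Matrix (Fin n) (Fin n) R}
    (hJ : J.transpose = -J) : Pres (MM J) := ((pres_xi hJ).mul (pres_xi hJ)).neg

end Blocks

section Raise

variable {N : ℕ}

end Raise

end Vale.Agent.P225.B
end
end

section

section

/-!
P225, route B, part B3-34: the Fischer form, the null cone, spanning of the harmonic polynomials
by powers of null linear forms.
-/

open MvPolynomial

namespace Vale.Agent.P225.B

variable {n : ℕ}

instance instFiniteHH (K : Type*) [Field K] (n d : ℕ) : FiniteDimensional K (HH K n d) := by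
  have h1 : (homogeneousSubmodule (Fin n) K d).FG := homogeneousSubmodule_fg _ _ d
  have : FiniteDimensional K (homogeneousSubmodule (Fin n) K d) := Module.Finite.iff_fg.2 h1
  exact Submodule.finiteDimensional_of_le inf_le_left

/-- The product of the factorials of a multi-index. -/
noncomputable def wfac (α : Fin n →₀ ℕ) : ℂ := ∏ i, ((α i).factorial : ℂ)

theorem wfac_add_single (α : Fin n →₀ ℕ) (j : Fin n) :
    wfac (α + Finsupp.single j 1) = wfac α * ((α j : ℂ) + 1) := by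
  rw [wfac, wfac, ← Finset.mul_prod_erase _ _ (Finset.mem_univ j),
    ← Finset.mul_prod_erase _ (fun i => ((α i).factorial : ℂ)) (Finset.mem_univ j)]
  have h1 : ∀ i ∈ Finset.univ.erase j,
      (((α + Finsupp.single j 1 : Fin n →₀ ℕ) i).factorial : ℂ) = ((α i).factorial : ℂ) := by
    intro i hi
    rw [Finsupp.add_apply, Finsupp.single_eq_of_ne (Finset.ne_of_mem_erase hi), add_zero]
  rw [Finset.prod_congr rfl h1, Finsupp.add_apply, Finsupp.single_eq_same, Nat.factorial_succ]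
  push_cast
  ring

theorem wfac_pos (α : Fin n →₀ ℕ) : ∃ c : ℝ, 0 < c ∧ wfac α = c := by
  refine ⟨∏ i, ((α i).factorial : ℝ), Finset.prod_pos fun i _ => ?_, ?_⟩
  · exact_mod_cast Nat.factorial_pos _
  · rw [wfac]
    push_cast
    rfl

/-- The Fischer (apolar) form `⟨f, g⟩ = ∑ α! f_α g_α`. -/
noncomputable def fis (n : ℕ) :
    MvPolynomial (Fin n) ℂ →ₗ[ℂ] MvPolynomial (Fin n) ℂ →ₗ[ℂ] ℂ :=
  (basisMonomials (Fin n) ℂ).constr ℂ (fun α => wfac α • lcoeff ℂ α)

theorem fis_monomial (α : Fin n →₀ ℕ) (a : ℂ) (g : MvPolynomial (Fin n) ℂ) :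
    fis n (monomial α a) g = a * (wfac α * coeff α g) := by
  have h : (monomial α a : MvPolynomial (Fin n) ℂ) = a • basisMonomials (Fin n) ℂ α := by
    rw [coe_basisMonomials, smul_monomial, smul_eq_mul, mul_one]
  rw [h, map_smul, fis, Module.Basis.constr_basis]
  simp only [lcoeff, LinearMap.smul_apply, LinearMap.coe_mk, AddHom.coe_mk, smul_eq_mul]

theorem fis_X_mul (j : Fin n) (f g : MvPolynomial (Fin n) ℂ) :
    fis n (X j * f) g = fis n f (pderiv j g) := by
  induction f using MvPolynomial.induction_on' with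
  | monomial α a =>
    have h : (X j * monomial α a : MvPolynomial (Fin n) ℂ) =
        monomial (α + Finsupp.single j 1) a := by
      rw [X, monomial_mul, one_mul, add_comm]
    rw [h, fis_monomial, fis_monomial, wfac_add_single, coeff_pderiv]
    ring
  | add p q hp hq =>
    rw [mul_add, map_add, map_add, LinearMap.add_apply, LinearMap.add_apply, hp, hq]

theorem fis_comm (f g : MvPolynomial (Fin n) ℂ) : fis n f g = fis n g f := by
  induction f using MvPolynomial.induction_on' with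
  | monomial α a =>
    induction g using MvPolynomial.induction_on' with
    | monomial β b =>
      rw [fis_monomial, fis_monomial, coeff_monomial, coeff_monomial]
      by_cases h : α = β
      · subst h
        simp only [if_true]
        ring
      · rw [if_neg (Ne.symm h), if_neg h]
        ring
    | add p q hp hq =>
      rw [map_add, map_add, LinearMap.add_apply, hp, hq]
  | add p q hp hq =>
    rw [map_add, map_add, LinearMap.add_apply, hp, hq]

/-- The linear form `ζ · x`. -/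
noncomputable def lf (z : Fin n → ℂ) : MvPolynomial (Fin n) ℂ := ∑ i, C (z i) * X i

theorem pderiv_lf (z : Fin n → ℂ) (k : Fin n) : pderiv k (lf z) = C (z k) := pderiv_row z k

theorem fis_lf_pow {d : ℕ} {f : MvPolynomial (Fin n) ℂ} (hf : f.IsHomogeneous d)
    (z : Fin n → ℂ) : fis n f (lf z ^ d) = (d.factorial : ℂ) * eval z f := by
  have key : ∀ (d : ℕ) (α : Fin n →₀ ℕ) (a : ℂ), α.degree = d →
      fis n (monomial α a) (lf z ^ d) = (d.factorial : ℂ) * eval z (monomial α a) := by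
    intro d
    induction d with
    | zero =>
      intro α a hα
      rw [Finsupp.degree_eq_zero_iff] at hα
      subst hα
      rw [fis_monomial, pow_zero, coeff_one, if_pos rfl]
      simp only [wfac, Finsupp.coe_zero, Pi.zero_apply, Nat.factorial_zero, Nat.cast_one, Finset.prod_const_one, mul_one, monomial_zero', eval_C, one_mul]
    | succ d ih =>
      intro α a hα
      have h1 : ∃ j, α j ≠ 0 := by
        by_contra hcon
        push Not at hcon
        have h2 : α = 0 := Finsupp.ext hcon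
        rw [h2] at hα
        simp at hα
      obtain ⟨j, hj⟩ := h1
      have h2 : α = (α - Finsupp.single j 1) + Finsupp.single j 1 := by
        refine (tsub_add_cancel_of_le ?_).symm
        rw [Finsupp.single_le_iff]
        omega
      have h3 : (α - Finsupp.single j 1).degree = d := by
        have h4 := congrArg Finsupp.degree h2
        rw [map_add, Finsupp.degree_single, hα] at h4
        omega
      have h5 : (monomial α a : MvPolynomial (Fin n) ℂ) =
          X j * monomial (α - Finsupp.single j 1) a := by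
        conv_lhs => rw [h2]
        rw [X, monomial_mul, one_mul, add_comm]
      rw [h5, fis_X_mul, Derivation.leibniz_pow, pderiv_lf, Nat.add_sub_cancel, smul_eq_mul,
        mul_comm (lf z ^ d), ← smul_eq_C_mul, map_nsmul, map_smul, ih _ _ h3, map_mul, eval_X,
        Nat.factorial_succ]
      push_cast
      rw [smul_eq_mul, nsmul_eq_mul]
      push_cast
      ring
  rw [← support_sum_monomial_coeff f, map_sum, map_sum, LinearMap.sum_apply, Finset.mul_sum]
  refine Finset.sum_congr rfl fun α hα => key d α _ ?_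
  have h := hf (mem_support_iff.1 hα)
  rwa [Finsupp.degree_eq_weight_one]

/-- Complex conjugation of the coefficients. -/
noncomputable def cj : MvPolynomial (Fin n) ℂ →+* MvPolynomial (Fin n) ℂ :=
  map (starRingEnd ℂ)

theorem fis_cj_self (f : MvPolynomial (Fin n) ℂ) (h : fis n f (cj f) = 0) : f = 0 := by
  have h1 : fis n f (cj f) = ∑ α ∈ f.support, coeff α f * (wfac α * coeff α (cj f)) := by
    conv_lhs => enter [1, 2]; rw [← support_sum_monomial_coeff f]
    rw [map_sum, LinearMap.sum_apply]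
    exact Finset.sum_congr rfl fun α _ => fis_monomial _ _ _
  rw [h1] at h
  choose c hc hc' using (wfac_pos (n := n))
  have h2 : ∀ α, coeff α f * (wfac α * coeff α (cj f)) =
      ((c α * Complex.normSq (coeff α f) : ℝ) : ℂ) := by
    intro α
    rw [cj, coeff_map, hc', Complex.ofReal_mul, Complex.normSq_eq_conj_mul_self]
    ring
  rw [Finset.sum_congr rfl fun α _ => h2 α, ← Complex.ofReal_sum, Complex.ofReal_eq_zero,
    Finset.sum_eq_zero_iff_of_nonneg] at h
  · by_contra hf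
    have h3 : f.support.Nonempty := by
      rw [Finset.nonempty_iff_ne_empty]
      intro h4
      exact hf (support_eq_empty.1 h4)
    obtain ⟨α, hα⟩ := h3
    have h4 := h α hα
    rcases mul_eq_zero.1 h4 with h5 | h5
    · exact (hc α).ne' h5
    · exact (mem_support_iff.1 hα) (Complex.normSq_eq_zero.1 h5)
  · intro α _
    exact mul_nonneg (hc α).le (Complex.normSq_nonneg _)

theorem cj_mem {d : ℕ} {f : MvPolynomial (Fin n) ℂ} (hf : f ∈ HH ℂ n d) : cj f ∈ HH ℂ n d := by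
  rw [mem_HH] at hf ⊢
  refine ⟨hf.1.map _, ?_⟩
  rw [plap_apply]
  have h : ∀ i, pderiv i (pderiv i (cj f)) = cj (pderiv i (pderiv i f)) := by
    intro i
    rw [cj, pderiv_map, pderiv_map]
  rw [Finset.sum_congr rfl fun i _ => h i, ← map_sum, ← plap_apply, hf.2, map_zero]

/-- The restriction of the Fischer form to the harmonic polynomials. -/
noncomputable def fH (n d : ℕ) : LinearMap.BilinForm ℂ (HH ℂ n d) :=
  (fis n).domRestrict₁₂ (HH ℂ n d) (HH ℂ n d)

theorem fH_apply {d : ℕ} (f g : HH ℂ n d) :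
    fH n d f g = fis n (f : MvPolynomial (Fin n) ℂ) (g : MvPolynomial (Fin n) ℂ) := rfl

theorem fH_comm {d : ℕ} (f g : HH ℂ n d) : fH n d f g = fH n d g f := by
  rw [fH_apply, fH_apply, fis_comm]

theorem fH_nondegenerate (n d : ℕ) : (fH n d).Nondegenerate := by
  have h : ∀ f : HH ℂ n d, (∀ g, fH n d f g = 0) → f = 0 := by
    intro f hf
    have h1 := hf ⟨cj f, cj_mem f.2⟩
    exact Subtype.ext (fis_cj_self _ h1)
  refine ⟨h, fun f hf => h f fun g => ?_⟩
  rw [fH_comm]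
  exact hf g

end Vale.Agent.P225.B
end
end

section

section

/-!
P225, route B, B3-RF: real forms. `CxForm` (abstract), the real form `HF n d` of the complex
harmonic polynomials, the complexification `cxD` of the block algebra and the complex span `gC g`
of a real subspace `g`.
-/

namespace Vale.Agent.P225.B

section Abstract


open Complex

/-- A real form `V` of the complex vector space `W`: every `w` is `i (re w) + I • i (im w)`. -/
structure CxForm (V W : Type*) [AddCommGroup V] [Module ℝ V] [AddCommGroup W] [Module ℂ W] where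
  i : V → W
  re : W → V
  im : W → V
  i_add : ∀ u v, i (u + v) = i u + i v
  i_smul : ∀ (r : ℝ) v, i (r • v) = (r : ℂ) • i v
  re_add : ∀ u v, re (u + v) = re u + re v
  im_add : ∀ u v, im (u + v) = im u + im v
  re_smul : ∀ (z : ℂ) w, re (z • w) = z.re • re w - z.im • im w
  im_smul : ∀ (z : ℂ) w, im (z • w) = z.re • im w + z.im • re w
  re_i : ∀ v, re (i v) = v
  im_i : ∀ v, im (i v) = 0
  dec : ∀ w, i (re w) + I • i (im w) = w

theorem smul_cx_aux {W : Type*} [AddCommGroup W] [Module ℂ W] (z : ℂ) (a b : W) :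
    (z.re : ℂ) • a - (z.im : ℂ) • b + I • ((z.re : ℂ) • b + (z.im : ℂ) • a) = z • (a + I • b) := by
  have h3 : z * I = (z.re : ℂ) * I - z.im := by
    conv_lhs => rw [← Complex.re_add_im z]
    linear_combination (z.im : ℂ) * I_mul_I
  calc _ = ((z.re : ℂ) + z.im * I) • a + ((z.re : ℂ) * I - z.im) • b := by module
    _ = z • (a + I • b) := by rw [← h3, Complex.re_add_im, smul_add, smul_smul]

namespace CxForm

variable {V W : Type*} [AddCommGroup V] [Module ℝ V] [AddCommGroup W] [Module ℂ W]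
variable (F : CxForm V W)

theorem i_zero : F.i 0 = 0 := by
  have := F.i_smul 0 0
  simpa only [smul_zero, ofReal_zero, zero_smul] using this

theorem i_sub (u v : V) : F.i (u - v) = F.i u - F.i v := by
  have h := F.i_add (u - v) v
  rw [sub_add_cancel] at h
  rw [h, add_sub_cancel_right]

theorem re_I_i (v : V) : F.re (I • F.i v) = 0 := by
  rw [F.re_smul, F.im_i]; simp

theorem im_I_i (v : V) : F.im (I • F.i v) = v := by
  rw [F.im_smul, F.im_i, F.re_i]; simp

theorem indep {u v : V} (h : F.i u = I • F.i v) : u = 0 ∧ v = 0 := by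
  constructor
  · rw [← F.re_i u, h, F.re_I_i]
  · rw [← F.im_I_i v, ← h, F.im_i]

theorem ext_i {T T' : Module.End ℂ W} (h : ∀ v, T (F.i v) = T' (F.i v)) : T = T' := by
  ext w
  rw [← F.dec w, map_add, map_add, map_smul, map_smul, h, h]

/-- The complexification of a real operator. -/
def cxFun (T : Module.End ℝ V) : Module.End ℂ W where
  toFun w := F.i (T (F.re w)) + I • F.i (T (F.im w))
  map_add' u v := by
    rw [F.re_add, F.im_add, map_add, map_add, F.i_add, F.i_add, smul_add]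
    abel
  map_smul' z w := by
    rw [F.re_smul, F.im_smul, map_sub, map_add, map_smul, map_smul, map_smul, map_smul, F.i_sub,
      F.i_add, F.i_smul, F.i_smul, F.i_smul, F.i_smul, RingHom.id_apply, smul_cx_aux]

theorem cxFun_i (T : Module.End ℝ V) (v : V) : F.cxFun T (F.i v) = F.i (T v) := by
  change F.i (T (F.re (F.i v))) + I • F.i (T (F.im (F.i v))) = _
  rw [F.re_i, F.im_i, map_zero, F.i_zero, smul_zero, add_zero]

/-- The complexification as a ring homomorphism. -/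
def cx : Module.End ℝ V →+* Module.End ℂ W where
  toFun := F.cxFun
  map_one' := F.ext_i fun v => by rw [F.cxFun_i]; rfl
  map_mul' S T := F.ext_i fun v => by
    rw [F.cxFun_i, Module.End.mul_apply, Module.End.mul_apply, F.cxFun_i, F.cxFun_i]
  map_zero' := F.ext_i fun v => by rw [F.cxFun_i]; exact F.i_zero
  map_add' S T := F.ext_i fun v => by
    rw [F.cxFun_i, LinearMap.add_apply, LinearMap.add_apply, F.cxFun_i, F.cxFun_i, F.i_add]

@[simp] theorem cx_i (T : Module.End ℝ V) (v : V) : F.cx T (F.i v) = F.i (T v) := F.cxFun_i T v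

theorem cx_smul (r : ℝ) (T : Module.End ℝ V) : F.cx (r • T) = (r : ℂ) • F.cx T :=
  F.ext_i fun v => by
    rw [F.cx_i, LinearMap.smul_apply, LinearMap.smul_apply, F.cx_i, F.i_smul]

theorem cx_eq {T : Module.End ℝ V} {T' : Module.End ℂ W} (h : ∀ v, T' (F.i v) = F.i (T v)) :
    F.cx T = T' :=
  F.ext_i fun v => by rw [F.cx_i, h]

theorem cx_indep {S T : Module.End ℝ V} (h : F.cx S = I • F.cx T) : S = 0 ∧ T = 0 := by
  constructor
  · ext v
    have := congrArg (fun U : Module.End ℂ W => U (F.i v)) h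
    simp only [LinearMap.smul_apply, cx_i] at this
    exact (F.indep this).1
  · ext v
    have := congrArg (fun U : Module.End ℂ W => U (F.i v)) h
    simp only [LinearMap.smul_apply, cx_i] at this
    exact (F.indep this).2

theorem i_sum {ι : Type*} (s : Finset ι) (f : ι → V) : F.i (∑ k ∈ s, f k) = ∑ k ∈ s, F.i (f k) := by
  classical
  induction s using Finset.induction_on with
  | empty => simpa only [Finset.sum_empty] using F.i_zero
  | insert a s ha ih => rw [Finset.sum_insert ha, Finset.sum_insert ha, F.i_add, ih]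

/-- The complex basis obtained from a real basis. -/
noncomputable def basis {ι : Type*} [Fintype ι] (b : Module.Basis ι ℝ V) : Module.Basis ι ℂ W :=
  Module.Basis.mk (v := fun k => F.i (b k)) (by
    rw [Fintype.linearIndependent_iff]
    intro g hg k
    have h1 : F.i (∑ k, (g k).re • b k) = I • F.i (∑ k, (-(g k).im) • b k) := by
      rw [F.i_sum, F.i_sum, Finset.smul_sum]
      simp only [F.i_smul]
      rw [← sub_eq_zero, ← Finset.sum_sub_distrib]
      rw [← hg]
      refine Finset.sum_congr rfl fun k _ => ?_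
      rw [smul_smul, ← sub_smul]
      congr 1
      conv_rhs => rw [← Complex.re_add_im (g k)]
      push_cast
      ring
    obtain ⟨h2, h3⟩ := F.indep h1
    have h4 := Fintype.linearIndependent_iff.1 b.linearIndependent _ h2 k
    have h5 := Fintype.linearIndependent_iff.1 b.linearIndependent _ h3 k
    exact Complex.ext h4 (by simpa using h5)) (by
    intro w _
    rw [← F.dec w, ← b.sum_repr (F.re w), ← b.sum_repr (F.im w), F.i_sum, F.i_sum]
    simp only [F.i_smul]
    refine Submodule.add_mem _ (Submodule.sum_mem _ fun k _ => Submodule.smul_mem _ _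
      (Submodule.subset_span ⟨k, rfl⟩)) (Submodule.smul_mem _ _ (Submodule.sum_mem _ fun k _ =>
        Submodule.smul_mem _ _ (Submodule.subset_span ⟨k, rfl⟩))))

theorem basis_apply {ι : Type*} [Fintype ι] (b : Module.Basis ι ℝ V) (k : ι) :
    F.basis b k = F.i (b k) := by
  simp [basis]

theorem basis_repr_i {ι : Type*} [Fintype ι] (b : Module.Basis ι ℝ V) (v : V) (k : ι) :
    (F.basis b).repr (F.i v) k = (b.repr v k : ℂ) := by
  classical
  conv_lhs => rw [← b.sum_repr v]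
  rw [F.i_sum]
  simp only [F.i_smul, ← F.basis_apply b]
  rw [Module.Basis.repr_sum_self]

theorem trace_cx [Module.Finite ℝ V] (T : Module.End ℝ V) :
    LinearMap.trace ℂ W (F.cx T) = ((LinearMap.trace ℝ V T : ℝ) : ℂ) := by
  classical
  set b := Module.finBasis ℝ V
  rw [LinearMap.trace_eq_matrix_trace ℝ b, LinearMap.trace_eq_matrix_trace ℂ (F.basis b)]
  simp only [Matrix.trace, Matrix.diag_apply, LinearMap.toMatrix_apply]
  rw [Complex.ofReal_sum]
  refine Finset.sum_congr rfl fun k _ => ?_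
  rw [F.basis_apply, F.cx_i, F.basis_repr_i]

end CxForm

section blocks

variable {κ : Type*} {V W : κ → Type*} [∀ d, AddCommGroup (V d)] [∀ d, Module ℝ (V d)]
  [∀ d, AddCommGroup (W d)] [∀ d, Module ℂ (W d)]

/-- Blockwise complexification. -/
def cxB (F : ∀ d, CxForm (V d) (W d)) :
    (∀ d, Module.End ℝ (V d)) →+* (∀ d, Module.End ℂ (W d)) where
  toFun X d := (F d).cx (X d)
  map_one' := funext fun _ => map_one _
  map_mul' _ _ := funext fun _ => map_mul _ _ _
  map_zero' := funext fun _ => map_zero _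
  map_add' _ _ := funext fun _ => map_add _ _ _

variable (F : ∀ d, CxForm (V d) (W d))

@[simp] theorem cxB_apply (X : ∀ d, Module.End ℝ (V d)) (d : κ) :
    cxB F X d = (F d).cx (X d) := rfl

theorem cxB_smul (r : ℝ) (X : ∀ d, Module.End ℝ (V d)) : cxB F (r • X) = (r : ℂ) • cxB F X :=
  funext fun d => (F d).cx_smul r (X d)

/-- The complex span of the image of a real subspace of the block algebra. -/
def cxSpan (g : Submodule ℝ (∀ d, Module.End ℝ (V d))) : Submodule ℂ (∀ d, Module.End ℂ (W d)) :=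
  Submodule.span ℂ (cxB F '' (g : Set (∀ d, Module.End ℝ (V d))))

theorem mem_cxSpan {g : Submodule ℝ (∀ d, Module.End ℝ (V d))} {A : ∀ d, Module.End ℂ (W d)} :
    A ∈ cxSpan F g ↔ ∃ Y ∈ g, ∃ Y' ∈ g, A = cxB F Y + I • cxB F Y' := by
  constructor
  · intro h
    induction h using Submodule.span_induction with
    | mem x hx =>
      obtain ⟨Y, hY, rfl⟩ := hx
      exact ⟨Y, hY, 0, g.zero_mem, by rw [map_zero, smul_zero, add_zero]⟩
    | zero => exact ⟨0, g.zero_mem, 0, g.zero_mem, by simp⟩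
    | add x y _ _ hx hy =>
      obtain ⟨Y, hY, Y', hY', rfl⟩ := hx
      obtain ⟨Z, hZ, Z', hZ', rfl⟩ := hy
      refine ⟨Y + Z, g.add_mem hY hZ, Y' + Z', g.add_mem hY' hZ', ?_⟩
      rw [map_add, map_add, smul_add]
      abel
    | smul z x _ hx =>
      obtain ⟨Y, hY, Y', hY', rfl⟩ := hx
      refine ⟨z.re • Y - z.im • Y', g.sub_mem (g.smul_mem _ hY) (g.smul_mem _ hY'),
        z.re • Y' + z.im • Y, g.add_mem (g.smul_mem _ hY') (g.smul_mem _ hY), ?_⟩
      rw [map_sub, map_add, cxB_smul, cxB_smul, cxB_smul, cxB_smul, smul_cx_aux]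
  · rintro ⟨Y, hY, Y', hY', rfl⟩
    exact Submodule.add_mem _ (Submodule.subset_span ⟨Y, hY, rfl⟩)
      (Submodule.smul_mem _ _ (Submodule.subset_span ⟨Y', hY', rfl⟩))

theorem cxB_mem_cxSpan {g : Submodule ℝ (∀ d, Module.End ℝ (V d))} {X : ∀ d, Module.End ℝ (V d)}
    (hX : X ∈ g) : cxB F X ∈ cxSpan F g :=
  Submodule.subset_span ⟨X, hX, rfl⟩

/-- Real form: a real element of the complex span is in the real subspace. -/
theorem mem_of_cxB_mem_cxSpan {g : Submodule ℝ (∀ d, Module.End ℝ (V d))}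
    {X : ∀ d, Module.End ℝ (V d)} (hX : cxB F X ∈ cxSpan F g) : X ∈ g := by
  obtain ⟨Y, hY, Y', hY', h⟩ := (mem_cxSpan F).1 hX
  have h1 : X = Y := by
    funext d
    have h2 : (F d).cx (X d - Y d) = I • (F d).cx (Y' d) := by
      have h3 := congrFun h d
      rw [map_sub]
      simp only [cxB_apply, Pi.add_apply, Pi.smul_apply] at h3
      rw [h3]
      abel
    exact sub_eq_zero.1 ((F d).cx_indep h2).1
  rw [h1]
  exact hY

/-- The complex span is closed under brackets. -/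
theorem cxSpan_bracket {g : Submodule ℝ (∀ d, Module.End ℝ (V d))}
    (hg : ∀ X ∈ g, ∀ Y ∈ g, X * Y - Y * X ∈ g) {A B : ∀ d, Module.End ℂ (W d)}
    (hA : A ∈ cxSpan F g) (hB : B ∈ cxSpan F g) : A * B - B * A ∈ cxSpan F g := by
  obtain ⟨Y, hY, Y', hY', rfl⟩ := (mem_cxSpan F).1 hA
  obtain ⟨Z, hZ, Z', hZ', rfl⟩ := (mem_cxSpan F).1 hB
  refine (mem_cxSpan F).2 ⟨(Y * Z - Z * Y) - (Y' * Z' - Z' * Y'), g.sub_mem (hg _ hY _ hZ)
    (hg _ hY' _ hZ'), (Y * Z' - Z' * Y) + (Y' * Z - Z * Y'), g.add_mem (hg _ hY _ hZ')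
    (hg _ hY' _ hZ), ?_⟩
  simp only [map_add, map_sub, map_mul, smul_add, smul_sub, mul_add, add_mul, smul_mul_assoc,
    mul_smul_comm, smul_smul, I_mul_I, neg_smul, one_smul]
  abel

/-- The complex span inherits invariance under two-sided multiplication. -/
theorem cxSpan_conj {g : Submodule ℝ (∀ d, Module.End ℝ (V d))} {P Q : ∀ d, Module.End ℝ (V d)}
    (hg : ∀ X ∈ g, P * X * Q ∈ g) {A : ∀ d, Module.End ℂ (W d)} (hA : A ∈ cxSpan F g) :
    cxB F P * A * cxB F Q ∈ cxSpan F g := by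
  obtain ⟨Y, hY, Y', hY', rfl⟩ := (mem_cxSpan F).1 hA
  refine (mem_cxSpan F).2 ⟨P * Y * Q, hg _ hY, P * Y' * Q, hg _ hY', ?_⟩
  simp only [map_mul, mul_add, add_mul, smul_mul_assoc, mul_smul_comm]

end blocks


end Abstract

section Polynomials


open Complex MvPolynomial

variable {n : ℕ}

/-- Real part of a complex polynomial (coefficientwise). -/
noncomputable def reP (p : MvPolynomial (Fin n) ℂ) : MvPolynomial (Fin n) ℝ :=
  AddMonoidAlgebra.map Complex.reAddGroupHom p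

/-- Imaginary part of a complex polynomial (coefficientwise). -/
noncomputable def imP (p : MvPolynomial (Fin n) ℂ) : MvPolynomial (Fin n) ℝ :=
  AddMonoidAlgebra.map Complex.imAddGroupHom p

@[simp] theorem coeff_reP (m : Fin n →₀ ℕ) (p : MvPolynomial (Fin n) ℂ) :
    coeff m (reP p) = (coeff m p).re := rfl

@[simp] theorem coeff_imP (m : Fin n →₀ ℕ) (p : MvPolynomial (Fin n) ℂ) :
    coeff m (imP p) = (coeff m p).im := rfl

/-- The inclusion of real polynomials into complex polynomials. -/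
noncomputable abbrev ιP (n : ℕ) : MvPolynomial (Fin n) ℝ →+* MvPolynomial (Fin n) ℂ :=
  MvPolynomial.map Complex.ofRealHom

@[simp] theorem coeff_ιP (m : Fin n →₀ ℕ) (p : MvPolynomial (Fin n) ℝ) :
    coeff m (ιP n p) = ((coeff m p : ℝ) : ℂ) := coeff_map _ _ _

/-- The real polynomials are a real form of the complex polynomials. -/
noncomputable def PF (n : ℕ) : CxForm (MvPolynomial (Fin n) ℝ) (MvPolynomial (Fin n) ℂ) where
  i := ιP n
  re := reP
  im := imP
  i_add u v := map_add _ u v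
  i_smul r v := by
    ext m
    simp
  re_add u v := by ext m; simp
  im_add u v := by ext m; simp
  re_smul z w := by ext m; simp
  im_smul z w := by ext m; simp
  re_i v := by ext m; simp
  im_i v := by ext m; simp
  dec w := by
    ext m
    simp only [coeff_add, coeff_smul, coeff_ιP, coeff_reP, coeff_imP, smul_eq_mul]
    rw [mul_comm, Complex.re_add_im]

theorem plap_ι (p : MvPolynomial (Fin n) ℝ) : plap ℂ n (ιP n p) = ιP n (plap ℝ n p) := by
  rw [plap_apply, plap_apply, map_sum]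
  refine Finset.sum_congr rfl fun i _ => ?_
  rw [pderiv_map, pderiv_map]

theorem ι_mem_HH {d : ℕ} {p : MvPolynomial (Fin n) ℝ} (hp : p ∈ HH ℝ n d) :
    ιP n p ∈ HH ℂ n d := by
  rw [mem_HH] at hp ⊢
  refine ⟨hp.1.map _, ?_⟩
  rw [plap_ι, hp.2, map_zero]

theorem plap_dec (w : MvPolynomial (Fin n) ℂ) :
    plap ℂ n w = ιP n (plap ℝ n (reP w)) + I • ιP n (plap ℝ n (imP w)) := by
  conv_lhs => rw [← (PF n).dec w]
  rw [map_add, map_smul]
  exact congrArg₂ (fun a b => a + I • b) (plap_ι _) (plap_ι _)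

theorem reP_mem_HH {d : ℕ} {w : MvPolynomial (Fin n) ℂ} (hw : w ∈ HH ℂ n d) :
    reP w ∈ HH ℝ n d := by
  rw [mem_HH] at hw ⊢
  refine ⟨fun m hm => hw.1 (fun h => hm ?_), ?_⟩
  · rw [coeff_reP, h, Complex.zero_re]
  · have h := plap_dec w
    rw [hw.2] at h
    have h2 : (PF n).i (plap ℝ n (reP w)) = I • (PF n).i (-(plap ℝ n (imP w))) := by
      change ιP n (plap ℝ n (reP w)) = I • ιP n (-(plap ℝ n (imP w)))
      rw [map_neg, smul_neg]
      exact eq_neg_of_add_eq_zero_left h.symm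
    exact ((PF n).indep h2).1

theorem imP_mem_HH {d : ℕ} {w : MvPolynomial (Fin n) ℂ} (hw : w ∈ HH ℂ n d) :
    imP w ∈ HH ℝ n d := by
  have h : imP w = reP ((-I) • w) := by
    ext m
    simp
  rw [h]
  exact reP_mem_HH (Submodule.smul_mem _ _ hw)

/-- The real harmonic polynomials are a real form of the complex ones. -/
noncomputable def HF (n d : ℕ) : CxForm (HH ℝ n d) (HH ℂ n d) where
  i p := ⟨ιP n p.1, ι_mem_HH p.2⟩
  re w := ⟨reP w.1, reP_mem_HH w.2⟩
  im w := ⟨imP w.1, imP_mem_HH w.2⟩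
  i_add u v := Subtype.ext ((PF n).i_add u.1 v.1)
  i_smul r v := Subtype.ext ((PF n).i_smul r v.1)
  re_add u v := Subtype.ext ((PF n).re_add u.1 v.1)
  im_add u v := Subtype.ext ((PF n).im_add u.1 v.1)
  re_smul z w := Subtype.ext ((PF n).re_smul z w.1)
  im_smul z w := Subtype.ext ((PF n).im_smul z w.1)
  re_i v := Subtype.ext ((PF n).re_i v.1)
  im_i v := Subtype.ext ((PF n).im_i v.1)
  dec w := Subtype.ext ((PF n).dec w.1)

@[simp] theorem HF_i_val {d : ℕ} (p : HH ℝ n d) : ((HF n d).i p : MvPolynomial (Fin n) ℂ) =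
    ιP n p.1 := rfl

/-- If a real operator preserves harmonic polynomials, so does its complexification. -/
theorem preserve_of_real {d : ℕ} {T : Module.End ℝ (MvPolynomial (Fin n) ℝ)}
    {T' : Module.End ℂ (MvPolynomial (Fin n) ℂ)} (h : ∀ p, T' (ιP n p) = ιP n (T p))
    (hT : ∀ p ∈ HH ℝ n d, T p ∈ HH ℝ n d) : ∀ w ∈ HH ℂ n d, T' w ∈ HH ℂ n d := by
  intro w hw
  rw [← (PF n).dec w]
  change T' (ιP n (reP w) + I • ιP n (imP w)) ∈ _
  rw [map_add, map_smul, h, h]
  exact Submodule.add_mem _ (ι_mem_HH (hT _ (reP_mem_HH hw)))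
    (Submodule.smul_mem _ _ (ι_mem_HH (hT _ (imP_mem_HH hw))))

/-- The complex matrix of a real matrix. -/
noncomputable abbrev mC (J : Matrix (Fin n) (Fin n) ℝ) : Matrix (Fin n) (Fin n) ℂ :=
  J.map Complex.ofReal

theorem xi_ι (J : Matrix (Fin n) (Fin n) ℝ) (p : MvPolynomial (Fin n) ℝ) :
    xi (mC J) (ιP n p) = ιP n (xi J p) := by
  induction p using MvPolynomial.induction_on with
  | C a => simp only [map_C, ofRealHom_eq_coe, derivation_C, map_zero]
  | add p q hp hq => rw [map_add, map_add, map_add, map_add, hp, hq]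
  | mul_X p i hp =>
    rw [map_mul, Derivation.leibniz, Derivation.leibniz, hp, smul_eq_mul, smul_eq_mul,
      smul_eq_mul, smul_eq_mul, map_add, map_mul, map_mul]
    simp

end Polynomials

section Blocks


open Complex MvPolynomial

variable {n D : ℕ}

instance HH_finite {K : Type*} [Field K] {n d : ℕ} : Module.Finite K (HH K n d) := by
  have : Module.Finite K (homogeneousSubmodule (Fin n) K d) :=
    Module.Finite.iff_fg.2 (homogeneousSubmodule_fg (Fin n) K d)
  exact Submodule.finiteDimensional_of_le (inf_le_left : HH K n d ≤ homogeneousSubmodule (Fin n) K d)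

/-- `T'` is the complexification of the real operator `T`. -/
def IsCx (T : Module.End ℝ (MvPolynomial (Fin n) ℝ))
    (T' : Module.End ℂ (MvPolynomial (Fin n) ℂ)) : Prop :=
  ∀ p, T' (ιP n p) = ιP n (T p)

namespace IsCx

variable {T U : Module.End ℝ (MvPolynomial (Fin n) ℝ)}
  {T' U' : Module.End ℂ (MvPolynomial (Fin n) ℂ)}

theorem one : IsCx (1 : Module.End ℝ (MvPolynomial (Fin n) ℝ)) 1 := fun _ => rfl

theorem mul (hT : IsCx T T') (hU : IsCx U U') : IsCx (T * U) (T' * U') := fun p => by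
  rw [Module.End.mul_apply, Module.End.mul_apply, hU, hT]

theorem neg (hT : IsCx T T') : IsCx (-T) (-T') := fun p => by
  rw [LinearMap.neg_apply, LinearMap.neg_apply, hT, map_neg]

theorem pres (h : IsCx T T') (hT : Pres T) : Pres T' := fun d =>
  preserve_of_real h (hT d)

end IsCx

theorem isCx_xi (J : Matrix (Fin n) (Fin n) ℝ) : IsCx (dop (xi J)) (dop (xi (mC J))) :=
  fun p => xi_ι J p

theorem isCx_rop (g : Matrix (Fin n) (Fin n) ℝ) : IsCx (rop g) (rop (mC g)) := by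
  intro p
  rw [rop_apply, rop_apply]
  induction p using MvPolynomial.induction_on with
  | C a => simp only [map_C, ofRealHom_eq_coe, algHom_C, algebraMap_eq]
  | add p q hp hq => rw [map_add, map_add, map_add, map_add, hp, hq]
  | mul_X p i hp =>
    rw [map_mul, map_mul, map_mul, map_mul, hp]
    simp only [map_X, rot_X, Matrix.map_apply, map_sum, map_mul, map_C, ofRealHom_eq_coe]

theorem isCx_MM (J : Matrix (Fin n) (Fin n) ℝ) : IsCx (MM J) (MM (mC J)) :=
  ((isCx_xi J).mul (isCx_xi J)).neg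

theorem cx_rst {T : Module.End ℝ (MvPolynomial (Fin n) ℝ)}
    {T' : Module.End ℂ (MvPolynomial (Fin n) ℂ)} (h : IsCx T T') (hT : Pres T) (d : ℕ) :
    (HF n d).cx (rst T d) = rst T' d := by
  refine (HF n d).cx_eq fun v => Subtype.ext ?_
  rw [(h.pres hT).rst_coe, HF_i_val, HF_i_val, hT.rst_coe, h]

/-- Complexification of the block algebra. -/
noncomputable def cxD (n D : ℕ) : BA ℝ n D →+* BA ℂ n D :=
  cxB (fun d : Finset.Icc 2 D => HF n (d : ℕ))

theorem cxD_blk {T : Module.End ℝ (MvPolynomial (Fin n) ℝ)}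
    {T' : Module.End ℂ (MvPolynomial (Fin n) ℂ)} (h : IsCx T T') (hT : Pres T) :
    cxD n D (blk D T) = blk D T' :=
  funext fun d => cx_rst h hT d

theorem cxD_bsc (κ : ℕ → ℝ) (X : BA ℝ n D) :
    cxD n D (bsc κ X) = bsc (fun d => (κ d : ℂ)) (cxD n D X) :=
  funext fun d => (HF n d).cx_smul (κ d) (X d)

theorem cxD_MM {J : Matrix (Fin n) (Fin n) ℝ} (hJ : J.transpose = -J) :
    cxD n D (blk D (MM J)) = blk D (MM (mC J)) :=
  cxD_blk (isCx_MM J) (pres_MM hJ)

theorem cxD_rop {g : Matrix (Fin n) (Fin n) ℝ} (hg : g.transpose * g = 1) :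
    cxD n D (blk D (rop g)) = blk D (rop (mC g)) :=
  cxD_blk (isCx_rop g) (pres_rop hg)

theorem trace_cxD (X : BA ℝ n D) (d : Finset.Icc 2 D) :
    LinearMap.trace ℂ (HH ℂ n d) (cxD n D X d) =
      ((LinearMap.trace ℝ (HH ℝ n d) (X d) : ℝ) : ℂ) :=
  (HF n d).trace_cx (X d)

/-- The complex span of a real subspace of the block algebra. -/
noncomputable def gC (g : Submodule ℝ (BA ℝ n D)) : Submodule ℂ (BA ℂ n D) :=
  cxSpan (fun d : Finset.Icc 2 D => HF n (d : ℕ)) g

theorem cxD_mem_gC {g : Submodule ℝ (BA ℝ n D)} {X : BA ℝ n D} (hX : X ∈ g) :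
    cxD n D X ∈ gC g := cxB_mem_cxSpan _ hX

/-- Real form: if the complexification of `X` lies in the complex span of `g` then `X ∈ g`. -/
theorem mem_of_cxD_mem_gC {g : Submodule ℝ (BA ℝ n D)} {X : BA ℝ n D}
    (hX : cxD n D X ∈ gC g) : X ∈ g := mem_of_cxB_mem_cxSpan _ hX

theorem gC_bracket {g : Submodule ℝ (BA ℝ n D)}
    (hg : ∀ X ∈ g, ∀ Y ∈ g, X * Y - Y * X ∈ g) :
    ∀ A ∈ gC g, ∀ B ∈ gC g, A * B - B * A ∈ gC g :=
  fun _ hA _ hB => cxSpan_bracket _ hg hA hB

theorem gC_conj {g : Submodule ℝ (BA ℝ n D)}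
    (hg : ∀ h : Matrix (Fin n) (Fin n) ℝ, h.transpose * h = 1 → ∀ X ∈ g,
      blk D (rop h) * X * blk D (rop h.transpose) ∈ g)
    (h : Matrix (Fin n) (Fin n) ℝ) (hh : h.transpose * h = 1) :
    ∀ A ∈ gC g, blk D (rop (mC h)) * A * blk D (rop (mC h.transpose)) ∈ gC g := by
  intro A hA
  have hh' : h.transpose.transpose * h.transpose = 1 := by
    rw [Matrix.transpose_transpose]
    exact mul_eq_one_comm.1 hh
  have h1 := cxSpan_conj (fun d : Finset.Icc 2 D => HF n (d : ℕ)) (hg h hh) hA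
  have h2 := cxD_rop (n := n) (D := D) hh
  have h3 := cxD_rop (n := n) (D := D) hh'
  rw [← h2, ← h3]
  exact h1

/-- The generators: `κ M_J` of the real algebra gives `κ M_J` in the complex one. -/
theorem gC_MM {g : Submodule ℝ (BA ℝ n D)} {κ : ℕ → ℝ} {J : Matrix (Fin n) (Fin n) ℝ}
    (hJ : J.transpose = -J) (h : bsc κ (blk D (MM J)) ∈ g) :
    bsc (fun d => (κ d : ℂ)) (blk D (MM (mC J))) ∈ gC g := by
  rw [← cxD_MM hJ, ← cxD_bsc]
  exact cxD_mem_gC h

/-- Final form: if the complex span contains all families with zero traces, then so does the real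
space. -/
theorem sl_of_gC {g : Submodule ℝ (BA ℝ n D)}
    (hC : ∀ A : BA ℂ n D, (∀ d : Finset.Icc 2 D, LinearMap.trace ℂ (HH ℂ n d) (A d) = 0) → A ∈ gC g)
    {X : BA ℝ n D} (hX : ∀ d : Finset.Icc 2 D, LinearMap.trace ℝ (HH ℝ n d) (X d) = 0) : X ∈ g := by
  refine mem_of_cxD_mem_gC (hC _ fun d => ?_)
  rw [trace_cxD, hX d, Complex.ofReal_zero]


end Blocks

end Vale.Agent.P225.B
end
end

section

section

/-!
# P225, design B, part B2: the SLOW lemma (modules D3 + D4, abstract part)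

Two-speed linear systems `V' = A V + b Z`, `Z' = -ω Z + c V + e Z` with `ω` large.
-/

open Set Filter Topology

namespace Vale.Agent.P225.B2

section dini

variable {E : Type*} [NormedAddCommGroup E] [NormedSpace ℝ E]

/-- Right Dini derivative of the norm of a curve with derivative `-(ω • y x) + g`. -/
theorem eventually_slope_norm_lt {y : ℝ → E} {g : E} {ω x r : ℝ}
    (h : HasDerivAt y (-(ω • y x) + g) x) (hr : -ω * ‖y x‖ + ‖g‖ < r) :
    ∀ᶠ z in 𝓝[>] x, (z - x)⁻¹ * (‖y z‖ - ‖y x‖) < r := by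
  set ε := (r - (-ω * ‖y x‖ + ‖g‖)) / 2 with hε
  have hε0 : 0 < ε := by rw [hε]; linarith only [hr]
  have h1 : ∀ᶠ z in 𝓝 x, ‖y z - y x - (z - x) • (-(ω • y x) + g)‖ ≤ ε * ‖z - x‖ :=
    (hasDerivAt_iff_isLittleO.1 h).def hε0
  have h2 : ∀ᶠ z in 𝓝[>] x, z < x + 1 / (|ω| + 1) := by
    have : Iio (x + 1 / (|ω| + 1)) ∈ 𝓝 x := Iio_mem_nhds (by
      have : 0 < |ω| + 1 := by (clear * -; positivity)
      have : 0 < 1 / (|ω| + 1) := by positivity
      linarith only [this])
    exact nhdsWithin_le_nhds this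
  filter_upwards [nhdsWithin_le_nhds h1, h2, self_mem_nhdsWithin] with z hz1 hz2 hz3
  have hzx : 0 < z - x := sub_pos.2 hz3
  have hom : 0 < |ω| + 1 := by (clear * -; positivity)
  have hsm : (z - x) * ω ≤ 1 := by
    have h3 : z - x < 1 / (|ω| + 1) := by linarith only [hz2]
    have h4 : (z - x) * (|ω| + 1) < 1 := by
      rw [lt_div_iff₀ hom] at h3; exact h3
    have h5 : (z - x) * ω ≤ (z - x) * (|ω| + 1) := by
      apply mul_le_mul_of_nonneg_left _ hzx.le
      linarith only [le_abs_self ω]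
    linarith only [h4, h5]
  have hn : ‖y z‖ ≤ (1 - (z - x) * ω) * ‖y x‖ + (z - x) * ‖g‖ + ε * (z - x) := by
    have e1 : y z = (y z - y x - (z - x) • (-(ω • y x) + g)) + ((1 - (z - x) * ω) • y x
        + (z - x) • g) := by
      simp only [smul_add, smul_neg, sub_smul, one_smul, mul_smul]
      abel
    calc ‖y z‖ = ‖(y z - y x - (z - x) • (-(ω • y x) + g)) + ((1 - (z - x) * ω) • y x
        + (z - x) • g)‖ := by rw [← e1]
      _ ≤ ‖y z - y x - (z - x) • (-(ω • y x) + g)‖ + (‖(1 - (z - x) * ω) • y x‖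
        + ‖(z - x) • g‖) := (norm_add_le _ _).trans (add_le_add le_rfl (norm_add_le _ _))
      _ ≤ ε * (z - x) + ((1 - (z - x) * ω) * ‖y x‖ + (z - x) * ‖g‖) := by
        rw [norm_smul, norm_smul, Real.norm_of_nonneg (by linarith only [hsm]), Real.norm_of_nonneg hzx.le]
        rw [Real.norm_of_nonneg hzx.le] at hz1
        linarith only [hz1]
      _ = _ := by ring
  have h6 : ‖y z‖ - ‖y x‖ ≤ (z - x) * (-ω * ‖y x‖ + ‖g‖ + ε) := by
    have : (1 - (z - x) * ω) * ‖y x‖ = ‖y x‖ + (z - x) * (-ω * ‖y x‖) := by ring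
    rw [this] at hn
    linarith only [hn]
  have h7 : (z - x)⁻¹ * (‖y z‖ - ‖y x‖) ≤ -ω * ‖y x‖ + ‖g‖ + ε := by
    rw [inv_mul_le_iff₀ hzx]; exact h6
  have h8 : -ω * ‖y x‖ + ‖g‖ + ε < r := by rw [hε]; linarith only [hr]
  exact h7.trans_lt h8

/-- Gronwall for `‖V‖ + θ ‖Z‖`. -/
theorem gronwall_two {F : Type*} [NormedAddCommGroup F] [NormedSpace ℝ F]
    {V : ℝ → E} {Z : ℝ → F} {gV : ℝ → E} {gZ : ℝ → F} {a b ωV ωZ θ K ε : ℝ} (hθ : 0 ≤ θ)
    (hV : ∀ x ∈ Icc a b, HasDerivAt V (-(ωV • V x) + gV x) x)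
    (hZ : ∀ x ∈ Icc a b, HasDerivAt Z (-(ωZ • Z x) + gZ x) x)
    (hb : ∀ x ∈ Ico a b, (-ωV * ‖V x‖ + ‖gV x‖) + θ * (-ωZ * ‖Z x‖ + ‖gZ x‖) ≤
      K * (‖V x‖ + θ * ‖Z x‖) + ε) :
    ∀ x ∈ Icc a b, ‖V x‖ + θ * ‖Z x‖ ≤
      gronwallBound (‖V a‖ + θ * ‖Z a‖) K ε (x - a) := by
  have hcV : ContinuousOn V (Icc a b) := fun x hx => (hV x hx).continuousAt.continuousWithinAt
  have hcZ : ContinuousOn Z (Icc a b) := fun x hx => (hZ x hx).continuousAt.continuousWithinAt
  refine le_gronwallBound_of_liminf_deriv_right_le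
    (f := fun x => ‖V x‖ + θ * ‖Z x‖)
    (f' := fun x => (-ωV * ‖V x‖ + ‖gV x‖) + θ * (-ωZ * ‖Z x‖ + ‖gZ x‖)) ?_ ?_ le_rfl hb
  · exact hcV.norm.add (continuousOn_const.mul hcZ.norm)
  · intro x hx r hr
    have hxI : x ∈ Icc a b := ⟨hx.1, hx.2.le⟩
    set d := r - ((-ωV * ‖V x‖ + ‖gV x‖) + θ * (-ωZ * ‖Z x‖ + ‖gZ x‖)) with hd
    have hd0 : 0 < d := sub_pos.2 hr
    have h1 := eventually_slope_norm_lt (hV x hxI)
      (r := (-ωV * ‖V x‖ + ‖gV x‖) + d / 2) (by linarith)
    have h2 := eventually_slope_norm_lt (hZ x hxI)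
      (r := (-ωZ * ‖Z x‖ + ‖gZ x‖) + d / (2 * (θ + 1))) (by
        have : 0 < d / (2 * (θ + 1)) := by positivity
        linarith only [this])
    refine (Filter.Eventually.frequently ?_)
    filter_upwards [h1, h2] with z hz1 hz2
    have h3 : θ * ((z - x)⁻¹ * (‖Z z‖ - ‖Z x‖)) ≤
        θ * ((-ωZ * ‖Z x‖ + ‖gZ x‖) + d / (2 * (θ + 1))) :=
      mul_le_mul_of_nonneg_left hz2.le hθ
    have h4 : θ * (d / (2 * (θ + 1))) ≤ d / 2 := by
      rw [mul_div_assoc', div_le_div_iff₀ (by (clear * - hθ; positivity)) (by norm_num)]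
      nlinarith only [hr]
    have h5 : (z - x)⁻¹ * (‖V z‖ + θ * ‖Z z‖ - (‖V x‖ + θ * ‖Z x‖)) =
        (z - x)⁻¹ * (‖V z‖ - ‖V x‖) + θ * ((z - x)⁻¹ * (‖Z z‖ - ‖Z x‖)) := by ring
    rw [h5]
    have h6 : θ * ((-ωZ * ‖Z x‖ + ‖gZ x‖) + d / (2 * (θ + 1))) =
      θ * (-ωZ * ‖Z x‖ + ‖gZ x‖) + θ * (d / (2 * (θ + 1))) := by ring
    rw [h6] at h3
    have : r = (-ωV * ‖V x‖ + ‖gV x‖) + θ * (-ωZ * ‖Z x‖ + ‖gZ x‖) + d := by rw [hd]; ring
    linarith only [hz1, h3, h4]

end dini

theorem gronwallBound_le {δ K ε x : ℝ} (hK : 0 ≤ K) (hε : 0 ≤ ε) (hx : 0 ≤ x) :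
    gronwallBound δ K ε x ≤ (δ + ε * x) * Real.exp (K * x) := by
  rcases hK.eq_or_lt with h | h
  · rw [← h, gronwallBound_K0]; simp
  · rw [gronwallBound_of_K_ne_0 h.ne']
    have h1 : (1 - K * x) * Real.exp (K * x) ≤ 1 := by
      have h2 : 1 - K * x ≤ Real.exp (-(K * x)) := by
        have := Real.add_one_le_exp (-(K * x)); linarith
      calc (1 - K * x) * Real.exp (K * x) ≤ Real.exp (-(K * x)) * Real.exp (K * x) :=
            mul_le_mul_of_nonneg_right h2 (Real.exp_pos _).le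
        _ = 1 := by rw [← Real.exp_add]; simp
    have h3 : Real.exp (K * x) - 1 ≤ K * x * Real.exp (K * x) := by linarith
    have h4 : ε / K * (Real.exp (K * x) - 1) ≤ ε / K * (K * x * Real.exp (K * x)) :=
      mul_le_mul_of_nonneg_left h3 (by positivity)
    have h5 : ε / K * (K * x * Real.exp (K * x)) = ε * x * Real.exp (K * x) := by
      field_simp
    rw [h5] at h4
    nlinarith only [h4]

/-- for a negative rate -/
theorem gronwallBound_neg_le {δ k ε x : ℝ} (hk : 0 < k) (hε : 0 ≤ ε) :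
    gronwallBound δ (-k) ε x ≤ δ * Real.exp (-k * x) + ε / k := by
  rw [gronwallBound_of_K_ne_0 (by linarith : -k ≠ 0)]
  show δ * Real.exp (-k * x) + ε / -k * (Real.exp (-k * x) - 1) ≤ _
  have h1 : ε / -k * (Real.exp (-k * x) - 1) = ε / k - ε / k * Real.exp (-k * x) := by
    rw [div_neg]; ring
  rw [h1]
  have : 0 ≤ ε / k * Real.exp (-k * x) := by positivity
  linarith only [this]

section slow

variable {E F : Type*} [NormedAddCommGroup E] [NormedSpace ℝ E] [NormedAddCommGroup F]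
  [NormedSpace ℝ F] {V : ℝ → E} {Z : ℝ → F} {gV : ℝ → E} {gZ : ℝ → F} {ω K B L : ℝ}

/-- SLOW 1: the total size stays bounded, the fast variable enters with the weight `2B/ω`. -/
theorem slow1 (hω : 0 < ω) (hK : 0 ≤ K) (hB : 0 ≤ B) (hBω : 4 * B ≤ ω)
    (hV : ∀ x ∈ Icc 0 L, HasDerivAt V (gV x) x)
    (hZ : ∀ x ∈ Icc 0 L, HasDerivAt Z (-(ω • Z x) + gZ x) x)
    (hgV : ∀ x ∈ Icc 0 L, ‖gV x‖ ≤ K * ‖V x‖ + B * ‖Z x‖)
    (hgZ : ∀ x ∈ Icc 0 L, ‖gZ x‖ ≤ B * ‖V x‖ + B * ‖Z x‖) :
    ∀ x ∈ Icc 0 L, ‖V x‖ + 2 * B / ω * ‖Z x‖ ≤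
      (‖V 0‖ + 2 * B / ω * ‖Z 0‖) * Real.exp ((K + 2 * B / ω * B) * L) := by
  intro x hx
  have hθ : 0 ≤ 2 * B / ω := by (clear * - hB hω; positivity)
  have hθ2 : 2 * B / ω ≤ 1 / 2 := by rw [div_le_div_iff₀ hω (by norm_num)]; linarith only [hBω]
  have hθω : 2 * B / ω * ω = 2 * B := by field_simp
  have h1 := gronwall_two (V := V) (Z := Z) (gV := gV) (gZ := gZ) (a := 0) (b := L) (ωV := 0)
    (ωZ := ω) (θ := 2 * B / ω) (K := K + 2 * B / ω * B) (ε := 0) hθ
    (by simpa only [mem_Icc, zero_smul, neg_zero, zero_add, and_imp] using hV) hZ (by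
      intro y hy
      have hyI : y ∈ Icc 0 L := ⟨hy.1, hy.2.le⟩
      have a1 := hgV y hyI
      have a2 := mul_le_mul_of_nonneg_left (hgZ y hyI) hθ
      have a3 : 2 * B / ω * (-ω * ‖Z y‖ + ‖gZ y‖) = -(2 * B) * ‖Z y‖ + 2 * B / ω * ‖gZ y‖ := by
        have : 2 * B / ω * (-ω * ‖Z y‖ + ‖gZ y‖) =
          -(2 * B / ω * ω) * ‖Z y‖ + 2 * B / ω * ‖gZ y‖ := by ring
        rw [this, hθω]
      rw [a3]
      have a4 : 2 * B / ω * (B * ‖Z y‖) ≤ 1 / 2 * (B * ‖Z y‖) :=
        mul_le_mul_of_nonneg_right hθ2 (by (clear * - hB; positivity))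
      have a5 : 0 ≤ (K + 2 * B / ω * B) * (2 * B / ω * ‖Z y‖) := by (clear * - hK hB hω; positivity)
      have a6 : 0 ≤ B * ‖Z y‖ := by (clear * - hB; positivity)
      linarith) x hx
  have h2 : gronwallBound (‖V 0‖ + 2 * B / ω * ‖Z 0‖) (K + 2 * B / ω * B) 0 (x - 0) ≤
      (‖V 0‖ + 2 * B / ω * ‖Z 0‖) * Real.exp ((K + 2 * B / ω * B) * L) := by
    refine (gronwallBound_le (by (clear * - hK hB hω; positivity)) le_rfl (by simpa only [sub_zero] using hx.1)).trans ?_
    rw [zero_mul, add_zero, sub_zero]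
    refine mul_le_mul_of_nonneg_left (Real.exp_le_exp.2 ?_) (by (clear * - hB hω; positivity))
    exact mul_le_mul_of_nonneg_left hx.2 (by (clear * - hK hB hω; positivity))
  exact h1.trans h2

/-- SLOW 2: the fast variable is slaved. -/
theorem slow2 (hω : 0 < ω) (hK : 0 ≤ K) (hB : 0 ≤ B) (hBω : 4 * B ≤ ω)
    (hV : ∀ x ∈ Icc 0 L, HasDerivAt V (gV x) x)
    (hZ : ∀ x ∈ Icc 0 L, HasDerivAt Z (-(ω • Z x) + gZ x) x)
    (hgV : ∀ x ∈ Icc 0 L, ‖gV x‖ ≤ K * ‖V x‖ + B * ‖Z x‖)
    (hgZ : ∀ x ∈ Icc 0 L, ‖gZ x‖ ≤ B * ‖V x‖ + B * ‖Z x‖) :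
    ∀ x ∈ Icc 0 L, ‖Z x‖ ≤ ‖Z 0‖ * Real.exp (-(ω / 2) * x) +
      2 * B / ω * ((‖V 0‖ + 2 * B / ω * ‖Z 0‖) * Real.exp ((K + 2 * B / ω * B) * L)) := by
  intro x hx
  set S := (‖V 0‖ + 2 * B / ω * ‖Z 0‖) * Real.exp ((K + 2 * B / ω * B) * L) with hS
  have hS0 : 0 ≤ S := by (clear * - hB hω; positivity)
  have hθ : 0 ≤ 2 * B / ω := by (clear * - hB hω; positivity)
  have hVS : ∀ y ∈ Icc 0 L, ‖V y‖ ≤ S := by
    intro y hy
    have := slow1 hω hK hB hBω hV hZ hgV hgZ y hy
    have h0 : 0 ≤ 2 * B / ω * ‖Z y‖ := by (clear * - hB hω; positivity)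
    linarith only [this, h0]
  have h1 := gronwall_two (V := Z) (Z := Z) (gV := gZ) (gZ := gZ) (a := 0) (b := L) (ωV := ω)
    (ωZ := ω) (θ := 0) (K := -(ω / 2)) (ε := B * S) le_rfl hZ hZ (by
      intro y hy
      have hyI : y ∈ Icc 0 L := ⟨hy.1, hy.2.le⟩
      have a2 := hgZ y hyI
      have a3 : B * ‖V y‖ ≤ B * S := mul_le_mul_of_nonneg_left (hVS y hyI) hB
      have a4 : B * ‖Z y‖ ≤ ω / 2 * ‖Z y‖ :=
        mul_le_mul_of_nonneg_right (by linarith only [hω, hBω]) (norm_nonneg _)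
      simp only [zero_mul, add_zero]
      linarith only [a2, a3, a4]) x hx
  simp only [zero_mul, add_zero, sub_zero] at h1
  have h2 := gronwallBound_neg_le (δ := ‖Z 0‖) (k := ω / 2) (ε := B * S) (x := x) (by linarith only [hω])
    (by (clear * - hB hω; positivity))
  have h3 : B * S / (ω / 2) = 2 * B / ω * S := by (clear * - hω; field_simp)
  rw [h3] at h2
  exact h1.trans h2

/-- SLOW 3: a curve driven by the same kind of terms (difference to the ideal system). -/
theorem slow3 {W : ℝ → E} {gW : ℝ → E} {ε : ℝ}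
    (hω : 0 < ω) (hK : 0 ≤ K) (hB : 0 ≤ B) (hBω : 4 * B ≤ ω) (hε : 0 ≤ ε) (hL : 0 ≤ L)
    (hV : ∀ x ∈ Icc 0 L, HasDerivAt V (gV x) x)
    (hZ : ∀ x ∈ Icc 0 L, HasDerivAt Z (-(ω • Z x) + gZ x) x)
    (hgV : ∀ x ∈ Icc 0 L, ‖gV x‖ ≤ K * ‖V x‖ + B * ‖Z x‖)
    (hgZ : ∀ x ∈ Icc 0 L, ‖gZ x‖ ≤ B * ‖V x‖ + B * ‖Z x‖)
    (hW : ∀ x ∈ Icc 0 L, HasDerivAt W (gW x) x) (hW0 : W 0 = 0)
    (hgW : ∀ x ∈ Icc 0 L, ‖gW x‖ ≤ K * ‖W x‖ + ε * ‖V x‖ + B * ‖Z x‖) :
    ∀ x ∈ Icc 0 L, ‖W x‖ ≤ (2 * B / ω * ‖Z 0‖ + (ε + 2 * B / ω * B) *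
      ((‖V 0‖ + 2 * B / ω * ‖Z 0‖) * Real.exp ((K + 2 * B / ω * B) * L)) * L) *
      Real.exp (K * L) := by
  intro x hx
  set S := (‖V 0‖ + 2 * B / ω * ‖Z 0‖) * Real.exp ((K + 2 * B / ω * B) * L) with hS
  have hS0 : 0 ≤ S := by (clear * - hB hω; positivity)
  have hθ : 0 ≤ 2 * B / ω := by (clear * - hB hω; positivity)
  have hθ2 : 2 * B / ω ≤ 1 / 2 := by rw [div_le_div_iff₀ hω (by norm_num)]; linarith only [hBω]
  have hθω : 2 * B / ω * ω = 2 * B := by (clear * - hω; field_simp)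
  have hVS : ∀ y ∈ Icc 0 L, ‖V y‖ ≤ S := by
    intro y hy
    have := slow1 hω hK hB hBω hV hZ hgV hgZ y hy
    have h0 : 0 ≤ 2 * B / ω * ‖Z y‖ := by (clear * - hB hω; positivity)
    linarith only [this, h0]
  have h1 := gronwall_two (V := W) (Z := Z) (gV := gW) (gZ := gZ) (a := 0) (b := L) (ωV := 0)
    (ωZ := ω) (θ := 2 * B / ω) (K := K) (ε := (ε + 2 * B / ω * B) * S) hθ
    (by simpa only [mem_Icc, zero_smul, neg_zero, zero_add, and_imp] using hW) hZ (by
      intro y hy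
      have hyI : y ∈ Icc 0 L := ⟨hy.1, hy.2.le⟩
      have a1 := hgW y hyI
      have a2 := mul_le_mul_of_nonneg_left (hgZ y hyI) hθ
      have a3 : 2 * B / ω * (-ω * ‖Z y‖ + ‖gZ y‖) = -(2 * B) * ‖Z y‖ + 2 * B / ω * ‖gZ y‖ := by
        have : 2 * B / ω * (-ω * ‖Z y‖ + ‖gZ y‖) =
          -(2 * B / ω * ω) * ‖Z y‖ + 2 * B / ω * ‖gZ y‖ := by ring
        rw [this, hθω]
      rw [a3]
      have a4 : 2 * B / ω * (B * ‖Z y‖) ≤ 1 / 2 * (B * ‖Z y‖) :=
        mul_le_mul_of_nonneg_right hθ2 (by (clear * - hB; positivity))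
      have a5 : 0 ≤ K * (2 * B / ω * ‖Z y‖) := by (clear * - hK hB hω; positivity)
      have a6 : 0 ≤ B * ‖Z y‖ := by (clear * - hB; positivity)
      have a7 : (ε + 2 * B / ω * B) * ‖V y‖ ≤ (ε + 2 * B / ω * B) * S :=
        mul_le_mul_of_nonneg_left (hVS y hyI) (by (clear * - hε hB hω; positivity))
      linarith only [a7, a6, a5, a4, a2, a1]) x hx
  have h2 : gronwallBound (‖W 0‖ + 2 * B / ω * ‖Z 0‖) K ((ε + 2 * B / ω * B) * S) (x - 0) ≤
      (2 * B / ω * ‖Z 0‖ + (ε + 2 * B / ω * B) * S * L) * Real.exp (K * L) := by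
    refine (gronwallBound_le hK (by (clear * - hε hB hω; positivity)) (by simpa only [sub_zero] using hx.1)).trans ?_
    rw [hW0, norm_zero, zero_add, sub_zero]
    refine mul_le_mul ?_ (Real.exp_le_exp.2 (mul_le_mul_of_nonneg_left hx.2 hK))
      (Real.exp_pos _).le (by (clear * - hB hω hε hL; positivity))
    have : (ε + 2 * B / ω * B) * S * x ≤ (ε + 2 * B / ω * B) * S * L :=
      mul_le_mul_of_nonneg_left hx.2 (by (clear * - hε hB hω; positivity))
    linarith only [this]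
  have h3 : 0 ≤ 2 * B / ω * ‖Z x‖ := by (clear * - hB hω; positivity)
  linarith only [h1, h2, h3]

end slow

end Vale.Agent.P225.B2
end
end

section

section

/-!
# P225, design B, part B2: one system and pairs of systems (size and Lipschitz estimates)
-/

open Set Filter Topology

namespace Vale.Agent.P225.B2

/-- a two-speed system: `V' = A V + b Z`, `Z' = -ω Z + c V + e Z`, ideal system `V₀' = A₀ V₀`. -/
structure Sys (V : Type*) [NormedAddCommGroup V] [NormedSpace ℝ V] where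
  /-- slow coefficient -/
  A : ℝ → V →L[ℝ] V
  /-- ideal slow coefficient -/
  A0 : ℝ → V →L[ℝ] V
  /-- coupling -/
  b : ℝ → V →L[ℝ] V
  /-- coupling -/
  c : ℝ → V →L[ℝ] V
  /-- perturbation of the fast coefficient -/
  e : ℝ → V →L[ℝ] V

variable {V : Type*} [NormedAddCommGroup V] [NormedSpace ℝ V]

/-- bounds for one system -/
structure Sys.Bd (S : Sys V) (K B ε L : ℝ) : Prop where
  A : ∀ x ∈ Icc 0 L, ‖S.A x‖ ≤ K
  A0 : ∀ x ∈ Icc 0 L, ‖S.A0 x‖ ≤ K
  AA : ∀ x ∈ Icc 0 L, ‖S.A x - S.A0 x‖ ≤ ε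
  b : ∀ x ∈ Icc 0 L, ‖S.b x‖ ≤ B
  c : ∀ x ∈ Icc 0 L, ‖S.c x‖ ≤ B
  e : ∀ x ∈ Icc 0 L, ‖S.e x‖ ≤ B

/-- bounds for the difference of two systems -/
structure Sys.Bd2 (S T : Sys V) (K B ε L ρ : ℝ) : Prop where
  A : ∀ x ∈ Icc 0 L, ‖S.A x - T.A x‖ ≤ K * ρ
  A0 : ∀ x ∈ Icc 0 L, ‖S.A0 x - T.A0 x‖ ≤ K * ρ
  AA : ∀ x ∈ Icc 0 L, ‖(S.A x - T.A x) - (S.A0 x - T.A0 x)‖ ≤ ε * ρ
  b : ∀ x ∈ Icc 0 L, ‖S.b x - T.b x‖ ≤ B * ρ
  c : ∀ x ∈ Icc 0 L, ‖S.c x - T.c x‖ ≤ B * ρ
  e : ∀ x ∈ Icc 0 L, ‖S.e x - T.e x‖ ≤ B * ρ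

/-- solutions -/
structure Sys.IsSol (S : Sys V) (ω L : ℝ) (v z v0 : ℝ → V) : Prop where
  dv : ∀ x ∈ Icc 0 L, HasDerivAt v (S.A x (v x) + S.b x (z x)) x
  dz : ∀ x ∈ Icc 0 L, HasDerivAt z (-(ω • z x) + (S.c x (v x) + S.e x (z x))) x
  d0 : ∀ x ∈ Icc 0 L, HasDerivAt v0 (S.A0 x (v0 x)) x
  i0 : v0 0 = v 0

/-- the constant of the SLOW estimates -/
noncomputable def Cslow (K L : ℝ) : ℝ :=
  (1 + 6 * L * Real.exp ((2 * K + 1) * L)) * Real.exp (2 * K * L) +
    (1 + 2 * Real.exp ((2 * K + 1) * L))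

theorem Cslow_pos {K L : ℝ} (hL : 0 ≤ L) : 0 < Cslow K L := by
  unfold Cslow; positivity

theorem app_le {T : V →L[ℝ] V} {k : ℝ} (h : ‖T‖ ≤ k) (v : V) : ‖T v‖ ≤ k * ‖v‖ :=
  (T.le_opNorm v).trans (mul_le_mul_of_nonneg_right h (norm_nonneg _))

theorem slow_final {S T : Sys V} {K B ε L ρ μ ω N : ℝ} {v z v0 v' z' v0' : ℝ → V}
    (hK : 0 ≤ K) (hB : 0 ≤ B) (hε : 0 ≤ ε) (hL : 0 ≤ L) (hρ : 0 ≤ ρ) (hμ : 0 ≤ μ) (hμ1 : μ ≤ 1)
    (hω : 0 < ω) (hBω : 8 * B ≤ ω) (h1 : 4 * B / ω ≤ μ) (h2 : 4 * B / ω * (2 * B) ≤ μ)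
    (h3 : ε ≤ μ)
    (hS : S.Bd K B ε L) (hT : T.Bd K B ε L) (hST : S.Bd2 T K B ε L ρ)
    (hs : S.IsSol ω L v z v0) (hs' : T.IsSol ω L v' z' v0')
    (hv : v' 0 = v 0) (hz : z' 0 = z 0) (hN : ‖v 0‖ ≤ N) (hzN : ‖z 0‖ ≤ μ * N) :
    ‖(v L - v' L) - (v0 L - v0' L)‖ ≤ Cslow K L * μ * (ρ * N) ∧
      ‖z L - z' L‖ ≤ Cslow K L * μ * (ρ * N) := by
  have hN0 : 0 ≤ N := (norm_nonneg _).trans hN
  have hLL : L ∈ Icc 0 L := ⟨hL, le_rfl⟩
  -- the doubled curves
  have dV : ∀ x ∈ Icc 0 L, HasDerivAt (fun x => (v x - v' x, ρ • v' x))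
      ((S.A x (v x) + S.b x (z x)) - (T.A x (v' x) + T.b x (z' x)),
        ρ • (T.A x (v' x) + T.b x (z' x))) x := fun x hx =>
    ((hs.dv x hx).sub (hs'.dv x hx)).prodMk ((hs'.dv x hx).const_smul ρ)
  have dZ : ∀ x ∈ Icc 0 L, HasDerivAt (fun x => (z x - z' x, ρ • z' x))
      (-(ω • (z x - z' x, ρ • z' x)) + ((S.c x (v x) + S.e x (z x)) - (T.c x (v' x) +
        T.e x (z' x)), ρ • (T.c x (v' x) + T.e x (z' x)))) x := fun x hx =>
    (((hs.dz x hx).sub (hs'.dz x hx)).prodMk ((hs'.dz x hx).const_smul ρ)).congr_deriv (by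
      simp only [Prod.smul_mk, Prod.neg_mk, Prod.mk_add_mk, smul_sub, smul_add, smul_neg,
        smul_comm ρ ω, Prod.mk.injEq, and_true]
      abel)
  have dW : ∀ x ∈ Icc 0 L, HasDerivAt (fun x => ((v x - v' x) - (v0 x - v0' x),
      ρ • (v' x - v0' x)))
      (((S.A x (v x) + S.b x (z x)) - (T.A x (v' x) + T.b x (z' x))) -
        (S.A0 x (v0 x) - T.A0 x (v0' x)),
        ρ • ((T.A x (v' x) + T.b x (z' x)) - T.A0 x (v0' x))) x := fun x hx =>
    (((hs.dv x hx).sub (hs'.dv x hx)).sub ((hs.d0 x hx).sub (hs'.d0 x hx))).prodMk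
      (((hs'.dv x hx).sub (hs'.d0 x hx)).const_smul ρ)
  have nV1 : ∀ x, ‖v x - v' x‖ ≤ ‖(v x - v' x, ρ • v' x)‖ := fun x =>
    norm_fst_le (v x - v' x, ρ • v' x)
  have nV2 : ∀ x, ρ * ‖v' x‖ ≤ ‖(v x - v' x, ρ • v' x)‖ := fun x => by
    have := norm_snd_le (v x - v' x, ρ • v' x)
    simpa [norm_smul, abs_of_nonneg hρ] using this
  have nZ1 : ∀ x, ‖z x - z' x‖ ≤ ‖(z x - z' x, ρ • z' x)‖ := fun x =>
    norm_fst_le (z x - z' x, ρ • z' x)
  have nZ2 : ∀ x, ρ * ‖z' x‖ ≤ ‖(z x - z' x, ρ • z' x)‖ := fun x => by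
    have := norm_snd_le (z x - z' x, ρ • z' x)
    simpa [norm_smul, abs_of_nonneg hρ] using this
  -- first components of the increments
  have key : ∀ (P P' : V →L[ℝ] V) (k : ℝ) (a a' : V) (X : ℝ), ‖P‖ ≤ k → ‖P - P'‖ ≤ k * ρ →
      0 ≤ k → ‖a - a'‖ ≤ X → ρ * ‖a'‖ ≤ X → ‖P a - P' a'‖ ≤ 2 * k * X := by
    intro P P' k a a' X hP hPP hk ha ha'
    have e1 : P a - P' a' = P (a - a') + (P - P') a' := by
      simp only [map_sub, sub_apply]; abel
    rw [e1]
    have e2 := app_le hP (a - a')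
    have e3 := app_le hPP a'
    have e4 : k * ‖a - a'‖ ≤ k * X := mul_le_mul_of_nonneg_left ha hk
    have e5 : k * ρ * ‖a'‖ ≤ k * X := by
      rw [mul_assoc]; exact mul_le_mul_of_nonneg_left ha' hk
    have e6 := norm_add_le (P (a - a')) ((P - P') a')
    linarith only [e2, e3, e4, e5, e6]
  have key2 : ∀ (P : V →L[ℝ] V) (k : ℝ) (a' : V) (X : ℝ), ‖P‖ ≤ k → 0 ≤ k →
      ρ * ‖a'‖ ≤ X → ‖ρ • P a'‖ ≤ k * X := by
    intro P k a' X hP hk ha'
    rw [norm_smul, Real.norm_of_nonneg hρ]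
    have e3 := app_le hP a'
    calc ρ * ‖P a'‖ ≤ ρ * (k * ‖a'‖) := mul_le_mul_of_nonneg_left e3 hρ
      _ = k * (ρ * ‖a'‖) := by ring
      _ ≤ k * X := mul_le_mul_of_nonneg_left ha' hk
  have gV : ∀ x ∈ Icc 0 L, ‖((S.A x (v x) + S.b x (z x)) - (T.A x (v' x) + T.b x (z' x)),
        ρ • (T.A x (v' x) + T.b x (z' x)))‖ ≤
      (2 * K) * ‖(v x - v' x, ρ • v' x)‖ + (2 * B) * ‖(z x - z' x, ρ • z' x)‖ := by
    intro x hx
    refine norm_prod_le_iff.2 ⟨?_, ?_⟩
    · have a1 := key _ _ K _ _ _ (hS.A x hx) (hST.A x hx) hK (nV1 x) (nV2 x)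
      have a2 := key _ _ B _ _ _ (hS.b x hx) (hST.b x hx) hB (nZ1 x) (nZ2 x)
      have e1 : (S.A x (v x) + S.b x (z x)) - (T.A x (v' x) + T.b x (z' x)) =
        (S.A x (v x) - T.A x (v' x)) + (S.b x (z x) - T.b x (z' x)) := by abel
      simp only [e1]
      exact (norm_add_le _ _).trans (add_le_add a1 a2)
    · have a1 := key2 _ K _ _ (hT.A x hx) hK (nV2 x)
      have a2 := key2 _ B _ _ (hT.b x hx) hB (nZ2 x)
      simp only [smul_add]
      have a3 : 0 ≤ K * ‖(v x - v' x, ρ • v' x)‖ := by (clear * - hK; positivity)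
      have a4 : 0 ≤ B * ‖(z x - z' x, ρ • z' x)‖ := by (clear * - hB; positivity)
      refine (norm_add_le _ _).trans ?_
      linarith only [a1, a2, a3, a4]
  have gZ : ∀ x ∈ Icc 0 L, ‖((S.c x (v x) + S.e x (z x)) - (T.c x (v' x) + T.e x (z' x)),
        ρ • (T.c x (v' x) + T.e x (z' x)))‖ ≤
      (2 * B) * ‖(v x - v' x, ρ • v' x)‖ + (2 * B) * ‖(z x - z' x, ρ • z' x)‖ := by
    intro x hx
    refine norm_prod_le_iff.2 ⟨?_, ?_⟩
    · have a1 := key _ _ B _ _ _ (hS.c x hx) (hST.c x hx) hB (nV1 x) (nV2 x)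
      have a2 := key _ _ B _ _ _ (hS.e x hx) (hST.e x hx) hB (nZ1 x) (nZ2 x)
      have e1 : (S.c x (v x) + S.e x (z x)) - (T.c x (v' x) + T.e x (z' x)) =
        (S.c x (v x) - T.c x (v' x)) + (S.e x (z x) - T.e x (z' x)) := by abel
      simp only [e1]
      exact (norm_add_le _ _).trans (add_le_add a1 a2)
    · have a1 := key2 _ B _ _ (hT.c x hx) hB (nV2 x)
      have a2 := key2 _ B _ _ (hT.e x hx) hB (nZ2 x)
      simp only [smul_add]
      have a3 : 0 ≤ B * ‖(v x - v' x, ρ • v' x)‖ := by (clear * - hB; positivity)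
      have a4 : 0 ≤ B * ‖(z x - z' x, ρ • z' x)‖ := by (clear * - hB; positivity)
      refine (norm_add_le _ _).trans ?_
      linarith only [a1, a2, a3, a4]
  have gW : ∀ x ∈ Icc 0 L, ‖(((S.A x (v x) + S.b x (z x)) - (T.A x (v' x) + T.b x (z' x))) -
        (S.A0 x (v0 x) - T.A0 x (v0' x)),
        ρ • ((T.A x (v' x) + T.b x (z' x)) - T.A0 x (v0' x)))‖ ≤
      (2 * K) * ‖((v x - v' x) - (v0 x - v0' x), ρ • (v' x - v0' x))‖ +
        (2 * ε) * ‖(v x - v' x, ρ • v' x)‖ + (2 * B) * ‖(z x - z' x, ρ • z' x)‖ := by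
    intro x hx
    have nW1 : ‖(v x - v' x) - (v0 x - v0' x)‖ ≤
      ‖((v x - v' x) - (v0 x - v0' x), ρ • (v' x - v0' x))‖ :=
      norm_fst_le ((v x - v' x) - (v0 x - v0' x), ρ • (v' x - v0' x))
    have nW2 : ρ * ‖v' x - v0' x‖ ≤
      ‖((v x - v' x) - (v0 x - v0' x), ρ • (v' x - v0' x))‖ := by
      have := norm_snd_le ((v x - v' x) - (v0 x - v0' x), ρ • (v' x - v0' x))
      simpa [norm_smul, abs_of_nonneg hρ] using this
    refine norm_prod_le_iff.2 ⟨?_, ?_⟩
    · have a2 := key _ _ B _ _ _ (hS.b x hx) (hST.b x hx) hB (nZ1 x) (nZ2 x)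
      have b1 := app_le (hS.A0 x hx) ((v x - v' x) - (v0 x - v0' x))
      have b2 := app_le (hST.A0 x hx) (v' x - v0' x)
      have b3 := app_le (hS.AA x hx) (v x - v' x)
      have b4 := app_le (hST.AA x hx) (v' x)
      have c1 : K * ‖(v x - v' x) - (v0 x - v0' x)‖ ≤
        K * ‖((v x - v' x) - (v0 x - v0' x), ρ • (v' x - v0' x))‖ :=
        mul_le_mul_of_nonneg_left nW1 hK
      have c2 : K * ρ * ‖v' x - v0' x‖ ≤
        K * ‖((v x - v' x) - (v0 x - v0' x), ρ • (v' x - v0' x))‖ := by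
        rw [mul_assoc]; exact mul_le_mul_of_nonneg_left nW2 hK
      have c3 : ε * ‖v x - v' x‖ ≤ ε * ‖(v x - v' x, ρ • v' x)‖ :=
        mul_le_mul_of_nonneg_left (nV1 x) hε
      have c4 : ε * ρ * ‖v' x‖ ≤ ε * ‖(v x - v' x, ρ • v' x)‖ := by
        rw [mul_assoc]; exact mul_le_mul_of_nonneg_left (nV2 x) hε
      have e1 : ((S.A x (v x) + S.b x (z x)) - (T.A x (v' x) + T.b x (z' x))) -
        (S.A0 x (v0 x) - T.A0 x (v0' x)) =
        ((S.A0 x ((v x - v' x) - (v0 x - v0' x)) + (S.A0 x - T.A0 x) (v' x - v0' x)) +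
        ((S.A x - S.A0 x) (v x - v' x) + ((S.A x - T.A x) - (S.A0 x - T.A0 x)) (v' x))) +
        (S.b x (z x) - T.b x (z' x)) := by
        simp only [map_sub, sub_apply]; abel
      simp only [e1]
      refine (norm_add_le _ _).trans ?_
      refine (add_le_add ((norm_add_le _ _).trans (add_le_add (norm_add_le _ _)
        (norm_add_le _ _))) a2).trans ?_
      linarith only [b1, b2, b3, b4, c1, c2, c3, c4]
    · have a2 := key2 _ B _ _ (hT.b x hx) hB (nZ2 x)
      have b1 := key2 _ K _ _ (hT.A0 x hx) hK nW2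
      have b2 := key2 _ ε _ _ (hT.AA x hx) hε (nV2 x)
      have e1 : ρ • ((T.A x (v' x) + T.b x (z' x)) - T.A0 x (v0' x)) =
        (ρ • T.A0 x (v' x - v0' x) + ρ • (T.A x - T.A0 x) (v' x)) + ρ • T.b x (z' x) := by
        simp only [smul_sub, smul_add, map_sub, sub_apply]; abel
      simp only [e1]
      refine (norm_add_le _ _).trans ?_
      refine (add_le_add (norm_add_le _ _) le_rfl).trans ?_
      have a3 : 0 ≤ K * ‖((v x - v' x) - (v0 x - v0' x), ρ • (v' x - v0' x))‖ := by (clear * - hK; positivity)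
      have a4 : 0 ≤ B * ‖(z x - z' x, ρ • z' x)‖ := by (clear * - hB; positivity)
      have a5 : 0 ≤ ε * ‖(v x - v' x, ρ • v' x)‖ := by (clear * - hε; positivity)
      linarith only [a2, b1, b2, a3, a4, a5]
  -- initial sizes
  have i1 : ‖(v 0 - v' 0, ρ • v' 0)‖ ≤ ρ * N := by
    refine norm_prod_le_iff.2 ⟨?_, ?_⟩
    · simp only [hv, sub_self, norm_zero]; (clear * - hρ hN0; positivity)
    · simp only [hv, norm_smul, Real.norm_of_nonneg hρ]
      exact mul_le_mul_of_nonneg_left hN hρ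
  have i2 : ‖(z 0 - z' 0, ρ • z' 0)‖ ≤ μ * (ρ * N) := by
    refine norm_prod_le_iff.2 ⟨?_, ?_⟩
    · simp only [hz, sub_self, norm_zero]; (clear * - hμ hρ hN0; positivity)
    · simp only [hz, norm_smul, Real.norm_of_nonneg hρ]
      calc ρ * ‖z 0‖ ≤ ρ * (μ * N) := mul_le_mul_of_nonneg_left hzN hρ
        _ = μ * (ρ * N) := by ring
  have hθ : 2 * (2 * B) / ω ≤ μ := by
    have : 2 * (2 * B) / ω = 4 * B / ω := by ring
    rw [this]; exact h1
  have hθ0 : 0 ≤ 2 * (2 * B) / ω := by (clear * - hB hω; positivity)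
  have hθB : 2 * (2 * B) / ω * (2 * B) ≤ μ := by
    have : 2 * (2 * B) / ω = 4 * B / ω := by ring
    rw [this]; exact h2
  have hM0 : 0 ≤ ρ * N := by (clear * - hρ hN0; positivity)
  have hsz : ‖(v 0 - v' 0, ρ • v' 0)‖ + 2 * (2 * B) / ω * ‖(z 0 - z' 0, ρ • z' 0)‖ ≤
      2 * (ρ * N) := by
    have : 2 * (2 * B) / ω * ‖(z 0 - z' 0, ρ • z' 0)‖ ≤ 1 * (1 * (ρ * N)) := by
      refine mul_le_mul (hθ.trans hμ1) (i2.trans ?_) (norm_nonneg _) zero_le_one
      exact mul_le_mul_of_nonneg_right hμ1 hM0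
    linarith only [i1, this]
  have hexp : Real.exp ((2 * K + 2 * (2 * B) / ω * (2 * B)) * L) ≤
      Real.exp ((2 * K + 1) * L) := by
    refine Real.exp_le_exp.2 (mul_le_mul_of_nonneg_right ?_ hL)
    linarith only [hμ1, hθB]
  have hSS : (‖(v 0 - v' 0, ρ • v' 0)‖ + 2 * (2 * B) / ω * ‖(z 0 - z' 0, ρ • z' 0)‖) *
      Real.exp ((2 * K + 2 * (2 * B) / ω * (2 * B)) * L) ≤
      2 * (ρ * N) * Real.exp ((2 * K + 1) * L) :=
    mul_le_mul hsz hexp (Real.exp_pos _).le (by (clear * - hρ hN0; positivity))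
  constructor
  · have r := slow3 (V := fun x => (v x - v' x, ρ • v' x))
      (Z := fun x => (z x - z' x, ρ • z' x)) (K := 2 * K) (B := 2 * B) (ε := 2 * ε) (L := L)
      (W := fun x => ((v x - v' x) - (v0 x - v0' x), ρ • (v' x - v0' x)))
      hω (by (clear * - hK; positivity)) (by (clear * - hB; positivity)) (by linarith only [hBω]) (by (clear * - hε; positivity)) hL dV dZ gV gZ dW
      (by simp [hs.i0, hs'.i0]) gW L hLL
    have r1 : ‖(v L - v' L) - (v0 L - v0' L)‖ ≤
      ‖((v L - v' L) - (v0 L - v0' L), ρ • (v' L - v0' L))‖ :=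
      norm_fst_le ((v L - v' L) - (v0 L - v0' L), ρ • (v' L - v0' L))
    refine r1.trans (r.trans ?_)
    have t1 : 2 * (2 * B) / ω * ‖(z 0 - z' 0, ρ • z' 0)‖ ≤ μ * (1 * (ρ * N)) :=
      mul_le_mul hθ (i2.trans (mul_le_mul_of_nonneg_right hμ1 hM0)) (norm_nonneg _) hμ
    have t2 : (2 * ε + 2 * (2 * B) / ω * (2 * B)) ≤ 3 * μ := by linarith only [h3, hθB]
    have t3 : (2 * ε + 2 * (2 * B) / ω * (2 * B)) *
        ((‖(v 0 - v' 0, ρ • v' 0)‖ + 2 * (2 * B) / ω * ‖(z 0 - z' 0, ρ • z' 0)‖) *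
      Real.exp ((2 * K + 2 * (2 * B) / ω * (2 * B)) * L)) ≤
        3 * μ * (2 * (ρ * N) * Real.exp ((2 * K + 1) * L)) :=
      mul_le_mul t2 hSS (by (clear * - hB hω; positivity)) (by (clear * - hμ; positivity))
    have t4 := mul_le_mul_of_nonneg_right t3 hL
    have t5 : (2 * (2 * B) / ω * ‖(z 0 - z' 0, ρ • z' 0)‖ +
        (2 * ε + 2 * (2 * B) / ω * (2 * B)) *
        ((‖(v 0 - v' 0, ρ • v' 0)‖ + 2 * (2 * B) / ω * ‖(z 0 - z' 0, ρ • z' 0)‖) *
      Real.exp ((2 * K + 2 * (2 * B) / ω * (2 * B)) * L)) * L) ≤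
      (1 + 6 * L * Real.exp ((2 * K + 1) * L)) * (μ * (ρ * N)) := by
      have : (1 + 6 * L * Real.exp ((2 * K + 1) * L)) * (μ * (ρ * N)) =
        μ * (1 * (ρ * N)) + 3 * μ * (2 * (ρ * N) * Real.exp ((2 * K + 1) * L)) * L := by ring
      rw [this]; exact add_le_add t1 t4
    have t6 := mul_le_mul_of_nonneg_right t5 (Real.exp_pos (2 * K * L)).le
    refine t6.trans ?_
    have t7 : 0 ≤ (1 + 2 * Real.exp ((2 * K + 1) * L)) * (μ * (ρ * N)) := by (clear * - hμ hρ hN0; positivity)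
    unfold Cslow
    nlinarith only [t7]
  · have r := slow2 (V := fun x => (v x - v' x, ρ • v' x))
      (Z := fun x => (z x - z' x, ρ • z' x)) (K := 2 * K) (B := 2 * B) (L := L)
      hω (by (clear * - hK; positivity)) (by (clear * - hB; positivity)) (by linarith only [hBω]) dV dZ gV gZ L hLL
    refine (nZ1 L).trans (r.trans ?_)
    have t1 : ‖(z 0 - z' 0, ρ • z' 0)‖ * Real.exp (-(ω / 2) * L) ≤ μ * (ρ * N) * 1 := by
      refine mul_le_mul i2 ?_ (Real.exp_pos _).le (by (clear * - hμ hρ hN0; positivity))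
      rw [← Real.exp_zero]
      exact Real.exp_le_exp.2 (by nlinarith only [hL, hω])
    have t2 := mul_le_mul hθ hSS (by (clear * - hB hω; positivity)) hμ
    have t3 : 0 ≤ (1 + 6 * L * Real.exp ((2 * K + 1) * L)) * Real.exp (2 * K * L) *
      (μ * (ρ * N)) := by (clear * - hL hμ hρ hN0; positivity)
    unfold Cslow
    linarith only [t3, t2, t1]

/-- size estimate for one system -/
theorem slow_single {S : Sys V} {K B ε L μ ω N : ℝ} {v z v0 : ℝ → V}
    (hK : 0 ≤ K) (hB : 0 ≤ B) (hε : 0 ≤ ε) (hL : 0 ≤ L) (hμ : 0 ≤ μ) (hμ1 : μ ≤ 1)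
    (hω : 0 < ω) (hBω : 8 * B ≤ ω) (h1 : 4 * B / ω ≤ μ) (h2 : 4 * B / ω * (2 * B) ≤ μ)
    (h3 : ε ≤ μ) (hS : S.Bd K B ε L) (hs : S.IsSol ω L v z v0)
    (hN : ‖v 0‖ ≤ N) (hzN : ‖z 0‖ ≤ μ * N) :
    ‖v L - v0 L‖ ≤ Cslow K L * μ * N ∧ ‖z L‖ ≤ Cslow K L * μ * N := by
  have hN0 : 0 ≤ N := (norm_nonneg _).trans hN
  have hLL : L ∈ Icc 0 L := ⟨hL, le_rfl⟩
  have dW : ∀ x ∈ Icc 0 L, HasDerivAt (fun x => v x - v0 x)
      ((S.A x (v x) + S.b x (z x)) - S.A0 x (v0 x)) x := fun x hx =>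
    (hs.dv x hx).sub (hs.d0 x hx)
  have gV : ∀ x ∈ Icc 0 L, ‖S.A x (v x) + S.b x (z x)‖ ≤ K * ‖v x‖ + B * ‖z x‖ := fun x hx =>
    (norm_add_le _ _).trans (add_le_add (app_le (hS.A x hx) _) (app_le (hS.b x hx) _))
  have gZ : ∀ x ∈ Icc 0 L, ‖S.c x (v x) + S.e x (z x)‖ ≤ B * ‖v x‖ + B * ‖z x‖ := fun x hx =>
    (norm_add_le _ _).trans (add_le_add (app_le (hS.c x hx) _) (app_le (hS.e x hx) _))
  have gW : ∀ x ∈ Icc 0 L, ‖(S.A x (v x) + S.b x (z x)) - S.A0 x (v0 x)‖ ≤
      K * ‖v x - v0 x‖ + ε * ‖v x‖ + B * ‖z x‖ := by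
    intro x hx
    have e1 : (S.A x (v x) + S.b x (z x)) - S.A0 x (v0 x) =
      S.A0 x (v x - v0 x) + (S.A x - S.A0 x) (v x) + S.b x (z x) := by
      simp only [map_sub, sub_apply]; abel
    rw [e1]
    exact (norm_add_le _ _).trans (add_le_add ((norm_add_le _ _).trans
      (add_le_add (app_le (hS.A0 x hx) _) (app_le (hS.AA x hx) _))) (app_le (hS.b x hx) _))
  have hθ0 : 0 ≤ 2 * B / ω := by (clear * - hB hω; positivity)
  have hθ : 2 * B / ω ≤ μ := by
    have : 4 * B / ω = 2 * (2 * B / ω) := by ring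
    linarith only [hμ, h1, this]
  have hθB : 2 * B / ω * B ≤ μ := by
    have e : 4 * B / ω * (2 * B) = 4 * (2 * B / ω * B) := by ring
    have e2 : 0 ≤ 2 * B / ω * B := by (clear * - hB hω; positivity)
    linarith only [hμ, h2, e]
  have hsz : ‖v 0‖ + 2 * B / ω * ‖z 0‖ ≤ 2 * N := by
    have : 2 * B / ω * ‖z 0‖ ≤ 1 * (1 * N) := by
      refine mul_le_mul (hθ.trans hμ1) (hzN.trans ?_) (norm_nonneg _) zero_le_one
      exact mul_le_mul_of_nonneg_right hμ1 hN0
    linarith only [hN, this]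
  have hexp : Real.exp ((K + 2 * B / ω * B) * L) ≤ Real.exp ((2 * K + 1) * L) := by
    refine Real.exp_le_exp.2 (mul_le_mul_of_nonneg_right ?_ hL)
    linarith only [hK, hμ1, hθB]
  have hSS : (‖v 0‖ + 2 * B / ω * ‖z 0‖) * Real.exp ((K + 2 * B / ω * B) * L) ≤
      2 * N * Real.exp ((2 * K + 1) * L) :=
    mul_le_mul hsz hexp (Real.exp_pos _).le (by (clear * - hN0; positivity))
  constructor
  · have r := slow3 (V := v) (Z := z) (K := K) (B := B) (ε := ε) (L := L)
      (W := fun x => v x - v0 x)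
      hω hK hB (by linarith only [hω, hBω]) hε hL hs.dv hs.dz gV gZ dW
      (by simp [hs.i0]) gW L hLL
    refine r.trans ?_
    have t1 : 2 * B / ω * ‖z 0‖ ≤ μ * (1 * N) :=
      mul_le_mul hθ (hzN.trans (mul_le_mul_of_nonneg_right hμ1 hN0)) (norm_nonneg _) hμ
    have t2 : (ε + 2 * B / ω * B) ≤ 3 * μ := by linarith only [hμ, h3, hθB]
    have t3 : (ε + 2 * B / ω * B) * ((‖v 0‖ + 2 * B / ω * ‖z 0‖) *
      Real.exp ((K + 2 * B / ω * B) * L)) ≤ 3 * μ * (2 * N * Real.exp ((2 * K + 1) * L)) :=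
      mul_le_mul t2 hSS (by (clear * - hB hω; positivity)) (by (clear * - hμ; positivity))
    have t4 := mul_le_mul_of_nonneg_right t3 hL
    have t5 : (2 * B / ω * ‖z 0‖ + (ε + 2 * B / ω * B) * ((‖v 0‖ + 2 * B / ω * ‖z 0‖) *
      Real.exp ((K + 2 * B / ω * B) * L)) * L) ≤
      (1 + 6 * L * Real.exp ((2 * K + 1) * L)) * (μ * N) := by
      have : (1 + 6 * L * Real.exp ((2 * K + 1) * L)) * (μ * N) =
        μ * (1 * N) + 3 * μ * (2 * N * Real.exp ((2 * K + 1) * L)) * L := by ring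
      rw [this]; exact add_le_add t1 t4
    have hexp2 : Real.exp (K * L) ≤ Real.exp (2 * K * L) :=
      Real.exp_le_exp.2 (mul_le_mul_of_nonneg_right (by linarith only [hK]) hL)
    have t6 := mul_le_mul t5 hexp2 (Real.exp_pos _).le (by (clear * - hL hμ hN0; positivity))
    refine t6.trans ?_
    have t7 : 0 ≤ (1 + 2 * Real.exp ((2 * K + 1) * L)) * (μ * N) := by (clear * - hμ hN0; positivity)
    unfold Cslow
    nlinarith only [t7]
  · have r := slow2 (V := v) (Z := z) (K := K) (B := B) (L := L)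
      hω hK hB (by linarith only [hω, hBω]) hs.dv hs.dz gV gZ L hLL
    refine r.trans ?_
    have t1 : ‖z 0‖ * Real.exp (-(ω / 2) * L) ≤ μ * N * 1 := by
      refine mul_le_mul hzN ?_ (Real.exp_pos _).le (by (clear * - hμ hN0; positivity))
      rw [← Real.exp_zero]
      exact Real.exp_le_exp.2 (by nlinarith only [hL, hω])
    have t2 := mul_le_mul hθ hSS (by (clear * - hB hω; positivity)) hμ
    have t3 : 0 ≤ (1 + 6 * L * Real.exp ((2 * K + 1) * L)) * Real.exp (2 * K * L) *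
      (μ * N) := by (clear * - hL hμ hN0; positivity)
    unfold Cslow
    linarith only [t3, t2, t1]

end Vale.Agent.P225.B2
end
end

section

section

/-!
# P225, route B: exact interfaces between the algebra (B3), the counting (B4) and the final
assembly (B5).  Only definitions; the three statements `AlgOut`, `EigOut`, `CountOut` are the
outputs expected from B3-35, B3-36 and B4.
-/

open MvPolynomial

namespace Vale.Agent.P225.B5

open Vale.Agent.P225.B

/-- The operator `T` of the block of degree `d` in the coordinates of the basis `b`. -/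
noncomputable def opc {n d : ℕ} {ι : Type} [Fintype ι] [DecidableEq ι]
    (b : Module.Basis ι ℝ (HH ℝ n d)) (T : Module.End ℝ (HH ℝ n d)) :
    (ι → ℝ) →L[ℝ] (ι → ℝ) :=
  LinearMap.toContinuousLinearMap (b.equivFun.conj T)

/-- Output of B3-35 (algebra): every signed cyclic permutation of sets of basis vectors is the
value of a word, up to block scalars, at a point where the control map is a submersion. -/
def AlgOut (m : ℕ) : Prop :=
  ∀ (Dm : ℕ) (ι : Finset.Icc 2 Dm → Type) [∀ d, Fintype (ι d)] [∀ d, DecidableEq (ι d)]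
    (b : ∀ d, Module.Basis (ι d) ℝ (HH ℝ (2 * m + 2) d)) (κ : Finset.Icc 2 Dm → ℝ),
    (∀ d, 0 < κ d) → ∀ S : ∀ d, Finset (ι d),
    ∃ (l : ℕ) (word : Fin l → JJ (2 * m + 2)) (c0 : Fin l → ℝ) (lam0 : Finset.Icc 2 Dm → ℝ)
      (F' : ((Fin l → ℝ) × (Finset.Icc 2 Dm → ℝ)) →L[ℝ] ((d : Finset.Icc 2 Dm) →
        (ι d → ℝ) →L[ℝ] (ι d → ℝ)))
      (pi : ∀ d, ι d → ι d) (sg : ∀ d, ι d → ℝ),
      HasStrictFDerivAt (fun (x : (Fin l → ℝ) × (Finset.Icc 2 Dm → ℝ))
        (d : Finset.Icc 2 Dm) => Real.exp (-(x.2 d)) •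
          B2.wordMap (κ d) (fun i => opc (b d) (rst (MM (word i).1) d)) x.1) F' (c0, lam0) ∧
      Function.Surjective F' ∧
      (∀ d i, |sg d i| = 1) ∧
      (∀ d, ∀ i ∈ S d, pi d i ∈ S d) ∧
      (∀ d, ∀ i ∈ S d, (Real.exp (-(lam0 d)) •
          B2.wordMap (κ d) (fun j => opc (b d) (rst (MM (word j).1) d)) c0) (Pi.single i 1) =
            sg d i • Pi.single (pi d i) 1) ∧
      (∀ d, ∀ i ∈ S d, (pi d)^[(S d).card] i = i ∧
        ∀ f : ι d → ℝ, ∑ j ∈ Finset.range (S d).card, f ((pi d)^[j] i) = ∑ x ∈ S d, f x)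

/-- `D_pq` for `ℂ^{m+1}`: dimension of the harmonic polynomials of bidegree `(p,q)`. -/
def Dpq (m p q : ℕ) : ℕ :=
  (m + p).choose m * (m + q).choose m -
    (if p = 0 ∨ q = 0 then 0 else (m + (p - 1)).choose m * (m + (q - 1)).choose m)

/-- Lower bound for the multiplicity of the eigenvalue `μ²` of `M_{J₀}` in degree `d`. -/
def Emul (m d μ : ℕ) : ℕ :=
  ∑ p ∈ Finset.range (d + 1), if (2 * (p : ℤ) - d).natAbs = μ then Dpq m p (d - p) else 0

/-- Output of B3-36: eigenbases of `M_{J₀}`. -/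
def EigOut (m : ℕ) : Prop :=
  ∃ J0 : JJ (2 * m + 2), ∀ d : ℕ, ∃ (N : ℕ) (b : Module.Basis (Fin N) ℝ (HH ℝ (2 * m + 2) d))
    (μ : Fin N → ℕ), (∀ i, rst (MM J0.1) d (b i) = ((μ i : ℝ) ^ 2) • b i) ∧ (∀ i, μ i ≤ d) ∧
    ∀ k : ℕ, Emul m d k ≤ (Finset.univ.filter fun i => μ i = k).card

/-- Output of B4: counting. `x = σ₀²`, `h = e^{2η₀}`; in degree `d` the states with
`μ ≥ θ d` are used. -/
def CountOut (m : ℕ) : Prop :=
  ∃ (x h : ℝ) (k Dm : ℕ) (θ : ℕ → ℕ), 0 < x ∧ 1 ≤ h ∧ h + m * x < m + 1 ∧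
    x ^ (2 * m + 1) * h < 1 ∧ 1 ≤ k ∧
    (∀ d, 2 ≤ d → d ≤ Dm →
      0 < ∑ μ ∈ Finset.Icc (θ d) d, Emul m d μ ∧
      ((d : ℝ) * (d + 2 * m)) * (∑ μ ∈ Finset.Icc (θ d) d, (Emul m d μ : ℝ)) -
        (1 - 1 / h) * (∑ μ ∈ Finset.Icc (θ d) d, ((μ : ℝ) ^ 2 * Emul m d μ)) <
        x * (k * (k + 2 * m)) * (∑ μ ∈ Finset.Icc (θ d) d, (Emul m d μ : ℝ))) ∧
    (2 * m + 1 + k).choose k + (2 * m + k).choose (k - 1) <
      ∑ d ∈ Finset.Icc 2 Dm, ∑ μ ∈ Finset.Icc (θ d) d, Emul m d μ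

end Vale.Agent.P225.B5
end
end

section

section

/-!
# P225, route B, final assembly: static data, choice of the sets of states, Jensen's inequality
-/

open Finset

namespace Vale.Agent.P225.B5

open Vale.Agent.P225.B

/-- Choice of states with prescribed multiplicities. -/
theorem exists_states {N : ℕ} (μ : Fin N → ℕ) (E : ℕ → ℕ)
    (hE : ∀ k : ℕ, E k ≤ (Finset.univ.filter fun i => μ i = k).card) (A : Finset ℕ) :
    ∃ S : Finset (Fin N), (∀ i ∈ S, μ i ∈ A) ∧
      ∀ f : ℕ → ℝ, ∑ i ∈ S, f (μ i) = ∑ k ∈ A, f k * E k := by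
  classical
  choose T hT hTc using fun k => Finset.exists_subset_card_eq (hE k)
  have hμ : ∀ k, ∀ i ∈ T k, μ i = k := fun k i hi => (Finset.mem_filter.1 (hT k hi)).2
  refine ⟨A.biUnion T, ?_, ?_⟩
  · intro i hi
    obtain ⟨k, hk, hik⟩ := Finset.mem_biUnion.1 hi
    rw [hμ k i hik]
    exact hk
  · intro f
    rw [Finset.sum_biUnion]
    · refine Finset.sum_congr rfl fun k _ => ?_
      rw [Finset.sum_congr rfl (fun i hi => by rw [hμ k i hi]), Finset.sum_const, hTc,
        nsmul_eq_mul, mul_comm]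
    · intro k _ l _ hkl
      rw [Function.onFun, Finset.disjoint_left]
      intro i hi hi'
      exact hkl ((hμ k i hi).symm.trans (hμ l i hi'))

/-- Jensen's inequality in the form needed. -/
theorem jensen {ι : Type*} (S : Finset ι) (hS : S.Nonempty) (A : ι → ℝ) (hA : ∀ i ∈ S, 0 ≤ A i)
    {B : ℝ} (hB : 0 ≤ B) (h : ∑ i ∈ S, A i < S.card * B ^ 2) :
    ∑ i ∈ S, √(A i) < S.card * B := by
  have hc : (0 : ℝ) < S.card := by exact_mod_cast Finset.card_pos.2 hS
  have h1 : (∑ i ∈ S, √(A i)) ^ 2 ≤ S.card * ∑ i ∈ S, (√(A i)) ^ 2 := sq_sum_le_card_mul_sum_sq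
  have h2 : ∑ i ∈ S, (√(A i)) ^ 2 = ∑ i ∈ S, A i :=
    Finset.sum_congr rfl fun i hi => Real.sq_sqrt (hA i hi)
  rw [h2] at h1
  have h3 : (∑ i ∈ S, √(A i)) ^ 2 < (S.card * B) ^ 2 := by
    calc (∑ i ∈ S, √(A i)) ^ 2 ≤ S.card * ∑ i ∈ S, A i := h1
      _ < S.card * (S.card * B ^ 2) := mul_lt_mul_of_pos_left h hc
      _ = (S.card * B) ^ 2 := by ring
  exact lt_of_pow_lt_pow_left₀ 2 (mul_nonneg hc.le hB) h3

/-- The home exponents are on average smaller than `k`. -/
theorem mean_exponent {m : ℕ} {x h : ℝ} (hx : 0 < x) (hh : 1 ≤ h) {k : ℕ} {N : ℕ}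
    (μ : Fin N → ℕ) (d : ℕ) (hμd : ∀ i, μ i ≤ d) (S : Finset (Fin N)) (hS : S.Nonempty)
    (hmain : ((d : ℝ) * (d + 2 * m)) * S.card - (1 - 1 / h) * (∑ i ∈ S, (μ i : ℝ) ^ 2) <
        x * (k * (k + 2 * m)) * S.card) :
    ∑ i ∈ S, (B2.sroot m (√x) ((d : ℝ) * (d + 2 * m) -
      B2.beta (Real.log h / 2) * (μ i : ℝ) ^ 2) - k * √x) < 0 := by
  have hb : B2.beta (Real.log h / 2) = 1 - 1 / h := by
    unfold B2.beta
    rw [show -2 * (Real.log h / 2) = -Real.log h by ring, Real.exp_neg,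
      Real.exp_log (by linarith only [hh]), one_div]
  have hb0 : 0 ≤ 1 - 1 / h := by
    have : 1 / h ≤ 1 := by
      rw [div_le_one (by linarith only [hh])]
      exact hh
    linarith only [this]
  have hb1 : 1 - 1 / h ≤ 1 := by
    have : 0 ≤ 1 / h := by positivity
    linarith only [this]
  rw [hb]
  have hsx : √x ^ 2 = x := Real.sq_sqrt hx.le
  set A : Fin N → ℝ := fun i => (m * √x) ^ 2 + ((d : ℝ) * (d + 2 * m) -
    (1 - 1 / h) * (μ i : ℝ) ^ 2) with hA
  have hAnn : ∀ i ∈ S, 0 ≤ A i := by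
    intro i _
    have h1 : (μ i : ℝ) ≤ d := by exact_mod_cast hμd i
    have h2 : (μ i : ℝ) ^ 2 ≤ (d : ℝ) ^ 2 := by
      have : (0 : ℝ) ≤ μ i := Nat.cast_nonneg _
      nlinarith only [h1]
    have h3 : (1 - 1 / h) * (μ i : ℝ) ^ 2 ≤ (d : ℝ) ^ 2 := by
      nlinarith only [h2, hb1]
    have h4 : (0 : ℝ) ≤ (d : ℝ) * (2 * m) := by (clear * -; positivity)
    simp only [hA]
    nlinarith only [h3]
  have hsum : ∑ i ∈ S, A i < S.card * ((k + m) * √x) ^ 2 := by
    have e1 : ∑ i ∈ S, A i = S.card * (m * √x) ^ 2 + (((d : ℝ) * (d + 2 * m)) * S.card -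
        (1 - 1 / h) * (∑ i ∈ S, (μ i : ℝ) ^ 2)) := by
      simp only [hA, Finset.sum_add_distrib, Finset.sum_sub_distrib, Finset.sum_const,
        nsmul_eq_mul, ← Finset.mul_sum]
      ring
    rw [e1]
    have e2 : (S.card : ℝ) * ((k + m) * √x) ^ 2 = S.card * (m * √x) ^ 2 +
        x * (k * (k + 2 * m)) * S.card := by
      rw [mul_pow, mul_pow, hsx]
      ring
    rw [e2]
    linarith only [hmain]
  have hj := jensen S hS A hAnn (by (clear * - hx; positivity)) hsum
  have e3 : ∑ i ∈ S, (B2.sroot m (√x) ((d : ℝ) * (d + 2 * m) - (1 - 1 / h) * (μ i : ℝ) ^ 2) -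
      k * √x) = ∑ i ∈ S, √(A i) - S.card * ((k + m) * √x) := by
    simp only [B2.sroot, hA, Finset.sum_sub_distrib, Finset.sum_add_distrib, Finset.sum_const,
      nsmul_eq_mul]
    ring
  rw [e3]
  linarith only [hj]

/-- Coordinates of an eigenvector. -/
theorem opc_single {n d : ℕ} {ι : Type} [Fintype ι] [DecidableEq ι]
    (b : Module.Basis ι ℝ (HH ℝ n d)) (T : Module.End ℝ (HH ℝ n d)) {i : ι} {c : ℝ}
    (h : T (b i) = c • b i) :
    opc b T (Pi.single i 1) = c • Pi.single i 1 := by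
  have h1 : b.equivFun (b i) = Pi.single i 1 := by
    funext j
    rw [b.equivFun_self]
    simp [Pi.single_apply, eq_comm]
  have h2 : b.equivFun.symm (Pi.single i 1) = b i := by
    rw [← h1, LinearEquiv.symm_apply_apply]
  show (b.equivFun.conj T) (Pi.single i 1) = _
  rw [LinearEquiv.conj_apply_apply, h2, h, map_smul, h1]

/-- The expansion of `T (b j)` from the coordinates. -/
theorem opc_expand {n d : ℕ} {ι : Type} [Fintype ι] [DecidableEq ι]
    (b : Module.Basis ι ℝ (HH ℝ n d)) (T : Module.End ℝ (HH ℝ n d)) (j : ι) :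
    T (b j) = ∑ i, (opc b T (Pi.single j 1)) i • b i := by
  have h1 : b.equivFun (b j) = Pi.single j 1 := by
    funext i
    rw [b.equivFun_self]
    simp [Pi.single_apply, eq_comm]
  have h2 : b.equivFun.symm (Pi.single j 1) = b j := by
    rw [← h1, LinearEquiv.symm_apply_apply]
  have h3 : opc b T (Pi.single j 1) = b.equivFun (T (b j)) := by
    show (b.equivFun.conj T) (Pi.single j 1) = _
    rw [LinearEquiv.conj_apply_apply, h2]
  rw [h3]
  exact (b.sum_equivFun (T (b j))).symm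

end Vale.Agent.P225.B5
end
end

section

section

/-! B3-(3.3): the top power of the raising operator `S` on homogeneous polynomials. -/

set_option linter.all false

open MvPolynomial

namespace Vale.Agent.P225.B

variable {n : ℕ}

/-- The raising field `E_j = L_{i0 j} + i L_{i1 j}`. -/
noncomputable def Ed (i0 i1 j : Fin n) :
    Derivation ℂ (MvPolynomial (Fin n) ℂ) (MvPolynomial (Fin n) ℂ) :=
  Lab i0 j + Complex.I • Lab i1 j

/-- The set of indices different from `i0`, `i1`. -/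
def oth (i0 i1 : Fin n) : Finset (Fin n) := Finset.univ.filter (fun j => j ≠ i0 ∧ j ≠ i1)

/-- `S = ∑_j E_j²`. -/
noncomputable def Sop (i0 i1 : Fin n) : Module.End ℂ (MvPolynomial (Fin n) ℂ) :=
  ∑ j ∈ oth i0 i1, (Ed i0 i1 j).toLinearMap * (Ed i0 i1 j).toLinearMap

/-- `z = x_{i0} + i x_{i1}`. -/
noncomputable def zz (i0 i1 : Fin n) : MvPolynomial (Fin n) ℂ := X i0 + C Complex.I * X i1

/-- `z̄ = x_{i0} - i x_{i1}`. -/
noncomputable def zb (i0 i1 : Fin n) : MvPolynomial (Fin n) ℂ := X i0 - C Complex.I * X i1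

/-- `ζ₀ = e_{i0} + i e_{i1}`. -/
noncomputable def zeta0 (i0 i1 : Fin n) : Fin n → ℂ :=
  fun i => if i = i0 then 1 else if i = i1 then Complex.I else 0

/-- `T = ∑_j x_j E_j`. -/
noncomputable def Top (i0 i1 : Fin n) : Module.End ℂ (MvPolynomial (Fin n) ℂ) :=
  ∑ j ∈ oth i0 i1, LinearMap.mulLeft ℂ (X j) * (Ed i0 i1 j).toLinearMap

theorem mem_oth {i0 i1 j : Fin n} : j ∈ oth i0 i1 ↔ j ≠ i0 ∧ j ≠ i1 := by
  simp only [oth, ne_eq, Finset.mem_filter, Finset.mem_univ, true_and]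

theorem Ed_apply (i0 i1 j : Fin n) (f : MvPolynomial (Fin n) ℂ) :
    Ed i0 i1 j f = (X i0 * pderiv j f - X j * pderiv i0 f) +
      C Complex.I * (X i1 * pderiv j f - X j * pderiv i1 f) := by
  simp only [Ed, Derivation.coe_add, Derivation.coe_smul, Pi.add_apply, Lab_apply, Pi.smul_apply, smul_eq_C_mul]

theorem C_I_sq : (C Complex.I : MvPolynomial (Fin n) ℂ) * C Complex.I = -1 := by
  rw [← C_mul, Complex.I_mul_I]; simp only [C_neg, C_1]

section
variable {i0 i1 : Fin n} (h01 : i0 ≠ i1)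
include h01

theorem Ed_zz {j : Fin n} (hj : j ∈ oth i0 i1) : Ed i0 i1 j (zz i0 i1) = 0 := by
  obtain ⟨h0, h1⟩ := mem_oth.1 hj
  rw [Ed_apply, zz]
  simp only [map_add, Derivation.leibniz, pderiv_X, pderiv_C, smul_eq_mul, Pi.single_apply]
  have e1 := h0; have e2 := h1; have e3 := h01; have e4 := h01.symm
  have e5 := h0.symm; have e6 := h1.symm
  simp only [e1, e2, e3, e4, e5, e6, if_false, if_true]
  linear_combination (-(X j : MvPolynomial (Fin n) ℂ)) * C_I_sq (n := n)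

theorem Ed_zb {j : Fin n} (hj : j ∈ oth i0 i1) : Ed i0 i1 j (zb i0 i1) = -2 * X j := by
  obtain ⟨h0, h1⟩ := mem_oth.1 hj
  rw [Ed_apply, zb]
  simp only [map_sub, Derivation.leibniz, pderiv_X, pderiv_C, smul_eq_mul, Pi.single_apply]
  have e1 := h0; have e2 := h1; have e3 := h01; have e4 := h01.symm
  have e5 := h0.symm; have e6 := h1.symm
  simp only [e1, e2, e3, e4, e5, e6, if_false, if_true]
  linear_combination ((X j : MvPolynomial (Fin n) ℂ)) * C_I_sq (n := n)

omit h01 in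
theorem Ed_X {j l : Fin n} (hl : l ∈ oth i0 i1) (hj : j ∈ oth i0 i1) :
    Ed i0 i1 j (X l) = if j = l then zz i0 i1 else 0 := by
  obtain ⟨h0, h1⟩ := mem_oth.1 hl
  rw [Ed_apply, zz]
  simp only [pderiv_X, Pi.single_apply]
  have e5 := h0; have e6 := h1
  simp only [e5, e6, if_false]
  by_cases h : j = l
  · subst h; simp
  · have h' : l ≠ j := fun e => h e.symm
    simp only [h', ↓reduceIte, mul_zero, sub_self, add_zero, h]

/-- The `E_j` commute. -/
theorem Ed_comm {j k : Fin n} (hj : j ∈ oth i0 i1) (hk : k ∈ oth i0 i1)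
    (f : MvPolynomial (Fin n) ℂ) :
    Ed i0 i1 j (Ed i0 i1 k f) = Ed i0 i1 k (Ed i0 i1 j f) := by
  have h : ⁅Ed i0 i1 j, Ed i0 i1 k⁆ = 0 := by
    apply MvPolynomial.derivation_ext
    intro l
    rw [Derivation.commutator_apply]
    by_cases hl0 : l = i0
    · subst hl0
      obtain ⟨hj0, hj1⟩ := mem_oth.1 hj
      obtain ⟨hk0, hk1⟩ := mem_oth.1 hk
      have a1 : Ed l i1 k (X l) = - X k := by
        rw [Ed_apply]; simp [pderiv_X, Pi.single_apply, hk0, hk1, hk0.symm, hk1.symm, h01]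
      have a2 : Ed l i1 j (X l) = - X j := by
        rw [Ed_apply]; simp only [pderiv_X, ne_eq, hj0.symm, not_false_eq_true, Pi.single_eq_of_ne, mul_zero, Pi.single_eq_same, mul_one, zero_sub, h01, sub_self, add_zero]
      rw [a1, a2, map_neg, map_neg, Ed_X hk hj, Ed_X hj hk]
      by_cases hjk : j = k
      · subst hjk; simp only [↓reduceIte, sub_self, Derivation.coe_zero, Pi.zero_apply]
      · have : k ≠ j := fun e => hjk e.symm
        simp only [hjk, ↓reduceIte, neg_zero, this, sub_self, Derivation.coe_zero, Pi.zero_apply]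
    · by_cases hl1 : l = i1
      · subst hl1
        obtain ⟨hj0, hj1⟩ := mem_oth.1 hj
        obtain ⟨hk0, hk1⟩ := mem_oth.1 hk
        have a1 : Ed i0 l k (X l) = - (C Complex.I * X k) := by
          rw [Ed_apply]; simp [pderiv_X, Pi.single_apply, hk0, hk1, hk0.symm, hk1.symm, h01.symm]
        have a2 : Ed i0 l j (X l) = - (C Complex.I * X j) := by
          rw [Ed_apply]; simp only [pderiv_X, ne_eq, hj1.symm, not_false_eq_true, Pi.single_eq_of_ne, mul_zero, h01.symm, sub_self, Pi.single_eq_same, mul_one, zero_sub, mul_neg, zero_add]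
        rw [a1, a2, map_neg, map_neg, Derivation.leibniz, Derivation.leibniz, Ed_X hk hj,
          Ed_X hj hk]
        by_cases hjk : j = k
        · subst hjk; simp only [↓reduceIte, smul_eq_mul, derivation_C, mul_zero, add_zero, sub_self, Derivation.coe_zero, Pi.zero_apply]
        · have : k ≠ j := fun e => hjk e.symm
          simp only [hjk, ↓reduceIte, smul_eq_mul, mul_zero, derivation_C, add_zero, neg_zero, this, sub_self, Derivation.coe_zero, Pi.zero_apply]
      · have hl : l ∈ oth i0 i1 := mem_oth.2 ⟨hl0, hl1⟩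
        rw [Ed_X hl hj, Ed_X hl hk]
        split_ifs <;> simp [Ed_zz h01 hj, Ed_zz h01 hk]
  have h2 := congrArg (fun D => D f) h
  simp only [Derivation.commutator_apply, Derivation.zero_apply] at h2
  exact sub_eq_zero.1 h2

omit h01 in
theorem Sop_apply (f : MvPolynomial (Fin n) ℂ) :
    Sop i0 i1 f = ∑ j ∈ oth i0 i1, Ed i0 i1 j (Ed i0 i1 j f) := by
  simp only [Sop, LinearMap.sum_apply, Module.End.mul_apply, Derivation.coeFn_coe]

omit h01 in
theorem Top_apply (f : MvPolynomial (Fin n) ℂ) :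
    Top i0 i1 f = ∑ j ∈ oth i0 i1, X j * Ed i0 i1 j f := by
  simp only [Top, LinearMap.sum_apply, Module.End.mul_apply, Derivation.coeFn_coe, LinearMap.mulLeft_apply]

theorem Sop_Ed {j : Fin n} (hj : j ∈ oth i0 i1) (f : MvPolynomial (Fin n) ℂ) :
    Sop i0 i1 (Ed i0 i1 j f) = Ed i0 i1 j (Sop i0 i1 f) := by
  rw [Sop_apply, Sop_apply, map_sum]
  refine Finset.sum_congr rfl fun k hk => ?_
  rw [Ed_comm h01 hk hj, Ed_comm h01 hk hj]

theorem Sop_zz (f : MvPolynomial (Fin n) ℂ) :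
    Sop i0 i1 (zz i0 i1 * f) = zz i0 i1 * Sop i0 i1 f := by
  rw [Sop_apply, Sop_apply, Finset.mul_sum]
  refine Finset.sum_congr rfl fun k hk => ?_
  simp only [Derivation.leibniz, smul_eq_mul, Ed_zz h01 hk, mul_zero, add_zero]

theorem Sop_X {l : Fin n} (hl : l ∈ oth i0 i1) (f : MvPolynomial (Fin n) ℂ) :
    Sop i0 i1 (X l * f) = X l * Sop i0 i1 f + 2 * zz i0 i1 * Ed i0 i1 l f := by
  rw [Sop_apply, Sop_apply, Finset.mul_sum]
  have : ∀ k ∈ oth i0 i1, Ed i0 i1 k (Ed i0 i1 k (X l * f)) =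
      X l * Ed i0 i1 k (Ed i0 i1 k f) + (if k = l then 2 * zz i0 i1 * Ed i0 i1 l f else 0) := by
    intro k hk
    rw [Derivation.leibniz, Ed_X hl hk]
    split_ifs with h
    · subst h
      simp only [smul_eq_mul, map_add, Derivation.leibniz, Ed_X hl hk, if_true, Ed_zz h01 hk]
      ring
    · simp [Derivation.leibniz, Ed_X hl hk, h]
  rw [Finset.sum_congr rfl this, Finset.sum_add_distrib, Finset.sum_ite_eq' (oth i0 i1) l]
  simp only [hl, ↓reduceIte]

theorem Sop_zb (f : MvPolynomial (Fin n) ℂ) :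
    Sop i0 i1 (zb i0 i1 * f) = zb i0 i1 * Sop i0 i1 f
      - 2 * ((oth i0 i1).card : MvPolynomial (Fin n) ℂ) * zz i0 i1 * f - 4 * Top i0 i1 f := by
  rw [Sop_apply, Sop_apply, Top_apply, Finset.mul_sum, Finset.mul_sum]
  have : ∀ k ∈ oth i0 i1, Ed i0 i1 k (Ed i0 i1 k (zb i0 i1 * f)) =
      zb i0 i1 * Ed i0 i1 k (Ed i0 i1 k f) - 2 * zz i0 i1 * f - 4 * (X k * Ed i0 i1 k f) := by
    intro k hk
    rw [Derivation.leibniz, Ed_zb h01 hk]
    have h2 : Ed i0 i1 k (-2 * X k) = -2 * zz i0 i1 := by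
      have hC : (C (2 : ℂ) : MvPolynomial (Fin n) ℂ) = 2 := map_ofNat C 2
      have h0 : Ed i0 i1 k (2 : MvPolynomial (Fin n) ℂ) = 0 := by rw [← hC, derivation_C]
      have : (-2 * X k : MvPolynomial (Fin n) ℂ) = C (-2) * X k := by rw [map_neg, hC]
      rw [this, Derivation.leibniz, Ed_X hk hk]; simp [derivation_C, smul_eq_mul, hC, h0]
    simp only [smul_eq_mul, map_add, Derivation.leibniz, Ed_zb h01 hk, h2]
    ring
  rw [Finset.sum_congr rfl this, Finset.sum_sub_distrib, Finset.sum_sub_distrib,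
    Finset.sum_const, nsmul_eq_mul]
  ring

theorem Sop_Top (f : MvPolynomial (Fin n) ℂ) :
    Sop i0 i1 (Top i0 i1 f) = Top i0 i1 (Sop i0 i1 f) + 2 * zz i0 i1 * Sop i0 i1 f := by
  rw [Top_apply, map_sum, Top_apply]
  have : ∀ k ∈ oth i0 i1, Sop i0 i1 (X k * Ed i0 i1 k f) =
      X k * Ed i0 i1 k (Sop i0 i1 f) + 2 * zz i0 i1 * Ed i0 i1 k (Ed i0 i1 k f) := by
    intro k hk
    rw [Sop_X h01 hk, Sop_Ed h01 hk]
  rw [Finset.sum_congr rfl this, Finset.sum_add_distrib, ← Finset.mul_sum, ← Sop_apply]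

theorem Sop_pow_zz (k : ℕ) (f : MvPolynomial (Fin n) ℂ) :
    (Sop i0 i1 ^ k) (zz i0 i1 * f) = zz i0 i1 * (Sop i0 i1 ^ k) f := by
  induction k with
  | zero => simp only [pow_zero, Module.End.one_apply]
  | succ k ih => rw [pow_succ', Module.End.mul_apply, ih, Sop_zz h01, ← Module.End.mul_apply]

theorem Sop_pow_X {l : Fin n} (hl : l ∈ oth i0 i1) (k : ℕ) (f : MvPolynomial (Fin n) ℂ) :
    (Sop i0 i1 ^ (k + 1)) (X l * f) = X l * (Sop i0 i1 ^ (k + 1)) f
      + 2 * ((k : MvPolynomial (Fin n) ℂ) + 1) * zz i0 i1 * Ed i0 i1 l ((Sop i0 i1 ^ k) f) := by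
  induction k with
  | zero => simp only [zero_add, pow_one, Sop_X h01 hl, CharP.cast_eq_zero, mul_one, pow_zero, Module.End.one_apply]
  | succ k ih =>
    rw [pow_succ', Module.End.mul_apply, ih, map_add, Sop_X h01 hl]
    have h1 : Sop i0 i1 (2 * ((k : MvPolynomial (Fin n) ℂ) + 1) * zz i0 i1 *
        Ed i0 i1 l ((Sop i0 i1 ^ k) f)) =
        2 * ((k : MvPolynomial (Fin n) ℂ) + 1) * zz i0 i1 *
          Ed i0 i1 l ((Sop i0 i1 ^ (k + 1)) f) := by
      have hC : (C (2 * ((k : ℂ) + 1)) : MvPolynomial (Fin n) ℂ) = 2 * ((k : MvPolynomial (Fin n) ℂ) + 1) := by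
        rw [C_mul, C_add, map_natCast, C_1, map_ofNat]
      have : 2 * ((k : MvPolynomial (Fin n) ℂ) + 1) * zz i0 i1 * Ed i0 i1 l ((Sop i0 i1 ^ k) f) =
          (2 * ((k : ℂ) + 1)) • (zz i0 i1 * Ed i0 i1 l ((Sop i0 i1 ^ k) f)) := by
        rw [smul_eq_C_mul, hC]; ring
      rw [this, map_smul, Sop_zz h01, Sop_Ed h01 hl, ← Module.End.mul_apply, ← pow_succ',
        smul_eq_C_mul, hC]
      ring
    rw [h1, ← Module.End.mul_apply (Sop i0 i1) (Sop i0 i1 ^ (k+1)), ← pow_succ']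
    push_cast
    ring

theorem Sop_pow_zb (k : ℕ) (f : MvPolynomial (Fin n) ℂ) :
    (Sop i0 i1 ^ (k + 1)) (zb i0 i1 * f) = zb i0 i1 * (Sop i0 i1 ^ (k + 1)) f
      - 2 * ((k : MvPolynomial (Fin n) ℂ) + 1) *
        (((oth i0 i1).card : MvPolynomial (Fin n) ℂ) + 2 * k) * zz i0 i1 * (Sop i0 i1 ^ k) f
      - 4 * ((k : MvPolynomial (Fin n) ℂ) + 1) * Top i0 i1 ((Sop i0 i1 ^ k) f) := by
  induction k with
  | zero => simp [Sop_zb h01]
  | succ k ih =>
    rw [pow_succ', Module.End.mul_apply, ih, map_sub, map_sub, Sop_zb h01]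
    have h1 : Sop i0 i1 (2 * ((k : MvPolynomial (Fin n) ℂ) + 1) *
        (((oth i0 i1).card : MvPolynomial (Fin n) ℂ) + 2 * k) * zz i0 i1 * (Sop i0 i1 ^ k) f) =
        2 * ((k : MvPolynomial (Fin n) ℂ) + 1) *
        (((oth i0 i1).card : MvPolynomial (Fin n) ℂ) + 2 * k) * zz i0 i1 *
          (Sop i0 i1 ^ (k + 1)) f := by
      have hC : (C (2 * ((k : ℂ) + 1) * (((oth i0 i1).card : ℂ) + 2 * k)) : MvPolynomial (Fin n) ℂ)
          = 2 * ((k : MvPolynomial (Fin n) ℂ) + 1) *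
            (((oth i0 i1).card : MvPolynomial (Fin n) ℂ) + 2 * k) := by
        rw [C_mul, C_mul, C_add, C_add, C_mul, map_natCast, map_natCast, C_1, map_ofNat]
      have : 2 * ((k : MvPolynomial (Fin n) ℂ) + 1) *
          (((oth i0 i1).card : MvPolynomial (Fin n) ℂ) + 2 * k) * zz i0 i1 * (Sop i0 i1 ^ k) f =
          (2 * ((k : ℂ) + 1) * (((oth i0 i1).card : ℂ) + 2 * k)) •
            (zz i0 i1 * (Sop i0 i1 ^ k) f) := by
        rw [smul_eq_C_mul, hC]; ring
      rw [this, map_smul, Sop_zz h01, ← Module.End.mul_apply, ← pow_succ', smul_eq_C_mul, hC]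
      ring
    have h2 : Sop i0 i1 (4 * ((k : MvPolynomial (Fin n) ℂ) + 1) * Top i0 i1 ((Sop i0 i1 ^ k) f)) =
        4 * ((k : MvPolynomial (Fin n) ℂ) + 1) * (Top i0 i1 ((Sop i0 i1 ^ (k + 1)) f)
          + 2 * zz i0 i1 * (Sop i0 i1 ^ (k + 1)) f) := by
      have hC : (C (4 * ((k : ℂ) + 1)) : MvPolynomial (Fin n) ℂ) = 4 * ((k : MvPolynomial (Fin n) ℂ) + 1) := by
        rw [C_mul, C_add, map_natCast, C_1, map_ofNat]
      have : 4 * ((k : MvPolynomial (Fin n) ℂ) + 1) * Top i0 i1 ((Sop i0 i1 ^ k) f) =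
          (4 * ((k : ℂ) + 1)) • Top i0 i1 ((Sop i0 i1 ^ k) f) := by
        rw [smul_eq_C_mul, hC]
      rw [this, map_smul, Sop_Top h01, ← Module.End.mul_apply (Sop i0 i1) (Sop i0 i1 ^ k),
        ← pow_succ', smul_eq_C_mul, hC]
    rw [h1, h2, ← Module.End.mul_apply (Sop i0 i1) (Sop i0 i1 ^ (k+1)), ← pow_succ']
    push_cast
    ring

end

/-- The constant `c_d 2^{-d}`. -/
noncomputable def cS (N d : ℕ) : ℂ := ∏ j ∈ Finset.range d, (-(((j : ℂ) + 1) * ((N : ℂ) + 2 * j)))

theorem cS_ne_zero {N : ℕ} (hN : 0 < N) (d : ℕ) : cS N d ≠ 0 := by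
  rw [cS, Finset.prod_ne_zero_iff]
  intro j _
  have h1 : ((j : ℂ) + 1) ≠ 0 := by exact_mod_cast Nat.succ_ne_zero j
  have h2 : ((N : ℂ) + 2 * j) ≠ 0 := by
    have : N + 2 * j ≠ 0 := by omega
    exact_mod_cast this
  exact neg_ne_zero.2 (mul_ne_zero h1 h2)

theorem cS_succ (N d : ℕ) : cS N (d + 1) = cS N d * (-(((d : ℂ) + 1) * ((N : ℂ) + 2 * d))) := by
  rw [cS, Finset.prod_range_succ, ← cS]

section
variable {i0 i1 : Fin n} (h01 : i0 ≠ i1)
include h01

theorem zz_add_zb : zz i0 i1 + zb i0 i1 = 2 * X i0 := by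
  simp only [zz, zb]; ring

theorem zz_sub_zb : zz i0 i1 - zb i0 i1 = 2 * C Complex.I * X i1 := by
  simp only [zz, zb]; ring

/-- One step: multiplication by a variable. -/
theorem Sop_pow_step (i : Fin n) (k : ℕ) (f : MvPolynomial (Fin n) ℂ)
    (hE : ∀ l ∈ oth i0 i1, Ed i0 i1 l ((Sop i0 i1 ^ k) f) = 0)
    (hS : (Sop i0 i1 ^ (k + 1)) f = 0) :
    (Sop i0 i1 ^ (k + 1)) (X i * f) =
      C (zeta0 i0 i1 i * (-(((k : ℂ) + 1) * (((oth i0 i1).card : ℂ) + 2 * k)))) *
        (zz i0 i1 * (Sop i0 i1 ^ k) f) := by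
  have hT : Top i0 i1 ((Sop i0 i1 ^ k) f) = 0 := by
    rw [Top_apply]; exact Finset.sum_eq_zero fun l hl => by rw [hE l hl, mul_zero]
  have hzb := Sop_pow_zb h01 k f
  have hzz := Sop_pow_zz h01 (k + 1) f
  rw [hS, hT] at hzb
  rw [hS] at hzz
  simp only [mul_zero, sub_zero, zero_sub] at hzb hzz
  have hC : (C (((k : ℂ) + 1) * (((oth i0 i1).card : ℂ) + 2 * k)) : MvPolynomial (Fin n) ℂ)
      = ((k : MvPolynomial (Fin n) ℂ) + 1) *
        (((oth i0 i1).card : MvPolynomial (Fin n) ℂ) + 2 * k) := by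
    rw [C_mul, C_add, C_add, C_mul, map_natCast, map_natCast, C_1, map_ofNat]
  by_cases hi0 : i = i0
  · subst hi0
    have e : X i * f = (1 / 2 : ℂ) • (zz i i1 * f + zb i i1 * f) := by
      rw [← add_mul, zz_add_zb h01, smul_eq_C_mul, ← mul_assoc, ← mul_assoc]
      congr 1
      have : (C (1 / 2 : ℂ) : MvPolynomial (Fin n) ℂ) * 2 = 1 := by
        rw [← map_ofNat C 2, ← C_mul]; norm_num
      rw [this, one_mul]
    rw [e, map_smul, map_add, hzb, hzz, zero_add, smul_eq_C_mul]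
    have h2 : (C (1 / 2 : ℂ) : MvPolynomial (Fin n) ℂ) * 2 = 1 := by
      rw [← map_ofNat C 2, ← C_mul]; norm_num
    rw [zeta0, if_pos rfl, one_mul, map_neg, hC]
    linear_combination (-(((k : MvPolynomial (Fin n) ℂ) + 1) *
        (((oth i i1).card : MvPolynomial (Fin n) ℂ) + 2 * k) * zz i i1 * (Sop i i1 ^ k) f)) * h2
  · by_cases hi1 : i = i1
    · subst hi1
      have hI : (C Complex.I : MvPolynomial (Fin n) ℂ) * C Complex.I = -1 := C_I_sq
      have h2 : (C (1 / 2 : ℂ) : MvPolynomial (Fin n) ℂ) * 2 = 1 := by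
        rw [← map_ofNat C 2, ← C_mul]; norm_num
      have e : X i * f = (1 / 2 : ℂ) • ((-Complex.I) • (zz i0 i * f - zb i0 i * f)) := by
        rw [← sub_mul, zz_sub_zb h01, smul_eq_C_mul, smul_eq_C_mul, map_neg]
        linear_combination (-(X i * f)) * h2 * 1 + (C (1/2 : ℂ) * 2 * X i * f) * hI
      rw [e, map_smul, map_smul, map_sub, hzb, hzz, smul_eq_C_mul, smul_eq_C_mul, map_neg]
      rw [zeta0, if_neg hi0, if_pos rfl, C_mul, map_neg, hC]
      linear_combination (-(C Complex.I * ((k : MvPolynomial (Fin n) ℂ) + 1) *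
        (((oth i0 i).card : MvPolynomial (Fin n) ℂ) + 2 * k) * zz i0 i * (Sop i0 i ^ k) f)) * h2
    · have hi : i ∈ oth i0 i1 := mem_oth.2 ⟨hi0, hi1⟩
      rw [Sop_pow_X h01 hi, hS, hE i hi, zeta0, if_neg hi0, if_neg hi1]
      simp only [mul_zero, add_zero, mul_neg, zero_mul, neg_zero, C_0]

omit h01 in
/-- Linear maps that agree on `X i * f` for `f` homogeneous of degree `d` agree on
homogeneous polynomials of degree `d + 1`. -/
theorem homog_succ_ext {d : ℕ} {M : Type*} [AddCommMonoid M] [Module ℂ M]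
    (A B : MvPolynomial (Fin n) ℂ →ₗ[ℂ] M)
    (h : ∀ i (f : MvPolynomial (Fin n) ℂ), f.IsHomogeneous d → A (X i * f) = B (X i * f))
    {f : MvPolynomial (Fin n) ℂ} (hf : f.IsHomogeneous (d + 1)) : A f = B f := by
  classical
  rw [f.as_sum, map_sum, map_sum]
  refine Finset.sum_congr rfl fun s hs => ?_
  have hdeg : s.degree = d + 1 := by
    have := hf (mem_support_iff.1 hs)
    rw [Finsupp.degree_eq_weight_one]; exact this
  have hne : s ≠ 0 := by
    intro h0; rw [h0] at hdeg; simp at hdeg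
  obtain ⟨i, hi⟩ := Finsupp.ne_iff.1 hne
  have hi' : 1 ≤ s i := Nat.one_le_iff_ne_zero.2 hi
  have hs' : Finsupp.single i 1 + (s - Finsupp.single i 1) = s := by
    rw [add_tsub_cancel_of_le]
    intro j
    by_cases hj : j = i
    · subst hj; simpa only [Finsupp.single_eq_same] using hi'
    · simp only [ne_eq, Ne.symm hj, not_false_eq_true, Finsupp.single_eq_of_ne', zero_le]
  have e : (monomial s) (coeff s f) =
      X i * (monomial (s - Finsupp.single i 1)) (coeff s f) := by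
    rw [X, monomial_mul, one_mul, hs']
  rw [e]
  apply h
  have : (s - Finsupp.single i 1).degree = d := by
    have h3 := congrArg Finsupp.degree hs'
    rw [map_add, Finsupp.degree_single, hdeg] at h3
    omega
  exact isHomogeneous_monomial _ this

end

section
variable {i0 i1 : Fin n} (h01 : i0 ≠ i1)
include h01

theorem Ed_zz_pow {j : Fin n} (hj : j ∈ oth i0 i1) (d : ℕ) : Ed i0 i1 j (zz i0 i1 ^ d) = 0 := by
  rw [Derivation.leibniz_pow, Ed_zz h01 hj]; simp only [smul_eq_mul, mul_zero, nsmul_zero]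

/-- (3.3): on homogeneous polynomials of degree `d`, `S^d f = c_d 2^{-d} f(ζ₀) z^d`, and higher
powers of `S` vanish. -/
theorem Sop_pow_homog (d : ℕ) :
    ∀ f : MvPolynomial (Fin n) ℂ, f.IsHomogeneous d →
      (Sop i0 i1 ^ d) f = C (cS (oth i0 i1).card d * eval (zeta0 i0 i1) f) * zz i0 i1 ^ d ∧
      ∀ k, d < k → (Sop i0 i1 ^ k) f = 0 := by
  induction d with
  | zero =>
    intro f hf
    have hfC : f = C (coeff 0 f) := by
      exact totalDegree_eq_zero_iff_eq_C.1 (Nat.le_zero.1 hf.totalDegree_le)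
    constructor
    · rw [hfC]; simp only [pow_zero, Module.End.one_apply, cS, Finset.range_zero, Finset.prod_empty, eval_C, one_mul, mul_one]
    · intro k hk
      obtain ⟨k, rfl⟩ := Nat.exists_eq_succ_of_ne_zero hk.ne'
      rw [hfC, Nat.succ_eq_add_one, pow_succ, Module.End.mul_apply, Sop_apply]
      simp [derivation_C]
  | succ d ih =>
    have key : ∀ i (f : MvPolynomial (Fin n) ℂ), f.IsHomogeneous d →
        (Sop i0 i1 ^ (d + 1)) (X i * f) =
          C (cS (oth i0 i1).card (d + 1) * eval (zeta0 i0 i1) (X i * f)) *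
            zz i0 i1 ^ (d + 1) := by
      intro i f hf
      obtain ⟨h1, h2⟩ := ih f hf
      rw [Sop_pow_step h01 i d f ?_ (h2 _ (Nat.lt_succ_self d)), h1, cS_succ, map_mul (eval (zeta0 i0 i1)), eval_X]
      · simp only [C_mul, map_neg, pow_succ]; ring
      · intro l hl
        rw [h1, Derivation.leibniz, Ed_zz_pow h01 hl, derivation_C]; simp only [C_mul, smul_eq_mul, mul_zero, add_zero]
    have key2 : ∀ k, d + 1 < k → ∀ i (f : MvPolynomial (Fin n) ℂ), f.IsHomogeneous d →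
        (Sop i0 i1 ^ k) (X i * f) = 0 := by
      intro k hk i f hf
      obtain ⟨k, rfl⟩ := Nat.exists_eq_succ_of_ne_zero (by omega : k ≠ 0)
      obtain ⟨h1, h2⟩ := ih f hf
      rw [Nat.succ_eq_add_one, Sop_pow_step h01 i k f ?_ (h2 _ (by omega)), h2 k (by omega)]
      · simp only [mul_neg, C_neg, C_mul, C_add, map_natCast, C_1, mul_zero]
      · intro l hl; rw [h2 k (by omega), map_zero]
    intro f hf
    constructor
    · let B : MvPolynomial (Fin n) ℂ →ₗ[ℂ] MvPolynomial (Fin n) ℂ :=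
        (LinearMap.toSpanSingleton ℂ _ (C (cS (oth i0 i1).card (d + 1)) * zz i0 i1 ^ (d + 1))) ∘ₗ
          (aeval (zeta0 i0 i1) : MvPolynomial (Fin n) ℂ →ₐ[ℂ] ℂ).toLinearMap
      have hB : ∀ g, B g = C (cS (oth i0 i1).card (d + 1) * eval (zeta0 i0 i1) g) *
          zz i0 i1 ^ (d + 1) := by
        intro g
        simp only [B, LinearMap.comp_apply, LinearMap.toSpanSingleton_apply,
          AlgHom.toLinearMap_apply, smul_eq_C_mul, C_mul]
        rw [show (aeval (zeta0 i0 i1)) g = eval (zeta0 i0 i1) g from rfl]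
        ring
      rw [← hB]
      refine homog_succ_ext (Sop i0 i1 ^ (d + 1)) B ?_ hf
      intro i g hg
      rw [hB, key i g hg]
    · intro k hk
      have := homog_succ_ext (Sop i0 i1 ^ k) (0 : MvPolynomial (Fin n) ℂ →ₗ[ℂ] MvPolynomial (Fin n) ℂ)
        (fun i g hg => by rw [key2 k hk i g hg]; rfl) hf
      rw [this]; rfl

end

end Vale.Agent.P225.B
end
end

section

section

/-!
P225, route B, part B3: every isotropic vector is a positive multiple of an image of the standard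
isotropic vector under a real orthogonal matrix.
-/

open MvPolynomial

namespace Vale.Agent.P225.B

theorem null_orbit {n : ℕ} (i0 i1 : Fin n) (h01 : i0 ≠ i1) (z : Fin n → ℂ)
    (hz : ∑ i, z i ^ 2 = 0) (h0 : z ≠ 0) :
    ∃ (U : Matrix (Fin n) (Fin n) ℝ) (c : ℝ), U.transpose * U = 1 ∧ 0 < c ∧
      ∀ i, z i = (c : ℂ) * ∑ j, (U i j : ℂ) * zeta0 i0 i1 j := by
  have hre : ∑ i, (z i).re * (z i).re = ∑ i, (z i).im * (z i).im := by
    have h := congrArg Complex.re hz
    simp only [Complex.re_sum, pow_two, Complex.mul_re, Complex.zero_re,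
      Finset.sum_sub_distrib] at h
    linarith only [h]
  have him : ∑ i, (z i).re * (z i).im = 0 := by
    have h := congrArg Complex.im hz
    simp only [Complex.im_sum, pow_two, Complex.mul_im, Complex.zero_im,
      Finset.sum_add_distrib] at h
    have h' : ∑ i, (z i).im * (z i).re = ∑ i, (z i).re * (z i).im :=
      Finset.sum_congr rfl fun i _ => mul_comm _ _
    linarith only [h, h']
  set A : ℝ := ∑ i, (z i).re * (z i).re with hA
  have hA0 : 0 ≤ A := Finset.sum_nonneg fun i _ => mul_self_nonneg _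
  have hApos : 0 < A := by
    rcases hA0.lt_or_eq with h | h
    · exact h
    · exfalso
      apply h0
      have h1 := (Finset.sum_eq_zero_iff_of_nonneg
        (fun i _ => mul_self_nonneg (z i).re)).1 (hA.symm.trans h.symm)
      have h2 := (Finset.sum_eq_zero_iff_of_nonneg
        (fun i _ => mul_self_nonneg (z i).im)).1 (hre.symm.trans h.symm)
      funext i
      apply Complex.ext
      · exact mul_self_eq_zero.1 (h1 i (Finset.mem_univ i))
      · exact mul_self_eq_zero.1 (h2 i (Finset.mem_univ i))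
  obtain ⟨c, hc, hcA⟩ : ∃ c : ℝ, 0 < c ∧ c * c = A :=
    ⟨Real.sqrt A, Real.sqrt_pos.2 hApos, Real.mul_self_sqrt hA0⟩
  let E := EuclideanSpace ℝ (Fin n)
  let a : E := WithLp.toLp 2 fun i => c⁻¹ * (z i).re
  let b : E := WithLp.toLp 2 fun i => c⁻¹ * (z i).im
  have inn : ∀ x y : Fin n → ℝ, inner ℝ (WithLp.toLp 2 x : E) (WithLp.toLp 2 y : E) =
      ∑ i, x i * y i := by
    intro x y
    rw [PiLp.inner_apply]
    refine Finset.sum_congr rfl fun i _ => ?_
    simp [mul_comm]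
  have hcc : c⁻¹ * c⁻¹ * A = 1 := by
    rw [← hcA]
    (clear * - hc; field_simp)
  have haa : inner ℝ a a = (1 : ℝ) := by
    rw [inn, ← hcc, hA, Finset.mul_sum]
    exact Finset.sum_congr rfl fun i _ => by ring
  have hbb : inner ℝ b b = (1 : ℝ) := by
    rw [inn, ← hcc, hre, Finset.mul_sum]
    exact Finset.sum_congr rfl fun i _ => by ring
  have hab : inner ℝ a b = (0 : ℝ) := by
    rw [inn]
    have : ∑ i, c⁻¹ * (z i).re * (c⁻¹ * (z i).im) = c⁻¹ * c⁻¹ * ∑ i, (z i).re * (z i).im := by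
      rw [Finset.mul_sum]
      exact Finset.sum_congr rfl fun i _ => by ring
    rw [this, him, mul_zero]
  let v : Fin n → E := fun i => if i = i0 then a else b
  have hv : Orthonormal ℝ (({i0, i1} : Set (Fin n)).domRestrict v) := by
    rw [orthonormal_iff_ite]
    rintro ⟨i, hi⟩ ⟨j, hj⟩
    simp only [Set.mem_insert_iff, Set.mem_singleton_iff] at hi hj
    simp only [Set.domRestrict_apply, Subtype.mk.injEq, v]
    rcases hi with rfl | rfl <;> rcases hj with rfl | rfl
    · rw [if_pos rfl, if_pos rfl, haa]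
    · rw [if_pos rfl, if_neg h01.symm, if_neg h01, hab]
    · rw [if_pos rfl, if_neg h01.symm, if_neg h01.symm, real_inner_comm, hab]
    · rw [if_neg h01.symm, if_pos rfl, hbb]
  obtain ⟨B, hB⟩ := hv.exists_orthonormalBasis_extension_of_card_eq (by simp only [finrank_euclideanSpace, Fintype.card_fin, E])
  have hB0 : B i0 = a := by
    rw [hB i0 (by simp)]
    simp [v]
  have hB1 : B i1 = b := by
    rw [hB i1 (by simp)]
    simp [v, h01.symm]
  refine ⟨Matrix.of fun i j => (B j) i, c, ?_, hc, ?_⟩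
  · ext j k
    rw [Matrix.mul_apply, Matrix.one_apply]
    have h := orthonormal_iff_ite.1 B.orthonormal j k
    rw [← h, PiLp.inner_apply]
    refine Finset.sum_congr rfl fun i _ => ?_
    simp [mul_comm]
  · intro i
    have hs : ∑ j, (((B j) i : ℝ) : ℂ) * zeta0 i0 i1 j =
        (((B i0) i : ℝ) : ℂ) + (((B i1) i : ℝ) : ℂ) * Complex.I := by
      rw [← Finset.add_sum_erase _ _ (Finset.mem_univ i0),
        ← Finset.add_sum_erase _ _ (Finset.mem_erase.2 ⟨h01.symm, Finset.mem_univ i1⟩),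
        Finset.sum_eq_zero, add_zero]
      · rw [zeta0, zeta0, if_pos rfl, if_neg h01.symm, if_pos rfl, mul_one]
      · intro j hj
        rw [Finset.mem_erase, Finset.mem_erase] at hj
        rw [zeta0, if_neg hj.2.1, if_neg hj.1, mul_zero]
    have hc' : (c : ℂ) ≠ 0 := by exact_mod_cast hc.ne'
    simp only [Matrix.of_apply]
    rw [hs, hB0, hB1]
    simp only [a, b]
    push_cast
    rw [mul_add, mul_inv_cancel_left₀ hc', mul_assoc (c : ℂ)⁻¹, mul_inv_cancel_left₀ hc']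
    exact (Complex.re_add_im (z i)).symm

end Vale.Agent.P225.B
end
end

section

section

/-! P225, design B, B2: elementary facts about the profiles `Th`, `chi`, `ep`, `eh`. -/

open Set Filter Topology
open scoped ContDiff

namespace Vale.Agent.P225.B2.Cyc

theorem Th_zero {x : ℝ} (hx : x ≤ 1 / 4) : Th x = 0 :=
  Real.smoothTransition.zero_of_nonpos (by (clear * - hx; linarith))

theorem Th_one {x : ℝ} (hx : 3 / 4 ≤ x) : Th x = 1 :=
  Real.smoothTransition.one_of_one_le (by (clear * - hx; linarith))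

theorem Th_nonneg (x : ℝ) : 0 ≤ Th x := Real.smoothTransition.nonneg _

theorem Th_le_one (x : ℝ) : Th x ≤ 1 := Real.smoothTransition.le_one _

theorem contDiff_Th : ContDiff ℝ ∞ Th := by
  unfold Th
  exact Real.smoothTransition.contDiff.comp ((contDiff_const.mul contDiff_id).sub contDiff_const)

theorem hasDerivAt_Th (x : ℝ) : HasDerivAt Th (chi x) x :=
  (contDiff_Th.differentiable (by simp)).differentiableAt.hasDerivAt

theorem contDiff_chi : ContDiff ℝ ∞ chi := by
  have h := (contDiff_infty_iff_deriv (𝕜 := ℝ) (f := Th)).1 contDiff_Th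
  exact h.2

theorem chi_zero_left {x : ℝ} (hx : x < 1 / 4) : chi x = 0 := by
  have h : Th =ᶠ[𝓝 x] fun _ => (0:ℝ) := by
    filter_upwards [gt_mem_nhds hx] with y hy using Th_zero hy.le
  unfold chi
  rw [h.deriv_eq]; simp

theorem chi_zero_right {x : ℝ} (hx : 3 / 4 < x) : chi x = 0 := by
  have h : Th =ᶠ[𝓝 x] fun _ => (1:ℝ) := by
    filter_upwards [lt_mem_nhds hx] with y hy using Th_one hy.le
  unfold chi
  rw [h.deriv_eq]; simp

theorem chi_bound : ∃ K : ℝ, 0 < K ∧ ∀ x, |chi x| ≤ K := by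
  obtain ⟨K, hK⟩ := (isCompact_Icc (a := (0:ℝ)) (b := 1)).exists_bound_of_continuousOn
    (f := chi) contDiff_chi.continuous.continuousOn
  refine ⟨|K| + 1, by (clear * -; positivity), fun x => ?_⟩
  by_cases h1 : x < 1 / 4
  · rw [chi_zero_left h1]; simp only [abs_zero]; positivity
  by_cases h2 : 3 / 4 < x
  · rw [chi_zero_right h2]; simp only [abs_zero]; positivity
  have := hK x ⟨by linarith only [h1], by linarith only [h2]⟩
  rw [Real.norm_eq_abs] at this
  linarith only [this, le_abs_self K]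

theorem rr_pos {t : ℝ} (ht : 0 < t) : 0 < rr t := Real.rpow_pos_of_pos ht _

theorem LL_pos {t : ℝ} (ht : 0 < t) : 0 < LL t := Real.rpow_pos_of_pos ht _

theorem contDiff_eh (eta0 : ℝ) (l : ℕ) (t : ℝ) : ContDiff ℝ ∞ (eh eta0 l t) := by
  unfold eh
  refine (contDiff_const.mul (contDiff_Th.comp ?_)).mul (contDiff_Th.comp ?_)
  · exact (contDiff_id.sub contDiff_const).div_const _
  · exact (contDiff_const.sub contDiff_id).div_const _

theorem contDiff_sigC (m : ℕ) {Ψ : ℝ → ℝ} (hΨ : ContDiff ℝ ∞ Ψ) (eta0 : ℝ) (l : ℕ) (t : ℝ) :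
    ContDiff ℝ ∞ (sigC m Ψ eta0 l t) := by
  unfold sigC
  exact hΨ.mul (((contDiff_eh eta0 l t).div_const _).neg.exp)

theorem continuous_deriv_of_smooth {f : ℝ → ℝ} (hf : ContDiff ℝ ∞ f) : Continuous (deriv f) :=
  ((contDiff_infty_iff_deriv (𝕜 := ℝ) (f := f)).1 hf).2.continuous

/-- `eh` vanishes up to `T1 + rr/4`. -/
theorem eh_zero_left {eta0 : ℝ} {l : ℕ} {t x : ℝ} (ht : 0 < t) (hx : x ≤ T1 l t + rr t / 4) :
    eh eta0 l t x = 0 := by
  have hr := rr_pos ht
  have h1 : (x - T1 l t) / rr t ≤ 1 / 4 := by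
    rw [div_le_iff₀ hr]; linarith
  simp only [eh, Th_zero h1, mul_zero, zero_mul]

/-- `eh` vanishes from `T2 - rr/4` on. -/
theorem eh_zero_right {eta0 : ℝ} {l : ℕ} {t x : ℝ} (ht : 0 < t) (hx : T2 l t - rr t / 4 ≤ x) :
    eh eta0 l t x = 0 := by
  have hr := rr_pos ht
  have h1 : (T2 l t - x) / rr t ≤ 1 / 4 := by
    rw [div_le_iff₀ hr]; linarith
  simp [eh, Th_zero h1]

/-- plateau -/
theorem eh_home {eta0 : ℝ} {l : ℕ} {t x : ℝ} (ht : 0 < t) (h1 : T1 l t + 3 / 4 * rr t ≤ x)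
    (h2 : x ≤ T2 l t - 3 / 4 * rr t) : eh eta0 l t x = eta0 := by
  have hr := rr_pos ht
  have h3 : 3 / 4 ≤ (x - T1 l t) / rr t := by
    rw [le_div_iff₀ hr]; linarith
  have h4 : 3 / 4 ≤ (T2 l t - x) / rr t := by
    rw [le_div_iff₀ hr]; linarith only [h2]
  simp [eh, Th_one h3, Th_one h4]

theorem eh_nonneg {eta0 : ℝ} (h0 : 0 ≤ eta0) (l : ℕ) (t x : ℝ) : 0 ≤ eh eta0 l t x :=
  mul_nonneg (mul_nonneg h0 (Th_nonneg _)) (Th_nonneg _)

theorem eh_le {eta0 : ℝ} (h0 : 0 ≤ eta0) (l : ℕ) (t x : ℝ) : eh eta0 l t x ≤ eta0 := by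
  unfold eh
  have h1 := Th_le_one ((x - T1 l t) / rr t)
  have h2 := Th_le_one ((T2 l t - x) / rr t)
  have h3 := Th_nonneg ((x - T1 l t) / rr t)
  have h4 := Th_nonneg ((T2 l t - x) / rr t)
  calc eta0 * Th ((x - T1 l t) / rr t) * Th ((T2 l t - x) / rr t)
      ≤ eta0 * 1 * 1 := by
        apply mul_le_mul (mul_le_mul_of_nonneg_left h1 h0) h2 h4 (by linarith only [h0])
    _ = eta0 := by ring

theorem hasDerivAt_eh (eta0 : ℝ) (l : ℕ) (t x : ℝ) :
    HasDerivAt (eh eta0 l t) (eta0 * (chi ((x - T1 l t) / rr t) * (1 / rr t))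
      * Th ((T2 l t - x) / rr t)
      + eta0 * Th ((x - T1 l t) / rr t) * (chi ((T2 l t - x) / rr t) * (-1 / rr t))) x := by
  unfold eh
  have h1 : HasDerivAt (fun x => Th ((x - T1 l t) / rr t))
      (chi ((x - T1 l t) / rr t) * (1 / rr t)) x :=
    (hasDerivAt_Th _).comp x (((hasDerivAt_id x).sub_const _).div_const _)
  have h2 : HasDerivAt (fun x => Th ((T2 l t - x) / rr t))
      (chi ((T2 l t - x) / rr t) * (-1 / rr t)) x :=
    (hasDerivAt_Th _).comp x (((hasDerivAt_id x).const_sub _).div_const _)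
  exact (h1.const_mul eta0).mul h2

theorem deriv_eh_bound {eta0 : ℝ} (h0 : 0 ≤ eta0) {K : ℝ} (hK : ∀ x, |chi x| ≤ K) (l : ℕ)
    {t : ℝ} (ht : 0 < t) (x : ℝ) : |deriv (eh eta0 l t) x| ≤ 2 * eta0 * K / rr t := by
  have hr := rr_pos ht
  have hK0 : 0 ≤ K := (abs_nonneg _).trans (hK 0)
  rw [(hasDerivAt_eh eta0 l t x).deriv]
  have h1 := Th_le_one ((x - T1 l t) / rr t)
  have h2 := Th_le_one ((T2 l t - x) / rr t)
  have h3 := Th_nonneg ((x - T1 l t) / rr t)
  have h4 := Th_nonneg ((T2 l t - x) / rr t)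
  have e1 : |eta0 * (chi ((x - T1 l t) / rr t) * (1 / rr t)) * Th ((T2 l t - x) / rr t)|
      ≤ eta0 * K / rr t := by
    rw [abs_mul, abs_mul, abs_mul, abs_of_nonneg h0, abs_of_nonneg h4,
      abs_of_pos (by positivity : 0 < 1 / rr t)]
    calc eta0 * (|chi ((x - T1 l t) / rr t)| * (1 / rr t)) * Th ((T2 l t - x) / rr t)
        ≤ eta0 * (K * (1 / rr t)) * 1 := by
          apply mul_le_mul _ h2 h4 (by (clear * - h0 hK0 hr; positivity))
          exact mul_le_mul_of_nonneg_left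
            (mul_le_mul_of_nonneg_right (hK _) (by positivity)) h0
      _ = eta0 * K / rr t := by ring
  have e2 : |eta0 * Th ((x - T1 l t) / rr t) * (chi ((T2 l t - x) / rr t) * (-1 / rr t))|
      ≤ eta0 * K / rr t := by
    rw [abs_mul, abs_mul, abs_mul, abs_of_nonneg h0, abs_of_nonneg h3, abs_div, abs_neg, abs_one,
      abs_of_pos hr]
    calc eta0 * Th ((x - T1 l t) / rr t) * (|chi ((T2 l t - x) / rr t)| * (1 / rr t))
        ≤ eta0 * 1 * (K * (1 / rr t)) := by
          apply mul_le_mul (mul_le_mul_of_nonneg_left h1 h0) _ (by positivity) (by positivity)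
          exact mul_le_mul_of_nonneg_right (hK _) (by positivity)
      _ = eta0 * K / rr t := by ring
  calc _ ≤ _ := abs_add_le _ _
    _ ≤ eta0 * K / rr t + eta0 * K / rr t := add_le_add e1 e2
    _ = 2 * eta0 * K / rr t := by ring

/-- `ep` vanishes after `T1 - rr/4`. -/
theorem ep_zero {l : ℕ} {t x : ℝ} (ht : 0 < t) (hx : T1 l t - rr t / 4 < x)
    (i : Fin l) : chi ((x - t) / rr t - (i : ℝ)) = 0 := by
  have hr := rr_pos ht
  apply chi_zero_right
  have h1 : (i : ℝ) + 1 ≤ l := by exact_mod_cast i.2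
  have h2 : (l : ℝ) - 1 / 4 < (x - t) / rr t := by
    rw [lt_div_iff₀ hr]
    unfold T1 at hx
    linarith
  linarith

theorem ep_eq_zero {l : ℕ} {t x : ℝ} (ht : 0 < t) (c : Fin l → ℝ)
    (hx : T1 l t - rr t / 4 < x) : ep (rr t) t c x = 0 := by
  unfold ep
  exact Finset.sum_eq_zero fun i _ => by rw [ep_zero ht hx i, mul_zero]

theorem deriv_etaC_home {l : ℕ} {eta0 t x : ℝ} (ht : 0 < t) (c : Fin l → ℝ)
    (hx : T1 l t ≤ x) : deriv (etaC eta0 t c) x = deriv (eh eta0 l t) x := by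
  have hr := rr_pos ht
  have h : etaC eta0 t c =ᶠ[𝓝 x] eh eta0 l t := by
    filter_upwards [lt_mem_nhds (show T1 l t - rr t / 4 < x by linarith)] with y hy
    simp [etaC, ep_eq_zero ht c hy]
  exact h.deriv_eq

theorem deriv_etaC_pulse {l : ℕ} {eta0 t x : ℝ} (ht : 0 < t) (c : Fin l → ℝ)
    (hx : x ≤ T1 l t) : deriv (etaC eta0 t c) x = deriv (ep (rr t) t c) x := by
  have hr := rr_pos ht
  have h : etaC eta0 t c =ᶠ[𝓝 x] ep (rr t) t c := by
    filter_upwards [gt_mem_nhds (show x < T1 l t + rr t / 4 by linarith only [hx, hr])] with y hy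
    simp [etaC, eh_zero_left ht hy.le]
  exact h.deriv_eq

theorem beta_zero : beta 0 = 0 := by simp [beta]

end Vale.Agent.P225.B2.Cyc
end
end
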