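import Vale.Agent.P225.MathlibUsed
import Vale.Agent.P225.Defs
import Vale.Agent.P225.YDefs

set_option linter.all false

section

section

/-!
P225, route B, part B3-35 (A): words in the exponentials `exp (c Z_J)`, the group they generate,
the span of the conjugates of the `Z_J`, submersions.
-/

namespace Vale.Agent.P225.B3b

open NormedSpace Set Filter Topology

set_option linter.unusedSectionVars false

section General

variable {𝔸 : Type*} [NormedRing 𝔸] [NormedAlgebra ℝ 𝔸] [CompleteSpace 𝔸] {𝒥 : Type*}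

theorem exp_add_c {x y : 𝔸} (h : Commute x y) : exp (x + y) = exp x * exp y := by
  let _ : NormedAlgebra ℚ 𝔸 := NormedAlgebra.restrictScalars ℚ ℝ 𝔸
  exact exp_add_of_commute h

theorem exp_neg_mul (x : 𝔸) : exp (-x) * exp x = 1 := by
  rw [← exp_add_c (Commute.refl x).neg_left, neg_add_cancel, exp_zero]

theorem exp_mul_neg (x : 𝔸) : exp x * exp (-x) = 1 := by
  rw [← exp_add_c (Commute.refl x).neg_right, add_neg_cancel, exp_zero]

/-- The word product `exp (c_{l-1} Z_{l-1}) ⋯ exp (c_0 Z_0)`. -/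
noncomputable def WP (Z : 𝒥 → 𝔸) : {l : ℕ} → (Fin l → 𝒥) → (Fin l → ℝ) → 𝔸
  | 0, _, _ => 1
  | l + 1, w, c => exp (c (Fin.last l) • Z (w (Fin.last l))) *
      WP Z (fun i : Fin l => w i.castSucc) (fun i : Fin l => c i.castSucc)

theorem WP_zero (Z : 𝒥 → 𝔸) (w : Fin 0 → 𝒥) (c : Fin 0 → ℝ) : WP Z w c = 1 := rfl

theorem WP_succ (Z : 𝒥 → 𝔸) {l : ℕ} (w : Fin (l + 1) → 𝒥) (c : Fin (l + 1) → ℝ) :
    WP Z w c = exp (c (Fin.last l) • Z (w (Fin.last l))) *
      WP Z (fun i : Fin l => w i.castSucc) (fun i : Fin l => c i.castSucc) := rfl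

theorem WP_append (Z : 𝒥 → 𝔸) {l₁ l₂ : ℕ} (w₁ : Fin l₁ → 𝒥) (w₂ : Fin l₂ → 𝒥)
    (c : Fin (l₁ + l₂) → ℝ) :
    WP Z (Fin.append w₁ w₂) c =
      WP Z w₂ (fun i => c (Fin.natAdd l₁ i)) * WP Z w₁ (fun i => c (Fin.castAdd l₂ i)) := by
  induction l₂ with
  | zero =>
    rw [WP_zero, one_mul]
    congr 1
    funext i
    exact Fin.append_left w₁ w₂ i
  | succ l₂ ih =>
    have h1 : (Fin.append w₁ w₂ : Fin (l₁ + (l₂ + 1)) → 𝒥) (Fin.last (l₁ + l₂))
        = w₂ (Fin.last l₂) := Fin.append_right w₁ w₂ (Fin.last l₂)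
    have h2 : (fun i : Fin (l₁ + l₂) => (Fin.append w₁ w₂ : Fin (l₁ + (l₂ + 1)) → 𝒥) i.castSucc)
        = Fin.append w₁ (fun i : Fin l₂ => w₂ i.castSucc) := by
      funext i
      refine Fin.addCases (fun j => ?_) (fun j => ?_) i
      · rw [Fin.append_left]
        exact Fin.append_left w₁ w₂ j
      · rw [Fin.append_right]
        exact Fin.append_right w₁ w₂ j.castSucc
    change exp (c (Fin.last (l₁ + l₂)) •
        Z ((Fin.append w₁ w₂ : Fin (l₁ + (l₂ + 1)) → 𝒥) (Fin.last (l₁ + l₂)))) *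
      WP Z (fun i : Fin (l₁ + l₂) => (Fin.append w₁ w₂ : Fin (l₁ + (l₂ + 1)) → 𝒥) i.castSucc)
        (fun i : Fin (l₁ + l₂) => c i.castSucc) = _
    rw [h1, h2, ih, WP_succ Z w₂, ← mul_assoc]
    rfl

theorem WP_one (Z : 𝒥 → 𝔸) (j : 𝒥) (c : Fin 1 → ℝ) :
    WP Z (fun _ : Fin 1 => j) c = exp (c 0 • Z j) := by
  rw [WP_succ, WP_zero, mul_one]
  rfl

/-- The words have inverses which are words. -/
theorem WP_inv (Z : 𝒥 → 𝔸) : ∀ {l : ℕ} (w : Fin l → 𝒥) (c : Fin l → ℝ),
    ∃ (l' : ℕ) (w' : Fin l' → 𝒥) (c' : Fin l' → ℝ),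
      WP Z w c * WP Z w' c' = 1 ∧ WP Z w' c' * WP Z w c = 1 := by
  intro l
  induction l with
  | zero => intro w c; exact ⟨0, w, c, by simp [WP_zero], by simp [WP_zero]⟩
  | succ l ih =>
    intro w c
    obtain ⟨l', w', c', h1, h2⟩ := ih (fun i : Fin l => w i.castSucc) (fun i : Fin l => c i.castSucc)
    refine ⟨1 + l', Fin.append (fun _ : Fin 1 => w (Fin.last l)) w',
      Fin.append (fun _ : Fin 1 => -c (Fin.last l)) c', ?_⟩
    have e : WP Z (Fin.append (fun _ : Fin 1 => w (Fin.last l)) w')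
        (Fin.append (fun _ : Fin 1 => -c (Fin.last l)) c')
        = WP Z w' c' * exp (-(c (Fin.last l) • Z (w (Fin.last l)))) := by
      rw [WP_append, WP_one]
      congr 1
      · congr 1
        funext i
        exact Fin.append_right _ _ _
      · rw [Fin.append_left, neg_smul]
    rw [e, WP_succ]
    constructor
    · calc exp (c (Fin.last l) • Z (w (Fin.last l))) *
            WP Z (fun i : Fin l => w i.castSucc) (fun i : Fin l => c i.castSucc) *
            (WP Z w' c' * exp (-(c (Fin.last l) • Z (w (Fin.last l)))))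
          = exp (c (Fin.last l) • Z (w (Fin.last l))) *
            (WP Z (fun i : Fin l => w i.castSucc) (fun i : Fin l => c i.castSucc) *
            WP Z w' c') * exp (-(c (Fin.last l) • Z (w (Fin.last l)))) := by
            simp only [mul_assoc]
        _ = 1 := by rw [h1, mul_one, exp_mul_neg]
    · calc WP Z w' c' * exp (-(c (Fin.last l) • Z (w (Fin.last l)))) *
            (exp (c (Fin.last l) • Z (w (Fin.last l))) *
            WP Z (fun i : Fin l => w i.castSucc) (fun i : Fin l => c i.castSucc))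
          = WP Z w' c' * (exp (-(c (Fin.last l) • Z (w (Fin.last l)))) *
            exp (c (Fin.last l) • Z (w (Fin.last l)))) *
            WP Z (fun i : Fin l => w i.castSucc) (fun i : Fin l => c i.castSucc) := by
            simp only [mul_assoc]
        _ = 1 := by rw [exp_neg_mul, mul_one, h2]

/-- `x` is the value of a word at a point where the range of the derivative contains `x V`. -/
def PP (Z : 𝒥 → 𝔸) (x : 𝔸) (V : Submodule ℝ 𝔸) : Prop :=
  ∃ (l : ℕ) (w : Fin l → 𝒥) (c : Fin l → ℝ) (F' : (Fin l → ℝ) →L[ℝ] 𝔸),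
    WP Z w c = x ∧ HasStrictFDerivAt (WP Z w) F' c ∧ ∀ X ∈ V, ∃ v, F' v = x * X

theorem PP.mono {Z : 𝒥 → 𝔸} {x : 𝔸} {V V' : Submodule ℝ 𝔸} (h : PP Z x V) (hV : V' ≤ V) :
    PP Z x V' := by
  obtain ⟨l, w, c, F', h1, h2, h3⟩ := h
  exact ⟨l, w, c, F', h1, h2, fun X hX => h3 X (hV hX)⟩

theorem PP.nil (Z : 𝒥 → 𝔸) : PP Z 1 ⊥ := by
  refine ⟨0, Fin.elim0, Fin.elim0, 0, rfl, ?_, ?_⟩
  · exact hasStrictFDerivAt_const (1 : 𝔸) _
  · intro X hX
    rw [Submodule.mem_bot] at hX
    exact ⟨0, by rw [hX, mul_zero, map_zero]⟩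

theorem PP.single (Z : 𝒥 → 𝔸) (c : ℝ) (j : 𝒥) :
    PP Z (exp (c • Z j)) (Submodule.span ℝ {Z j}) := by
  refine ⟨1, fun _ => j, fun _ => c,
    (ContinuousLinearMap.toSpanSingleton ℝ (exp (c • Z j) * Z j)).comp
      (ContinuousLinearMap.proj (R := ℝ) (φ := fun _ : Fin 1 => ℝ) 0), ?_, ?_, ?_⟩
  · rw [WP_one]
  · have h1 : HasStrictDerivAt (fun u : ℝ => exp (u • Z j)) (exp (c • Z j) * Z j) c :=
      hasStrictDerivAt_exp_smul_const (Z j) c
    have h2 : HasStrictFDerivAt (fun v : Fin 1 → ℝ => v 0)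
        (ContinuousLinearMap.proj (R := ℝ) (φ := fun _ : Fin 1 => ℝ) 0) (fun _ => c) :=
      (ContinuousLinearMap.proj (R := ℝ) (φ := fun _ : Fin 1 => ℝ) 0).hasStrictFDerivAt
    have h3 := HasStrictFDerivAt.comp (fun _ : Fin 1 => c) h1.hasStrictFDerivAt h2
    have h4 : WP Z (fun _ : Fin 1 => j) = (fun u : ℝ => exp (u • Z j)) ∘ fun v : Fin 1 → ℝ => v 0 := by
      funext v
      exact WP_one Z j v
    rw [h4]
    exact h3
  · intro X hX
    obtain ⟨a, rfl⟩ := Submodule.mem_span_singleton.1 hX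
    refine ⟨fun _ => a, ?_⟩
    rw [ContinuousLinearMap.comp_apply, ContinuousLinearMap.toSpanSingleton_apply,
      ContinuousLinearMap.proj_apply, mul_smul_comm]

theorem PP.mul {Z : 𝒥 → 𝔸} {x₁ x₂ y₁ : 𝔸} {V₁ V₂ : Submodule ℝ 𝔸} (h₁ : PP Z x₁ V₁)
    (h₂ : PP Z x₂ V₂) (hy : x₁ * y₁ = 1) :
    PP Z (x₂ * x₁) (V₁ ⊔ V₂.map (LinearMap.mulLeft ℝ y₁ ∘ₗ LinearMap.mulRight ℝ x₁)) := by
  obtain ⟨l₁, w₁, c₁, F₁, e₁, d₁, r₁⟩ := h₁
  obtain ⟨l₂, w₂, c₂, F₂, e₂, d₂, r₂⟩ := h₂
  let π₁ : (Fin (l₁ + l₂) → ℝ) →L[ℝ] (Fin l₁ → ℝ) :=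
    ContinuousLinearMap.pi fun i => ContinuousLinearMap.proj (Fin.castAdd l₂ i)
  let π₂ : (Fin (l₁ + l₂) → ℝ) →L[ℝ] (Fin l₂ → ℝ) :=
    ContinuousLinearMap.pi fun i => ContinuousLinearMap.proj (Fin.natAdd l₁ i)
  have hπ₁ : ∀ (a : Fin l₁ → ℝ) (b : Fin l₂ → ℝ), π₁ (Fin.append a b) = a := by
    intro a b; funext i; exact Fin.append_left a b i
  have hπ₂ : ∀ (a : Fin l₁ → ℝ) (b : Fin l₂ → ℝ), π₂ (Fin.append a b) = b := by
    intro a b; funext i; exact Fin.append_right a b i
  have hfun : WP Z (Fin.append w₁ w₂) = fun c => WP Z w₂ (π₂ c) * WP Z w₁ (π₁ c) := by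
    funext c; exact WP_append Z w₁ w₂ c
  have D₁ : HasStrictFDerivAt (fun c => WP Z w₁ (π₁ c)) (F₁.comp π₁) (Fin.append c₁ c₂) := by
    have d₁' : HasStrictFDerivAt (WP Z w₁) F₁ (π₁ (Fin.append c₁ c₂)) := by rw [hπ₁]; exact d₁
    exact d₁'.comp (Fin.append c₁ c₂) π₁.hasStrictFDerivAt
  have D₂ : HasStrictFDerivAt (fun c => WP Z w₂ (π₂ c)) (F₂.comp π₂) (Fin.append c₁ c₂) := by
    have d₂' : HasStrictFDerivAt (WP Z w₂) F₂ (π₂ (Fin.append c₁ c₂)) := by rw [hπ₂]; exact d₂
    exact d₂'.comp (Fin.append c₁ c₂) π₂.hasStrictFDerivAt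
  have D : HasStrictFDerivAt (WP Z (Fin.append w₁ w₂))
      (WP Z w₂ (π₂ (Fin.append c₁ c₂)) • (F₁.comp π₁)
        + MulOpposite.op (WP Z w₁ (π₁ (Fin.append c₁ c₂))) • (F₂.comp π₂))
      (Fin.append c₁ c₂) := by
    rw [hfun]
    exact D₂.mul' D₁
  refine ⟨l₁ + l₂, Fin.append w₁ w₂, Fin.append c₁ c₂, _, ?_, D, ?_⟩
  · rw [hfun]
    simp only [hπ₁, hπ₂, e₁, e₂]
  · intro X hX
    obtain ⟨X₁, hX₁, X₂', hX₂', rfl⟩ := Submodule.mem_sup.1 hX
    obtain ⟨X₂, hX₂, rfl⟩ := hX₂'
    obtain ⟨v₁, hv₁⟩ := r₁ X₁ hX₁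
    obtain ⟨v₂, hv₂⟩ := r₂ X₂ hX₂
    refine ⟨Fin.append v₁ v₂, ?_⟩
    simp only [add_apply, smul_apply,
      ContinuousLinearMap.comp_apply, hπ₁, hπ₂, e₁, e₂, hv₁, hv₂, smul_eq_mul,
      MulOpposite.smul_eq_mul_unop, MulOpposite.unop_op, LinearMap.comp_apply,
      LinearMap.mulLeft_apply, LinearMap.mulRight_apply]
    calc x₂ * (x₁ * X₁) + x₂ * X₂ * x₁ = x₂ * (x₁ * X₁) + x₂ * 1 * (X₂ * x₁) := by
          rw [mul_one, mul_assoc x₂ X₂]
      _ = x₂ * (x₁ * X₁) + x₂ * (x₁ * y₁) * (X₂ * x₁) := by rw [hy]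
      _ = x₂ * x₁ * (X₁ + y₁ * (X₂ * x₁)) := by noncomm_ring

/-- The group of the words. -/
def GG (Z : 𝒥 → 𝔸) : Subgroup 𝔸ˣ where
  carrier := {x | ∃ (l : ℕ) (w : Fin l → 𝒥) (c : Fin l → ℝ), WP Z w c = x}
  mul_mem' := by
    rintro x y ⟨l₁, w₁, c₁, h₁⟩ ⟨l₂, w₂, c₂, h₂⟩
    refine ⟨l₂ + l₁, Fin.append w₂ w₁, Fin.append c₂ c₁, ?_⟩
    rw [WP_append, Units.val_mul, ← h₁, ← h₂]
    congr 2
    · funext i; exact Fin.append_right _ _ _
    · funext i; exact Fin.append_left _ _ _
  one_mem' := ⟨0, Fin.elim0, Fin.elim0, rfl⟩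
  inv_mem' := by
    rintro x ⟨l, w, c, h⟩
    obtain ⟨l', w', c', h1, h2⟩ := WP_inv Z w c
    refine ⟨l', w', c', ?_⟩
    rw [h] at h1
    exact (Units.inv_eq_of_mul_eq_one_right h1).symm

theorem PP_of_mem {Z : 𝒥 → 𝔸} {x : 𝔸ˣ} (hx : x ∈ GG Z) : PP Z (x : 𝔸) ⊥ := by
  obtain ⟨l, w, c, h⟩ := hx
  rw [← h]
  clear h x
  induction l with
  | zero => exact PP.nil Z
  | succ l ih =>
    obtain ⟨l', w', c', h1, h2⟩ :=
      WP_inv Z (fun i : Fin l => w i.castSucc) (fun i : Fin l => c i.castSucc)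
    rw [WP_succ]
    exact ((ih (fun i : Fin l => w i.castSucc) (fun i : Fin l => c i.castSucc)).mul
      (PP.single Z _ _) h1).mono bot_le

/-- The span of the conjugates of the `Z_J`. -/
noncomputable def gg (Z : 𝒥 → 𝔸) : Submodule ℝ 𝔸 :=
  Submodule.span ℝ {y | ∃ x ∈ GG Z, ∃ j, y = (x : 𝔸) * Z j * ((x⁻¹ : 𝔸ˣ) : 𝔸)}

variable {Z : 𝒥 → 𝔸}

theorem mem_gg_gen {x : 𝔸ˣ} (hx : x ∈ GG Z) (j : 𝒥) :
    (x : 𝔸) * Z j * ((x⁻¹ : 𝔸ˣ) : 𝔸) ∈ gg Z := Submodule.subset_span ⟨x, hx, j, rfl⟩

theorem Z_mem_gg (j : 𝒥) : Z j ∈ gg Z := by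
  have := mem_gg_gen (Z := Z) (GG Z).one_mem j
  simpa using this

theorem conj_mem {x : 𝔸ˣ} (hx : x ∈ GG Z) {Y : 𝔸} (hY : Y ∈ gg Z) :
    (x : 𝔸) * Y * ((x⁻¹ : 𝔸ˣ) : 𝔸) ∈ gg Z := by
  induction hY using Submodule.span_induction with
  | mem y hy =>
    obtain ⟨u, hu, j, rfl⟩ := hy
    have := mem_gg_gen (Z := Z) ((GG Z).mul_mem hx hu) j
    rw [Units.val_mul, mul_inv_rev, Units.val_mul] at this
    simpa only [mul_assoc] using this
  | zero => rw [mul_zero, zero_mul]; exact Submodule.zero_mem _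
  | add a b _ _ ha hb => rw [mul_add, add_mul]; exact Submodule.add_mem _ ha hb
  | smul r a _ ha =>
    rw [mul_smul_comm, smul_mul_assoc]; exact Submodule.smul_mem _ r ha

/-- `exp (t Z_J)` as an element of the group. -/
theorem exists_exp_unit (Z : 𝒥 → 𝔸) (t : ℝ) (j : 𝒥) :
    ∃ x ∈ GG Z, (x : 𝔸) = exp (t • Z j) ∧ ((x⁻¹ : 𝔸ˣ) : 𝔸) = exp (-(t • Z j)) := by
  refine ⟨⟨exp (t • Z j), exp (-(t • Z j)), exp_mul_neg _, exp_neg_mul _⟩, ?_, rfl, rfl⟩
  exact ⟨1, fun _ => j, fun _ => t, WP_one Z j _⟩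

theorem deriv_mem {V : Submodule ℝ 𝔸} (hV : IsClosed (V : Set 𝔸)) {f : ℝ → 𝔸} {f' : 𝔸}
    (hf : HasDerivAt f f' 0) (hmem : ∀ t, f t ∈ V) : f' ∈ V := by
  have h := hf.tendsto_slope_zero
  refine hV.mem_of_tendsto h ?_
  exact Eventually.of_forall fun t => V.smul_mem _ (V.sub_mem (hmem _) (hmem _))

theorem ad_Z_mem [FiniteDimensional ℝ 𝔸] (j : 𝒥) {Y : 𝔸} (hY : Y ∈ gg Z) :
    Z j * Y - Y * Z j ∈ gg Z := by
  have hcl : IsClosed (gg Z : Set 𝔸) := (gg Z).closed_of_finiteDimensional
  have h1 : HasDerivAt (fun t : ℝ => exp (t • Z j)) (exp ((0 : ℝ) • Z j) * Z j) 0 :=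
    hasDerivAt_exp_smul_const (Z j) 0
  have h2 : HasDerivAt (fun t : ℝ => exp (t • -Z j)) (exp ((0 : ℝ) • -Z j) * -Z j) 0 :=
    hasDerivAt_exp_smul_const (-Z j) 0
  have h3 : HasDerivAt (fun t : ℝ => exp (t • Z j) * Y * exp (t • -Z j)) _ 0 :=
    (h1.mul_const Y).mul h2
  refine deriv_mem hcl (f := fun t : ℝ => exp (t • Z j) * Y * exp (t • -Z j)) ?_ ?_
  · convert h3 using 1
    rw [zero_smul, zero_smul, exp_zero]
    noncomm_ring
  · intro t
    obtain ⟨x, hx, e1, e2⟩ := exists_exp_unit Z t j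
    have := conj_mem hx hY
    rw [e1, e2] at this
    rwa [smul_neg]

theorem bracket_mem [FiniteDimensional ℝ 𝔸] {X Y : 𝔸} (hX : X ∈ gg Z) (hY : Y ∈ gg Z) :
    X * Y - Y * X ∈ gg Z := by
  induction hX using Submodule.span_induction with
  | mem y hy =>
    obtain ⟨u, hu, j, rfl⟩ := hy
    have h1 := conj_mem ((GG Z).inv_mem hu) hY
    have h2 := conj_mem hu (ad_Z_mem j h1)
    convert h2 using 1
    rw [inv_inv]
    have e1 : (u : 𝔸) * ((u⁻¹ : 𝔸ˣ) : 𝔸) = 1 := u.mul_inv
    calc (u : 𝔸) * Z j * ((u⁻¹ : 𝔸ˣ) : 𝔸) * Y - Y * (u * Z j * ((u⁻¹ : 𝔸ˣ) : 𝔸))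
        = (u : 𝔸) * Z j * ((u⁻¹ : 𝔸ˣ) : 𝔸) * Y * 1 - 1 * Y * (u * Z j * ((u⁻¹ : 𝔸ˣ) : 𝔸)) := by
          rw [mul_one, one_mul]
      _ = (u : 𝔸) * Z j * ((u⁻¹ : 𝔸ˣ) : 𝔸) * Y * ((u : 𝔸) * ((u⁻¹ : 𝔸ˣ) : 𝔸))
          - ((u : 𝔸) * ((u⁻¹ : 𝔸ˣ) : 𝔸)) * Y * (u * Z j * ((u⁻¹ : 𝔸ˣ) : 𝔸)) := by rw [e1]
      _ = _ := by noncomm_ring
  | zero => rw [mul_zero, zero_mul, sub_zero]; exact Submodule.zero_mem _
  | add a b _ _ ha hb =>
    have : (a + b) * Y - Y * (a + b) = (a * Y - Y * a) + (b * Y - Y * b) := by noncomm_ring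
    rw [this]; exact Submodule.add_mem _ ha hb
  | smul r a _ ha =>
    have : (r • a) * Y - Y * (r • a) = r • (a * Y - Y * a) := by
      rw [mul_smul_comm, smul_mul_assoc, smul_sub]
    rw [this]; exact Submodule.smul_mem _ r ha

/-- Automorphisms which permute the `Z_J`. -/
theorem auto_mem [FiniteDimensional ℝ 𝔸] (φ : 𝔸 ≃ₐ[ℝ] 𝔸) (hφ : ∀ j, ∃ j', φ (Z j) = Z j')
    {Y : 𝔸} (hY : Y ∈ gg Z) : φ Y ∈ gg Z := by
  have hcont : Continuous φ := φ.toLinearMap.continuous_of_finiteDimensional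
  choose σ hσ using hφ
  have hexp : ∀ x : 𝔸, φ (exp x) = exp (φ x) := by
    intro x
    let _ : NormedAlgebra ℚ 𝔸 := NormedAlgebra.restrictScalars ℚ ℝ 𝔸
    exact map_exp φ hcont x
  have hWP : ∀ {l : ℕ} (w : Fin l → 𝒥) (c : Fin l → ℝ), φ (WP Z w c) = WP Z (fun i => σ (w i)) c := by
    intro l
    induction l with
    | zero => intro w c; exact map_one φ
    | succ l ih =>
      intro w c
      rw [WP_succ, map_mul, ih, hexp, map_smul, hσ, WP_succ]
  induction hY using Submodule.span_induction with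
  | mem y hy =>
    obtain ⟨u, ⟨l, w, c, h⟩, j, rfl⟩ := hy
    have hu : Units.map (φ : 𝔸 →* 𝔸) u ∈ GG Z := by
      refine ⟨l, fun i => σ (w i), c, ?_⟩
      rw [← hWP, h]
      rfl
    have := mem_gg_gen (Z := Z) hu (σ j)
    rw [map_mul, map_mul, hσ]
    rw [← map_inv] at this
    exact this
  | zero => rw [map_zero]; exact Submodule.zero_mem _
  | add a b _ _ ha hb => rw [map_add]; exact Submodule.add_mem _ ha hb
  | smul r a _ ha => rw [map_smul]; exact Submodule.smul_mem _ r ha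

theorem PP_one_sup {V₁ V₂ : Submodule ℝ 𝔸} (h₁ : PP Z 1 V₁) (h₂ : PP Z 1 V₂) :
    PP Z 1 (V₁ ⊔ V₂) := by
  have h := h₁.mul h₂ (one_mul (1 : 𝔸))
  rw [one_mul] at h
  refine h.mono (sup_le_sup le_rfl ?_)
  intro X hX
  exact ⟨X, hX, by simp⟩

theorem PP_one_line {x : 𝔸ˣ} (hx : x ∈ GG Z) (j : 𝒥) :
    PP Z 1 (Submodule.span ℝ {(x : 𝔸) * Z j * ((x⁻¹ : 𝔸ˣ) : 𝔸)}) := by
  have h1 : PP Z ((x⁻¹ : 𝔸ˣ) : 𝔸) ⊥ := PP_of_mem ((GG Z).inv_mem hx)
  have h2 : PP Z (1 : 𝔸) (Submodule.span ℝ {Z j}) := by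
    have := PP.single Z 0 j
    rwa [zero_smul, exp_zero] at this
  have h3 : PP Z (x : 𝔸) ⊥ := PP_of_mem hx
  have h4 := h1.mul h2 (y₁ := (x : 𝔸)) x.inv_mul
  have h5 := h4.mul h3 (y₁ := (x : 𝔸)) (by rw [one_mul]; exact x.inv_mul)
  rw [one_mul, x.mul_inv] at h5
  refine h5.mono ?_
  rw [Submodule.span_le, Set.singleton_subset_iff]
  refine Submodule.mem_sup_left (Submodule.mem_sup_right ?_)
  refine ⟨Z j, Submodule.mem_span_singleton_self _, ?_⟩
  simp only [LinearMap.comp_apply, LinearMap.mulRight_apply, LinearMap.mulLeft_apply, mul_assoc]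

/-- Every element of the group is the value of a word, at a point where the range of the
derivative is as large as possible. -/
theorem PP_full [FiniteDimensional ℝ 𝔸] {x : 𝔸ˣ} (hx : x ∈ GG Z) : PP Z (x : 𝔸) (gg Z) := by
  have hwf : WellFounded ((· > ·) : Submodule ℝ 𝔸 → Submodule ℝ 𝔸 → Prop) := wellFounded_gt
  obtain ⟨V, hV, hmax⟩ := hwf.has_min {V : Submodule ℝ 𝔸 | PP Z 1 V} ⟨⊥, PP.nil Z⟩
  have hle : gg Z ≤ V := by
    rw [gg, Submodule.span_le]
    rintro y ⟨u, hu, j, rfl⟩
    have h1 := PP_one_sup hV (PP_one_line hu j)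
    have h2 := hmax _ h1
    have h3 : V ⊔ Submodule.span ℝ {(u : 𝔸) * Z j * ((u⁻¹ : 𝔸ˣ) : 𝔸)} = V := by
      by_contra hne
      exact h2 (lt_of_le_of_ne le_sup_left (Ne.symm hne))
    rw [SetLike.mem_coe, ← h3]
    exact Submodule.mem_sup_right (Submodule.mem_span_singleton_self _)
  have h4 := (hV.mono hle).mul (PP_of_mem hx) (one_mul (1 : 𝔸))
  rw [mul_one] at h4
  exact h4.mono le_sup_left

end General

end Vale.Agent.P225.B3b
end
end

section

section

set_option linter.all false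

section
open MeasureTheory Set Metric Filter Topology
open scoped ENNReal NNReal ContDiff

namespace Vale.Agent.P225

/-- Euclidean space. -/
abbrev E (n : ℕ) : Type := EuclideanSpace ℝ (Fin n)

/-- Surface measure of the unit sphere. -/
noncomputable abbrev sig (n : ℕ) : Measure (sphere (0 : E n) 1) :=
  (volume : Measure (E n)).toSphere

/-- Integral of `g (r θ)` over the unit sphere. -/
noncomputable def sph {n : ℕ} (g : E n → ℝ) (r : ℝ) : ℝ :=
  ∫ θ : sphere (0 : E n) 1, g (r • (θ : E n)) ∂(sig n)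

theorem integral_polar {n : ℕ} [NeZero n] (g : E n → ℝ) (hg : Integrable g) :
    ∫ x, g x = ∫ r in Ioi (0 : ℝ), r ^ (n - 1) * sph g r := by
  have hdim : Module.finrank ℝ (E n) = n := by simp only [finrank_euclideanSpace, Fintype.card_fin]
  set μ : Measure (E n) := volume with hμ
  have hmp := μ.measurePreserving_homeomorphUnitSphereProd
  have he := (Homeomorph.measurableEmbedding (homeomorphUnitSphereProd (E n)))
  set gg : sphere (0 : E n) 1 × Ioi (0 : ℝ) → ℝ := fun p => g (p.2.1 • p.1.1) with hgg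
  have hcomp : ∀ x : ({(0)}ᶜ : Set (E n)), gg (homeomorphUnitSphereProd (E n) x) = g x.1 := by
    intro x
    have := congrArg (Subtype.val) ((homeomorphUnitSphereProd (E n)).symm_apply_apply x)
    rw [homeomorphUnitSphereProd_symm_apply_coe] at this
    simp only [hgg]
    rw [this]
  have hint : Integrable gg (μ.toSphere.prod (.volumeIoiPow (Module.finrank ℝ (E n) - 1))) := by
    rw [← hmp.integrable_comp_emb he]
    have : gg ∘ (homeomorphUnitSphereProd (E n)) = g ∘ Subtype.val := by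
      funext x; exact hcomp x
    rw [this, ← integrableOn_iff_comap_subtypeVal (measurableSet_singleton _).compl]
    exact hg.integrableOn
  calc ∫ x, g x ∂μ = ∫ x : ({(0)}ᶜ : Set (E n)), g x.1 ∂(μ.comap (↑)) := by
        rw [integral_subtype_comap (measurableSet_singleton _).compl fun x ↦ g x,
          restrict_compl_singleton]
    _ = ∫ p, gg p ∂μ.toSphere.prod (.volumeIoiPow (Module.finrank ℝ (E n) - 1)) := by
        rw [← hmp.integral_comp he]
        simp only [hcomp]
    _ = ∫ r : Ioi (0 : ℝ), sph g r.1 ∂(.volumeIoiPow (Module.finrank ℝ (E n) - 1)) := by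
        rw [integral_prod_symm _ hint]
        rfl
    _ = _ := by
      simp only [Measure.volumeIoiPow, ENNReal.ofReal]
      rw [integral_withDensity_eq_integral_smul,
        integral_subtype_comap measurableSet_Ioi fun a ↦ Real.toNNReal (a ^ (Module.finrank ℝ (E n) - 1)) • sph g a,
        setIntegral_congr_fun measurableSet_Ioi fun x hx ↦ ?_]
      · simp only [hdim]
        rw [NNReal.smul_def, Real.coe_toNNReal _ (pow_nonneg hx.out.le _), smul_eq_mul]
      · exact (measurable_subtype_coe.pow_const _).real_toNNReal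

end Vale.Agent.P225
end

section
open MeasureTheory Set Filter Topology
open scoped ContDiff

namespace Vale.Agent.P225

theorem weak_deriv_aux {a : ℝ} {g : ℝ → ℝ} (hg : ContDiff ℝ ∞ g) (hc : HasCompactSupport g)
    (hs : tsupport g ⊆ Ioi a) (h0 : ∫ x, g x = 0) :
    ∃ ψ : ℝ → ℝ, ContDiff ℝ ∞ ψ ∧ HasCompactSupport ψ ∧ tsupport ψ ⊆ Ioi a ∧
      ∀ x, HasDerivAt ψ (g x) x := by
  have hgc : Continuous g := hg.continuous
  obtain ⟨α, hα, hαs⟩ : ∃ α, a < α ∧ tsupport g ⊆ Ioi α := by
    rcases (tsupport g).eq_empty_or_nonempty with he | hne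
    · exact ⟨a + 1, by linarith only [], by rw [he]; exact empty_subset _⟩
    · obtain ⟨m, hm, hmin⟩ := (show IsCompact (tsupport g) from hc).exists_isLeast hne
      have := hs hm
      refine ⟨(a + m) / 2, ?_, ?_⟩
      · have : a < m := this
        linarith only [this]
      · intro x hx
        have h1 := hmin hx
        have : a < m := this
        simp only [mem_Ioi]
        linarith only [h1, this]
  obtain ⟨β, hβs⟩ : ∃ β, tsupport g ⊆ Iio β := by
    obtain ⟨M, hM⟩ := (show IsCompact (tsupport g) from hc).bddAbove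
    exact ⟨M + 1, fun x hx => by
      have := hM hx
      simp only [mem_Iio]; linarith only [this]⟩
  have gz1 : ∀ x, x ≤ α → g x = 0 := by
    intro x hx
    by_contra hne
    have : x ∈ tsupport g := subset_tsupport g hne
    have := hαs this
    simp only [mem_Ioi] at this
    linarith only [hx, this]
  have gz2 : ∀ x, β ≤ x → g x = 0 := by
    intro x hx
    by_contra hne
    have : x ∈ tsupport g := subset_tsupport g hne
    have := hβs this
    simp only [mem_Iio] at this
    linarith only [hx, this]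
  have hint : ∀ x y, IntervalIntegrable g volume x y := fun x y => hgc.intervalIntegrable x y
  set ψ : ℝ → ℝ := fun x => ∫ t in α..x, g t with hψ
  have hder : ∀ x, HasDerivAt ψ (g x) x := fun x =>
    intervalIntegral.integral_hasDerivAt_right (hint _ _) (hgc.stronglyMeasurableAtFilter _ _)
      hgc.continuousAt
  have hz1 : ∀ x, x ≤ α → ψ x = 0 := by
    intro x hx
    simp only [hψ]
    rw [intervalIntegral.integral_symm]
    rw [intervalIntegral.integral_congr (g := fun _ => 0)]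
    · simp
    · intro t ht
      rw [uIcc_of_le hx] at ht
      exact gz1 t ht.2
  have hz2 : ∀ x, β ≤ x → ψ x = 0 := by
    intro x hx
    simp only [hψ]
    rw [intervalIntegral.integral_eq_integral_of_support_subset, h0]
    intro t ht
    have h1 : α < t := by
      by_contra hh
      exact ht (gz1 t (not_lt.1 hh))
    have h2 : t < β := by
      by_contra hh
      exact ht (gz2 t (not_lt.1 hh))
    exact ⟨h1, by linarith only [hx, h2]⟩
  have hsub : tsupport ψ ⊆ Icc α β := by
    apply closure_minimal _ isClosed_Icc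
    intro x hx
    refine ⟨?_, ?_⟩
    · by_contra hh
      exact hx (hz1 x (not_le.1 hh).le)
    · by_contra hh
      exact hx (hz2 x (not_le.1 hh).le)
  refine ⟨ψ, ?_, ?_, ?_, hder⟩
  · rw [contDiff_infty_iff_deriv]
    refine ⟨fun x => (hder x).differentiableAt, ?_⟩
    have : deriv ψ = g := funext fun x => (hder x).deriv
    rw [this]; exact hg
  · exact HasCompactSupport.of_support_subset_isCompact isCompact_Icc
      ((subset_tsupport ψ).trans hsub)
  · intro x hx
    exact lt_of_lt_of_le hα (hsub hx).1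

/-- A continuous function with continuous weak derivative is differentiable. -/
theorem weak_deriv {a : ℝ} {φ D : ℝ → ℝ} (hφ : ContinuousOn φ (Ioi a))
    (hD : ContinuousOn D (Ioi a))
    (h : ∀ ψ : ℝ → ℝ, ContDiff ℝ ∞ ψ → HasCompactSupport ψ → tsupport ψ ⊆ Ioi a →
      ∫ r, ψ r * D r = - ∫ r, deriv ψ r * φ r) :
    ∀ r ∈ Ioi a, HasDerivAt φ (D r) r := by
  intro r₀ hr₀
  set I : ℝ → ℝ := fun r => ∫ t in r₀..r, D t with hI
  have hDint : ∀ x ∈ Ioi a, ∀ y ∈ Ioi a, IntervalIntegrable D volume x y := by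
    intro x hx y hy
    apply ContinuousOn.intervalIntegrable
    apply hD.mono
    intro t ht
    rcases le_total x y with hxy | hxy
    · rw [uIcc_of_le hxy] at ht
      exact lt_of_lt_of_le hx ht.1
    · rw [uIcc_of_ge hxy] at ht
      exact lt_of_lt_of_le hy ht.1
  have hIder : ∀ r ∈ Ioi a, HasDerivAt I (D r) r := by
    intro r hr
    apply intervalIntegral.integral_hasDerivAt_right (hDint _ hr₀ _ hr)
    · exact hD.stronglyMeasurableAtFilter isOpen_Ioi r hr
    · exact hD.continuousAt (isOpen_Ioi.mem_nhds hr)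
  have hIc : ContinuousOn I (Ioi a) := fun r hr => (hIder r hr).continuousAt.continuousWithinAt
  set Φ : ℝ → ℝ := fun r => φ r - I r with hΦ
  have hΦc : ContinuousOn Φ (Ioi a) := hφ.sub hIc
  -- helper continuity and integrability
  have hcont : ∀ (g f : ℝ → ℝ), Continuous g → HasCompactSupport g → tsupport g ⊆ Ioi a →
      ContinuousOn f (Ioi a) → Integrable (fun r => g r * f r) := by
    intro g f hg hc hs hf
    have hs' : tsupport (fun r => g r * f r) ⊆ tsupport g := by
      exact tsupport_mul_subset_left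
    have : Continuous (fun r => g r * f r) :=
      ContinuousOn.continuous_of_tsupport_subset (hg.continuousOn.mul hf) isOpen_Ioi (hs'.trans hs)
    exact this.integrable_of_hasCompactSupport (hc.mono (by
      intro x hx; exact fun h0 => hx (by simp [h0])))
  have key : ∀ g : ℝ → ℝ, ContDiff ℝ ∞ g → HasCompactSupport g → tsupport g ⊆ Ioi a →
      ∫ x, g x = 0 → ∫ x, g x * Φ x = 0 := by
    intro g hg hc hs h0
    obtain ⟨ψ, hψ, hψc, hψs, hψd⟩ := weak_deriv_aux hg hc hs h0
    have hdψ : deriv ψ = g := funext fun x => (hψd x).deriv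
    have h1 := h ψ hψ hψc hψs
    rw [hdψ] at h1
    have h2 : ∫ x, ψ x * D x = - ∫ x, g x * I x := by
      have := integral_mul_deriv_eq_deriv_mul_of_integrable (u := ψ) (v := I) (u' := g) (v' := D)
        (fun x _ => hψd x) (fun x hx => hIder x (hψs hx))
        (hcont ψ D hψ.continuous hψc hψs hD) (hcont g I hg.continuous hc hs hIc)
        (hcont ψ I hψ.continuous hψc hψs hIc)
      exact this
    have i1 := hcont g φ hg.continuous hc hs hφ
    have i2 := hcont g I hg.continuous hc hs hIc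
    have : ∫ x, g x * Φ x = (∫ x, g x * φ x) - ∫ x, g x * I x := by
      rw [← integral_sub i1 i2]
      congr 1
      funext x
      simp only [hΦ]; ring
    rw [this]
    linarith only [h1, h2]
  obtain ⟨g₀, hg₀, hg₀c, hg₀s, hg₀1⟩ : ∃ g₀ : ℝ → ℝ, ContDiff ℝ ∞ g₀ ∧ HasCompactSupport g₀ ∧
      tsupport g₀ ⊆ Ioi a ∧ ∫ x, g₀ x = 1 := by
    have hr : 0 < (r₀ - a) / 2 := by
      have : a < r₀ := hr₀
      linarith only [this]
    let b : ContDiffBump r₀ := ⟨(r₀ - a) / 4, (r₀ - a) / 2, by linarith, by linarith⟩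
    refine ⟨b.normed volume, b.contDiff_normed, b.hasCompactSupport_normed, ?_, b.integral_normed⟩
    rw [b.tsupport_normed_eq]
    intro x hx
    rw [Metric.mem_closedBall, Real.dist_eq, abs_le] at hx
    have h1 := hx.1
    have : a < r₀ := hr₀
    simp only [mem_Ioi]
    have h2 : b.rOut = (r₀ - a) / 2 := rfl
    rw [h2] at h1
    linarith only [hr, h1]
  set c : ℝ := ∫ x, g₀ x * Φ x with hc
  have key2 : ∀ g : ℝ → ℝ, ContDiff ℝ ∞ g → HasCompactSupport g → tsupport g ⊆ Ioi a →
      ∫ x, g x • (Φ x - c) = 0 := by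
    intro g hg hgc hgs
    set m : ℝ := ∫ x, g x with hm
    set k : ℝ → ℝ := fun x => g x - m * g₀ x with hk
    have ig : Integrable g := hg.continuous.integrable_of_hasCompactSupport hgc
    have ig0 : Integrable g₀ := hg₀.continuous.integrable_of_hasCompactSupport hg₀c
    have hk1 : ContDiff ℝ ∞ k := hg.sub (contDiff_const.mul hg₀)
    have hksup : tsupport k ⊆ tsupport g ∪ tsupport g₀ := by
      apply closure_minimal _ ((isClosed_tsupport g).union (isClosed_tsupport g₀))
      intro x hx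
      by_contra hh
      rw [mem_union, not_or] at hh
      apply hx
      simp only [hk]
      rw [image_eq_zero_of_notMem_tsupport hh.1, image_eq_zero_of_notMem_tsupport hh.2]
      simp
    have hk2 : HasCompactSupport k := by
      apply HasCompactSupport.of_support_subset_isCompact (hgc.union hg₀c)
      exact (subset_tsupport k).trans hksup
    have hk3 : tsupport k ⊆ Ioi a := hksup.trans (union_subset hgs hg₀s)
    have hk4 : ∫ x, k x = 0 := by
      simp only [hk]
      rw [integral_sub ig (ig0.const_mul m), integral_const_mul, hg₀1]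
      simp [hm]
    have h5 := key k hk1 hk2 hk3 hk4
    have j1 := hcont g Φ hg.continuous hgc hgs hΦc
    have j2 := hcont g₀ Φ hg₀.continuous hg₀c hg₀s hΦc
    have h6 : ∫ x, k x * Φ x = (∫ x, g x * Φ x) - m * c := by
      rw [hc, ← integral_const_mul, ← integral_sub j1 (j2.const_mul m)]
      congr 1
      funext x
      simp only [hk]; ring
    have h7 : ∫ x, g x • (Φ x - c) = (∫ x, g x * Φ x) - m * c := by
      rw [hm, ← integral_mul_const, ← integral_sub j1 (ig.mul_const c)]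
      congr 1
      funext x
      simp only [smul_eq_mul]; ring
    rw [h7, ← h6, h5]
  have hae : ∀ᵐ x ∂(volume : Measure ℝ), x ∈ Ioi a → Φ x - c = 0 := by
    apply IsOpen.ae_eq_zero_of_integral_contDiff_smul_eq_zero isOpen_Ioi
    · exact (hΦc.sub continuousOn_const).locallyIntegrableOn measurableSet_Ioi
    · exact key2
  have hconst : EqOn (fun x => Φ x - c) (fun _ => 0) (Ioi a) := by
    apply MeasureTheory.Measure.eqOn_open_of_ae_eq (μ := volume)
    · exact (ae_restrict_iff' measurableSet_Ioi).2 hae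
    · exact isOpen_Ioi
    · exact hΦc.sub continuousOn_const
    · exact continuousOn_const
  have heq : EqOn φ (fun r => c + I r) (Ioi a) := by
    intro r hr
    have := hconst hr
    simp only [hΦ] at this
    simp only
    linarith only [this]
  have hfin : HasDerivAt (fun r => c + I r) (D r₀) r₀ := (hIder r₀ hr₀).const_add c
  exact hfin.congr_of_eventuallyEq (heq.eventuallyEq_of_mem (isOpen_Ioi.mem_nhds hr₀))

end Vale.Agent.P225
end

section
open MeasureTheory Set Metric Filter Topology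
open scoped ContDiff

namespace Vale.Agent.P225

/-- Divergence of a vector field. -/
noncomputable def divg {n : ℕ} (F : E n → E n) (x : E n) : ℝ :=
  ∑ i, (fderiv ℝ F x (EuclideanSpace.single i 1)) i

theorem sum_single {n : ℕ} (v : E n) : ∑ i, v i • (EuclideanSpace.single i (1 : ℝ) : E n) = v := by
  ext j
  simp only [WithLp.ofLp_sum, WithLp.ofLp_smul, PiLp.ofLp_single, Finset.sum_apply, Pi.smul_apply, Pi.single_apply, smul_eq_mul, mul_ite, mul_one, mul_zero, Finset.sum_ite_eq, Finset.mem_univ, ↓reduceIte]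

theorem clm_apply_eq_sum {n : ℕ} {F : Type*} [NormedAddCommGroup F] [NormedSpace ℝ F]
    (L : E n →L[ℝ] F) (v : E n) :
    L v = ∑ i, v i • L (EuclideanSpace.single i 1) := by
  conv_lhs => rw [← sum_single v]
  simp only [map_sum, map_smul]

theorem isOpen_out {n : ℕ} (R : ℝ) : IsOpen {x : E n | R < ‖x‖} :=
  isOpen_lt continuous_const continuous_norm

theorem ibp {n : ℕ} {U : Set (E n)} (hU : IsOpen U) {F : E n → E n} (hF : ContDiffOn ℝ 1 F U)
    {χ : E n → ℝ} (hχ : ContDiff ℝ 1 χ) (hc : HasCompactSupport χ) (hsub : tsupport χ ⊆ U) :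
    ∫ x, χ x * divg F x = - ∫ x, fderiv ℝ χ x (F x) := by
  have hFc : ContinuousOn F U := hF.continuousOn
  have hF' : ContinuousOn (fun x => fderiv ℝ F x) U := hF.continuousOn_fderiv_of_isOpen hU le_rfl
  have hχ' : Continuous (fun x => fderiv ℝ χ x) := hχ.continuous_fderiv (by simp)
  have hcont : ∀ (g f : E n → ℝ), Continuous g → tsupport g ⊆ tsupport χ →
      ContinuousOn f U → Integrable (fun r => g r * f r) := by
    intro g f hg hs hf
    have hs' : tsupport (fun r => g r * f r) ⊆ tsupport g := tsupport_mul_subset_left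
    have hgc : HasCompactSupport g := hc.of_isClosed_subset (isClosed_tsupport g) hs
    have : Continuous (fun r => g r * f r) :=
      ContinuousOn.continuous_of_tsupport_subset (hg.continuousOn.mul hf) hU
        ((hs'.trans hs).trans hsub)
    exact this.integrable_of_hasCompactSupport (hgc.mono (by
      intro x hx; exact fun h0 => hx (by simp [h0])))
  have hd : ∀ i : Fin n, Continuous (fun x => fderiv ℝ χ x (EuclideanSpace.single i 1)) :=
    fun i => hχ'.clm_apply continuous_const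
  have hds : ∀ i : Fin n, tsupport (fun x => fderiv ℝ χ x (EuclideanSpace.single i 1)) ⊆
      tsupport χ := by
    intro i
    apply closure_minimal _ (isClosed_tsupport χ)
    intro x hx
    by_contra hh
    apply hx
    have : fderiv ℝ χ x = 0 := by
      by_contra h0
      exact hh (support_fderiv_subset ℝ h0)
    simp only [this]
    simp
  have hcomp : ∀ i : Fin n, ContinuousOn (fun x => F x i) U := fun i =>
    (EuclideanSpace.proj (𝕜 := ℝ) i).continuous.comp_continuousOn hFc
  have hcomp' : ∀ i : Fin n, ContinuousOn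
      (fun x => (fderiv ℝ F x (EuclideanSpace.single i 1)) i) U := fun i =>
    (EuclideanSpace.proj (𝕜 := ℝ) i).continuous.comp_continuousOn
      (hF'.clm_apply continuousOn_const)
  have hone : ∀ i : Fin n, ∫ x, χ x * (fderiv ℝ F x (EuclideanSpace.single i 1)) i =
      - ∫ x, fderiv ℝ χ x (EuclideanSpace.single i 1) * F x i := by
    intro i
    have := integral_bilinear_hasFDerivAt_right_eq_neg_left_of_integrable (μ := (volume : Measure (E n)))
      (f := χ) (f' := fun x => fderiv ℝ χ x) (g := fun x => F x i)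
      (g' := fun x => (EuclideanSpace.proj (𝕜 := ℝ) i).comp (fderiv ℝ F x))
      (v := EuclideanSpace.single i 1) (B := ContinuousLinearMap.mul ℝ ℝ)
      (hcont _ _ (hd i) (hds i) (hcomp i)) (hcont _ _ hχ.continuous subset_rfl (hcomp' i))
      (hcont _ _ hχ.continuous subset_rfl (hcomp i))
      (fun x _ => (hχ.differentiable (by simp) x).hasFDerivAt)
      (fun x hx => by
        have h1 : HasFDerivAt F (fderiv ℝ F x) x :=
          ((hF.differentiableOn (by simp)).differentiableAt (hU.mem_nhds (hsub hx))).hasFDerivAt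
        exact (EuclideanSpace.proj (𝕜 := ℝ) i).hasFDerivAt.comp x h1)
    simpa only [ContinuousLinearMap.comp_apply, PiLp.proj_apply, ContinuousLinearMap.mul_apply'] using this
  have hsum : ∀ x, fderiv ℝ χ x (F x) =
      ∑ i, fderiv ℝ χ x (EuclideanSpace.single i 1) * F x i := by
    intro x
    rw [clm_apply_eq_sum]
    apply Finset.sum_congr rfl
    intro i _
    simp only [smul_eq_mul, mul_comm]
  simp only [divg, hsum, Finset.mul_sum]
  rw [integral_finsetSum, integral_finsetSum, ← Finset.sum_neg_distrib]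
  · exact Finset.sum_congr rfl fun i _ => hone i
  · intro i _
    exact hcont _ _ (hd i) (hds i) (hcomp i)
  · intro i _
    exact hcont _ _ hχ.continuous subset_rfl (hcomp' i)

theorem sph_continuousOn {n : ℕ} {R : ℝ} (hR : 0 ≤ R) {g : E n → ℝ}
    (hg : ContinuousOn g {x | R < ‖x‖}) : ContinuousOn (sph g) (Ioi R) := by
  rw [continuousOn_iff_continuous_domRestrict]
  have : (Ioi R).domRestrict (sph g) =
      fun r : Ioi R => ∫ θ in univ, g ((r : ℝ) • (θ : E n)) ∂(sig n) := by
    funext r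
    simp only [domRestrict_apply, sph, Measure.restrict_univ]
  rw [this]
  haveI : LocallyCompactSpace (Ioi R) := isOpen_Ioi.locallyCompactSpace
  apply continuous_parametric_integral_of_continuous _ isCompact_univ
  have h2 : Continuous (fun p : Ioi R × sphere (0 : E n) 1 => (p.1 : ℝ) • (p.2 : E n)) := by
    fun_prop
  apply hg.comp_continuous h2
  rintro ⟨⟨r, hr⟩, ⟨θ, hθ⟩⟩
  simp only [mem_sphere_zero_iff_norm] at hθ
  simp only [mem_ofPred_eq, norm_smul, hθ, mul_one, Real.norm_eq_abs]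
  exact lt_of_lt_of_le hr (le_abs_self r)

theorem sph_integrable {n : ℕ} {R : ℝ} {g : E n → ℝ}
    (hg : ContinuousOn g {x | R < ‖x‖}) {r : ℝ} (hr : R < r) :
    Integrable (fun θ : sphere (0 : E n) 1 => g (r • (θ : E n))) (sig n) := by
  have h2 : Continuous (fun p : sphere (0 : E n) 1 => r • (p : E n)) := by
    fun_prop
  have : Continuous (fun θ : sphere (0 : E n) 1 => g (r • (θ : E n))) := by
    apply hg.comp_continuous h2
    rintro ⟨θ, hθ⟩
    simp only [mem_sphere_zero_iff_norm] at hθ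
    simp only [mem_ofPred_eq, norm_smul, hθ, mul_one, Real.norm_eq_abs]
    exact lt_of_lt_of_le hr (le_abs_self r)
  exact this.integrable_of_hasCompactSupport (HasCompactSupport.of_compactSpace _)

/-- Flux of a field through the sphere of radius `r`. -/
noncomputable def flux {n : ℕ} (F : E n → E n) (r : ℝ) : ℝ :=
  r ^ (n - 1) * sph (fun x => inner ℝ (F x) x / ‖x‖) r

theorem hasDerivAt_flux {n : ℕ} [NeZero n] {R : ℝ} (hR : 0 ≤ R) {F : E n → E n}
    (hF : ContDiffOn ℝ 1 F {x | R < ‖x‖}) {r : ℝ} (hr : R < r) :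
    HasDerivAt (flux F) (r ^ (n - 1) * sph (divg F) r) r := by
  have hFc := hF.continuousOn
  have hF' : ContinuousOn (fun x => fderiv ℝ F x) {x | R < ‖x‖} :=
    hF.continuousOn_fderiv_of_isOpen (isOpen_out R) le_rfl
  have hdiv : ContinuousOn (divg F) {x | R < ‖x‖} := by
    unfold divg
    apply continuousOn_finsetSum
    intro i _
    exact (EuclideanSpace.proj (𝕜 := ℝ) i).continuous.comp_continuousOn
      (hF'.clm_apply continuousOn_const)
  have hin : ContinuousOn (fun x => inner ℝ (F x) x / ‖x‖) {x : E n | R < ‖x‖} := by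
    apply ContinuousOn.div
    · exact hFc.inner continuousOn_id
    · exact continuous_norm.continuousOn
    · intro x hx
      have : R < ‖x‖ := hx
      linarith
  have c1 : ContinuousOn (flux F) (Ioi R) := by
    unfold flux
    exact (by fun_prop : Continuous fun r : ℝ => r ^ (n - 1)).continuousOn.mul
      (sph_continuousOn hR hin)
  have c2 : ContinuousOn (fun r : ℝ => r ^ (n - 1) * sph (divg F) r) (Ioi R) :=
    (by fun_prop : Continuous fun r : ℝ => r ^ (n - 1)).continuousOn.mul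
      (sph_continuousOn hR hdiv)
  apply weak_deriv c1 c2 _ r hr
  intro ψ hψ hψc hψs
  have hψ1 : ContDiff ℝ 1 ψ := hψ.of_le (by exact_mod_cast le_top)
  set χ : E n → ℝ := fun x => ψ ‖x‖ with hχ
  have hz : ∀ x, x ≤ R → ψ x = 0 := by
    intro x hx
    by_contra hne
    have := hψs (subset_tsupport ψ hne)
    simp only [mem_Ioi] at this
    linarith only [hx, this]
  have hsub : tsupport χ ⊆ {x | ‖x‖ ∈ tsupport ψ} := by
    apply closure_minimal
    · intro x hx
      exact subset_tsupport ψ hx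
    · exact (isClosed_tsupport ψ).preimage continuous_norm
  have hsub' : tsupport χ ⊆ {x | R < ‖x‖} := fun x hx => hψs (hsub hx)
  have hχc : HasCompactSupport χ := by
    obtain ⟨M, hM⟩ := (show IsCompact (tsupport ψ) from hψc).bddAbove
    apply HasCompactSupport.of_support_subset_isCompact (isCompact_closedBall (0 : E n) M)
    intro x hx
    rw [mem_closedBall_zero_iff]
    exact hM (subset_tsupport ψ hx)
  have hder : ∀ x : E n, x ≠ 0 → HasFDerivAt χ ((deriv ψ ‖x‖) • fderiv ℝ (fun y : E n => ‖y‖) x) x := by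
    intro x hx
    have h1 : HasFDerivAt (fun y : E n => ‖y‖) (fderiv ℝ (fun y : E n => ‖y‖) x) x :=
      ((contDiffAt_norm ℝ hx (n := 1)).differentiableAt (by simp only [ne_eq, one_ne_zero, not_false_eq_true])).hasFDerivAt
    have h2 : HasDerivAt ψ (deriv ψ ‖x‖) ‖x‖ := (hψ1.differentiable (by simp) _).hasDerivAt
    exact h2.comp_hasFDerivAt x h1
  have hχ1 : ContDiff ℝ 1 χ := by
    rw [contDiff_iff_contDiffAt]
    intro x
    by_cases hx : x = 0
    · have hev : χ =ᶠ[𝓝 x] fun _ => 0 := by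
        have hopen : IsOpen (tsupport ψ)ᶜ := (isClosed_tsupport ψ).isOpen_compl
        have h0 : (‖x‖ : ℝ) ∈ (tsupport ψ)ᶜ := by
          intro hh
          have := hψs hh
          rw [hx, norm_zero] at this
          simp only [mem_Ioi] at this
          linarith only [hR, this]
        filter_upwards [continuous_norm.continuousAt.preimage_mem_nhds (hopen.mem_nhds h0)] with y hy
        have h5 : ψ ‖y‖ = 0 := image_eq_zero_of_notMem_tsupport hy
        exact h5
      exact contDiffAt_const.congr_of_eventuallyEq hev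
    · exact hψ1.contDiffAt.comp x (contDiffAt_norm ℝ hx)
  have hfd : ∀ x : E n, fderiv ℝ χ x (F x) = deriv ψ ‖x‖ * (inner ℝ (F x) x / ‖x‖) := by
    intro x
    by_cases hx : x = 0
    · have h0 : x ∉ tsupport χ := by
        intro hh
        have := hsub' hh
        simp only [mem_ofPred_eq, hx, norm_zero] at this
        linarith only [hR, this]
      have : fderiv ℝ χ x = 0 := by
        by_contra h1
        exact h0 (support_fderiv_subset ℝ h1)
      rw [this, hx]
      simp
    · rw [(hder x hx).fderiv]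
      have hn : HasFDerivAt (fun y : E n => ‖y‖) (fderiv ℝ (fun y : E n => ‖y‖) x) x :=
        ((contDiffAt_norm ℝ hx (n := 1)).differentiableAt (by simp)).hasFDerivAt
      have hsq : HasFDerivAt (fun y : E n => ‖y‖ ^ 2) ((2 : ℝ) • innerSL ℝ x) x := by
        have h := (hasStrictFDerivAt_norm_sq x).hasFDerivAt
        rwa [two_nsmul, ← two_smul ℝ] at h
      have hsq2 : HasFDerivAt (fun y : E n => ‖y‖ ^ 2)
          ((2 * ‖x‖) • fderiv ℝ (fun y : E n => ‖y‖) x) x := by
        have := hn.pow 2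
        simpa only [Nat.add_one_sub_one, pow_one, nsmul_eq_mul, Nat.cast_ofNat] using this
      have := congrArg (fun L : E n →L[ℝ] ℝ => L (F x)) (hsq.unique hsq2)
      simp only [smul_apply, smul_eq_mul] at this ⊢
      have hxn : ‖x‖ ≠ 0 := norm_ne_zero_iff.2 hx
      have h3 : (innerSL ℝ x) (F x) = inner ℝ (F x) x := by
        rw [innerSL_apply_apply, real_inner_comm]
      rw [h3] at this
      have h4 : (fderiv ℝ (fun y : E n => ‖y‖) x) (F x) = inner ℝ (F x) x / ‖x‖ := by
        field_simp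
        linarith only [this]
      rw [h4]
  have hibp := ibp (isOpen_out R) hF hχ1 hχc hsub'
  simp only [hfd] at hibp
  -- rewrite both sides in polar coordinates
  have hint1 : Integrable (fun x => χ x * divg F x) := by
    have hs' : tsupport (fun x => χ x * divg F x) ⊆ tsupport χ := tsupport_mul_subset_left
    have : Continuous (fun x => χ x * divg F x) :=
      ContinuousOn.continuous_of_tsupport_subset (hχ1.continuous.continuousOn.mul hdiv)
        (isOpen_out R) (hs'.trans hsub')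
    exact this.integrable_of_hasCompactSupport (hχc.mono (by
      intro x hx; exact fun h0 => hx (by simp [h0])))
  have hint2 : Integrable (fun x => deriv ψ ‖x‖ * (inner ℝ (F x) x / ‖x‖)) := by
    have hs' : tsupport (fun x => deriv ψ ‖x‖ * (inner ℝ (F x) x / ‖x‖)) ⊆
        {x | ‖x‖ ∈ tsupport ψ} := by
      apply closure_minimal
      · intro x hx
        have : deriv ψ ‖x‖ ≠ 0 := fun h0 => hx (by simp [h0])
        exact support_deriv_subset this
      · exact (isClosed_tsupport ψ).preimage continuous_norm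
    have hsub2 : {x : E n | ‖x‖ ∈ tsupport ψ} ⊆ {x | R < ‖x‖} := fun x hx => hψs hx
    have hcd : Continuous (deriv ψ) := hψ.continuous_deriv (by simp only [WithTop.one_le_coe, le_top])
    have : Continuous (fun x => deriv ψ ‖x‖ * (inner ℝ (F x) x / ‖x‖)) :=
      ContinuousOn.continuous_of_tsupport_subset
        ((hcd.comp continuous_norm).continuousOn.mul hin) (isOpen_out R) (hs'.trans hsub2)
    refine this.integrable_of_hasCompactSupport ?_
    obtain ⟨M, hM⟩ := (show IsCompact (tsupport ψ) from hψc).bddAbove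
    apply HasCompactSupport.of_support_subset_isCompact (isCompact_closedBall (0 : E n) M)
    intro x hx
    rw [mem_closedBall_zero_iff]
    exact hM (hs' (subset_tsupport _ hx))
  rw [integral_polar _ hint1, integral_polar _ hint2] at hibp
  have hnorm : ∀ r : ℝ, 0 < r → ∀ θ : sphere (0 : E n) 1, ‖r • (θ : E n)‖ = r := by
    intro r hr θ
    rw [norm_smul, norm_eq_of_mem_sphere, Real.norm_eq_abs, abs_of_pos hr, mul_one]
  have e1 : ∫ r in Ioi (0 : ℝ), r ^ (n - 1) * sph (fun x => χ x * divg F x) r =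
      ∫ r, ψ r * (r ^ (n - 1) * sph (divg F) r) := by
    rw [← setIntegral_eq_integral_of_forall_compl_eq_zero (s := Ioi (0 : ℝ))
      (f := fun r => ψ r * (r ^ (n - 1) * sph (divg F) r))]
    · apply setIntegral_congr_fun measurableSet_Ioi
      intro r hr
      have : sph (fun x => χ x * divg F x) r = ψ r * sph (divg F) r := by
        unfold sph
        rw [← integral_const_mul]
        apply integral_congr_ae
        filter_upwards with θ
        simp only [hχ, hnorm r hr θ]
      simp only [this]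
      ring
    · intro r hr
      rw [hz r (by
        simp only [mem_Ioi, not_lt] at hr
        linarith only [hR, hr])]
      simp only [zero_mul]
  have e2 : ∫ r in Ioi (0 : ℝ), r ^ (n - 1) *
      sph (fun x => deriv ψ ‖x‖ * (inner ℝ (F x) x / ‖x‖)) r = ∫ r, deriv ψ r * flux F r := by
    rw [← setIntegral_eq_integral_of_forall_compl_eq_zero (s := Ioi (0 : ℝ))
      (f := fun r => deriv ψ r * flux F r)]
    · apply setIntegral_congr_fun measurableSet_Ioi
      intro r hr
      have : sph (fun x => deriv ψ ‖x‖ * (inner ℝ (F x) x / ‖x‖)) r =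
          deriv ψ r * sph (fun x => inner ℝ (F x) x / ‖x‖) r := by
        unfold sph
        rw [← integral_const_mul]
        apply integral_congr_ae
        filter_upwards with θ
        simp only [hnorm r hr θ]
      simp only [this, flux]
      ring
    · intro r hr
      have : deriv ψ r = 0 := by
        by_contra h0
        have := hψs (support_deriv_subset h0)
        simp only [mem_Ioi, not_lt] at hr this
        linarith only [hR, hr, this]
      rw [this]
      simp
  rw [e1, e2] at hibp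
  exact hibp

end Vale.Agent.P225
end

section
open MeasureTheory Set Metric Filter Topology
open scoped ContDiff

namespace Vale.Agent.P225

/-- Gradient of a function in coordinates. -/
noncomputable def gr {n : ℕ} (u : E n → ℝ) (x : E n) : E n :=
  WithLp.toLp 2 fun i => fderiv ℝ u x (EuclideanSpace.single i 1)

theorem inner_gr {n : ℕ} (u : E n → ℝ) (x v : E n) : inner ℝ (gr u x) v = fderiv ℝ u x v := by
  rw [clm_apply_eq_sum (fderiv ℝ u x) v]
  simp only [gr, PiLp.inner_apply, RCLike.inner_apply, Real.ringHom_apply, smul_eq_mul]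

theorem contDiff_gr {n : ℕ} {u : E n → ℝ} {k l : WithTop ℕ∞} (hu : ContDiff ℝ k u)
    (hk : l + 1 ≤ k) : ContDiff ℝ l (gr u) := by
  rw [contDiff_euclidean]
  intro i
  exact (hu.fderiv_right hk).clm_apply contDiff_const

theorem divg_smul {n : ℕ} {u : E n → ℝ} {F : E n → E n} {x : E n}
    (hu : DifferentiableAt ℝ u x) (hF : DifferentiableAt ℝ F x) :
    divg (fun y => u y • F y) x = inner ℝ (gr u x) (F x) + u x * divg F x := by
  unfold divg
  rw [fderiv_fun_smul hu hF]
  simp only [add_apply, PiLp.add_apply, smul_apply, PiLp.smul_apply,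
    smul_eq_mul, Finset.sum_add_distrib, Finset.mul_sum, ContinuousLinearMap.smulRight_apply]
  rw [add_comm]
  congr 1
  simp only [mul_comm, gr, PiLp.inner_apply, RCLike.inner_apply, Real.ringHom_apply]

theorem divg_add {n : ℕ} {F G : E n → E n} {x : E n}
    (hF : DifferentiableAt ℝ F x) (hG : DifferentiableAt ℝ G x) :
    divg (fun y => F y + G y) x = divg F x + divg G x := by
  unfold divg
  rw [fderiv_fun_add hF hG]
  simp only [add_apply, PiLp.add_apply, Finset.sum_add_distrib]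

theorem divg_sub {n : ℕ} {F G : E n → E n} {x : E n}
    (hF : DifferentiableAt ℝ F x) (hG : DifferentiableAt ℝ G x) :
    divg (fun y => F y - G y) x = divg F x - divg G x := by
  unfold divg
  rw [fderiv_fun_sub hF hG]
  simp only [sub_apply, PiLp.sub_apply, Finset.sum_sub_distrib]

theorem divg_id {n : ℕ} (x : E n) : divg (fun y : E n => y) x = n := by
  unfold divg
  rw [fderiv_fun_id]
  simp only [ContinuousLinearMap.id_apply, PiLp.single_eq_same, Finset.sum_const, Finset.card_univ, Fintype.card_fin, nsmul_eq_mul, mul_one]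

theorem divg_const_smul {n : ℕ} {F : E n → E n} {x : E n} (c : ℝ)
    (hF : DifferentiableAt ℝ F x) :
    divg (fun y => c • F y) x = c * divg F x := by
  unfold divg
  rw [fderiv_fun_const_smul hF]
  simp only [smul_apply, PiLp.smul_apply, smul_eq_mul, Finset.mul_sum]

theorem contDiff_divg {n : ℕ} {F : E n → E n} {k l : WithTop ℕ∞} (hF : ContDiff ℝ k F)
    (hk : l + 1 ≤ k) : ContDiff ℝ l (divg F) := by
  unfold divg
  apply ContDiff.sum
  intro i _
  exact (EuclideanSpace.proj (𝕜 := ℝ) i).contDiff.comp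
    ((hF.fderiv_right hk).clm_apply contDiff_const)

theorem sph_continuous {n : ℕ} {g : E n → ℝ} (hg : Continuous g) : Continuous (sph g) := by
  have : sph g = fun r : ℝ => ∫ θ in univ, g ((r : ℝ) • (θ : E n)) ∂(sig n) := by
    funext r
    simp only [sph, Measure.restrict_univ]
  rw [this]
  apply continuous_parametric_integral_of_continuous _ isCompact_univ
  have h2 : Continuous (fun p : ℝ × sphere (0 : E n) 1 => (p.1 : ℝ) • (p.2 : E n)) := by
    fun_prop
  exact hg.comp h2

theorem integrable_sig {n : ℕ} {f : sphere (0 : E n) 1 → ℝ} (hf : Continuous f) :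
    Integrable f (sig n) :=
  hf.integrable_of_hasCompactSupport (HasCompactSupport.of_compactSpace _)

theorem integrable_sph {n : ℕ} {g : E n → ℝ} (hg : Continuous g) (r : ℝ) :
    Integrable (fun θ : sphere (0 : E n) 1 => g (r • (θ : E n))) (sig n) :=
  integrable_sig (by fun_prop)

theorem sph_add {n : ℕ} {f g : E n → ℝ} (hf : Continuous f) (hg : Continuous g) (r : ℝ) :
    sph (fun x => f x + g x) r = sph f r + sph g r :=
  integral_add (integrable_sph hf r) (integrable_sph hg r)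

theorem sph_const_mul {n : ℕ} (c : ℝ) (f : E n → ℝ) (r : ℝ) :
    sph (fun x => c * f x) r = c * sph f r :=
  integral_const_mul _ _

theorem sph_congr {n : ℕ} {f g : E n → ℝ} {r : ℝ} (h : ∀ x, ‖x‖ = |r| → f x = g x) :
    sph f r = sph g r := by
  unfold sph
  congr 1
  funext θ
  apply h
  rw [norm_smul, norm_eq_of_mem_sphere, mul_one, Real.norm_eq_abs]

theorem norm_smul_sphere {n : ℕ} {r : ℝ} (hr : 0 ≤ r) (θ : sphere (0 : E n) 1) :
    ‖r • (θ : E n)‖ = r := by
  rw [norm_smul, norm_eq_of_mem_sphere, Real.norm_eq_abs, abs_of_nonneg hr, mul_one]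

theorem flux_eq_integral {n : ℕ} [NeZero n] (hn : 2 ≤ n) {F : E n → E n} (hF : ContDiff ℝ 1 F)
    {r : ℝ} (hr : 0 ≤ r) : flux F r = ∫ s in (0 : ℝ)..r, s ^ (n - 1) * sph (divg F) s := by
  set K : ℝ → ℝ := fun r => r ^ (n - 1) * ∫ θ : sphere (0 : E n) 1, inner ℝ (F (r • (θ : E n)))
    (θ : E n) ∂(sig n) with hK
  have hn1 : n - 1 ≠ 0 := by omega
  have hKf : ∀ s, 0 ≤ s → K s = flux F s := by
    intro s hs
    rcases hs.eq_or_lt with h0 | h0
    · rw [← h0]
      simp only [hK, ne_eq, hn1, not_false_eq_true, zero_pow, zero_smul, zero_mul, flux]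
    · simp only [hK, flux, sph]
      congr 1
      congr 1
      funext θ
      rw [norm_smul_sphere hs, inner_smul_right]
      (clear * - h0; field_simp)
  have hKc : Continuous K := by
    have : K = fun r => r ^ (n - 1) * ∫ θ in univ, inner ℝ (F (r • (θ : E n)))
        (θ : E n) ∂(sig n) := by
      funext r; simp only [hK, Measure.restrict_univ]
    rw [this]
    apply Continuous.mul (by fun_prop)
    apply continuous_parametric_integral_of_continuous _ isCompact_univ
    have h2 : Continuous (fun p : ℝ × sphere (0 : E n) 1 => (p.1 : ℝ) • (p.2 : E n)) := by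
      fun_prop
    exact (hF.continuous.comp h2).inner (by fun_prop)
  have hdc : Continuous (divg F) := (contDiff_divg hF (l := 0) (by simp)).continuous
  have hder : ∀ s ∈ Ioo 0 r, HasDerivAt K (s ^ (n - 1) * sph (divg F) s) s := by
    intro s hs
    have h1 := hasDerivAt_flux (le_refl (0 : ℝ)) (F := F) (hF.contDiffOn) hs.1
    apply h1.congr_of_eventuallyEq
    filter_upwards [isOpen_Ioi.mem_nhds hs.1] with t ht
    exact hKf t (le_of_lt ht)
  have := intervalIntegral.integral_eq_sub_of_hasDerivAt_of_le hr hKc.continuousOn hder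
    (Continuous.intervalIntegrable
      ((by fun_prop : Continuous fun r : ℝ => r ^ (n - 1)).mul (sph_continuous hdc)) _ _)
  rw [this, hKf r hr]
  simp only [hK, ne_eq, hn1, not_false_eq_true, zero_pow, zero_smul, zero_mul, sub_zero]

theorem flux_smul_eq {n : ℕ} [NeZero n] (hn : 2 ≤ n) {u : E n → ℝ} {F : E n → E n}
    (hu : ContDiff ℝ 1 u) (hF : ContDiff ℝ 1 F) {r : ℝ} (hr : 0 ≤ r) :
    flux (fun x => u x • F x) r =
      ∫ s in (0 : ℝ)..r, s ^ (n - 1) * sph (fun x => inner ℝ (gr u x) (F x) + u x * divg F x) s := by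
  rw [flux_eq_integral hn (F := fun x => u x • F x) (hu.smul hF) hr]
  congr 1
  funext s
  congr 2
  funext x
  exact divg_smul (hu.differentiable (by simp) x) (hF.differentiable (by simp) x)

/-- a nonnegative continuous function whose spherical integral vanishes is zero there -/
theorem eq_zero_of_sph_eq_zero {n : ℕ} {g : E n → ℝ} {r : ℝ} (hr : 0 < r)
    (hg : ContinuousOn g (sphere (0 : E n) r))
    (h0 : ∀ x, ‖x‖ = r → 0 ≤ g x) (h : sph g r = 0) : ∀ x : E n, ‖x‖ = r → g x = 0 := by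
  intro x hx
  have hcont : Continuous (fun θ : sphere (0 : E n) 1 => g (r • (θ : E n))) := by
    apply hg.comp_continuous (by fun_prop)
    intro θ
    rw [mem_sphere_zero_iff_norm]
    exact norm_smul_sphere hr.le θ
  have hae := (integral_eq_zero_iff_of_nonneg (μ := sig n)
    (f := fun θ : sphere (0 : E n) 1 => g (r • (θ : E n)))
    (fun θ => h0 _ (norm_smul_sphere hr.le θ)) (integrable_sig hcont)).1 h
  have heq : (fun θ : sphere (0 : E n) 1 => g (r • (θ : E n))) = fun _ => 0 :=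
    (Continuous.ae_eq_iff_eq (sig n) hcont continuous_const).1 hae
  have h1 : ‖(r⁻¹ • x : E n)‖ = 1 := by
    rw [norm_smul, hx, Real.norm_eq_abs, abs_of_pos (inv_pos.2 hr)]
    field_simp
  have := congrFun heq ⟨r⁻¹ • x, by rw [mem_sphere_zero_iff_norm]; exact h1⟩
  simp only [smul_smul] at this
  rw [mul_inv_cancel₀ hr.ne', one_smul] at this
  exact this

end Vale.Agent.P225
end

section
open MeasureTheory Set Metric Filter Topology MvPolynomial
open scoped ContDiff

namespace Vale.Agent.P225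

/-- Evaluation of a polynomial on Euclidean space. -/
noncomputable def pev {n : ℕ} (p : MvPolynomial (Fin n) ℝ) (x : E n) : ℝ :=
  eval (fun i => x i) p

/-- Gradient field of a polynomial. -/
noncomputable def pgrad {n : ℕ} (p : MvPolynomial (Fin n) ℝ) (x : E n) : E n :=
  WithLp.toLp 2 fun i => pev (pderiv i p) x

/-- Laplacian of a polynomial. -/
noncomputable def plap {n : ℕ} (p : MvPolynomial (Fin n) ℝ) : MvPolynomial (Fin n) ℝ :=
  ∑ i, pderiv i (pderiv i p)

theorem pev_contDiff {n : ℕ} (p : MvPolynomial (Fin n) ℝ) {k : WithTop ℕ∞} :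
    ContDiff ℝ k (pev p) := by
  induction p using MvPolynomial.induction_on with
  | C a =>
    have : pev (C a : MvPolynomial (Fin n) ℝ) = fun _ => a := by funext x; simp only [pev, eval_C]
    rw [this]; exact contDiff_const
  | add p q hp hq =>
    have : pev (p + q) = fun x => pev p x + pev q x := by funext x; simp [pev]
    rw [this]; exact hp.add hq
  | mul_X p i hp =>
    have : pev (p * X i) = fun x => pev p x * x i := by funext x; simp only [pev, map_mul, eval_X]
    rw [this]; exact hp.mul (EuclideanSpace.proj (𝕜 := ℝ) i).contDiff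

theorem pev_fderiv {n : ℕ} (p : MvPolynomial (Fin n) ℝ) (x : E n) (i : Fin n) :
    fderiv ℝ (pev p) x (EuclideanSpace.single i 1) = pev (pderiv i p) x := by
  induction p using MvPolynomial.induction_on with
  | C a =>
    have : pev (C a : MvPolynomial (Fin n) ℝ) = fun _ => a := by funext x; simp only [pev, eval_C]
    rw [this]; simp only [fderiv_fun_const, Pi.zero_apply, zero_apply, pev, derivation_C, map_zero]
  | add p q hp hq =>
    have : pev (p + q) = fun x => pev p x + pev q x := by funext x; simp only [pev, map_add]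
    rw [this, fderiv_fun_add ((pev_contDiff p (k := 1)).differentiable (by simp) x)
      ((pev_contDiff q (k := 1)).differentiable (by simp) x)]
    simp only [add_apply, hp, hq, map_add]
    simp only [pev, map_add]
  | mul_X p j hp =>
    have : pev (p * X j) = fun x => pev p x * (EuclideanSpace.proj (𝕜 := ℝ) j : E n →L[ℝ] ℝ) x := by
      funext x; simp only [pev, map_mul, eval_X, PiLp.proj_apply]
    rw [this, fderiv_fun_mul ((pev_contDiff p (k := 1)).differentiable (by simp) x)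
      (ContinuousLinearMap.differentiableAt _), ContinuousLinearMap.fderiv]
    simp only [add_apply, smul_apply, hp, smul_eq_mul, Derivation.leibniz]
    have e1 : (EuclideanSpace.proj (𝕜 := ℝ) j : E n →L[ℝ] ℝ) x = x j := rfl
    have e2 : (EuclideanSpace.proj (𝕜 := ℝ) j : E n →L[ℝ] ℝ) (EuclideanSpace.single i 1) =
      (EuclideanSpace.single i (1 : ℝ) : E n) j := rfl
    rw [e1, e2]
    simp only [pev, map_add, map_mul, eval_X, pderiv_X]
    by_cases h : j = i
    · subst h; simp
    · have h' : i ≠ j := fun hh => h hh.symm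
      simp [h]

theorem gr_pev {n : ℕ} (p : MvPolynomial (Fin n) ℝ) : gr (pev p) = pgrad p := by
  funext x
  ext i
  simp only [gr, pev_fderiv, pgrad]

theorem pgrad_contDiff {n : ℕ} (p : MvPolynomial (Fin n) ℝ) {k : WithTop ℕ∞} :
    ContDiff ℝ k (pgrad p) := by
  rw [contDiff_euclidean]
  intro i
  exact pev_contDiff _

theorem divg_pgrad {n : ℕ} (p : MvPolynomial (Fin n) ℝ) (x : E n) :
    divg (pgrad p) x = pev (plap p) x := by
  unfold divg
  have h : ∀ i : Fin n, (fderiv ℝ (pgrad p) x (EuclideanSpace.single i 1)) i =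
      pev (pderiv i (pderiv i p)) x := by
    intro i
    rw [← pev_fderiv]
    have h1 : HasFDerivAt (pgrad p) (fderiv ℝ (pgrad p) x) x :=
      ((pgrad_contDiff p (k := 1)).differentiable (by simp) x).hasFDerivAt
    have h2 := (EuclideanSpace.proj (𝕜 := ℝ) i).hasFDerivAt.comp x h1
    have h3 : ((EuclideanSpace.proj (𝕜 := ℝ) i : E n →L[ℝ] ℝ) ∘ pgrad p) = pev (pderiv i p) := by
      funext y; simp only [EuclideanSpace.coe_proj, Function.comp_apply, pgrad]
    rw [h3] at h2
    rw [h2.fderiv]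
    simp only [ContinuousLinearMap.comp_apply, PiLp.proj_apply]
  simp only [h]
  simp only [pev, plap, map_sum]

theorem euler {n : ℕ} {p : MvPolynomial (Fin n) ℝ} {l : ℕ} (hp : p.IsHomogeneous l) (x : E n) :
    inner ℝ (pgrad p x) x = l * pev p x := by
  have h := congrArg (fun q => pev q x) hp.sum_X_mul_pderiv
  simp only [pev, map_sum, map_mul, eval_X, nsmul_eq_mul, map_natCast] at h
  simp only [pgrad, PiLp.inner_apply, pev]
  rw [← h]
  apply Finset.sum_congr rfl
  intro i _
  simp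

theorem pev_smul {n : ℕ} {p : MvPolynomial (Fin n) ℝ} {l : ℕ} (hp : p.IsHomogeneous l) (r : ℝ)
    (x : E n) : pev p (r • x) = r ^ l * pev p x := by
  unfold pev
  rw [eval_eq', eval_eq', Finset.mul_sum]
  apply Finset.sum_congr rfl
  intro d hd
  have hdeg : ∑ i, d i = l := by
    have := hp (mem_support_iff.1 hd)
    rw [← this, Finsupp.weight_apply, Finsupp.sum_fintype _ _ (by simp)]
    simp only [Pi.one_apply, smul_eq_mul, mul_one]
  have : ∏ i, ((r • x) i) ^ d i = r ^ l * ∏ i, (x i) ^ d i := by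
    rw [← hdeg, ← Finset.prod_pow_eq_pow_sum, ← Finset.prod_mul_distrib]
    apply Finset.prod_congr rfl
    intro i _
    simp [mul_pow]
  rw [this]
  ring

end Vale.Agent.P225
end

section
open MeasureTheory Set Metric Filter Topology MvPolynomial
open scoped ContDiff

namespace Vale.Agent.P225

/-- Homogeneous harmonic polynomials of degree `l`. -/
def Harm {n : ℕ} (l : ℕ) (p : MvPolynomial (Fin n) ℝ) : Prop := p.IsHomogeneous l ∧ plap p = 0

/-- The squared norm as a polynomial. -/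
noncomputable def rsq (n : ℕ) : MvPolynomial (Fin n) ℝ := ∑ i, X i ^ 2

theorem pev_rsq {n : ℕ} (x : E n) : pev (rsq n) x = ‖x‖ ^ 2 := by
  rw [EuclideanSpace.norm_sq_eq]
  simp only [pev, rsq, map_sum, map_pow, eval_X, Real.norm_eq_abs, sq_abs]

theorem pev_mul {n : ℕ} (p q : MvPolynomial (Fin n) ℝ) (x : E n) :
    pev (p * q) x = pev p x * pev q x := by simp [pev]

theorem pev_add {n : ℕ} (p q : MvPolynomial (Fin n) ℝ) (x : E n) :
    pev (p + q) x = pev p x + pev q x := by simp [pev]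

theorem pev_sub {n : ℕ} (p q : MvPolynomial (Fin n) ℝ) (x : E n) :
    pev (p - q) x = pev p x - pev q x := by simp [pev]

theorem pev_cont {n : ℕ} (p : MvPolynomial (Fin n) ℝ) : Continuous (pev p) :=
  (pev_contDiff p (k := 0)).continuous

theorem rsq_homogeneous (n : ℕ) : (rsq n).IsHomogeneous 2 := by
  apply IsHomogeneous.sum
  intro i _
  exact isHomogeneous_X_pow i 2

theorem plap_homogeneous {n : ℕ} {p : MvPolynomial (Fin n) ℝ} {l : ℕ} (hp : p.IsHomogeneous l) :
    (plap p).IsHomogeneous (l - 2) := by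
  apply IsHomogeneous.sum
  intro i _
  have := (hp.pderiv (i := i)).pderiv (i := i)
  rwa [Nat.sub_sub] at this

theorem plap_add {n : ℕ} (p q : MvPolynomial (Fin n) ℝ) : plap (p + q) = plap p + plap q := by
  simp only [plap, map_add, Finset.sum_add_distrib]

theorem plap_sub {n : ℕ} (p q : MvPolynomial (Fin n) ℝ) : plap (p - q) = plap p - plap q := by
  simp only [plap, map_sub, Finset.sum_sub_distrib]

theorem plap_smul {n : ℕ} (c : ℝ) (p : MvPolynomial (Fin n) ℝ) : plap (c • p) = c • plap p := by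
  simp only [plap, Derivation.map_smul, Finset.smul_sum]

theorem green_harm {n : ℕ} [NeZero n] (hn : 2 ≤ n) {u : E n → ℝ} (hu : ContDiff ℝ 1 u)
    {l : ℕ} {h : MvPolynomial (Fin n) ℝ} (hh : Harm l h) {r : ℝ} (hr : 0 < r) :
    r ^ (n - 2) * (l * sph (fun x => u x * pev h x) r) =
      ∫ s in (0 : ℝ)..r, s ^ (n - 1) * sph (fun x => inner ℝ (gr u x) (pgrad h x)) s := by
  have h1 := flux_smul_eq hn hu (pgrad_contDiff h (k := 1)) hr.le
  have h2 : (fun x : E n => inner ℝ (gr u x) (pgrad h x) + u x * divg (pgrad h) x) =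
      fun x => inner ℝ (gr u x) (pgrad h x) := by
    funext x
    rw [divg_pgrad, hh.2]
    simp [pev]
  rw [h2] at h1
  rw [← h1]
  unfold flux
  have h3 : sph (fun x : E n => inner ℝ (u x • pgrad h x) x / ‖x‖) r =
      r⁻¹ * (l * sph (fun x => u x * pev h x) r) := by
    rw [← sph_const_mul, ← sph_const_mul]
    apply sph_congr
    intro x hx
    rw [abs_of_pos hr] at hx
    rw [real_inner_smul_left, euler hh.1, hx]
    field_simp
  rw [h3]
  have : r ^ (n - 1) = r ^ (n - 2) * r := by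
    rw [← pow_succ]; congr 1; omega
  rw [this]
  field_simp

theorem harm_orth {n : ℕ} [NeZero n] (hn : 2 ≤ n) {k l : ℕ} (hkl : k ≠ l)
    {f g : MvPolynomial (Fin n) ℝ} (hf : Harm k f) (hg : Harm l g) :
    sph (fun x => pev f x * pev g x) 1 = 0 := by
  have h1 := green_harm hn (pev_contDiff f (k := 1)) hg one_pos
  have h2 := green_harm hn (pev_contDiff g (k := 1)) hf one_pos
  have e1 : (fun x : E n => inner ℝ (gr (pev f) x) (pgrad g x)) =
      fun x => inner ℝ (gr (pev g) x) (pgrad f x) := by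
    funext x
    rw [gr_pev, gr_pev, real_inner_comm]
  rw [e1, ← h2] at h1
  have e2 : (fun x : E n => pev g x * pev f x) = fun x => pev f x * pev g x := by
    funext x; ring
  rw [e2] at h1
  simp only [one_pow, one_mul] at h1
  have h3 : ((l : ℝ) - k) * sph (fun x => pev f x * pev g x) 1 = 0 := by linarith only [h1]
  have h4 : ((l : ℝ) - k) ≠ 0 := by
    intro h0
    apply hkl
    have : (l : ℝ) = k := by linarith only [h0]
    exact_mod_cast this.symm
  exact (mul_eq_zero.1 h3).resolve_left h4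

theorem eq_zero_of_sphere {n : ℕ} [NeZero n] {q : MvPolynomial (Fin n) ℝ} {k : ℕ}
    (hq : q.IsHomogeneous k) (h : ∀ x : E n, ‖x‖ = 1 → pev q x = 0) : q = 0 := by
  have h1 : ∀ x : E n, x ≠ 0 → pev q x = 0 := by
    intro x hx
    have hx0 : ‖x‖ ≠ 0 := norm_ne_zero_iff.2 hx
    have : x = ‖x‖ • (‖x‖⁻¹ • x) := by rw [smul_smul, mul_inv_cancel₀ hx0, one_smul]
    rw [this, pev_smul hq, h]
    · simp
    · rw [norm_smul, norm_inv, norm_norm, inv_mul_cancel₀ hx0]
  have h2 : ∀ x : E n, pev q x = 0 := by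
    have hd : Dense ({0}ᶜ : Set (E n)) := by
      apply dense_compl_singleton
    have := (pev_cont q).ext_on hd continuous_const (fun x hx => h1 x hx)
    intro x
    exact congrFun this x
  apply MvPolynomial.funext
  intro x
  have := h2 (WithLp.toLp 2 x)
  simpa only [map_zero, pev] using this

theorem harm_decomp {n : ℕ} [NeZero n] (hn : 2 ≤ n) (k : ℕ) : ∀ p : MvPolynomial (Fin n) ℝ,
    p.IsHomogeneous k → ∃ h : ℕ → MvPolynomial (Fin n) ℝ, (∀ l, Harm l (h l)) ∧
      ∀ x : E n, ‖x‖ = 1 → pev p x = ∑ l ∈ Finset.range (k + 1), pev (h l) x := by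
  induction k using Nat.strong_induction_on with
  | _ k ih =>
    intro p hp
    have hz : ∀ l, Harm l (0 : MvPolynomial (Fin n) ℝ) := fun l =>
      ⟨isHomogeneous_zero _ _ _, by simp only [plap, map_zero, Finset.sum_const_zero]⟩
    -- a homogeneous harmonic polynomial is its own decomposition
    have hself : ∀ q : MvPolynomial (Fin n) ℝ, Harm k q →
        ∃ h : ℕ → MvPolynomial (Fin n) ℝ, (∀ l, Harm l (h l)) ∧ (∀ l, l ≠ k → h l = 0) ∧
        h k = q := by
      intro q hq
      refine ⟨fun l => if l = k then q else 0, ?_, ?_, ?_⟩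
      · intro l
        by_cases hl : l = k
        · subst hl; simpa using hq
        · simpa [hl] using hz l
      · intro l hl
        simp [hl]
      · simp
    by_cases hk : k < 2
    · have hlap : plap p = 0 := by
        unfold plap
        apply Finset.sum_eq_zero
        intro i _
        have h1 := hp.pderiv (i := i)
        have h0 : k - 1 = 0 := by omega
        rw [h0] at h1
        rw [← totalDegree_zero_iff_isHomogeneous, totalDegree_eq_zero_iff_eq_C] at h1
        rw [h1, pderiv_C]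
      obtain ⟨h, h1, h2, h3⟩ := hself p ⟨hp, hlap⟩
      refine ⟨h, h1, fun x _ => ?_⟩
      rw [Finset.sum_eq_single k]
      · rw [h3]
      · intro l _ hl
        rw [h2 l hl]; simp [pev]
      · intro hh
        exact absurd (Finset.mem_range.2 (Nat.lt_succ_self k)) hh
    · obtain ⟨j, rfl⟩ : ∃ j, k = j + 2 := ⟨k - 2, by omega⟩
      have ihj := ih j (by omega)
      -- the operator
      let V := homogeneousSubmodule (Fin n) ℝ j
      have : Module.Finite ℝ V := Module.Finite.iff_fg.2 (homogeneousSubmodule_fg (Fin n) ℝ j)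
      let T : V →ₗ[ℝ] V :=
        { toFun := fun q => ⟨plap (rsq n * q.1), by
            have h1 : (rsq n * q.1).IsHomogeneous (2 + j) := (rsq_homogeneous n).mul q.2
            have h2 := plap_homogeneous h1
            have h3 : 2 + j - 2 = j := by omega
            rw [h3] at h2
            exact h2⟩
          map_add' := by
            intro a b
            ext1
            simp only [Submodule.coe_add, mul_add, plap_add]
          map_smul' := by
            intro c a
            ext1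
            simp only [Submodule.coe_smul, mul_smul_comm, plap_smul, RingHom.id_apply] }
      have hinj : Function.Injective T := by
        rw [injective_iff_map_eq_zero]
        intro q hq
        have hq' : plap (rsq n * q.1) = 0 := congrArg Subtype.val hq
        have hw : Harm (2 + j) (rsq n * q.1) := ⟨(rsq_homogeneous n).mul q.2, hq'⟩
        obtain ⟨h, hh1, hh2⟩ := ihj q.1 q.2
        have hwS : ∀ x : E n, ‖x‖ = 1 → pev (rsq n * q.1) x = pev q.1 x := by
          intro x hx
          rw [pev_mul, pev_rsq, hx]; ring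
        have hzero : sph (fun x => pev q.1 x * pev q.1 x) 1 = 0 := by
          have e1 : sph (fun x => pev q.1 x * pev q.1 x) 1 =
              sph (fun x => ∑ l ∈ Finset.range (j + 1), pev (rsq n * q.1) x * pev (h l) x) 1 := by
            apply sph_congr
            intro x hx
            rw [abs_one] at hx
            rw [← Finset.mul_sum, ← hh2 x hx, hwS x hx]
          rw [e1]
          have e2 : sph (fun x => ∑ l ∈ Finset.range (j + 1), pev (rsq n * q.1) x * pev (h l) x) 1
              = ∑ l ∈ Finset.range (j + 1), sph (fun x => pev (rsq n * q.1) x * pev (h l) x) 1 := by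
            unfold sph
            apply integral_finsetSum
            intro l _
            exact integrable_sph ((pev_cont _).mul (pev_cont _)) 1
          rw [e2]
          apply Finset.sum_eq_zero
          intro l hl
          have hl' := Finset.mem_range.1 hl
          exact harm_orth hn (by omega) hw (hh1 l)
        have hqz := eq_zero_of_sph_eq_zero (n := n) one_pos
          (g := fun x => pev q.1 x * pev q.1 x) ((pev_cont _).mul (pev_cont _)).continuousOn
          (fun x _ => mul_self_nonneg _) hzero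
        have : q.1 = 0 := eq_zero_of_sphere q.2 (fun x hx => mul_self_eq_zero.1 (hqz x hx))
        exact Subtype.ext this
      have hsurj : Function.Surjective T := LinearMap.injective_iff_surjective.1 hinj
      have hlp : (plap p).IsHomogeneous j := by
        have := plap_homogeneous hp
        simpa only [add_tsub_cancel_right] using this
      obtain ⟨q, hq⟩ := hsurj ⟨plap p, hlp⟩
      have hq' : plap (rsq n * q.1) = plap p := congrArg Subtype.val hq
      have hharm : Harm (j + 2) (p - rsq n * q.1) := by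
        refine ⟨?_, ?_⟩
        · have h1 : (rsq n * q.1).IsHomogeneous (2 + j) := (rsq_homogeneous n).mul q.2
          rw [add_comm] at h1
          exact hp.sub h1
        · rw [plap_sub, hq', sub_self]
      obtain ⟨h, hh1, hh2⟩ := ihj q.1 q.2
      refine ⟨fun l => if l = j + 2 then p - rsq n * q.1 else if l ≤ j then h l else 0, ?_, ?_⟩
      · intro l
        by_cases h1 : l = j + 2
        · subst h1; simpa only [Nat.add_left_cancel_iff, ↓reduceIte] using hharm
        · by_cases h2 : l ≤ j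
          · simpa only [h1, ↓reduceIte, h2] using hh1 l
          · simpa [h1, h2] using hz l
      · intro x hx
        have h3 : pev p x = pev (p - rsq n * q.1) x + pev q.1 x := by
          rw [pev_sub, pev_mul, pev_rsq, hx]; ring
        rw [h3, hh2 x hx, Finset.sum_range_succ _ (j + 2), Finset.sum_range_succ _ (j + 1)]
        beta_reduce
        have e1 : ∀ l ∈ Finset.range (j + 1),
            pev (if l = j + 2 then p - rsq n * q.1 else if l ≤ j then h l else 0) x =
              pev (h l) x := by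
          intro l hl
          have hl' := Finset.mem_range.1 hl
          rw [if_neg (by omega), if_pos (by omega)]
        rw [Finset.sum_congr rfl e1]
        have e2 : pev (if j + 1 = j + 2 then p - rsq n * q.1 else if j + 1 ≤ j then h (j + 1)
            else 0) x = 0 := by
          rw [if_neg (by omega), if_neg (by omega)]; simp only [pev, map_zero]
        rw [e2]
        simp only [if_true]
        ring

/-- Every polynomial agrees on the unit sphere with a sum of homogeneous harmonic ones. -/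
theorem harm_decomp' {n : ℕ} [NeZero n] (hn : 2 ≤ n) (p : MvPolynomial (Fin n) ℝ) :
    ∃ (L : ℕ) (h : ℕ → MvPolynomial (Fin n) ℝ), (∀ l, Harm l (h l)) ∧
      ∀ x : E n, ‖x‖ = 1 → pev p x = ∑ l ∈ Finset.range L, pev (h l) x := by
  choose h hh1 hh2 using fun k : ℕ => harm_decomp hn k (homogeneousComponent k p)
    (homogeneousComponent_isHomogeneous k p)
  set L := p.totalDegree + 1 with hL
  refine ⟨L, fun l => ∑ k ∈ Finset.range L, if l ≤ k then h k l else 0, ?_, ?_⟩
  · intro l
    constructor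
    · apply IsHomogeneous.sum
      intro k _
      split_ifs
      · exact (hh1 k l).1
      · exact isHomogeneous_zero _ _ _
    · have : ∀ s : Finset ℕ, plap (∑ k ∈ s, if l ≤ k then h k l else 0) = 0 := by
        intro s
        induction s using Finset.induction_on with
        | empty => simp only [plap, Finset.sum_empty, map_zero, Finset.sum_const_zero]
        | insert a s ha ihs =>
          rw [Finset.sum_insert ha, plap_add, ihs, add_zero]
          split_ifs
          · exact (hh1 a l).2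
          · simp only [plap, map_zero, Finset.sum_const_zero]
      exact this _
  · intro x hx
    have h1 : pev p x = ∑ k ∈ Finset.range L, pev (homogeneousComponent k p) x := by
      conv_lhs => rw [← sum_homogeneousComponent p]
      simp [pev, hL]
    have h2 : ∀ l, pev (∑ k ∈ Finset.range L, if l ≤ k then h k l else 0) x =
        ∑ k ∈ Finset.range L, if l ≤ k then pev (h k l) x else 0 := by
      intro l
      simp only [pev, map_sum]
      apply Finset.sum_congr rfl
      intro k _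
      split_ifs <;> simp only [map_zero]
    simp only [h2]
    rw [h1, Finset.sum_comm]
    apply Finset.sum_congr rfl
    intro k hk
    have hk' := Finset.mem_range.1 hk
    rw [hh2 k x hx]
    rw [← Finset.sum_filter]
    apply Finset.sum_congr _ (fun _ _ => rfl)
    ext l
    simp only [Finset.mem_range, Finset.mem_filter]
    omega

end Vale.Agent.P225
end

section
open MeasureTheory Set Metric Filter Topology MvPolynomial
open scoped ContDiff

namespace Vale.Agent.P225

theorem poly_dense {n : ℕ} {f : sphere (0 : E n) 1 → ℝ} (hf : Continuous f) {ε : ℝ} (hε : 0 < ε) :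
    ∃ p : MvPolynomial (Fin n) ℝ, ∀ θ : sphere (0 : E n) 1, |f θ - pev p (θ : E n)| ≤ ε := by
  let g : Fin n → C(sphere (0 : E n) 1, ℝ) := fun i =>
    ⟨fun θ => (θ : E n) i, (EuclideanSpace.proj (𝕜 := ℝ) i).continuous.comp continuous_subtype_val⟩
  let A : Subalgebra ℝ C(sphere (0 : E n) 1, ℝ) := (aeval g : MvPolynomial (Fin n) ℝ →ₐ[ℝ] _).range
  have hA : A.SeparatesPoints := by
    intro x y hxy
    have : ∃ i, (x : E n) i ≠ (y : E n) i := by
      by_contra hh
      push Not at hh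
      exact hxy (Subtype.ext (by ext i; exact hh i))
    obtain ⟨i, hi⟩ := this
    refine ⟨g i, ⟨g i, ⟨X i, by simp only [AlgHom.toRingHom_eq_coe, RingHom.coe_coe, aeval_X]⟩, rfl⟩, hi⟩
  obtain ⟨⟨a, p, hp⟩, ha⟩ :=
    ContinuousMap.exists_mem_subalgebra_near_continuous_of_separatesPoints A hA f hf ε hε
  refine ⟨p, fun θ => ?_⟩
  have h1 := ha θ
  have h2 : a θ = pev p (θ : E n) := by
    rw [← hp]
    have : ∀ q : MvPolynomial (Fin n) ℝ, (aeval g q) θ = pev q (θ : E n) := by
      intro q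
      induction q using MvPolynomial.induction_on with
      | C c => simp only [algHom_C, _root_.algebraMap_apply, smul_eq_mul, mul_one, pev, eval_C]
      | add p q hp hq => simp only [map_add, ContinuousMap.add_apply, hp, hq, pev_add]
      | mul_X p i hp =>
        simp only [map_mul, aeval_X, ContinuousMap.mul_apply, hp, pev_mul]
        have hX : pev (X i) (θ : E n) = g i θ := by
          simp only [pev, eval_X]
          rfl
        rw [hX]
    exact this p
  simp only [h2] at h1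
  rw [abs_sub_comm]
  exact h1.le

theorem harm_orth_r {n : ℕ} [NeZero n] (hn : 2 ≤ n) {k l : ℕ} (hkl : k ≠ l)
    {f g : MvPolynomial (Fin n) ℝ} (hf : Harm k f) (hg : Harm l g) (r : ℝ) :
    sph (fun x => pev f x * pev g x) r = 0 := by
  have h := harm_orth hn hkl hf hg
  have : sph (fun x => pev f x * pev g x) r = r ^ k * r ^ l * sph (fun x => pev f x * pev g x) 1 := by
    unfold sph
    rw [← integral_const_mul]
    congr 1
    funext θ
    beta_reduce
    rw [pev_smul hf.1, pev_smul hg.1, one_smul]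
    ring
  rw [this, h, mul_zero]

theorem sph_sum {n : ℕ} {ι : Type*} (s : Finset ι) {f : ι → E n → ℝ}
    (hf : ∀ i ∈ s, Continuous (f i)) (r : ℝ) :
    sph (fun x => ∑ i ∈ s, f i x) r = ∑ i ∈ s, sph (f i) r := by
  unfold sph
  exact integral_finsetSum _ fun i hi => integrable_sph (hf i hi) r

theorem sph_add3 {n : ℕ} {f g h : E n → ℝ} (hf : Continuous f) (hg : Continuous g)
    (hh : Continuous h) (r : ℝ) :
    sph (fun x => f x + g x + h x) r = sph f r + sph g r + sph h r := by
  have hfg : Continuous fun x => f x + g x := hf.add hg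
  rw [sph_add hfg hh, sph_add hf hg]

theorem sph_add4 {n : ℕ} {f g h k : E n → ℝ} (hf : Continuous f) (hg : Continuous g)
    (hh : Continuous h) (hk : Continuous k) (r : ℝ) :
    sph (fun x => f x + g x + h x + k x) r = sph f r + sph g r + sph h r + sph k r := by
  have hfg : Continuous fun x => f x + g x + h x := (hf.add hg).add hh
  rw [sph_add hfg hk, sph_add3 hf hg hh]

theorem sph_nonneg {n : ℕ} {f : E n → ℝ} (hf : ∀ x, 0 ≤ f x) (r : ℝ) : 0 ≤ sph f r :=
  integral_nonneg fun _ => hf _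

theorem sph_mono {n : ℕ} {f g : E n → ℝ} (hf : Continuous f) (hg : Continuous g) {r : ℝ}
    (h : ∀ x, ‖x‖ = |r| → f x ≤ g x) : sph f r ≤ sph g r := by
  apply integral_mono (integrable_sph hf r) (integrable_sph hg r)
  intro θ
  apply h
  rw [norm_smul, norm_eq_of_mem_sphere, mul_one, Real.norm_eq_abs]

/-- Orthogonal expansion. -/
theorem orth_expand {n : ℕ} [NeZero n] (hn : 2 ≤ n) (s t : Finset ℕ) (a : ℕ → ℝ)
    (q : ℕ → MvPolynomial (Fin n) ℝ) (hq : ∀ l, Harm l (q l)) (r : ℝ) :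
    sph (fun x => (∑ l ∈ s, a l * pev (q l) x) * (∑ l ∈ t, pev (q l) x)) r =
      ∑ l ∈ s, if l ∈ t then a l * sph (fun x => pev (q l) x * pev (q l) x) r else 0 := by
  have h1 : (fun x : E n => (∑ l ∈ s, a l * pev (q l) x) * (∑ l ∈ t, pev (q l) x)) =
      fun x => ∑ l ∈ s, ∑ k ∈ t, a l * (pev (q l) x * pev (q k) x) := by
    funext x
    rw [Finset.sum_mul_sum]
    apply Finset.sum_congr rfl
    intro l _
    apply Finset.sum_congr rfl
    intro k _
    ring
  have hc : ∀ l k, Continuous fun x : E n => a l * (pev (q l) x * pev (q k) x) := fun l k =>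
    continuous_const.mul ((pev_cont _).mul (pev_cont _))
  rw [h1, sph_sum s (fun l _ => continuous_finsetSum _ fun k _ => hc l k)]
  apply Finset.sum_congr rfl
  intro l _
  rw [sph_sum t (fun k _ => hc l k)]
  split_ifs with hl
  · rw [Finset.sum_eq_single l]
    · rw [sph_const_mul]
    · intro k _ hk
      rw [sph_const_mul, harm_orth_r hn hk.symm (hq l) (hq k), mul_zero]
    · intro h; exact absurd hl h
  · apply Finset.sum_eq_zero
    intro k hk
    have hne : l ≠ k := fun h => hl (h ▸ hk)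
    rw [sph_const_mul, harm_orth_r hn hne (hq l) (hq k), mul_zero]

end Vale.Agent.P225
end

section
open Set Real

namespace Vale.Agent.P225

theorem le_of_hasDeriv_nonneg {r₁ : ℝ} {f f' : ℝ → ℝ} (hd : ∀ r, r₁ ≤ r → HasDerivAt f (f' r) r)
    (h0 : ∀ r, r₁ ≤ r → 0 ≤ f' r) : ∀ r, r₁ ≤ r → f r₁ ≤ f r := by
  intro r hr
  have hmono : MonotoneOn f (Ici r₁) := by
    apply monotoneOn_of_deriv_nonneg (convex_Ici r₁)
    · intro x hx
      exact (hd x hx).continuousAt.continuousWithinAt
    · intro x hx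
      rw [interior_Ici] at hx
      exact (hd x (le_of_lt hx)).differentiableAt.differentiableWithinAt
    · intro x hx
      rw [interior_Ici] at hx
      rw [(hd x (le_of_lt hx)).deriv]
      exact h0 x (le_of_lt hx)
  exact hmono self_mem_Ici hr hr

theorem growth {n : ℕ} (hn : 3 ≤ n) {ε C : ℝ} (hε0 : 0 < ε) (hε1 : ε ≤ 1 / 4) (hC : 0 ≤ C)
    {r₁ : ℝ} (hr₁ : 0 < r₁) {J J1 F F1 P P1 Q : ℝ → ℝ}
    (hJ : ∀ r, r₁ ≤ r → 0 < J r) (hJd : ∀ r, r₁ ≤ r → HasDerivAt J (J1 r) r)
    (hJ1 : ∀ r, r₁ ≤ r → r * J1 r ≤ 2 * F r / r ^ (n - 2) + C * r ^ (-ε) * J r)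
    (hJ2 : ∀ r, r₁ ≤ r → 2 * F r / r ^ (n - 2) - C * r ^ (-ε) * J r ≤ r * J1 r)
    (hFd : ∀ r, r₁ ≤ r → HasDerivAt F (F1 r) r) (hF1 : ∀ r, r₁ ≤ r → 0 ≤ F1 r)
    (hPd : ∀ r, r₁ ≤ r → HasDerivAt P (P1 r) r)
    (hP1 : ∀ r, r₁ ≤ r → P1 r ≤ C * r ^ (-ε) * F1 r)
    (hid : ∀ r, r₁ ≤ r → r * F1 r = 2 * Q r + ((n : ℝ) - 2) * F r - P r)
    (hcs : ∀ r, r₁ ≤ r → F r ^ 2 ≤ Q r * J r * r ^ (n - 2))
    (h1 : 0 < F r₁) {y : ℝ} (hy0 : 0 ≤ y) (hy : y ≤ 1 / 4) (hPy : P r₁ ≤ y * F r₁)
    (hη : C * r₁ ^ (-ε) ≤ 1 / 4) {κ : ℝ}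
    (hκ : κ ≤ F r₁ / (r₁ ^ (n - 2) * J r₁) * exp (-(3 / ε * (C * r₁ ^ (-ε))) - 2 * y)) :
    ∀ r, r₁ ≤ r →
      log (J r₁) + 2 * κ * (log r - log r₁) - C * r₁ ^ (-ε) / ε ≤ log (J r) := by
  set η : ℝ → ℝ := fun r => C * r ^ (-ε) with hηd
  have hpos : ∀ r, r₁ ≤ r → 0 < r := fun r hr => lt_of_lt_of_le hr₁ hr
  have hη0 : ∀ r, r₁ ≤ r → 0 ≤ η r := fun r hr => by
    have := hpos r hr
    (clear * - hC this; positivity)
  have hηder : ∀ r, r₁ ≤ r → HasDerivAt η (-(ε * η r / r)) r := by
    intro r hr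
    have h := (Real.hasDerivAt_rpow_const (x := r) (p := -ε) (Or.inl (hpos r hr).ne')).const_mul C
    convert! h using 1
    simp only [hηd]
    rw [Real.rpow_sub (hpos r hr), Real.rpow_one]
    ring
  have hηle : ∀ r, r₁ ≤ r → η r ≤ η r₁ := by
    intro r hr
    have : r ^ (-ε) ≤ r₁ ^ (-ε) := Real.rpow_le_rpow_of_nonpos hr₁ hr (by linarith only [hε0])
    exact mul_le_mul_of_nonneg_left this hC
  have hη1 : η r₁ ≤ 1 / 4 := hη
  have hn2 : (1 : ℝ) ≤ (n : ℝ) - 2 := by
    have : (3 : ℝ) ≤ n := by exact_mod_cast hn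
    linarith only [this]
  -- step 1
  have s1 : ∀ r, r₁ ≤ r → F r₁ ≤ F r := le_of_hasDeriv_nonneg hFd hF1
  have hFpos : ∀ r, r₁ ≤ r → 0 < F r := fun r hr => lt_of_lt_of_le h1 (s1 r hr)
  -- step 2
  have s2 : ∀ r, r₁ ≤ r → P r ≤ F r / 2 := by
    intro r hr
    have := le_of_hasDeriv_nonneg (f := fun r => η r₁ * F r - P r)
      (f' := fun r => η r₁ * F1 r - P1 r)
      (fun r hr => ((hFd r hr).const_mul _).sub (hPd r hr))
      (fun r hr => by
        have a1 := hP1 r hr
        have a2 := mul_le_mul_of_nonneg_right (hηle r hr) (hF1 r hr)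
        simp only [hηd] at a2 ⊢
        linarith only [a1, a2]) r hr
    have b1 := s1 r hr
    have b2 : y * F r₁ ≤ 1 / 4 * F r₁ := mul_le_mul_of_nonneg_right hy h1.le
    have b3 : η r₁ * (F r - F r₁) ≤ 1 / 4 * (F r - F r₁) :=
      mul_le_mul_of_nonneg_right hη1 (by linarith only [b1])
    have b4 := hFpos r hr
    linarith only [b3, b2, b1, this, hPy, h1]
  -- step 3
  have hQ : ∀ r, r₁ ≤ r → 0 < Q r := by
    intro r hr
    have a1 := hcs r hr
    have a2 : 0 < F r ^ 2 := pow_pos (hFpos r hr) 2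
    have a3 : 0 < J r * r ^ (n - 2) := mul_pos (hJ r hr) (pow_pos (hpos r hr) _)
    by_contra hcon
    push Not at hcon
    nlinarith only [a1, a2, a3, hcon]
  have s3 : ∀ r, r₁ ≤ r → F r / 2 ≤ r * F1 r := by
    intro r hr
    have a1 := hid r hr
    have a2 := s2 r hr
    have a3 := hQ r hr
    have a4 := hFpos r hr
    nlinarith only [a1, a2, a3, hn2, a4]
  -- step 4
  have s4 : ∀ r, r₁ ≤ r → P r ≤ 2 * η r * F r + y * F r₁ := by
    intro r hr
    have := le_of_hasDeriv_nonneg (f := fun r => 2 * η r * F r - P r)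
      (f' := fun r => (2 * (-(ε * η r / r)) * F r + 2 * η r * F1 r) - P1 r)
      (fun r hr => (((hηder r hr).const_mul 2).mul (hFd r hr)).sub (hPd r hr))
      (fun r hr => by
        have a1 := hP1 r hr
        have a2 := s3 r hr
        have a3 := hη0 r hr
        have a4 := hpos r hr
        have a5 := hFpos r hr
        have a6 : F r / 2 / r ≤ F1 r := by
          rw [div_le_iff₀ a4]; linarith only [a2]
        have a7 : 2 * (-(ε * η r / r)) * F r = -(2 * ε * (η r * (F r / r))) := by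
          (clear * - a5 a4 hε0; field_simp)
        have a8 : F r / 2 / r = (F r / r) / 2 := by ring
        rw [a8] at a6
        have a9 : 0 ≤ F r / r := by (clear * - a5 a4; positivity)
        have a10 : η r * ((F r / r) / 2) ≤ η r * F1 r := mul_le_mul_of_nonneg_left a6 a3
        have a11 : ε * (η r * (F r / r)) ≤ 1 / 4 * (η r * (F r / r)) :=
          mul_le_mul_of_nonneg_right hε1 (by (clear * - hC a4 a5; positivity))
        have a12 : C * r ^ (-ε) * F1 r = η r * F1 r := rfl
        rw [a7]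
        linarith only [a1, a10, a11]) r hr
    have b1 := hη0 r₁ le_rfl
    have b2 : 0 ≤ 2 * η r₁ * F r₁ := by (clear * - hC hr₁ h1; positivity)
    linarith only [hPy, this, b2]
  -- step 5
  set ρ : ℝ → ℝ := fun r => r₁ ^ (1 / 2 : ℝ) * r ^ (-(1 / 2) : ℝ) with hρ
  have hρder : ∀ r, r₁ ≤ r → HasDerivAt ρ (-(ρ r / (2 * r))) r := by
    intro r hr
    have h := (Real.hasDerivAt_rpow_const (x := r) (p := (-(1 / 2) : ℝ))
      (Or.inl (hpos r hr).ne')).const_mul (r₁ ^ (1 / 2 : ℝ))
    convert! h using 1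
    simp only [hρ]
    rw [Real.rpow_sub (hpos r hr), Real.rpow_one]
    ring
  have hρ0 : ∀ r, r₁ ≤ r → 0 < ρ r := by
    intro r hr
    have := hpos r hr
    (clear * - hr₁ this; positivity)
  have hρ1 : ρ r₁ = 1 := by
    simp only [hρ]
    rw [← Real.rpow_add hr₁]
    norm_num
  have s5 : ∀ r, r₁ ≤ r → F r₁ ≤ F r * ρ r := by
    intro r hr
    have := le_of_hasDeriv_nonneg (f := fun r => F r * ρ r)
      (f' := fun r => F1 r * ρ r + F r * (-(ρ r / (2 * r))))
      (fun r hr => (hFd r hr).mul (hρder r hr))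
      (fun r hr => by
        have a2 := s3 r hr
        have a4 := hpos r hr
        have a6 : F r / 2 / r ≤ F1 r := by
          rw [div_le_iff₀ a4]; linarith only [a2]
        have a7 : F1 r * ρ r + F r * (-(ρ r / (2 * r))) = (F1 r - F r / 2 / r) * ρ r := by
          field_simp
          ring
        rw [a7]
        exact mul_nonneg (by linarith only [a6]) (hρ0 r hr).le) r hr
    simp only [hρ1, mul_one] at this
    exact this
  have s5' : ∀ r, r₁ ≤ r → P r / F r ≤ 2 * η r + y * ρ r := by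
    intro r hr
    rw [div_le_iff₀ (hFpos r hr)]
    have a1 := s4 r hr
    have a2 := mul_le_mul_of_nonneg_left (s5 r hr) hy0
    linarith only [a1, a2]
  -- step 6
  have s6 : ∀ r, r₁ ≤ r →
      log (F r₁) - log (J r₁) - ((n : ℝ) - 2) * log r₁ - 3 / ε * η r₁ - 2 * y * ρ r₁ ≤
      log (F r) - log (J r) - ((n : ℝ) - 2) * log r - 3 / ε * η r - 2 * y * ρ r := by
    apply le_of_hasDeriv_nonneg
      (f := fun r => log (F r) - log (J r) - ((n : ℝ) - 2) * log r - 3 / ε * η r - 2 * y * ρ r)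
      (f' := fun r => F1 r / F r - J1 r / J r - ((n : ℝ) - 2) * r⁻¹ - 3 / ε * (-(ε * η r / r)) -
        2 * y * (-(ρ r / (2 * r))))
    · intro r hr
      exact ((((hFd r hr).log (hFpos r hr).ne').sub ((hJd r hr).log (hJ r hr).ne')).sub
        ((Real.hasDerivAt_log (hpos r hr).ne').const_mul _)).sub ((hηder r hr).const_mul _) |>.sub
        ((hρder r hr).const_mul _)
    · intro r hr
      have a0 := hpos r hr
      have aF := hFpos r hr
      have aJ := hJ r hr
      have aR : 0 < r ^ (n - 2) := pow_pos a0 _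
      have a1 := hid r hr
      have a2 := hJ1 r hr
      have a3 := hcs r hr
      have a4 := s5' r hr
      -- multiply by r
      have key : 0 ≤ r * F1 r / F r - r * J1 r / J r - ((n : ℝ) - 2) + 3 * η r + y * ρ r := by
        have b1 : r * F1 r / F r = 2 * Q r / F r + ((n : ℝ) - 2) - P r / F r := by
          rw [a1]; (clear * - aF; field_simp)
        have b2 : r * J1 r / J r ≤ 2 * F r / (r ^ (n - 2) * J r) + η r := by
          rw [div_le_iff₀ aJ]
          have : (2 * F r / (r ^ (n - 2) * J r) + η r) * J r =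
              2 * F r / r ^ (n - 2) + C * r ^ (-ε) * J r := by
            simp only [hηd]; (clear * - aJ a0 aF hC; field_simp)
          rw [this]; exact a2
        have b3 : 2 * F r / (r ^ (n - 2) * J r) ≤ 2 * Q r / F r := by
          rw [div_le_div_iff₀ (by (clear * - a0 aJ; positivity)) aF]
          linarith only [a3]
        rw [b1]
        linarith only [a4, b2, b3]
      have e : F1 r / F r - J1 r / J r - ((n : ℝ) - 2) * r⁻¹ - 3 / ε * (-(ε * η r / r)) -
          2 * y * (-(ρ r / (2 * r))) =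
          (r * F1 r / F r - r * J1 r / J r - ((n : ℝ) - 2) + 3 * η r + y * ρ r) / r := by
        field_simp
        ring
      rw [e]
      exact div_nonneg key a0.le
  -- step 7
  have s7 : ∀ r, r₁ ≤ r → κ ≤ F r / (r ^ (n - 2) * J r) := by
    intro r hr
    apply hκ.trans
    have a0 := hpos r hr
    have aF := hFpos r hr
    have aJ := hJ r hr
    have aJ1 := hJ r₁ le_rfl
    have hn2' : ((n - 2 : ℕ) : ℝ) = (n : ℝ) - 2 := by
      rw [Nat.cast_sub (by (clear * - hn; omega))]; norm_num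
    have hlog : ∀ s, r₁ ≤ s → log (F s / (s ^ (n - 2) * J s)) =
        log (F s) - log (J s) - ((n : ℝ) - 2) * log s := by
      intro s hs
      have c0 := hpos s hs
      have cF := hFpos s hs
      have cJ := hJ s hs
      rw [Real.log_div cF.ne' (by (clear * - c0 cJ; positivity)), Real.log_mul (by (clear * - c0; positivity)) cJ.ne', Real.log_pow,
        hn2']
      ring
    have hU1 : 0 < F r₁ / (r₁ ^ (n - 2) * J r₁) := by (clear * - h1 hr₁ aJ1; positivity)
    have hU : 0 < F r / (r ^ (n - 2) * J r) := by (clear * - aF a0 aJ; positivity)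
    rw [← Real.log_le_log_iff (by (clear * - h1 hr₁ aJ1; positivity)) hU, Real.log_mul hU1.ne' (Real.exp_pos _).ne',
      Real.log_exp, hlog r hr, hlog r₁ le_rfl]
    have b := s6 r hr
    rw [hρ1] at b
    have b1 : 0 ≤ 3 / ε * η r := mul_nonneg (by positivity) (hη0 r hr)
    have b2 : 0 ≤ 2 * y * ρ r := by
      have := (hρ0 r hr).le
      (clear * - hy0 hr₁ a0; positivity)
    have b3 : 3 / ε * (C * r₁ ^ (-ε)) = 3 / ε * η r₁ := rfl
    rw [b3]
    linarith only [b, b1, b2]
  -- step 8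
  intro r hr
  have := le_of_hasDeriv_nonneg (f := fun r => log (J r) - 2 * κ * log r - 1 / ε * η r)
    (f' := fun r => J1 r / J r - 2 * κ * r⁻¹ - 1 / ε * (-(ε * η r / r)))
    (fun r hr => (((hJd r hr).log (hJ r hr).ne').sub
        ((Real.hasDerivAt_log (hpos r hr).ne').const_mul _)).sub ((hηder r hr).const_mul _))
    (fun r hr => by
      have a0 := hpos r hr
      have aJ := hJ r hr
      have a1 := s7 r hr
      have a2 := hJ2 r hr
      have key : 0 ≤ r * J1 r / J r - 2 * κ + η r := by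
        have b2 : 2 * F r / (r ^ (n - 2) * J r) - η r ≤ r * J1 r / J r := by
          rw [le_div_iff₀ aJ]
          have : (2 * F r / (r ^ (n - 2) * J r) - η r) * J r =
              2 * F r / r ^ (n - 2) - C * r ^ (-ε) * J r := by
            simp only [hηd]; (clear * - aJ a0; field_simp)
          rw [this]; exact a2
        have b3 : 2 * F r / (r ^ (n - 2) * J r) = 2 * (F r / (r ^ (n - 2) * J r)) := by ring
        rw [b3] at b2
        linarith only [a1, b2]
      have e : J1 r / J r - 2 * κ * r⁻¹ - 1 / ε * (-(ε * η r / r)) =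
          (r * J1 r / J r - 2 * κ + η r) / r := by
        field_simp
        ring
      rw [e]
      exact div_nonneg key a0.le) r hr
  have b1 : 0 ≤ 1 / ε * η r := mul_nonneg (by positivity) (hη0 r hr)
  have b3 : C * r₁ ^ (-ε) / ε = 1 / ε * η r₁ := by simp only [hηd]; ring
  rw [b3]
  linarith only [this, b1]

end Vale.Agent.P225
end

section
open MeasureTheory Set Metric Filter Topology
open scoped ContDiff

namespace Vale.Agent.P225

theorem contOn_cmul {n : ℕ} {s : Set (E n)} (c : ℝ) {f : E n → ℝ} (hf : ContinuousOn f s) :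
    ContinuousOn (fun x => c * f x) s := continuousOn_const.mul hf

/-- A divergence form operator on `ℝⁿ` which is close to a conical one near infinity. -/
structure Cone (n : ℕ) where
  A : E n → E n →L[ℝ] E n
  hA : ContDiff ℝ 1 A
  sym : ∀ x v w, inner ℝ (A x v) w = inner ℝ v (A x w)
  pos : ∀ x v, v ≠ 0 → 0 < inner ℝ (A x v) v
  R₀ : ℝ
  hR₀ : 1 ≤ R₀
  Z : E n → E n
  hZ : ContDiffOn ℝ 1 Z {x | R₀ < ‖x‖}
  μ : E n → ℝ
  hμ : ContDiffOn ℝ 1 μ {x | R₀ < ‖x‖}
  hAx : ∀ x, R₀ < ‖x‖ → A x x = μ x • Z x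
  hZx : ∀ x, R₀ < ‖x‖ → inner ℝ (Z x) x = ‖x‖ ^ 2
  ε : ℝ
  C : ℝ
  hε : 0 < ε
  hε' : ε ≤ 1 / 4
  hC : 0 ≤ C
  b1 : ∀ x, R₀ < ‖x‖ → ∀ v, |2 * inner ℝ (fderiv ℝ Z x (A x v)) v -
    inner ℝ (A x v) v * divg Z x - inner ℝ ((fderiv ℝ A x (Z x)) v) v -
      (2 - (n : ℝ)) * inner ℝ (A x v) v| ≤ C * ‖x‖ ^ (-ε) * inner ℝ (A x v) v
  b2 : ∀ x, R₀ < ‖x‖ → |fderiv ℝ μ x x + divg (fun y => A y y - μ y • y) x| ≤
    C * ‖x‖ ^ (-ε) * μ x

namespace Cone

variable {n : ℕ} (K : Cone n)

/-- The region near infinity. -/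
def O : Set (E n) := {x | K.R₀ < ‖x‖}

theorem isOpen_O : IsOpen K.O := isOpen_out _

theorem mu_pos {x : E n} (hx : K.R₀ < ‖x‖) : 0 < K.μ x := by
  have hx0 : x ≠ 0 := by
    intro h
    rw [h, norm_zero] at hx
    linarith [K.hR₀]
  have h := K.pos x x hx0
  rw [K.hAx x hx, real_inner_smul_left, K.hZx x hx] at h
  have h2 : 0 < ‖x‖ ^ 2 := by positivity
  exact pos_of_mul_pos_left h h2.le

/-- Solutions. -/
structure Sol (K : Cone n) (u : E n → ℝ) : Prop where
  smooth : ContDiff ℝ 2 u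
  eq : ∀ x, divg (fun y => K.A y (gr u y)) x = 0

/-- energy density -/
noncomputable def e (u : E n → ℝ) (x : E n) : ℝ := inner ℝ (K.A x (gr u x)) (gr u x)

/-- normal derivative times the radius -/
noncomputable def s (u : E n → ℝ) (x : E n) : ℝ := inner ℝ (K.Z x) (gr u x)

noncomputable def J (u : E n → ℝ) (r : ℝ) : ℝ := sph (fun x => K.μ x * u x * u x) r

noncomputable def F (u : E n → ℝ) (r : ℝ) : ℝ := flux (fun x => u x • K.A x (gr u x)) r

noncomputable def X (u : E n → ℝ) (x : E n) : E n :=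
  (2 * K.s u x) • K.A x (gr u x) - K.e u x • K.Z x

noncomputable def P (u : E n → ℝ) (r : ℝ) : ℝ := flux (K.X u) r + ((n : ℝ) - 2) * K.F u r

noncomputable def Q (u : E n → ℝ) (r : ℝ) : ℝ :=
  r ^ (n - 2) * sph (fun x => K.μ x * K.s u x * K.s u x) r

theorem e_nonneg (u : E n → ℝ) (x : E n) : 0 ≤ K.e u x := by
  unfold e
  by_cases h : gr u x = 0
  · rw [h]; simp
  · exact (K.pos x _ h).le

variable {u : E n → ℝ}

theorem Agr_contDiff (hu : K.Sol u) : ContDiff ℝ 1 (fun x => K.A x (gr u x)) :=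
  K.hA.clm_apply (contDiff_gr hu.smooth (by norm_num))

theorem gr_contDiff (hu : K.Sol u) : ContDiff ℝ 1 (gr u) :=
  contDiff_gr hu.smooth (by (clear * -; norm_num))

theorem u_contDiff (hu : K.Sol u) : ContDiff ℝ 1 u := hu.smooth.of_le (by norm_num)

theorem e_contDiff (hu : K.Sol u) : ContDiff ℝ 1 (K.e u) :=
  (K.Agr_contDiff hu).inner ℝ (K.gr_contDiff hu)

theorem s_contDiffOn (hu : K.Sol u) : ContDiffOn ℝ 1 (K.s u) K.O :=
  K.hZ.inner ℝ (K.gr_contDiff hu).contDiffOn

theorem divg_uA (hu : K.Sol u) (x : E n) :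
    divg (fun y => u y • K.A y (gr u y)) x = K.e u x := by
  rw [divg_smul ((K.u_contDiff hu).differentiable (by simp) x)
    ((K.Agr_contDiff hu).differentiable (by simp) x), hu.eq x, mul_zero, add_zero,
    real_inner_comm]
  rfl

theorem F_hasDerivAt [NeZero n] (hu : K.Sol u) {r : ℝ} (hr : 0 < r) :
    HasDerivAt (K.F u) (r ^ (n - 1) * sph (K.e u) r) r := by
  have h := hasDerivAt_flux (le_refl (0 : ℝ)) (F := fun x => u x • K.A x (gr u x))
    (((K.u_contDiff hu).smul (K.Agr_contDiff hu)).contDiffOn) hr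
  have h2 : divg (fun x => u x • K.A x (gr u x)) = K.e u := funext (K.divg_uA hu)
  rw [h2] at h
  exact h

theorem F_eq_integral [NeZero n] (hn : 2 ≤ n) (hu : K.Sol u) {r : ℝ} (hr : 0 ≤ r) :
    K.F u r = ∫ s in (0 : ℝ)..r, s ^ (n - 1) * sph (K.e u) s := by
  have h := flux_eq_integral hn (F := fun x => u x • K.A x (gr u x))
    ((K.u_contDiff hu).smul (K.Agr_contDiff hu)) hr
  have h2 : divg (fun x => u x • K.A x (gr u x)) = K.e u := funext (K.divg_uA hu)
  rw [h2] at h
  exact h

theorem inner_Agr (u : E n → ℝ) {x : E n} (hx : K.R₀ < ‖x‖) :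
    inner ℝ (K.A x (gr u x)) x = K.μ x * K.s u x := by
  rw [K.sym, K.hAx x hx, real_inner_smul_right, real_inner_comm]
  rfl

theorem F_eq (hn : 2 ≤ n) (u : E n → ℝ) {r : ℝ} (hr : K.R₀ < r) :
    K.F u r = r ^ (n - 2) * sph (fun x => K.μ x * u x * K.s u x) r := by
  have hr0 : 0 < r := by linarith only [hr, K.hR₀]
  unfold F flux
  have h3 : sph (fun x : E n => inner ℝ (u x • K.A x (gr u x)) x / ‖x‖) r =
      r⁻¹ * sph (fun x => K.μ x * u x * K.s u x) r := by
    rw [← sph_const_mul]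
    apply sph_congr
    intro x hx
    rw [abs_of_pos hr0] at hx
    rw [real_inner_smul_left, K.inner_Agr u (by rw [hx]; exact hr), hx]
    field_simp
  rw [h3]
  have : r ^ (n - 1) = r ^ (n - 2) * r := by
    rw [← pow_succ]; congr 1; (clear * - hn; omega)
  rw [this]
  (clear * - hr0; field_simp)

theorem e_cont (hu : K.Sol u) : Continuous (K.e u) := (K.e_contDiff hu).continuous

theorem mu_cont : ContinuousOn K.μ K.O := K.hμ.continuousOn

theorem s_cont (hu : K.Sol u) : ContinuousOn (K.s u) K.O := (K.s_contDiffOn hu).continuousOn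

theorem integrable_O {g : E n → ℝ} (hg : ContinuousOn g K.O) {r : ℝ} (hr : K.R₀ < r) :
    Integrable (fun θ : sphere (0 : E n) 1 => g (r • (θ : E n))) (sig n) :=
  sph_integrable hg hr

theorem sph_addO {f g : E n → ℝ} (hf : ContinuousOn f K.O) (hg : ContinuousOn g K.O) {r : ℝ}
    (hr : K.R₀ < r) : sph (fun x => f x + g x) r = sph f r + sph g r :=
  integral_add (K.integrable_O hf hr) (K.integrable_O hg hr)

theorem sph_subO {f g : E n → ℝ} (hf : ContinuousOn f K.O) (hg : ContinuousOn g K.O) {r : ℝ}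
    (hr : K.R₀ < r) : sph (fun x => f x - g x) r = sph f r - sph g r :=
  integral_sub (K.integrable_O hf hr) (K.integrable_O hg hr)

theorem sph_monoO {f g : E n → ℝ} (hf : ContinuousOn f K.O) (hg : ContinuousOn g K.O) {r : ℝ}
    (hr : K.R₀ < r) (h : ∀ x, ‖x‖ = r → f x ≤ g x) : sph f r ≤ sph g r := by
  apply integral_mono (K.integrable_O hf hr) (K.integrable_O hg hr)
  intro θ
  apply h
  exact norm_smul_sphere (by linarith [K.hR₀]) θ

theorem sph_abs_le {f g : E n → ℝ} (hf : ContinuousOn f K.O) (hg : ContinuousOn g K.O) {r : ℝ}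
    (hr : K.R₀ < r) (h : ∀ x, ‖x‖ = r → |f x| ≤ g x) : |sph f r| ≤ sph g r := by
  rw [abs_le]
  constructor
  · have h1 : sph (fun x => -1 * g x) r ≤ sph f r := by
      apply K.sph_monoO (contOn_cmul _ hg) hf hr
      intro x hx
      have := abs_le.1 (h x hx)
      linarith [this.1]
    rw [sph_const_mul] at h1
    linarith only [h1]
  · exact K.sph_monoO hf hg hr fun x hx => (abs_le.1 (h x hx)).2

theorem X_contDiffOn (hu : K.Sol u) : ContDiffOn ℝ 1 (K.X u) K.O := by
  unfold X
  apply ContDiffOn.sub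
  · exact (contDiffOn_const.mul (K.s_contDiffOn hu)).smul (K.Agr_contDiff hu).contDiffOn
  · exact (K.e_contDiff hu).contDiffOn.smul K.hZ

theorem fluxX_eq (hn : 2 ≤ n) (hu : K.Sol u) {r : ℝ} (hr : K.R₀ < r) :
    flux (K.X u) r = 2 * K.Q u r - r ^ n * sph (K.e u) r := by
  have hr0 : 0 < r := by (clear * - hr; linarith [K.hR₀])
  unfold flux
  have c1 : ContinuousOn (fun x => K.μ x * K.s u x * K.s u x) K.O :=
    (K.mu_cont.mul (K.s_cont hu)).mul (K.s_cont hu)
  have h3 : sph (fun x : E n => inner ℝ (K.X u x) x / ‖x‖) r =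
      (2 * r⁻¹) * sph (fun x => K.μ x * K.s u x * K.s u x) r - r * sph (K.e u) r := by
    rw [← sph_const_mul, ← sph_const_mul, ← K.sph_subO (contOn_cmul _ c1)
      (contOn_cmul _ (K.e_cont hu).continuousOn) hr]
    apply sph_congr
    intro x hx
    rw [abs_of_pos hr0] at hx
    have hx' : K.R₀ < ‖x‖ := by rw [hx]; exact hr
    unfold X
    rw [inner_sub_left, real_inner_smul_left, real_inner_smul_left, K.inner_Agr u hx',
      K.hZx x hx', hx]
    field_simp
  rw [h3]
  unfold Q
  have e1 : r ^ (n - 1) = r ^ (n - 2) * r := by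
    rw [← pow_succ]; congr 1; (clear * - hn; omega)
  have e2 : r ^ n = r ^ (n - 2) * r * r := by
    rw [← pow_succ, ← pow_succ]; congr 1; omega
  rw [e1, e2]
  (clear * - hr0; field_simp)

theorem identity (hn : 2 ≤ n) (hu : K.Sol u) {r : ℝ} (hr : K.R₀ < r) :
    r * (r ^ (n - 1) * sph (K.e u) r) = 2 * K.Q u r + ((n : ℝ) - 2) * K.F u r - K.P u r := by
  unfold P
  rw [K.fluxX_eq hn hu hr]
  have e2 : r ^ n = r * r ^ (n - 1) := by
    rw [← pow_succ']; congr 1; omega
  rw [e2]
  ring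

theorem cauchy_schwarz (hn : 2 ≤ n) (hu : K.Sol u) {r : ℝ} (hr : K.R₀ < r) :
    K.F u r ^ 2 ≤ K.Q u r * K.J u r * r ^ (n - 2) := by
  have hr0 : 0 < r := by linarith only [hr, K.hR₀]
  rw [K.F_eq hn u hr]
  unfold Q J
  set α := sph (fun x => K.μ x * u x * u x) r
  set β := sph (fun x => K.μ x * u x * K.s u x) r
  set γ := sph (fun x => K.μ x * K.s u x * K.s u x) r
  have huc : ContinuousOn u K.O := (K.u_contDiff hu).continuous.continuousOn
  have c1 : ContinuousOn (fun x => K.μ x * u x * u x) K.O := (K.mu_cont.mul huc).mul huc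
  have c2 : ContinuousOn (fun x => K.μ x * u x * K.s u x) K.O :=
    (K.mu_cont.mul huc).mul (K.s_cont hu)
  have c3 : ContinuousOn (fun x => K.μ x * K.s u x * K.s u x) K.O :=
    (K.mu_cont.mul (K.s_cont hu)).mul (K.s_cont hu)
  have hq : ∀ t : ℝ, 0 ≤ γ * (t * t) + (-2 * β) * t + α := by
    intro t
    have h1 : γ * (t * t) + (-2 * β) * t + α =
        sph (fun x => K.μ x * (t * K.s u x - u x) ^ 2) r := by
      have e0 : ContinuousOn (fun x => (t * t) * (K.μ x * K.s u x * K.s u x) +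
          (-2 * t) * (K.μ x * u x * K.s u x)) K.O :=
        (continuousOn_const.mul c3).add (continuousOn_const.mul c2)
      have e1 : sph (fun x => K.μ x * (t * K.s u x - u x) ^ 2) r =
          sph (fun x => (t * t) * (K.μ x * K.s u x * K.s u x) +
            (-2 * t) * (K.μ x * u x * K.s u x) + K.μ x * u x * u x) r := by
        apply sph_congr
        intro x _
        ring
      rw [e1, K.sph_addO e0 c1 hr, K.sph_addO (contOn_cmul _ c3)
        (contOn_cmul _ c2) hr, sph_const_mul, sph_const_mul]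
      ring
    rw [h1]
    apply integral_nonneg
    intro θ
    have : ‖r • (θ : E n)‖ = r := norm_smul_sphere hr0.le θ
    exact mul_nonneg (K.mu_pos (by rw [this]; exact hr)).le (sq_nonneg _)
  have hd := discrim_le_zero hq
  unfold discrim at hd
  have h2 : β ^ 2 ≤ α * γ := by linarith
  have h3 : 0 ≤ (r ^ (n - 2)) ^ 2 := by positivity
  calc (r ^ (n - 2) * β) ^ 2 = (r ^ (n - 2)) ^ 2 * β ^ 2 := by ring
    _ ≤ (r ^ (n - 2)) ^ 2 * (α * γ) := mul_le_mul_of_nonneg_left h2 h3
    _ = r ^ (n - 2) * γ * α * r ^ (n - 2) := by ring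

end Cone

/-- Differentiation of spherical integrals. -/
theorem hasDerivAt_sph {n : ℕ} [NeZero n] {R : ℝ} (hR : 0 ≤ R) {g : E n → ℝ}
    (hg : ContDiffOn ℝ 1 g {x | R < ‖x‖}) {r : ℝ} (hr : R < r) :
    HasDerivAt (sph g) (r⁻¹ * sph (fun x => fderiv ℝ g x x) r) r := by
  have hr0 : 0 < r := lt_of_le_of_lt hR hr
  have h1 := hasDerivAt_flux hR (F := fun x => g x • x) (hg.smul contDiffOn_id) hr
  have hn1 : n = (n - 1) + 1 := by have := NeZero.ne n; omega
  -- flux of g x
  have h2 : ∀ t, R < t → sph g t = flux (fun x => g x • x) t * (t ^ n)⁻¹ := by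
    intro t ht
    have ht0 : 0 < t := lt_of_le_of_lt hR ht
    unfold flux
    have h3 : sph (fun x : E n => inner ℝ (g x • x) x / ‖x‖) t = t * sph g t := by
      rw [← sph_const_mul]
      apply sph_congr
      intro x hx
      rw [abs_of_pos ht0] at hx
      rw [real_inner_smul_left, real_inner_self_eq_norm_sq, hx]
      (clear * - ht0; field_simp)
    rw [h3]
    have e1 : t ^ n = t ^ (n - 1) * t := by
      rw [← pow_succ]; congr 1
    rw [e1]
    (clear * - ht0; field_simp)
  have hdg : ContinuousOn (fun x => fderiv ℝ g x x) {x | R < ‖x‖} :=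
    (hg.continuousOn_fderiv_of_isOpen (isOpen_out R) le_rfl).clm_apply continuousOn_id
  have h4 : sph (divg (fun x => g x • x)) r = sph (fun x => fderiv ℝ g x x) r + n * sph g r := by
    have e1 : sph (divg (fun x => g x • x)) r = sph (fun x => fderiv ℝ g x x + n * g x) r := by
      apply sph_congr
      intro x hx
      rw [abs_of_pos hr0] at hx
      have hx' : R < ‖x‖ := by rw [hx]; exact hr
      have hgd : DifferentiableAt ℝ g x :=
        (hg.differentiableOn (by simp)).differentiableAt ((isOpen_out R).mem_nhds hx')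
      rw [divg_smul (F := fun y => y) hgd differentiableAt_fun_id, divg_id, inner_gr]
      ring
    rw [e1, ← sph_const_mul]
    exact integral_add (sph_integrable hdg hr)
      (sph_integrable (continuousOn_const.mul hg.continuousOn) hr)
  rw [h4] at h1
  have h5 : HasDerivAt (fun t : ℝ => (t ^ n)⁻¹) (-(n * r ^ (n - 1)) / (r ^ n) ^ 2) r :=
    (hasDerivAt_pow n r).inv (by positivity)
  have h6 := h1.mul h5
  have h7 : HasDerivAt (sph g) _ r := h6.congr_of_eventuallyEq (by
    filter_upwards [isOpen_Ioi.mem_nhds hr] with t ht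
    exact h2 t ht)
  convert! h7 using 1
  have h8 := h2 r hr
  have e1 : r ^ n = r ^ (n - 1) * r := by
    rw [← pow_succ]; congr 1
  have h9 : flux (fun x => g x • x) r = sph g r * r ^ n := by
    rw [h8]; (clear * - hr0; field_simp)
  rw [h9, e1]
  have hp : r ^ (n - 1) ≠ 0 := by positivity
  field_simp
  ring

end Vale.Agent.P225
end

section
open MeasureTheory Set Metric Filter Topology
open scoped ContDiff

namespace Vale.Agent.P225

theorem hess_symm {n : ℕ} {u : E n → ℝ} (hu : ContDiff ℝ 2 u) (x v w : E n) :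
    inner ℝ (fderiv ℝ (gr u) x v) w = inner ℝ (fderiv ℝ (gr u) x w) v := by
  have hg : DifferentiableAt ℝ (gr u) x :=
    (contDiff_gr hu (l := 1) (by norm_num)).differentiable (by simp) x
  have hd : DifferentiableAt ℝ (fderiv ℝ u) x :=
    (hu.fderiv_right (m := 1) (by norm_num)).differentiable (by simp) x
  have h : ∀ a b : E n, inner ℝ (fderiv ℝ (gr u) x a) b = fderiv ℝ (fderiv ℝ u) x a b := by
    intro a b
    have h1 : HasFDerivAt (fun y => inner ℝ (gr u y) b)
        ((fderivInnerCLM ℝ (gr u x, b)).comp ((fderiv ℝ (gr u) x).prod 0)) x :=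
      hg.hasFDerivAt.inner ℝ (hasFDerivAt_const b x)
    have h2 : HasFDerivAt (fun y => fderiv ℝ u y b)
        ((ContinuousLinearMap.apply ℝ ℝ b).comp (fderiv ℝ (fderiv ℝ u) x)) x :=
      (ContinuousLinearMap.apply ℝ ℝ b).hasFDerivAt.comp x hd.hasFDerivAt
    have h3 : (fun y => inner ℝ (gr u y) b) = fun y => fderiv ℝ u y b := by
      funext y; exact inner_gr u y b
    rw [h3] at h1
    have h4 := congrArg (fun L : E n →L[ℝ] ℝ => L a) (h1.unique h2)
    simpa only [ContinuousLinearMap.comp_apply, ContinuousLinearMap.prod_apply, zero_apply, fderivInnerCLM_apply,     inner_zero_right, zero_add, ContinuousLinearMap.apply_apply] using h4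
  rw [h, h]
  exact (hu.contDiffAt.isSymmSndFDerivAt (by simp only [minSmoothness_of_isRCLikeNormedField, Std.le_refl])) v w

namespace Cone

variable {n : ℕ} (K : Cone n) {u : E n → ℝ}

theorem fderiv_e (hu : K.Sol u) (x v : E n) :
    fderiv ℝ (K.e u) x v = inner ℝ ((fderiv ℝ K.A x v) (gr u x)) (gr u x) +
      2 * inner ℝ (K.A x (gr u x)) (fderiv ℝ (gr u) x v) := by
  have hg : DifferentiableAt ℝ (gr u) x := (K.gr_contDiff hu).differentiable (by simp) x
  have hA : DifferentiableAt ℝ K.A x := K.hA.differentiable (by simp) x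
  have h1 : HasFDerivAt (fun y => K.A y (gr u y)) _ x := hA.hasFDerivAt.clm_apply hg.hasFDerivAt
  have h2 := h1.inner ℝ hg.hasFDerivAt
  have h3 : HasFDerivAt (K.e u) _ x := h2
  rw [h3.fderiv]
  simp only [ContinuousLinearMap.comp_apply, ContinuousLinearMap.prod_apply, fderivInnerCLM_apply,
    add_apply, ContinuousLinearMap.flip_apply]
  have h4 : inner ℝ (K.A x (fderiv ℝ (gr u) x v)) (gr u x) =
      inner ℝ (K.A x (gr u x)) (fderiv ℝ (gr u) x v) := by
    rw [K.sym, real_inner_comm]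
  rw [inner_add_left, h4]
  ring

theorem fderiv_s (hu : K.Sol u) {x : E n} (hx : K.R₀ < ‖x‖) (v : E n) :
    fderiv ℝ (K.s u) x v = inner ℝ (fderiv ℝ K.Z x v) (gr u x) +
      inner ℝ (K.Z x) (fderiv ℝ (gr u) x v) := by
  have hg : DifferentiableAt ℝ (gr u) x := (K.gr_contDiff hu).differentiable (by simp) x
  have hZ : DifferentiableAt ℝ K.Z x :=
    (K.hZ.differentiableOn (by simp)).differentiableAt (K.isOpen_O.mem_nhds hx)
  have h2 := hZ.hasFDerivAt.inner ℝ hg.hasFDerivAt
  have h3 : HasFDerivAt (K.s u) _ x := h2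
  rw [h3.fderiv]
  simp only [ContinuousLinearMap.comp_apply, ContinuousLinearMap.prod_apply, fderivInnerCLM_apply]
  ring

theorem divg_X (hu : K.Sol u) {x : E n} (hx : K.R₀ < ‖x‖) :
    divg (K.X u) x = 2 * inner ℝ (fderiv ℝ K.Z x (K.A x (gr u x))) (gr u x) -
      K.e u x * divg K.Z x - inner ℝ ((fderiv ℝ K.A x (K.Z x)) (gr u x)) (gr u x) := by
  have hW : DifferentiableAt ℝ (fun y => K.A y (gr u y)) x :=
    (K.Agr_contDiff hu).differentiable (by simp) x
  have hZ : DifferentiableAt ℝ K.Z x :=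
    (K.hZ.differentiableOn (by simp)).differentiableAt (K.isOpen_O.mem_nhds hx)
  have hs : DifferentiableAt ℝ (K.s u) x :=
    ((K.s_contDiffOn hu).differentiableOn (by simp)).differentiableAt (K.isOpen_O.mem_nhds hx)
  have he : DifferentiableAt ℝ (K.e u) x := (K.e_contDiff hu).differentiable (by simp) x
  have hs2 : DifferentiableAt ℝ (fun y => 2 * K.s u y) x := hs.const_mul 2
  unfold X
  rw [divg_sub (F := fun y => (2 * K.s u y) • K.A y (gr u y)) (G := fun y => K.e u y • K.Z y)
    (hs2.smul hW) (he.smul hZ), divg_smul hs2 hW, divg_smul he hZ, hu.eq x, inner_gr, inner_gr,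
    fderiv_const_mul hs]
  simp only [smul_apply, smul_eq_mul]
  rw [K.fderiv_s hu hx, K.fderiv_e hu]
  have h1 := hess_symm hu.smooth x (K.A x (gr u x)) (K.Z x)
  have h2 : inner ℝ (K.Z x) (fderiv ℝ (gr u) x (K.A x (gr u x))) =
      inner ℝ (K.A x (gr u x)) (fderiv ℝ (gr u) x (K.Z x)) := by
    rw [real_inner_comm, h1, real_inner_comm]
  rw [h2]
  ring

theorem P_hasDerivAt [NeZero n] (hu : K.Sol u) {r : ℝ} (hr : K.R₀ < r) :
    HasDerivAt (K.P u) (r ^ (n - 1) * sph (divg (K.X u)) r +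
      ((n : ℝ) - 2) * (r ^ (n - 1) * sph (K.e u) r)) r := by
  have hr0 : 0 < r := by linarith [K.hR₀]
  exact (hasDerivAt_flux (by linarith only [K.hR₀]) (K.X_contDiffOn hu) hr).add
    ((K.F_hasDerivAt hu hr0).const_mul _)

theorem divg_X_cont (hu : K.Sol u) : ContinuousOn (divg (K.X u)) K.O := by
  have h := (K.X_contDiffOn hu).continuousOn_fderiv_of_isOpen K.isOpen_O le_rfl
  unfold divg
  apply continuousOn_finsetSum
  intro i _
  exact (EuclideanSpace.proj (𝕜 := ℝ) i).continuous.comp_continuousOn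
    (h.clm_apply continuousOn_const)

theorem P1_le [NeZero n] (hu : K.Sol u) {r : ℝ} (hr : K.R₀ < r) :
    r ^ (n - 1) * sph (divg (K.X u)) r + ((n : ℝ) - 2) * (r ^ (n - 1) * sph (K.e u) r) ≤
      K.C * r ^ (-K.ε) * (r ^ (n - 1) * sph (K.e u) r) := by
  have hr0 : 0 < r := by linarith [K.hR₀]
  have h1 : sph (divg (K.X u)) r ≤ sph (fun x => (K.C * r ^ (-K.ε) + (2 - (n : ℝ))) * K.e u x) r := by
    apply K.sph_monoO (K.divg_X_cont hu) (contOn_cmul _ (K.e_cont hu).continuousOn) hr
    intro x hx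
    have hx' : K.R₀ < ‖x‖ := by rw [hx]; exact hr
    have h2 := (abs_le.1 (K.b1 x hx' (gr u x))).2
    rw [K.divg_X hu hx']
    have h3 : inner ℝ (K.A x (gr u x)) (gr u x) = K.e u x := rfl
    rw [h3, hx] at h2
    linarith only [h2]
  rw [sph_const_mul] at h1
  have h4 := mul_le_mul_of_nonneg_left h1 (pow_nonneg hr0.le (n - 1))
  linarith

/-- tangential part of the conormal field -/
noncomputable def τ (x : E n) : E n := K.A x x - K.μ x • x

theorem τ_contDiffOn : ContDiffOn ℝ 1 K.τ K.O := by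
  unfold τ
  exact (K.hA.clm_apply contDiff_id).contDiffOn.sub (K.hμ.smul contDiffOn_id)

theorem inner_τ {x : E n} (hx : K.R₀ < ‖x‖) : inner ℝ (K.τ x) x = 0 := by
  unfold τ
  rw [inner_sub_left, K.hAx x hx, real_inner_smul_left, real_inner_smul_left, K.hZx x hx,
    real_inner_self_eq_norm_sq]
  ring

theorem sph_div_uuτ [NeZero n] (hu : K.Sol u) {r : ℝ} (hr : K.R₀ < r) :
    sph (divg (fun x => (u x * u x) • K.τ x)) r = 0 := by
  have hr0 : 0 < r := by linarith [K.hR₀]
  have huc : ContDiffOn ℝ 1 u K.O := (K.u_contDiff hu).contDiffOn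
  have h1 := hasDerivAt_flux (F := fun x => (u x * u x) • K.τ x) (by linarith only [K.hR₀])
    ((huc.mul huc).smul K.τ_contDiffOn) hr
  have h2 : HasDerivAt (fun _ : ℝ => (0 : ℝ)) 0 r := hasDerivAt_const r 0
  have h3 : flux (fun x => (u x * u x) • K.τ x) =ᶠ[𝓝 r] fun _ => 0 := by
    filter_upwards [isOpen_Ioi.mem_nhds hr] with t ht
    have ht0 : 0 < t := by
      have : K.R₀ < t := ht
      linarith only [this, K.hR₀]
    unfold flux
    have : sph (fun x : E n => inner ℝ ((u x * u x) • K.τ x) x / ‖x‖) t =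
        sph (fun _ : E n => (0 : ℝ)) t := by
      apply sph_congr
      intro x hx
      rw [abs_of_pos ht0] at hx
      rw [real_inner_smul_left, K.inner_τ (by rw [hx]; exact ht)]
      simp
    rw [this]
    simp only [sph, integral_zero, mul_zero]
  have h4 := h2.congr_of_eventuallyEq h3
  have h5 := h1.unique h4
  have : r ^ (n - 1) ≠ 0 := by (clear * - hr0; positivity)
  exact (mul_eq_zero.1 h5).resolve_left this

/-- the derivative of `J` -/
noncomputable def J1 (u : E n → ℝ) (r : ℝ) : ℝ :=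
  r⁻¹ * sph (fun x => fderiv ℝ (fun y => K.μ y * u y * u y) x x) r

theorem J_hasDerivAt [NeZero n] (hu : K.Sol u) {r : ℝ} (hr : K.R₀ < r) :
    HasDerivAt (K.J u) (K.J1 u r) r := by
  have huc : ContDiffOn ℝ 1 u K.O := (K.u_contDiff hu).contDiffOn
  exact hasDerivAt_sph (by linarith [K.hR₀]) ((K.hμ.mul huc).mul huc) hr

theorem J1_est [NeZero n] (hn : 2 ≤ n) (hu : K.Sol u) {r : ℝ} (hr : K.R₀ < r) :
    |r * K.J1 u r - 2 * K.F u r / r ^ (n - 2)| ≤ K.C * r ^ (-K.ε) * K.J u r := by
  have hr0 : 0 < r := by linarith [K.hR₀]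
  have hud : ∀ x, DifferentiableAt ℝ u x := fun x => (K.u_contDiff hu).differentiable (by simp) x
  have huc : ContinuousOn u K.O := (K.u_contDiff hu).continuous.continuousOn
  have hud' : Continuous (fderiv ℝ u) := (K.u_contDiff hu).continuous_fderiv (by simp)
  have hμd : ContinuousOn (fderiv ℝ K.μ) K.O := K.hμ.continuousOn_fderiv_of_isOpen K.isOpen_O le_rfl
  have hτd : ContinuousOn (divg K.τ) K.O := by
    have h := K.τ_contDiffOn.continuousOn_fderiv_of_isOpen K.isOpen_O le_rfl
    unfold divg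
    apply continuousOn_finsetSum
    intro i _
    exact (EuclideanSpace.proj (𝕜 := ℝ) i).continuous.comp_continuousOn
      (h.clm_apply continuousOn_const)
  set g : E n → ℝ := fun x => fderiv ℝ K.μ x x + divg K.τ x with hg
  have hgc : ContinuousOn g K.O := (hμd.clm_apply continuousOn_id).add hτd
  -- pointwise identity
  have hpt : ∀ x : E n, K.R₀ < ‖x‖ → fderiv ℝ (fun y => K.μ y * u y * u y) x x =
      2 * (K.μ x * u x * K.s u x) + u x * u x * g x - divg (fun x => (u x * u x) • K.τ x) x := by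
    intro x hx
    have hμx : DifferentiableAt ℝ K.μ x :=
      (K.hμ.differentiableOn (by simp)).differentiableAt (K.isOpen_O.mem_nhds hx)
    have hτx : DifferentiableAt ℝ K.τ x :=
      (K.τ_contDiffOn.differentiableOn (by simp)).differentiableAt (K.isOpen_O.mem_nhds hx)
    have huu : DifferentiableAt ℝ (fun y => u y * u y) x := (hud x).mul (hud x)
    have hmu : DifferentiableAt ℝ (fun y => K.μ y * u y) x := hμx.mul (hud x)
    rw [divg_smul huu hτx, inner_gr, fderiv_fun_mul (hud x) (hud x),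
      fderiv_fun_mul hmu (hud x), fderiv_fun_mul hμx (hud x)]
    simp only [add_apply, smul_apply, smul_eq_mul, hg, smul_add]
    have h1 : K.μ x * fderiv ℝ u x x = K.μ x * K.s u x - fderiv ℝ u x (K.τ x) := by
      have h2 : fderiv ℝ u x (K.A x x) = K.μ x * K.s u x := by
        rw [← inner_gr, K.hAx x hx, real_inner_smul_right, real_inner_comm]
        rfl
      unfold τ
      rw [map_sub, h2, map_smul, smul_eq_mul]
      ring
    linear_combination (2 * u x) * h1
  have hdc : ContinuousOn (divg (fun x => (u x * u x) • K.τ x)) K.O := by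
    have h0 : ContDiffOn ℝ 1 (fun x => (u x * u x) • K.τ x) K.O :=
      ((K.u_contDiff hu).contDiffOn.mul (K.u_contDiff hu).contDiffOn).smul K.τ_contDiffOn
    have h := h0.continuousOn_fderiv_of_isOpen K.isOpen_O le_rfl
    unfold divg
    apply continuousOn_finsetSum
    intro i _
    exact (EuclideanSpace.proj (𝕜 := ℝ) i).continuous.comp_continuousOn
      (h.clm_apply continuousOn_const)
  have c2 : ContinuousOn (fun x => K.μ x * u x * K.s u x) K.O :=
    (K.mu_cont.mul huc).mul (K.s_cont hu)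
  have c3 : ContinuousOn (fun x => u x * u x * g x) K.O := (huc.mul huc).mul hgc
  have c4 : ContinuousOn (fun x => 2 * (K.μ x * u x * K.s u x) + u x * u x * g x) K.O :=
    (contOn_cmul _ c2).add c3
  have h1 : r * K.J1 u r - 2 * K.F u r / r ^ (n - 2) = sph (fun x => u x * u x * g x) r := by
    unfold J1
    have e1 : sph (fun x => fderiv ℝ (fun y => K.μ y * u y * u y) x x) r =
        sph (fun x => 2 * (K.μ x * u x * K.s u x) + u x * u x * g x -
          divg (fun x => (u x * u x) • K.τ x) x) r := by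
      apply sph_congr
      intro x hx
      rw [abs_of_pos hr0] at hx
      exact hpt x (by rw [hx]; exact hr)
    rw [e1, K.sph_subO c4 hdc hr, K.sph_div_uuτ hu hr, K.sph_addO (contOn_cmul _ c2) c3 hr,
      sph_const_mul, K.F_eq hn u hr]
    have : r ^ (n - 2) ≠ 0 := by (clear * - hr0; positivity)
    field_simp
    ring
  rw [h1]
  have h2 : K.C * r ^ (-K.ε) * K.J u r =
      sph (fun x => (K.C * r ^ (-K.ε)) * (K.μ x * u x * u x)) r := by
    rw [sph_const_mul]; rfl
  rw [h2]
  have c6 : ContinuousOn (fun x => K.μ x * u x * u x) K.O := (K.mu_cont.mul huc).mul huc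
  apply K.sph_abs_le c3 (contOn_cmul _ c6) hr
  intro x hx
  have hx' : K.R₀ < ‖x‖ := by rw [hx]; exact hr
  have h3 := K.b2 x hx'
  rw [hx] at h3
  have h4 : |g x| ≤ K.C * r ^ (-K.ε) * K.μ x := h3
  rw [abs_mul, abs_of_nonneg (mul_self_nonneg (u x))]
  have h5 := mul_le_mul_of_nonneg_left h4 (mul_self_nonneg (u x))
  linarith only [h5]

end Cone

end Vale.Agent.P225
end

section
open MeasureTheory Set Metric Filter Topology MvPolynomial
open scoped ContDiff

namespace Vale.Agent.P225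

theorem finrank_hom_le (n k : ℕ) :
    Module.finrank ℝ (homogeneousSubmodule (Fin n) ℝ k) ≤ (n + k - 1).choose k := by
  have h1 : homogeneousSubmodule (Fin n) ℝ k =
      restrictSupport ℝ {d : Fin n →₀ ℕ | d.degree = k} :=
    homogeneousSubmodule_eq_finsupp_supported (Fin n) ℝ k
  rw [h1, Module.finrank_eq_nat_card_basis (basisRestrictSupport ℝ _)]
  have e : Sym (Fin n) k ≃ {d : Fin n →₀ ℕ | d.degree = k} := by
    refine (Sym.equivNatSum (Fin n) k).trans (Equiv.subtypeEquivRight ?_)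
    intro d
    rfl
  rw [← Nat.card_congr e, Nat.card_eq_fintype_card, Sym.card_sym_eq_choose, Fintype.card_fin]

/-- The dimension of the space of harmonic polynomials of degree at most `m`. -/
def hdim (n m : ℕ) : ℕ :=
  (n + m - 1).choose m + (if m = 0 then 0 else (n + m - 2).choose (m - 1))

theorem exists_kernel {n : ℕ} (m N : ℕ) (hN : hdim n m < N)
    {u : Fin N → E n → ℝ} (hu : ∀ i, Continuous (u i)) {r : ℝ} (hr : 0 < r) :
    ∃ c : Fin N → ℝ, c ≠ 0 ∧ ∀ l ≤ m, ∀ h : MvPolynomial (Fin n) ℝ, Harm l h →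
      sph (fun x => (∑ i, c i * u i x) * pev h x) r = 0 := by
  have hlin : ∀ i, ∃ β : MvPolynomial (Fin n) ℝ →ₗ[ℝ] ℝ, ∀ p,
      β p = sph (fun x => u i x * pev p x) r := by
    intro i
    refine ⟨{ toFun := fun p => sph (fun x => u i x * pev p x) r, map_add' := ?_,
              map_smul' := ?_ }, fun p => rfl⟩
    · intro p q
      have k1 : Continuous fun x => u i x * pev p x := (hu i).mul (pev_cont p)
      have k2 : Continuous fun x => u i x * pev q x := (hu i).mul (pev_cont q)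
      rw [← sph_add k1 k2]
      congr 1
      funext x
      rw [pev_add]; ring
    · intro c p
      rw [RingHom.id_apply, smul_eq_mul, ← sph_const_mul]
      congr 1
      funext x
      simp only [pev, smul_eval]
      ring
  choose β hβ using hlin
  obtain ⟨H, hH⟩ : ∃ H, H = homogeneousSubmodule (Fin n) ℝ m := ⟨_, rfl⟩
  have hfH : Module.Finite ℝ H := by
    rw [hH]
    exact Module.Finite.iff_fg.2 (homogeneousSubmodule_fg (Fin n) ℝ m)
  have hrH : Module.finrank ℝ H ≤ (n + m - 1).choose m := by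
    rw [hH]; exact finrank_hom_le n m
  obtain ⟨H', hH'1, hfH', hrH'⟩ : ∃ H' : Submodule ℝ (MvPolynomial (Fin n) ℝ),
      (m ≠ 0 → H' = homogeneousSubmodule (Fin n) ℝ (m - 1)) ∧ Module.Finite ℝ H' ∧
      Module.finrank ℝ H' ≤ if m = 0 then 0 else (n + m - 2).choose (m - 1) := by
    by_cases hm : m = 0
    · refine ⟨⊥, fun h => absurd hm h, inferInstance, ?_⟩
      rw [if_pos hm]
      simp
    · refine ⟨homogeneousSubmodule (Fin n) ℝ (m - 1), fun _ => rfl,
        Module.Finite.iff_fg.2 (homogeneousSubmodule_fg (Fin n) ℝ (m - 1)), ?_⟩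
      rw [if_neg hm]
      have := finrank_hom_le n (m - 1)
      have e : n + (m - 1) - 1 = n + m - 2 := by (clear * - hm; omega)
      rwa [e] at this
  let Λ : (Fin N → ℝ) →ₗ[ℝ] (Module.Dual ℝ H × Module.Dual ℝ H') :=
    (Fintype.linearCombination ℝ (fun i => (β i).domRestrict H)).prod
      (Fintype.linearCombination ℝ (fun i => (β i).domRestrict H'))
  have hker : LinearMap.ker Λ ≠ ⊥ := by
    apply LinearMap.ker_ne_bot_of_finrank_lt
    rw [Module.finrank_prod, Subspace.dual_finrank_eq, Subspace.dual_finrank_eq,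
      Module.finrank_fin_fun]
    unfold hdim at hN
    omega
  obtain ⟨c, hc, hc0⟩ := Submodule.exists_mem_ne_zero_of_ne_bot hker
  refine ⟨c, hc0, ?_⟩
  have hc1 : ∀ p ∈ H, ∑ i, c i * β i p = 0 := by
    intro p hp
    have h1 := LinearMap.mem_ker.1 hc
    have h2 := congrArg (fun z => z.1 ⟨p, hp⟩) h1
    simpa [Λ, Fintype.linearCombination_apply] using h2
  have hc2 : ∀ p ∈ H', ∑ i, c i * β i p = 0 := by
    intro p hp
    have h1 := LinearMap.mem_ker.1 hc
    have h2 := congrArg (fun z => z.2 ⟨p, hp⟩) h1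
    simpa [Λ, Fintype.linearCombination_apply] using h2
  intro l hl h hh
  have hkey : ∑ i, c i * β i h = 0 := by
    -- multiply by a power of the squared norm
    have hβ' : ∀ i (j : ℕ), β i (rsq n ^ j * h) = (r ^ 2) ^ j * β i h := by
      intro i j
      rw [hβ, hβ, ← sph_const_mul]
      apply sph_congr
      intro x hx
      rw [abs_of_pos hr] at hx
      have : pev (rsq n ^ j) x = (r ^ 2) ^ j := by
        have h3 : pev (rsq n ^ j) x = (pev (rsq n) x) ^ j := by simp [pev]
        rw [h3, pev_rsq, hx]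
      rw [pev_mul, this]
      ring
    have hpow : ∀ j : ℕ, (rsq n ^ j * h).IsHomogeneous (2 * j + l) := fun j =>
      ((rsq_homogeneous n).pow j).mul hh.1
    have hfin : ∀ j : ℕ, ∑ i, c i * β i (rsq n ^ j * h) = 0 → ∑ i, c i * β i h = 0 := by
      intro j hj
      have h4 : ∑ i, c i * β i (rsq n ^ j * h) = (r ^ 2) ^ j * ∑ i, c i * β i h := by
        rw [Finset.mul_sum]
        apply Finset.sum_congr rfl
        intro i _
        rw [hβ']; ring
      rw [h4] at hj
      have : (r ^ 2) ^ j ≠ 0 := by positivity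
      exact (mul_eq_zero.1 hj).resolve_left this
    rcases Nat.even_or_odd' (m - l) with ⟨j, hj | hj⟩
    · apply hfin j
      apply hc1
      rw [hH]
      have := hpow j
      have e : 2 * j + l = m := by (clear * - hl hj; omega)
      rw [e] at this
      exact this
    · apply hfin j
      apply hc2
      have hm : m ≠ 0 := by omega
      rw [hH'1 hm]
      have := hpow j
      have e : 2 * j + l = m - 1 := by (clear * - hl hj hm; omega)
      rw [e] at this
      exact this
  have h5 : sph (fun x => (∑ i, c i * u i x) * pev h x) r = ∑ i, c i * β i h := by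
    have e1 : (fun x : E n => (∑ i, c i * u i x) * pev h x) =
        fun x => ∑ i, c i * (u i x * pev h x) := by
      funext x
      rw [Finset.sum_mul]
      apply Finset.sum_congr rfl
      intro i _
      ring
    rw [e1, sph_sum Finset.univ (f := fun i x => c i * (u i x * pev h x))
      (fun i _ => continuous_const.mul ((hu i).mul (pev_cont h)))]
    apply Finset.sum_congr rfl
    intro i _
    rw [sph_const_mul, hβ]
  rw [h5, hkey]

end Vale.Agent.P225
end

section
open MeasureTheory Set Metric Filter Topology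
open scoped ContDiff

namespace Vale.Agent.P225

theorem gr_sum {n N : ℕ} {u : Fin N → E n → ℝ} (c : Fin N → ℝ) {x : E n}
    (hu : ∀ i, DifferentiableAt ℝ (u i) x) :
    gr (fun y => ∑ i, c i * u i y) x = ∑ i, c i • gr (u i) x := by
  have h1 : fderiv ℝ (fun y => ∑ i, c i * u i y) x = ∑ i, c i • fderiv ℝ (u i) x := by
    rw [fderiv_fun_sum (fun i _ => (hu i).const_mul (c i))]
    apply Finset.sum_congr rfl
    intro i _
    rw [fderiv_const_mul (hu i)]
  ext j
  simp only [gr, h1, sum_apply, smul_apply, smul_eq_mul, WithLp.ofLp_sum, WithLp.ofLp_smul, Finset.sum_apply, Pi.smul_apply]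

theorem divg_sum {n N : ℕ} {W : Fin N → E n → E n} (c : Fin N → ℝ) {x : E n}
    (hW : ∀ i, DifferentiableAt ℝ (W i) x) :
    divg (fun y => ∑ i, c i • W i y) x = ∑ i, c i * divg (W i) x := by
  have h1 : fderiv ℝ (fun y => ∑ i, c i • W i y) x = ∑ i, c i • fderiv ℝ (W i) x := by
    have hd : ∀ i, DifferentiableAt ℝ (fun y => c i • W i y) x := fun i => (hW i).const_smul (c i)
    rw [fderiv_fun_sum (fun i _ => hd i)]
    apply Finset.sum_congr rfl
    intro i _
    rw [fderiv_fun_const_smul (hW i)]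
  unfold divg
  rw [h1]
  simp only [FunLike.coe_sum, Finset.sum_apply, smul_apply, WithLp.ofLp_sum,
    WithLp.ofLp_smul, Pi.smul_apply, smul_eq_mul, Finset.mul_sum]
  rw [Finset.sum_comm]

namespace Cone

variable {n : ℕ} (K : Cone n)

theorem sol_sum {N : ℕ} {u : Fin N → E n → ℝ} (hsol : ∀ i, K.Sol (u i)) (c : Fin N → ℝ) :
    K.Sol (fun x => ∑ i, c i * u i x) := by
  refine ⟨?_, ?_⟩
  · apply ContDiff.sum
    intro i _
    exact contDiff_const.mul (hsol i).smooth
  · intro x
    have hd : ∀ y i, DifferentiableAt ℝ (u i) y := fun y i =>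
      (K.u_contDiff (hsol i)).differentiable (by simp) y
    have h1 : (fun y => K.A y (gr (fun y => ∑ i, c i * u i y) y)) =
        fun y => ∑ i, c i • K.A y (gr (u i) y) := by
      funext y
      rw [gr_sum c (hd y)]
      simp only [map_sum, map_smul]
    rw [h1, divg_sum c (fun i => (K.Agr_contDiff (hsol i)).differentiable (by simp) x)]
    simp only [(hsol _).eq, mul_zero, Finset.sum_const_zero]

variable {u : E n → ℝ}

theorem F_mono [NeZero n] (hn : 2 ≤ n) (hu : K.Sol u) {r t : ℝ} (hr : 0 ≤ r) (hrt : r ≤ t) :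
    K.F u r ≤ K.F u t := by
  have hc : Continuous fun s : ℝ => s ^ (n - 1) * sph (K.e u) s :=
    (by fun_prop : Continuous fun s : ℝ => s ^ (n - 1)).mul (sph_continuous (K.e_cont hu))
  rw [K.F_eq_integral hn hu hr, K.F_eq_integral hn hu (hr.trans hrt),
    ← intervalIntegral.integral_add_adjacent_intervals (hc.intervalIntegrable 0 r)
      (hc.intervalIntegrable r t)]
  have : 0 ≤ ∫ s in r..t, s ^ (n - 1) * sph (K.e u) s := by
    apply intervalIntegral.integral_nonneg hrt
    intro s hs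
    exact mul_nonneg (pow_nonneg (hr.trans hs.1) _) (sph_nonneg (K.e_nonneg u) s)
  linarith only [this]

theorem F_nonneg [NeZero n] (hn : 2 ≤ n) (hu : K.Sol u) {r : ℝ} (hr : 0 ≤ r) :
    0 ≤ K.F u r := by
  have h := K.F_mono hn hu le_rfl hr
  have h0 : K.F u 0 = 0 := by
    rw [K.F_eq_integral hn hu le_rfl]; simp only [intervalIntegral.integral_same]
  rwa [h0] at h

theorem J_nonneg (u : E n → ℝ) {r : ℝ} (hr : K.R₀ < r) : 0 ≤ K.J u r := by
  apply integral_nonneg
  intro θ
  have : ‖r • (θ : E n)‖ = r := norm_smul_sphere (by linarith [K.hR₀]) θ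
  have h1 := (K.mu_pos (by rw [this]; exact hr)).le
  have : K.μ (r • (θ : E n)) * u (r • (θ : E n)) * u (r • (θ : E n)) =
    K.μ (r • (θ : E n)) * (u (r • (θ : E n)) * u (r • (θ : E n))) := by ring
  show 0 ≤ K.μ (r • (θ : E n)) * u (r • (θ : E n)) * u (r • (θ : E n))
  rw [this]
  exact mul_nonneg h1 (mul_self_nonneg _)

theorem J_pos [NeZero n] (hn : 2 ≤ n) (hu : K.Sol u) {r : ℝ} (hr : K.R₀ < r)
    (hne : ∃ x, ‖x‖ ≤ r ∧ u x ≠ 0) : 0 < K.J u r := by
  have hr0 : 0 < r := by linarith only [hr, K.hR₀]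
  by_contra hcon
  have hJ0 : K.J u r = 0 := le_antisymm (not_lt.1 hcon) (K.J_nonneg u hr)
  have huc : Continuous u := (K.u_contDiff hu).continuous
  have hsub : sphere (0 : E n) r ⊆ K.O := by
    intro x hx
    rw [mem_sphere_zero_iff_norm] at hx
    show K.R₀ < ‖x‖
    rw [hx]; exact hr
  have hz : ∀ x : E n, ‖x‖ = r → u x = 0 := by
    intro x hx
    have h1 := eq_zero_of_sph_eq_zero hr0 (g := fun x => K.μ x * u x * u x)
      (((K.mu_cont.mul huc.continuousOn).mul huc.continuousOn).mono hsub) (fun y hy => by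
        have := (K.mu_pos (by rw [hy]; exact hr : K.R₀ < ‖y‖)).le
        have e : K.μ y * u y * u y = K.μ y * (u y * u y) := by ring
        simp only [e]
        exact mul_nonneg this (mul_self_nonneg _)) hJ0 x hx
    have h2 := (K.mu_pos (by rw [hx]; exact hr : K.R₀ < ‖x‖)).ne'
    have e : K.μ x * u x * u x = K.μ x * (u x * u x) := by ring
    simp only [e] at h1
    exact mul_self_eq_zero.1 ((mul_eq_zero.1 h1).resolve_left h2)
  have hF0 : K.F u r = 0 := by
    rw [K.F_eq hn u hr]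
    have : sph (fun x => K.μ x * u x * K.s u x) r = sph (fun _ : E n => (0 : ℝ)) r := by
      apply sph_congr
      intro x hx
      rw [abs_of_pos hr0] at hx
      rw [hz x hx]; ring
    rw [this]
    simp only [sph, integral_zero, mul_zero]
  have hFs : ∀ s, 0 ≤ s → s ≤ r → K.F u s = 0 := by
    intro s hs hsr
    have h1 := K.F_nonneg hn hu hs
    have h2 := K.F_mono hn hu hs hsr
    linarith only [h1, hF0, h2]
  have hgr0 : ∀ x : E n, 0 < ‖x‖ → ‖x‖ < r → gr u x = 0 := by
    intro x hx hxr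
    have h1 := K.F_hasDerivAt hu hx
    have h2 : HasDerivAt (fun _ : ℝ => (0 : ℝ)) 0 ‖x‖ := hasDerivAt_const _ 0
    have h3 : K.F u =ᶠ[𝓝 ‖x‖] fun _ => 0 := by
      filter_upwards [isOpen_Ioo.mem_nhds (⟨hx, hxr⟩ : ‖x‖ ∈ Ioo 0 r)] with t ht
      exact hFs t ht.1.le ht.2.le
    have h4 := h1.unique (h2.congr_of_eventuallyEq h3)
    have h5 : ‖x‖ ^ (n - 1) ≠ 0 := by (clear * - hx; positivity)
    have h6 := (mul_eq_zero.1 h4).resolve_left h5
    have h7 := eq_zero_of_sph_eq_zero hx (K.e_cont hu).continuousOn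
      (fun y _ => K.e_nonneg u y) h6 x rfl
    by_contra h8
    exact (K.pos x _ h8).ne' h7
  have hzero : ∀ x : E n, x ≠ 0 → ‖x‖ ≤ r → u x = 0 := by
    intro x hx hxr
    have hx0 : 0 < ‖x‖ := norm_pos_iff.2 hx
    set b := r / ‖x‖ with hb
    have hb1 : 1 ≤ b := by rw [hb, one_le_div hx0]; exact hxr
    have hder : ∀ t : ℝ, HasDerivAt (fun t : ℝ => u (t • x)) (fderiv ℝ u (t • x) x) t := by
      intro t
      have h1 : HasFDerivAt u (fderiv ℝ u (t • x)) (t • x) :=
        ((K.u_contDiff hu).differentiable (by simp) _).hasFDerivAt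
      have h2 : HasDerivAt (fun t : ℝ => t • x) x t := by
        simpa using (hasDerivAt_id t).smul_const x
      exact h1.comp_hasDerivAt t h2
    have hconst := constant_of_derivWithin_zero (f := fun t : ℝ => u (t • x)) (a := 1) (b := b)
      (fun t _ => (hder t).differentiableAt.differentiableWithinAt) (fun t ht => by
        have ht0 : 0 < t := lt_of_lt_of_le one_pos ht.1
        have hn1 : ‖t • x‖ = t * ‖x‖ := by
          rw [norm_smul, Real.norm_eq_abs, abs_of_pos ht0]
        have h1 : gr u (t • x) = 0 := by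
          apply hgr0
          · rw [hn1]; positivity
          · rw [hn1]
            have := ht.2
            rw [hb, lt_div_iff₀ hx0] at this
            exact this
        have h2 : fderiv ℝ u (t • x) x = 0 := by
          rw [← inner_gr, h1, inner_zero_left]
        have h3 := (hder t).hasDerivWithinAt (s := Icc 1 b)
        rw [h2] at h3
        have hlt : (1 : ℝ) < b := lt_of_le_of_lt ht.1 ht.2
        exact h3.derivWithin (uniqueDiffOn_Icc hlt t ⟨ht.1, ht.2.le⟩)) b ⟨hb1, le_rfl⟩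
    simp only [one_smul] at hconst
    rw [← hconst]
    apply hz
    rw [norm_smul, Real.norm_eq_abs, abs_of_pos (by positivity), hb]
    field_simp
  obtain ⟨x, hx, hux⟩ := hne
  apply hux
  by_cases h0 : x = 0
  · rw [h0]
    obtain ⟨θ⟩ : Nonempty (sphere (0 : E n) 1) := by
      refine ⟨⟨EuclideanSpace.single 0 1, ?_⟩⟩
      simp only [mem_sphere_iff_norm, sub_zero, PiLp.norm_single, norm_one]
    have hθ : (θ : E n) ≠ 0 := by
      intro h
      have := norm_eq_of_mem_sphere θ
      rw [h, norm_zero] at this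
      exact zero_ne_one this
    have h1 : Tendsto (fun t : ℝ => u (t • (θ : E n))) (𝓝[>] 0) (𝓝 (u ((0 : ℝ) • (θ : E n)))) := by
      have : Continuous fun t : ℝ => u (t • (θ : E n)) := by fun_prop
      exact (this.tendsto 0).mono_left nhdsWithin_le_nhds
    rw [zero_smul] at h1
    have h2 : Tendsto (fun t : ℝ => u (t • (θ : E n))) (𝓝[>] 0) (𝓝 0) := by
      apply tendsto_const_nhds.congr'
      filter_upwards [Ioo_mem_nhdsGT hr0] with t ht
      symm
      apply hzero
      · exact smul_ne_zero ht.1.ne' hθ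
      · rw [norm_smul_sphere ht.1.le]; exact ht.2.le
    exact tendsto_nhds_unique h1 h2
  · exact hzero x h0 hx

end Cone

theorem exists_radius {n N : ℕ} {u : Fin N → E n → ℝ} (hli : LinearIndependent ℝ u) :
    ∃ k : ℕ, ∀ c : Fin N → ℝ, c ≠ 0 → ∃ x : E n, ‖x‖ ≤ k ∧ (∑ i, c i * u i x) ≠ 0 := by
  let Z : ℕ → Submodule ℝ (Fin N → ℝ) := fun k =>
    { carrier := {c | ∀ x : E n, ‖x‖ ≤ k → ∑ i, c i * u i x = 0}
      add_mem' := by
        intro a b ha hb x hx
        have h1 := ha x hx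
        have h2 := hb x hx
        simp only [Pi.add_apply, add_mul, Finset.sum_add_distrib, h1, h2, add_zero]
      zero_mem' := by
        intro x _
        simp only [Pi.zero_apply, zero_mul, Finset.sum_const_zero]
      smul_mem' := by
        intro t a ha x hx
        have h1 := ha x hx
        simp only [Pi.smul_apply, smul_eq_mul, mul_assoc, ← Finset.mul_sum, h1, mul_zero] }
  have hanti : ∀ j k : ℕ, j ≤ k → Z k ≤ Z j := by
    intro j k hjk c hc x hx
    exact hc x (hx.trans (by exact_mod_cast hjk))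
  obtain ⟨k, hk⟩ := IsArtinian.monotone_stabilizes (R := ℝ) (M := Fin N → ℝ)
    ⟨fun k => OrderDual.toDual (Z k), fun j k hjk => hanti j k hjk⟩
  refine ⟨k, fun c hc => ?_⟩
  by_contra hcon
  push Not at hcon
  apply hc
  have hcZ : c ∈ Z k := fun x hx => hcon x hx
  have hall : ∀ x : E n, ∑ i, c i * u i x = 0 := by
    intro x
    obtain ⟨j, hj⟩ := exists_nat_ge ‖x‖
    have h1 : Z k = Z (max k j) := hk (max k j) (le_max_left _ _)
    have h2 : c ∈ Z (max k j) := h1 ▸ hcZ
    exact h2 x (hj.trans (by exact_mod_cast le_max_right k j))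
  have h3 := Fintype.linearIndependent_iff.1 hli c (by
    funext x
    simpa only [Finset.sum_apply, Pi.smul_apply, smul_eq_mul, Pi.zero_apply] using hall x)
  funext i
  exact h3 i

end Vale.Agent.P225
end

section
open MeasureTheory Set Metric Filter Topology
open scoped ContDiff

namespace Vale.Agent.P225

namespace Cone

variable {n : ℕ} (K : Cone n) {u : E n → ℝ}

theorem J_lower [NeZero n] (hn : 2 ≤ n) (hu : K.Sol u) {R : ℝ} (hR : K.R₀ < R)
    (hne : ∃ x, ‖x‖ ≤ R ∧ u x ≠ 0) {r : ℝ} (hr : R ≤ r) :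
    K.J u R * Real.exp (-(1 / K.ε * (K.C * R ^ (-K.ε)))) ≤ K.J u r := by
  have hJ : ∀ t, R ≤ t → 0 < K.J u t := by
    intro t ht
    obtain ⟨x, hx, hx2⟩ := hne
    exact K.J_pos hn hu (lt_of_lt_of_le hR ht) ⟨x, hx.trans ht, hx2⟩
  have hpos : ∀ t, R ≤ t → 0 < t := fun t ht => by linarith only [hR, ht, K.hR₀]
  have h := le_of_hasDeriv_nonneg (r₁ := R)
    (f := fun t => Real.log (K.J u t) - 1 / K.ε * (K.C * t ^ (-K.ε)))
    (f' := fun t => K.J1 u t / K.J u t - 1 / K.ε * (-(K.ε * (K.C * t ^ (-K.ε)) / t)))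
    (fun t ht => by
      refine ((K.J_hasDerivAt hu (lt_of_lt_of_le hR ht)).log (hJ t ht).ne').sub
        (HasDerivAt.const_mul _ ?_)
      have h := (Real.hasDerivAt_rpow_const (x := t) (p := -K.ε)
        (Or.inl (hpos t ht).ne')).const_mul K.C
      convert! h using 1
      rw [Real.rpow_sub (hpos t ht), Real.rpow_one]
      ring)
    (fun t ht => by
      have ht0 := hpos t ht
      have h1 := (abs_le.1 (K.J1_est hn hu (lt_of_lt_of_le hR ht))).1
      have h2 : 0 ≤ 2 * K.F u t / t ^ (n - 2) := by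
        have := K.F_nonneg hn hu ht0.le
        (clear * - this ht0; positivity)
      have h3 : 0 ≤ t * K.J1 u t + K.C * t ^ (-K.ε) * K.J u t := by linarith only [h1, h2]
      have e : K.J1 u t / K.J u t - 1 / K.ε * (-(K.ε * (K.C * t ^ (-K.ε)) / t)) =
          (t * K.J1 u t + K.C * t ^ (-K.ε) * K.J u t) / (K.J u t * t) := by
        have := (hJ t ht).ne'
        have := K.hε.ne'
        field_simp
        ring
      rw [e]
      exact div_nonneg h3 (mul_pos (hJ t ht) ht0).le) r hr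
  have hr0 := hpos r hr
  have h5 : 0 ≤ 1 / K.ε * (K.C * r ^ (-K.ε)) := by
    have := K.hε
    have := K.hC
    positivity
  rw [← Real.log_le_log_iff (mul_pos (hJ R le_rfl) (Real.exp_pos _)) (hJ r hr),
    Real.log_mul (hJ R le_rfl).ne' (Real.exp_pos _).ne', Real.log_exp]
  linarith only [h, h5]

/-- The contradiction: a solution with large frequency at one radius grows too fast. -/
theorem contra [NeZero n] (hn : 3 ≤ n) {w : E n → ℝ} (hw : K.Sol w) {r₁ : ℝ} (hr₁ : K.R₀ < r₁)
    (hJ : ∀ t, r₁ ≤ t → 0 < K.J w t) (hF : 0 < K.F w r₁) {σ : ℝ} (hσ0 : 0 ≤ σ) (hσ1 : σ ≤ 1 / 4)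
    (hP : K.P w r₁ ≤ σ * K.F w r₁) (hη : K.C * r₁ ^ (-K.ε) ≤ 1 / 4) {κ : ℝ}
    (hκ : κ ≤ K.F w r₁ / (r₁ ^ (n - 2) * K.J w r₁) *
      Real.exp (-(3 / K.ε * (K.C * r₁ ^ (-K.ε))) - 2 * σ))
    {d : ℝ} (hd0 : 0 ≤ d) (hdκ : d < κ) {D' : ℝ} (hD'0 : 0 ≤ D')
    (hwle : ∀ x, |w x| ≤ D' * (1 + ‖x‖) ^ d) {a' : ℝ} (ha'0 : 0 < a')
    (hμle : ∀ x : E n, r₁ ≤ ‖x‖ → K.μ x ≤ a') : False := by
  have hn2 : 2 ≤ n := by omega
  have hr₁0 : 0 < r₁ := by linarith only [hr₁, K.hR₀]
  have hr₁1 : 1 < r₁ := by linarith only [hr₁, K.hR₀]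
  have hgr := growth hn K.hε K.hε' K.hC hr₁0 (J := K.J w) (J1 := K.J1 w) (F := K.F w)
    (F1 := fun t => t ^ (n - 1) * sph (K.e w) t) (P := K.P w)
    (P1 := fun t => t ^ (n - 1) * sph (divg (K.X w)) t +
      ((n : ℝ) - 2) * (t ^ (n - 1) * sph (K.e w) t)) (Q := K.Q w)
    hJ
    (fun t ht => K.J_hasDerivAt hw (lt_of_lt_of_le hr₁ ht))
    (fun t ht => by
      have := (abs_le.1 (K.J1_est hn2 hw (lt_of_lt_of_le hr₁ ht))).2
      linarith only [this])
    (fun t ht => by
      have := (abs_le.1 (K.J1_est hn2 hw (lt_of_lt_of_le hr₁ ht))).1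
      linarith only [this])
    (fun t ht => K.F_hasDerivAt hw (by linarith only [hr₁1, ht]))
    (fun t ht => mul_nonneg (pow_nonneg (by linarith only [hr₁1, ht]) _) (sph_nonneg (K.e_nonneg w) t))
    (fun t ht => K.P_hasDerivAt hw (lt_of_lt_of_le hr₁ ht))
    (fun t ht => K.P1_le hw (lt_of_lt_of_le hr₁ ht))
    (fun t ht => K.identity hn2 hw (lt_of_lt_of_le hr₁ ht))
    (fun t ht => K.cauchy_schwarz hn2 hw (lt_of_lt_of_le hr₁ ht))
    hF hσ0 hσ1 hP hη hκ
  set M₁ : ℝ := a' * (D' * 2 ^ d) ^ 2 * sph (n := n) (fun _ => 1) 1 + 1 with hM₁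
  have hsph1 : 0 ≤ sph (n := n) (fun _ => 1) 1 := sph_nonneg (fun _ => zero_le_one) 1
  have hM₁0 : 0 < M₁ := by
    have : 0 ≤ a' * (D' * 2 ^ d) ^ 2 * sph (n := n) (fun _ => 1) 1 := by (clear * - ha'0 hsph1; positivity)
    linarith only [this]
  have hup : ∀ t, r₁ ≤ t → K.J w t ≤ M₁ * (t ^ d) ^ 2 := by
    intro t ht
    have ht0 : 0 < t := by linarith only [hr₁1, ht]
    have ht1 : 1 ≤ t := by linarith only [hr₁1, ht]
    have hwc : Continuous w := (K.u_contDiff hw).continuous
    have h1 : K.J w t ≤ sph (fun _ : E n => a' * ((D' * 2 ^ d) ^ 2 * (t ^ d) ^ 2)) t := by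
      have cJ : ContinuousOn (fun x => K.μ x * w x * w x) K.O :=
        (K.mu_cont.mul hwc.continuousOn).mul hwc.continuousOn
      apply K.sph_monoO cJ continuousOn_const (lt_of_lt_of_le hr₁ ht)
      intro x hx
      have b1 := hμle x (by rw [hx]; exact ht)
      have b2 := hwle x
      rw [hx] at b2
      have b3 : (1 + t) ^ d ≤ 2 ^ d * t ^ d := by
        rw [← Real.mul_rpow (by norm_num) ht0.le]
        apply Real.rpow_le_rpow (by linarith only [hr₁1, ht]) (by linarith only [hr₁1, ht]) hd0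
      have b4 : |w x| ≤ D' * 2 ^ d * t ^ d := by
        have := mul_le_mul_of_nonneg_left b3 hD'0
        linarith only [b2, this]
      have b5 : w x * w x ≤ (D' * 2 ^ d * t ^ d) * (D' * 2 ^ d * t ^ d) := by
        rw [← abs_mul_abs_self (w x)]
        exact mul_self_le_mul_self (abs_nonneg _) b4
      have b6 := mul_le_mul b1 b5 (mul_self_nonneg _) ha'0.le
      have e : K.μ x * w x * w x = K.μ x * (w x * w x) := by ring
      rw [e]
      apply b6.trans
      apply le_of_eq
      ring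
    have h2 : sph (fun _ : E n => a' * ((D' * 2 ^ d) ^ 2 * (t ^ d) ^ 2)) t =
        a' * (D' * 2 ^ d) ^ 2 * sph (n := n) (fun _ => 1) 1 * (t ^ d) ^ 2 := by
      simp only [sph, integral_const, smul_eq_mul]
      ring
    rw [h2] at h1
    have h3 : 0 ≤ (t ^ d) ^ 2 := by positivity
    rw [hM₁, add_mul, one_mul]
    linarith only [h1, h3]
  have hlast : ∀ t, r₁ ≤ t → 2 * (κ - d) * Real.log t ≤
      Real.log M₁ - Real.log (K.J w r₁) + 2 * κ * Real.log r₁ + K.C * r₁ ^ (-K.ε) / K.ε := by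
    intro t ht
    have ht0 : 0 < t := by linarith only [hr₁1, ht]
    have h1 := hgr t ht
    have h2 : Real.log (K.J w t) ≤ Real.log M₁ + 2 * (d * Real.log t) := by
      have h3 := Real.log_le_log (hJ t ht) (hup t ht)
      rw [Real.log_mul hM₁0.ne' (by (clear * - ht0; positivity)), Real.log_pow, Real.log_rpow ht0] at h3
      push_cast at h3
      exact h3
    linarith only [h1, h2]
  have htend : Tendsto (fun t => 2 * (κ - d) * Real.log t) atTop atTop :=
    Real.tendsto_log_atTop.const_mul_atTop (by linarith only [hdκ])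
  obtain ⟨t, ht⟩ := ((htend.eventually (eventually_gt_atTop (Real.log M₁ -
    Real.log (K.J w r₁) + 2 * κ * Real.log r₁ + K.C * r₁ ^ (-K.ε) / K.ε))).and
    (eventually_ge_atTop r₁)).exists
  exact absurd (hlast t ht.2) (not_le.2 ht.1)

/-- Upper bound for `P` at the larger radius. -/
theorem P_upper [NeZero n] (hn : 2 ≤ n) {w : E n → ℝ} (hw : K.Sol w) {R r₁ : ℝ}
    (hR : K.R₀ < R) (hr₁R : R ≤ r₁) :
    K.P w r₁ ≤ K.P w R + K.C * R ^ (-K.ε) * K.F w r₁ := by
  have hR0 : 0 < R := by linarith [K.hR₀]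
  have hηle : ∀ r, R ≤ r → K.C * r ^ (-K.ε) ≤ K.C * R ^ (-K.ε) := by
    intro r hr
    have : r ^ (-K.ε) ≤ R ^ (-K.ε) :=
      Real.rpow_le_rpow_of_nonpos hR0 hr (by linarith only [K.hε])
    exact mul_le_mul_of_nonneg_left this K.hC
  have h1 := le_of_hasDeriv_nonneg (r₁ := R)
    (f := fun t => K.C * R ^ (-K.ε) * K.F w t - K.P w t)
    (f' := fun t => K.C * R ^ (-K.ε) * (t ^ (n - 1) * sph (K.e w) t) -
      (t ^ (n - 1) * sph (divg (K.X w)) t + ((n : ℝ) - 2) * (t ^ (n - 1) * sph (K.e w) t)))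
    (fun t ht => ((K.F_hasDerivAt hw (by linarith only [hR0, ht])).const_mul _).sub
      (K.P_hasDerivAt hw (lt_of_lt_of_le hR ht)))
    (fun t ht => by
      have a1 := K.P1_le hw (lt_of_lt_of_le hR ht)
      have ht0 : 0 < t := by linarith only [hR0, ht]
      have a2 : 0 ≤ t ^ (n - 1) * sph (K.e w) t :=
        mul_nonneg (pow_nonneg ht0.le _) (sph_nonneg (K.e_nonneg w) t)
      have a3 := mul_le_mul_of_nonneg_right (hηle t ht) a2
      linarith) r₁ hr₁R
  have h3 := K.F_nonneg hn hw hR0.le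
  have h4 : 0 ≤ K.C * R ^ (-K.ε) := by
    have := K.hC
    (clear * - this hR0; positivity)
  have h7 : 0 ≤ K.C * R ^ (-K.ε) * K.F w R := mul_nonneg h4 h3
  linarith only [h1, h7]

/-- Bound of `P` in terms of majorants. -/
theorem P_le [NeZero n] (hn : 3 ≤ n) {w : E n → ℝ} (hw : K.Sol w) {R : ℝ} (hR : K.R₀ < R)
    {Su Sg : E n → ℝ} (hSuc : Continuous Su) (hSgc : Continuous Sg) (hSu0 : ∀ x, 0 ≤ Su x)
    (hu : ∀ x, |w x| ≤ Su x) (hg : ∀ x, ‖gr w x‖ ≤ Sg x) :
    K.P w R ≤ R ^ (n - 2) * sph (fun x => 2 * (K.μ x * (‖K.Z x‖ * Sg x) * (‖K.Z x‖ * Sg x)) +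
      ((n : ℝ) - 2) * (K.μ x * Su x * (‖K.Z x‖ * Sg x))) R := by
  have hn2 : 2 ≤ n := by omega
  have hR0 : 0 < R := by linarith only [hR, K.hR₀]
  have hn2r : (0 : ℝ) ≤ (n : ℝ) - 2 := by
    have : (3 : ℝ) ≤ n := by exact_mod_cast hn
    linarith only [this]
  have hZc : ContinuousOn K.Z K.O := K.hZ.continuousOn
  have hs_le : ∀ x, |K.s w x| ≤ ‖K.Z x‖ * Sg x := by
    intro x
    exact (abs_real_inner_le_norm _ _).trans
      (mul_le_mul_of_nonneg_left (hg x) (norm_nonneg _))
  have h1 := K.identity hn2 hw hR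
  have h2 : 0 ≤ R * (R ^ (n - 1) * sph (K.e w) R) := by
    have := sph_nonneg (K.e_nonneg w) R
    (clear * - hR0 this; positivity)
  have h3 : K.P w R ≤ 2 * K.Q w R + ((n : ℝ) - 2) * K.F w R := by linarith only [h1, h2]
  apply h3.trans
  rw [K.F_eq hn2 _ hR]
  unfold Q
  have hUc : ContinuousOn w K.O := (K.u_contDiff hw).continuous.continuousOn
  have c1 : ContinuousOn (fun x => K.μ x * K.s w x * K.s w x) K.O :=
    (K.mu_cont.mul (K.s_cont hw)).mul (K.s_cont hw)
  have c2 : ContinuousOn (fun x => K.μ x * w x * K.s w x) K.O :=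
    (K.mu_cont.mul hUc).mul (K.s_cont hw)
  have e1 : 2 * (R ^ (n - 2) * sph (fun x => K.μ x * K.s w x * K.s w x) R) +
      ((n : ℝ) - 2) * (R ^ (n - 2) * sph (fun x => K.μ x * w x * K.s w x) R) =
      R ^ (n - 2) * sph (fun x => 2 * (K.μ x * K.s w x * K.s w x) +
        ((n : ℝ) - 2) * (K.μ x * w x * K.s w x)) R := by
    rw [K.sph_addO (contOn_cmul _ c1) (contOn_cmul _ c2) hR, sph_const_mul, sph_const_mul]
    ring
  rw [e1]
  apply mul_le_mul_of_nonneg_left _ (by (clear * - hR0; positivity))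
  have c12 : ContinuousOn (fun x => 2 * (K.μ x * K.s w x * K.s w x) +
      ((n : ℝ) - 2) * (K.μ x * w x * K.s w x)) K.O :=
    (contOn_cmul _ c1).add (contOn_cmul _ c2)
  have c34 : ContinuousOn (fun x => 2 * (K.μ x * (‖K.Z x‖ * Sg x) * (‖K.Z x‖ * Sg x)) +
      ((n : ℝ) - 2) * (K.μ x * Su x * (‖K.Z x‖ * Sg x))) K.O := by
    have z1 : ContinuousOn (fun x => ‖K.Z x‖ * Sg x) K.O := hZc.norm.mul hSgc.continuousOn
    exact (contOn_cmul _ ((K.mu_cont.mul z1).mul z1)).add
      (contOn_cmul _ ((K.mu_cont.mul hSuc.continuousOn).mul z1))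
  apply K.sph_monoO c12 c34 hR
  intro x hx
  have hx' : K.R₀ < ‖x‖ := by rw [hx]; exact hR
  have hμ := (K.mu_pos hx').le
  have a1 := hs_le x
  have a2 := hu x
  have b1 : K.s w x * K.s w x ≤ (‖K.Z x‖ * Sg x) * (‖K.Z x‖ * Sg x) := by
    rw [← abs_mul_abs_self (K.s w x)]
    exact mul_self_le_mul_self (abs_nonneg _) a1
  have b2 : w x * K.s w x ≤ Su x * (‖K.Z x‖ * Sg x) := by
    calc w x * K.s w x ≤ |w x * K.s w x| := le_abs_self _
      _ = |w x| * |K.s w x| := abs_mul _ _
      _ ≤ Su x * (‖K.Z x‖ * Sg x) := mul_le_mul a2 a1 (abs_nonneg _) (hSu0 x)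
  have b3 := mul_le_mul_of_nonneg_left b1 hμ
  have b4 := mul_le_mul_of_nonneg_left b2 hμ
  have b5 := mul_le_mul_of_nonneg_left b4 hn2r
  simp only [mul_assoc] at b3 b5 ⊢
  linarith only [b5, b3]

/-- Uniform positivity on the unit sphere of coefficients. -/
theorem exists_j0 [NeZero n] (hn : 2 ≤ n) {N : ℕ} {u : Fin N → E n → ℝ}
    (hsol : ∀ i, K.Sol (u i)) {Rs : ℝ} (hRs0 : K.R₀ < Rs)
    (hne : ∀ c : Fin N → ℝ, ‖c‖ = 1 → ∃ x, ‖x‖ ≤ Rs ∧ (∑ i, c i * u i x) ≠ 0) :
    ∃ j₀ : ℝ, 0 < j₀ ∧ ∀ c : Fin N → ℝ, ‖c‖ = 1 → j₀ ≤ K.J (fun x => ∑ i, c i * u i x) Rs := by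
  have huc : ∀ i, Continuous (u i) := fun i => (K.u_contDiff (hsol i)).continuous
  have hcont : Continuous fun c : Fin N → ℝ => K.J (fun x => ∑ i, c i * u i x) Rs := by
    have : (fun c : Fin N → ℝ => K.J (fun x => ∑ i, c i * u i x) Rs) = fun c : Fin N → ℝ =>
        ∫ θ in univ, K.μ (Rs • (θ : E n)) * (∑ i, c i * u i (Rs • (θ : E n))) *
          (∑ i, c i * u i (Rs • (θ : E n))) ∂(sig n) := by
      funext c
      simp only [J, sph, Measure.restrict_univ]
    rw [this]
    apply continuous_parametric_integral_of_continuous _ isCompact_univ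
    have h1 : Continuous fun θ : sphere (0 : E n) 1 => K.μ (Rs • (θ : E n)) := by
      apply K.mu_cont.comp_continuous (by fun_prop)
      intro θ
      show K.R₀ < ‖Rs • (θ : E n)‖
      rw [norm_smul_sphere (by linarith only [hRs0, K.hR₀])]
      exact hRs0
    have h2 : Continuous fun p : (Fin N → ℝ) × sphere (0 : E n) 1 =>
        ∑ i, p.1 i * u i (Rs • (p.2 : E n)) := by
      apply continuous_finsetSum
      intro i _
      have h3 : Continuous fun p : (Fin N → ℝ) × sphere (0 : E n) 1 => p.1 i :=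
        (continuous_apply i).comp continuous_fst
      have h4 : Continuous fun p : (Fin N → ℝ) × sphere (0 : E n) 1 =>
          u i (Rs • (p.2 : E n)) := (huc i).comp (by fun_prop)
      exact h3.mul h4
    exact ((h1.comp continuous_snd).mul h2).mul h2
  rcases (sphere (0 : Fin N → ℝ) 1).eq_empty_or_nonempty with he | hne'
  · refine ⟨1, one_pos, fun c hc => ?_⟩
    exfalso
    have : c ∈ sphere (0 : Fin N → ℝ) 1 := by rw [mem_sphere_zero_iff_norm]; exact hc
    rw [he] at this
    exact this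
  · obtain ⟨c₀, hc₀, hmin⟩ := (isCompact_sphere (0 : Fin N → ℝ) 1).exists_isMinOn hne'
      hcont.continuousOn
    rw [mem_sphere_zero_iff_norm] at hc₀
    refine ⟨K.J (fun x => ∑ i, c₀ i * u i x) Rs,
      K.J_pos hn (K.sol_sum hsol c₀) hRs0 (hne c₀ hc₀), fun c hc => ?_⟩
    exact hmin (by rw [mem_sphere_zero_iff_norm]; exact hc)

end Cone

end Vale.Agent.P225
end
end
end

section

section

/-! P225, blueprint B2-D5: elementary estimates for the scalar equation `w'' + p w' = Q w`. -/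

namespace Vale.Agent.P225.B

open Set Real

/-- `w` (with derivative `dw`) solves `w'' + p w' = Q w` on `[a, b]`. -/
structure IsSol (p Q w dw : ℝ → ℝ) (a b : ℝ) : Prop where
  d1 : ∀ t ∈ Icc a b, HasDerivAt w (dw t) t
  d2 : ∀ t ∈ Icc a b, HasDerivAt dw (Q t * w t - p t * dw t) t

namespace IsSol

variable {p Q w dw w₂ dw₂ : ℝ → ℝ} {a b : ℝ}

theorem mono (h : IsSol p Q w dw a b) {c d : ℝ} (hc : a ≤ c) (hd : d ≤ b) :
    IsSol p Q w dw c d :=
  ⟨fun t ht => h.d1 t ⟨hc.trans ht.1, ht.2.trans hd⟩,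
    fun t ht => h.d2 t ⟨hc.trans ht.1, ht.2.trans hd⟩⟩

theorem lin (h : IsSol p Q w dw a b) (h₂ : IsSol p Q w₂ dw₂ a b) (x y : ℝ) :
    IsSol p Q (fun t => x * w t + y * w₂ t) (fun t => x * dw t + y * dw₂ t) a b := by
  refine ⟨fun t ht => ((h.d1 t ht).const_mul x).add ((h₂.d1 t ht).const_mul y), fun t ht => ?_⟩
  exact (((h.d2 t ht).const_mul x).add ((h₂.d2 t ht).const_mul y)).congr_deriv (by ring)

/-- the integrating factor -/
theorem prim {p : ℝ → ℝ} (hp : Continuous p) (a t : ℝ) :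
    HasDerivAt (fun t => ∫ u in a..t, p u) (p t) t :=
  intervalIntegral.integral_hasDerivAt_right (hp.intervalIntegrable a t)
    (hp.stronglyMeasurableAtFilter _ _) hp.continuousAt

theorem aux_mono (h : IsSol p Q w dw a b) (hp : Continuous p)
    (hQ : ∀ t ∈ Icc a b, 0 ≤ Q t) (hw : ∀ t ∈ Ioo a b, 0 ≤ w t) (ha1 : 0 ≤ dw a) :
    ∀ t ∈ Icc a b, w a ≤ w t ∧ 0 ≤ dw t := by
  intro t ht
  have hab : a ≤ b := ht.1.trans ht.2
  have hE : ∀ t, HasDerivAt (fun t => exp (∫ u in a..t, p u)) (exp (∫ u in a..t, p u) * p t) t :=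
    fun t => (prim hp a t).exp
  have hd : ∀ t ∈ Icc a b, HasDerivAt (fun t => exp (∫ u in a..t, p u) * dw t)
      (exp (∫ u in a..t, p u) * (Q t * w t)) t := by
    intro t ht
    exact ((hE t).mul (h.d2 t ht)).congr_deriv (by ring)
  have hm : MonotoneOn (fun t => exp (∫ u in a..t, p u) * dw t) (Icc a b) := by
    refine monotoneOn_of_deriv_nonneg (convex_Icc a b)
      (fun t ht => (hd t ht).continuousAt.continuousWithinAt)
      (fun t ht => (hd t (interior_subset ht)).differentiableAt.differentiableWithinAt)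
      fun t ht => ?_
    rw [(hd t (interior_subset ht)).deriv]
    rw [interior_Icc] at ht
    exact mul_nonneg (exp_pos _).le (mul_nonneg (hQ t (Ioo_subset_Icc_self ht)) (hw t ht))
  have hdw : ∀ t ∈ Icc a b, 0 ≤ dw t := by
    intro t ht
    have h1 := hm (left_mem_Icc.mpr hab) ht ht.1
    simp only [intervalIntegral.integral_same, exp_zero, one_mul] at h1
    have h2 := exp_pos (∫ u in a..t, p u)
    by_contra hneg
    push Not at hneg
    have := mul_neg_of_pos_of_neg h2 hneg
    linarith only [ha1, h1, this]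
  have hm2 : MonotoneOn w (Icc a b) := by
    refine monotoneOn_of_deriv_nonneg (convex_Icc a b)
      (fun t ht => (h.d1 t ht).continuousAt.continuousWithinAt)
      (fun t ht => (h.d1 t (interior_subset ht)).differentiableAt.differentiableWithinAt)
      fun t ht => ?_
    rw [(h.d1 t (interior_subset ht)).deriv]
    exact hdw t (interior_subset ht)
  exact ⟨hm2 (left_mem_Icc.mpr hab) ht ht.1, hdw t ht⟩

/-- positivity and monotonicity are preserved (`Q ≥ 0`). -/
theorem pos (h : IsSol p Q w dw a b) (hp : Continuous p)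
    (hQ : ∀ t ∈ Icc a b, 0 ≤ Q t) (ha : 0 < w a) (ha1 : 0 ≤ dw a) :
    ∀ t ∈ Icc a b, w a ≤ w t ∧ 0 ≤ dw t := by
  rcases lt_or_ge b a with hba | hab
  · intro t ht
    exact absurd (ht.1.trans ht.2) (not_le.mpr hba)
  have hcont : ContinuousOn w (Icc a b) := fun t ht => (h.d1 t ht).continuousAt.continuousWithinAt
  refine h.aux_mono hp hQ ?_ ha1
  by_contra hne
  push Not at hne
  obtain ⟨t1, ht1, hw1⟩ := hne
  set S : Set ℝ := Icc a b ∩ w ⁻¹' Iic 0 with hS
  have hScl : IsClosed S := hcont.preimage_isClosed_of_isClosed isClosed_Icc isClosed_Iic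
  have hSne : S.Nonempty := ⟨t1, Ioo_subset_Icc_self ht1, hw1.le⟩
  have hSbd : BddBelow S := ⟨a, fun x hx => hx.1.1⟩
  have h0 : sInf S ∈ S := hScl.csInf_mem hSne hSbd
  have hlt : ∀ t ∈ Ioo a (sInf S), 0 ≤ w t := by
    intro t ht
    by_contra hneg
    push Not at hneg
    have : t ∈ S := ⟨⟨ht.1.le, ht.2.le.trans h0.1.2⟩, hneg.le⟩
    exact absurd (csInf_le hSbd this) (not_le.mpr ht.2)
  have := (h.mono le_rfl h0.1.2).aux_mono hp (fun t ht => hQ t ⟨ht.1, ht.2.trans h0.1.2⟩) hlt ha1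
    (sInf S) ⟨h0.1.1, le_rfl⟩
  have h3 : w (sInf S) ≤ 0 := h0.2
  linarith only [ha, this, h3]

/-- upper growth bound of `w' + s⋆ w` -/
theorem growth_le (h : IsSol p Q w dw a b) {s ss ε : ℝ} (hss : 0 < ss) (hε : 0 ≤ ε)
    (hab : a ≤ b)
    (hw : ∀ t ∈ Icc a b, 0 ≤ w t) (hdw : ∀ t ∈ Icc a b, 0 ≤ dw t)
    (hQ : ∀ t ∈ Icc a b, Q t ≤ s * ss + ε) (hp : ∀ t ∈ Icc a b, ss - s - ε ≤ p t) :
    dw b + ss * w b ≤ (dw a + ss * w a) * exp ((s + ε * (1 + 1 / ss)) * (b - a)) := by
  set lam := s + ε * (1 + 1 / ss) with hlam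
  have hd : ∀ t ∈ Icc a b, HasDerivAt (fun t => (dw t + ss * w t) * exp (-(lam * (t - a))))
      (((Q t * w t - p t * dw t) + ss * dw t) * exp (-(lam * (t - a))) +
        (dw t + ss * w t) * (exp (-(lam * (t - a))) * (-lam))) t := by
    intro t ht
    have h1 : HasDerivAt (fun t => -(lam * (t - a))) (-lam) t := by
      have := (((hasDerivAt_id t).sub_const a).const_mul lam).neg
      rw [mul_one] at this
      exact this
    exact ((h.d2 t ht).add ((h.d1 t ht).const_mul ss)).mul h1.exp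
  have hanti : AntitoneOn (fun t => (dw t + ss * w t) * exp (-(lam * (t - a)))) (Icc a b) := by
    refine antitoneOn_of_deriv_nonpos (convex_Icc a b)
      (fun t ht => (hd t ht).continuousAt.continuousWithinAt)
      (fun t ht => (hd t (interior_subset ht)).differentiableAt.differentiableWithinAt)
      fun t ht => ?_
    rw [(hd t (interior_subset ht)).deriv]
    have ht' := interior_subset ht
    have h1 := hw t ht'
    have h2 := hdw t ht'
    have h3 := hQ t ht'
    have h4 := hp t ht'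
    have h5 : (Q t * w t - p t * dw t) + ss * dw t ≤ lam * (dw t + ss * w t) := by
      have e1 : Q t * w t ≤ (s * ss + ε) * w t := mul_le_mul_of_nonneg_right h3 h1
      have e2 : (ss - s - ε) * dw t ≤ p t * dw t := mul_le_mul_of_nonneg_right h4 h2
      have e3 : lam * (dw t + ss * w t) = s * (dw t + ss * w t) + ε * (dw t + ss * w t)
          + ε * (1 / ss) * dw t + ε * w t := by
        rw [hlam]
        field_simp
        ring
      have e4 : 0 ≤ ε * (1 / ss) * dw t := by (clear * - hε hss h2; positivity)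
      have e5 : 0 ≤ ε * (ss * w t) := by (clear * - hε hss h1; positivity)
      rw [e3]
      linarith only [e5, e4, e2, e1]
    have h6 := exp_pos (-(lam * (t - a)))
    linarith only [mul_nonneg (sub_nonneg.2 h5) (le_of_lt (sub_pos.2 h6))]
  have h1 := hanti (left_mem_Icc.mpr hab) (right_mem_Icc.mpr hab) hab
  simp only [sub_self, mul_zero, neg_zero, exp_zero, mul_one] at h1
  have h2 : exp (-(lam * (b - a))) * exp (lam * (b - a)) = 1 := by
    rw [← exp_add]; simp
  calc dw b + ss * w b = ((dw b + ss * w b) * exp (-(lam * (b - a)))) * exp (lam * (b - a)) := by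
        rw [mul_assoc, h2, mul_one]
    _ ≤ (dw a + ss * w a) * exp (lam * (b - a)) :=
        mul_le_mul_of_nonneg_right h1 (exp_pos _).le

/-- `|y' + λ y| ≤ c` gives `|y(b)| ≤ e^{-λ(b-a)} |y(a)| + c/λ`. -/
theorem abs_le_of_damped {y y' : ℝ → ℝ} {lam c : ℝ} (hl : 0 < lam) (hab : a ≤ b)
    (hy : ∀ t ∈ Icc a b, HasDerivAt y (y' t) t)
    (hb : ∀ t ∈ Icc a b, |y' t + lam * y t| ≤ c) :
    |y b| ≤ exp (-(lam * (b - a))) * |y a| + c / lam := by
  have key : ∀ e : ℝ, (e = 1 ∨ e = -1) →
      e * y b ≤ exp (-(lam * (b - a))) * |y a| + c / lam := by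
    intro e he
    have hd : ∀ t ∈ Icc a b, HasDerivAt (fun t => exp (lam * (t - a)) * (e * y t - c / lam))
        (exp (lam * (t - a)) * lam * (e * y t - c / lam) + exp (lam * (t - a)) * (e * y' t)) t := by
      intro t ht
      have h1 : HasDerivAt (fun t => lam * (t - a)) lam t := by
        have := (((hasDerivAt_id t).sub_const a).const_mul lam)
        rw [mul_one] at this
        exact this
      exact h1.exp.mul (((hy t ht).const_mul e).sub_const _)
    have hanti : AntitoneOn (fun t => exp (lam * (t - a)) * (e * y t - c / lam)) (Icc a b) := by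
      refine antitoneOn_of_deriv_nonpos (convex_Icc a b)
        (fun t ht => (hd t ht).continuousAt.continuousWithinAt)
        (fun t ht => (hd t (interior_subset ht)).differentiableAt.differentiableWithinAt)
        fun t ht => ?_
      rw [(hd t (interior_subset ht)).deriv]
      have h2 := abs_le.mp (hb t (interior_subset ht))
      have h3 : exp (lam * (t - a)) * lam * (e * y t - c / lam)
          + exp (lam * (t - a)) * (e * y' t)
          = exp (lam * (t - a)) * (e * (y' t + lam * y t) - c) := by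
        field_simp
        ring
      rw [h3]
      have h4 := exp_pos (lam * (t - a))
      refine mul_nonpos_of_nonneg_of_nonpos h4.le ?_
      rcases he with rfl | rfl <;> linarith only [h2]
    have h1 := hanti (left_mem_Icc.mpr hab) (right_mem_Icc.mpr hab) hab
    simp only [sub_self, mul_zero, exp_zero, one_mul] at h1
    have h2 : exp (-(lam * (b - a))) * exp (lam * (b - a)) = 1 := by
      rw [← exp_add]; simp
    have h3 : e * y a ≤ |y a| := by
      rcases he with rfl | rfl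
      · rw [one_mul]; exact le_abs_self _
      · rw [neg_one_mul]; exact neg_le_abs _
    have hc : 0 ≤ c := (abs_nonneg _).trans (hb a (left_mem_Icc.mpr hab))
    have h4 : e * y b - c / lam ≤ exp (-(lam * (b - a))) * (e * y a - c / lam) := by
      calc e * y b - c / lam
          = exp (-(lam * (b - a))) * (exp (lam * (b - a)) * (e * y b - c / lam)) := by
            rw [← mul_assoc, h2, one_mul]
        _ ≤ exp (-(lam * (b - a))) * (e * y a - c / lam) :=
            mul_le_mul_of_nonneg_left h1 (exp_pos _).le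
    have h5 := exp_pos (-(lam * (b - a)))
    have h6 : exp (-(lam * (b - a))) * (e * y a - c / lam)
        ≤ exp (-(lam * (b - a))) * |y a| := by
      apply mul_le_mul_of_nonneg_left _ h5.le
      have : 0 ≤ c / lam := by (clear * - hc hl; positivity)
      linarith only [h3, this]
    linarith only [h4, h6]
  rw [abs_le]
  constructor
  · have := key (-1) (Or.inr rfl)
    linarith
  · have := key 1 (Or.inl rfl)
    linarith

/-- the ratio `z / v` is driven to `0` when the coefficients are close to constants. -/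
theorem ratio_le (h : IsSol p Q w dw a b) {s ss ε : ℝ} (hs : 0 < s) (hss : 0 < ss)
    (hab : a ≤ b)
    (hw : ∀ t ∈ Icc a b, 0 < w t) (hdw : ∀ t ∈ Icc a b, 0 ≤ dw t)
    (hQ : ∀ t ∈ Icc a b, |Q t - s * ss| ≤ ε) (hp : ∀ t ∈ Icc a b, |p t - (ss - s)| ≤ ε) :
    |dw b - s * w b| ≤ (exp (-((s + ss) * (b - a))) * (1 + s / ss)
      + ε * (1 + 1 / ss) * (2 + s / ss) / (s + ss)) * (dw b + ss * w b) := by
  have hε : 0 ≤ ε := (abs_nonneg _).trans (hQ a (left_mem_Icc.mpr hab))
  have hv : ∀ t ∈ Icc a b, 0 < dw t + ss * w t := fun t ht => by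
    have h1 := hw t ht
    have h2 := hdw t ht
    positivity
  have hr : ∀ t ∈ Icc a b, |(dw t - s * w t) / (dw t + ss * w t)| ≤ 1 + s / ss := by
    intro t ht
    have h1 := hw t ht
    have h2 := hdw t ht
    have h3 := hv t ht
    rw [abs_div, abs_of_pos h3, div_le_iff₀ h3, abs_le]
    have h4 : (1 + s / ss) * (dw t + ss * w t) = dw t + ss * w t + s / ss * dw t + s * w t := by
      field_simp
      ring
    have h5 : 0 ≤ s / ss * dw t := by (clear * - hs hss h2; positivity)
    have h6 : 0 ≤ s * w t := by positivity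
    have h7 : 0 ≤ ss * w t := by positivity
    rw [h4]
    constructor <;> linarith only [h2, h3, h5, h6, h7]
  have hd : ∀ t ∈ Icc a b, HasDerivAt (fun t => (dw t - s * w t) / (dw t + ss * w t))
      ((((Q t * w t - p t * dw t) - s * dw t) * (dw t + ss * w t)
        - (dw t - s * w t) * ((Q t * w t - p t * dw t) + ss * dw t)) / (dw t + ss * w t) ^ 2) t := by
    intro t ht
    exact ((h.d2 t ht).sub ((h.d1 t ht).const_mul s)).div
      ((h.d2 t ht).add ((h.d1 t ht).const_mul ss)) (hv t ht).ne'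
  have hb : ∀ t ∈ Icc a b,
      |(((Q t * w t - p t * dw t) - s * dw t) * (dw t + ss * w t)
        - (dw t - s * w t) * ((Q t * w t - p t * dw t) + ss * dw t)) / (dw t + ss * w t) ^ 2
        + (s + ss) * ((dw t - s * w t) / (dw t + ss * w t))|
        ≤ ε * (1 + 1 / ss) * (2 + s / ss) := by
    intro t ht
    have h1 := hw t ht
    have h2 := hdw t ht
    have h3 := hv t ht
    have h4 := hr t ht
    set E := (Q t - s * ss) * w t - (p t - (ss - s)) * dw t with hE
    have hE1 : |E| ≤ ε * (1 + 1 / ss) * (dw t + ss * w t) := by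
      calc |E| ≤ |(Q t - s * ss) * w t| + |(p t - (ss - s)) * dw t| := abs_sub _ _
        _ = |Q t - s * ss| * w t + |p t - (ss - s)| * dw t := by
            rw [abs_mul, abs_mul, abs_of_pos h1, abs_of_nonneg h2]
        _ ≤ ε * w t + ε * dw t := by
            gcongr
            · exact hQ t ht
            · exact hp t ht
        _ ≤ ε * (1 + 1 / ss) * (dw t + ss * w t) := by
            have : ε * (1 + 1 / ss) * (dw t + ss * w t)
              = ε * w t + ε * dw t + ε * (ss * w t) + ε * (1 / ss) * dw t := by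
              field_simp
              ring
            rw [this]
            have e1 : 0 ≤ ε * (ss * w t) := by (clear * - hε hss h1; positivity)
            have e2 : 0 ≤ ε * (1 / ss) * dw t := by (clear * - hε hss h2; positivity)
            linarith only [e1, e2]
    have hid : (((Q t * w t - p t * dw t) - s * dw t) * (dw t + ss * w t)
        - (dw t - s * w t) * ((Q t * w t - p t * dw t) + ss * dw t)) / (dw t + ss * w t) ^ 2
        + (s + ss) * ((dw t - s * w t) / (dw t + ss * w t))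
        = E / (dw t + ss * w t) * (1 - (dw t - s * w t) / (dw t + ss * w t)) := by
      rw [hE]
      field_simp
      ring
    rw [hid, abs_mul]
    have h5 : |E / (dw t + ss * w t)| ≤ ε * (1 + 1 / ss) := by
      rw [abs_div, abs_of_pos h3, div_le_iff₀ h3]
      exact hE1
    have h6 : |1 - (dw t - s * w t) / (dw t + ss * w t)| ≤ 2 + s / ss := by
      calc |1 - (dw t - s * w t) / (dw t + ss * w t)|
          ≤ |(1 : ℝ)| + |(dw t - s * w t) / (dw t + ss * w t)| := abs_sub _ _
        _ ≤ 1 + (1 + s / ss) := by rw [abs_one]; linarith only [h4]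
        _ = 2 + s / ss := by ring
    exact mul_le_mul h5 h6 (abs_nonneg _) (by (clear * - hε hss; positivity))
  have hfin := abs_le_of_damped (a := a) (b := b) (by positivity : 0 < s + ss) hab hd hb
  have h3 := hv b (right_mem_Icc.mpr hab)
  rw [abs_div, abs_of_pos h3, div_le_iff₀ h3] at hfin
  refine hfin.trans (mul_le_mul_of_nonneg_right ?_ h3.le)
  have h7 := hr a (left_mem_Icc.mpr hab)
  rw [abs_div, abs_of_pos (hv a (left_mem_Icc.mpr hab))] at h7 ⊢
  have := mul_le_mul_of_nonneg_left h7 (exp_pos (-((s + ss) * (b - a)))).le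
  linarith only [this]

/-- the Wronskian -/
theorem wronskian (h : IsSol p Q w dw a b) (h₂ : IsSol p Q w₂ dw₂ a b) (hp : Continuous p)
    (hab : a ≤ b) :
    w b * dw₂ b - dw b * w₂ b = (w a * dw₂ a - dw a * w₂ a) * exp (-∫ u in a..b, p u) := by
  have hE : ∀ t, HasDerivAt (fun t => exp (∫ u in a..t, p u)) (exp (∫ u in a..t, p u) * p t) t :=
    fun t => (prim hp a t).exp
  have hd : ∀ t ∈ Icc a b, HasDerivAt
      (fun t => exp (∫ u in a..t, p u) * (w t * dw₂ t - dw t * w₂ t)) 0 t := by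
    intro t ht
    exact ((hE t).mul (((h.d1 t ht).mul (h₂.d2 t ht)).sub
      ((h.d2 t ht).mul (h₂.d1 t ht)))).congr_deriv (by
        simp only [Pi.sub_apply, Pi.mul_apply]; ring)
  have hc : exp (∫ u in a..b, p u) * (w b * dw₂ b - dw b * w₂ b)
      = exp (∫ u in a..a, p u) * (w a * dw₂ a - dw a * w₂ a) := by
    have hcont : ContinuousOn (fun t => exp (∫ u in a..t, p u) * (w t * dw₂ t - dw t * w₂ t))
        (Icc a b) := fun t ht => (hd t ht).continuousAt.continuousWithinAt
    exact constant_of_has_deriv_right_zero hcont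
      (fun t ht => (hd t (Ico_subset_Icc_self ht)).hasDerivWithinAt) b (right_mem_Icc.mpr hab)
  rw [intervalIntegral.integral_same, exp_zero, one_mul] at hc
  have h2 : exp (-∫ u in a..b, p u) * exp (∫ u in a..b, p u) = 1 := by
    rw [← exp_add]; simp
  calc w b * dw₂ b - dw b * w₂ b
      = (exp (-∫ u in a..b, p u) * exp (∫ u in a..b, p u)) * (w b * dw₂ b - dw b * w₂ b) := by
        rw [h2, one_mul]
    _ = _ := by rw [mul_assoc, hc]; ring

end IsSol

end Vale.Agent.P225.B
end
end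

section

section

/-! B3-(3.6), part a: the complex bigraded pieces. -/

set_option linter.all false

open MvPolynomial

namespace Vale.Agent.P225.B

namespace M36

variable {m : ℕ}

/-- total degree in the first group of variables -/
def dl (s : (Fin (m+1) ⊕ Fin (m+1)) →₀ ℕ) : ℕ := ∑ a, s (Sum.inl a)
/-- total degree in the second group of variables -/
def dr (s : (Fin (m+1) ⊕ Fin (m+1)) →₀ ℕ) : ℕ := ∑ a, s (Sum.inr a)

/-- Polynomials of bidegree `(p,q)`. -/
noncomputable def Q (m p q : ℕ) : Submodule ℂ (MvPolynomial (Fin (m+1) ⊕ Fin (m+1)) ℂ) :=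
  restrictSupport ℂ {s | dl s = p ∧ dr s = q}

theorem mem_Q {p q : ℕ} {g : MvPolynomial (Fin (m+1) ⊕ Fin (m+1)) ℂ} :
    g ∈ Q m p q ↔ ∀ s, coeff s g ≠ 0 → dl s = p ∧ dr s = q := by
  rw [Q, mem_restrictSupport_iff]
  constructor
  · intro h s hs
    exact h (mem_support_iff.2 hs)
  · intro h s hs
    exact h s (mem_support_iff.1 hs)

/-- Counting multi-indices. -/
noncomputable def eqv (m p q : ℕ) :
    {s : (Fin (m+1) ⊕ Fin (m+1)) →₀ ℕ | dl s = p ∧ dr s = q} ≃
      {P : Fin (m+1) → ℕ // ∑ i, P i = p} × {P : Fin (m+1) → ℕ // ∑ i, P i = q} where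
  toFun s := (⟨fun a => s.1 (Sum.inl a), s.2.1⟩, ⟨fun a => s.1 (Sum.inr a), s.2.2⟩)
  invFun P := ⟨Finsupp.equivFunOnFinite.symm (Sum.elim P.1.1 P.2.1),
    by simpa [dl] using P.1.2, by simpa [dr] using P.2.2⟩
  left_inv s := by
    apply Subtype.ext
    apply Finsupp.ext
    rintro (a | a) <;> simp
  right_inv P := by
    apply Prod.ext <;> apply Subtype.ext <;> funext a <;> simp

theorem card_sum (m p : ℕ) :
    Nat.card {P : Fin (m+1) → ℕ // ∑ i, P i = p} = (m + p).choose m := by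
  rw [← Nat.card_congr (Sym.equivNatSumOfFintype (Fin (m+1)) p), Nat.card_eq_fintype_card,
    Sym.card_sym_eq_choose, Fintype.card_fin]
  have : m + 1 + p - 1 = m + p := by omega
  rw [this]
  exact (Nat.choose_symm_add).symm

theorem finrank_Q (m p q : ℕ) :
    Module.finrank ℂ (Q m p q) = (m + p).choose m * (m + q).choose m := by
  rw [Q, Module.finrank_eq_nat_card_basis (basisRestrictSupport ℂ _), Nat.card_congr (eqv m p q),
    Nat.card_prod, card_sum, card_sum]

instance finQ (m p q : ℕ) : Module.Finite ℂ (Q m p q) := by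
  have h1 : Finite {P : Fin (m+1) → ℕ // ∑ i, P i = p} :=
    Finite.of_equiv _ (Sym.equivNatSumOfFintype (Fin (m+1)) p)
  have h2 : Finite {P : Fin (m+1) → ℕ // ∑ i, P i = q} :=
    Finite.of_equiv _ (Sym.equivNatSumOfFintype (Fin (m+1)) q)
  have : Finite {s : (Fin (m+1) ⊕ Fin (m+1)) →₀ ℕ | dl s = p ∧ dr s = q} :=
    Finite.of_equiv _ (eqv m p q).symm
  exact Module.Finite.of_basis (basisRestrictSupport ℂ _)

/-- the operator `∑ ∂_{z_a} ∂_{w_a}` -/
noncomputable def LW (m : ℕ) : MvPolynomial (Fin (m+1) ⊕ Fin (m+1)) ℂ →ₗ[ℂ]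
    MvPolynomial (Fin (m+1) ⊕ Fin (m+1)) ℂ :=
  ∑ a, (pderiv (Sum.inl a)).toLinearMap ∘ₗ (pderiv (Sum.inr a)).toLinearMap

theorem LW_apply (g : MvPolynomial (Fin (m+1) ⊕ Fin (m+1)) ℂ) :
    LW m g = ∑ a, pderiv (Sum.inl a) (pderiv (Sum.inr a) g) := by
  simp only [LW, LinearMap.coe_sum, LinearMap.coe_comp, Derivation.coeFn_coe, Finset.sum_apply, Function.comp_apply]

theorem dl_sub (s : (Fin (m+1) ⊕ Fin (m+1)) →₀ ℕ) (a : Fin (m+1)) (h : s (Sum.inl a) ≠ 0) :
    dl (s - Finsupp.single (Sum.inl a) 1) + 1 = dl s ∧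
      dr (s - Finsupp.single (Sum.inl a) 1) = dr s := by
  have hs : Finsupp.single (Sum.inl a) 1 + (s - Finsupp.single (Sum.inl a) 1) = s := by
    rw [add_tsub_cancel_of_le]
    intro j
    by_cases hj : j = Sum.inl a
    · subst hj; simpa only [Finsupp.single_eq_same] using Nat.one_le_iff_ne_zero.2 h
    · simp only [ne_eq, Ne.symm hj, not_false_eq_true, Finsupp.single_eq_of_ne', zero_le]
  constructor
  · conv_rhs => rw [← hs]
    simp only [dl, Finsupp.add_apply, Finset.sum_add_distrib, Finsupp.single_apply]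
    simp only [Finsupp.coe_tsub, Pi.sub_apply, add_comm, Sum.inl.injEq, Finset.sum_ite_eq, Finset.mem_univ, ↓reduceIte, Nat.add_left_cancel_iff]
  · conv_rhs => rw [← hs]
    simp only [dr, Finsupp.add_apply, Finset.sum_add_distrib, Finsupp.single_apply]
    simp

theorem dr_sub (s : (Fin (m+1) ⊕ Fin (m+1)) →₀ ℕ) (a : Fin (m+1)) (h : s (Sum.inr a) ≠ 0) :
    dr (s - Finsupp.single (Sum.inr a) 1) + 1 = dr s ∧
      dl (s - Finsupp.single (Sum.inr a) 1) = dl s := by
  have hs : Finsupp.single (Sum.inr a) 1 + (s - Finsupp.single (Sum.inr a) 1) = s := by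
    rw [add_tsub_cancel_of_le]
    intro j
    by_cases hj : j = Sum.inr a
    · subst hj; simpa only [Finsupp.single_eq_same] using Nat.one_le_iff_ne_zero.2 h
    · simp only [ne_eq, Ne.symm hj, not_false_eq_true, Finsupp.single_eq_of_ne', zero_le]
  constructor
  · conv_rhs => rw [← hs]
    simp only [dr, Finsupp.add_apply, Finset.sum_add_distrib, Finsupp.single_apply]
    simp only [Finsupp.coe_tsub, Pi.sub_apply, add_comm, Sum.inr.injEq, Finset.sum_ite_eq, Finset.mem_univ, ↓reduceIte, Nat.add_left_cancel_iff]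
  · conv_rhs => rw [← hs]
    simp only [dl, Finsupp.add_apply, Finset.sum_add_distrib, Finsupp.single_apply]
    simp only [Finsupp.coe_tsub, Pi.sub_apply, ne_eq, reduceCtorEq, not_false_eq_true, Finsupp.single_eq_of_ne, tsub_zero, ↓reduceIte, Finset.sum_const_zero, zero_add]

theorem Q_ext {p q : ℕ} {P : MvPolynomial (Fin (m+1) ⊕ Fin (m+1)) ℂ → Prop}
    (h0 : P 0) (hadd : ∀ f g, P f → P g → P (f + g))
    (hm : ∀ s c, dl s = p → dr s = q → P (monomial s c))
    {g : MvPolynomial (Fin (m+1) ⊕ Fin (m+1)) ℂ} (hg : g ∈ Q m p q) : P g := by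
  classical
  rw [g.as_sum]
  have := mem_Q.1 hg
  refine Finset.sum_induction _ P hadd h0 fun s hs => ?_
  obtain ⟨h1, h2⟩ := this s (mem_support_iff.1 hs)
  exact hm s _ h1 h2

theorem mon_mem {p q : ℕ} {s : (Fin (m+1) ⊕ Fin (m+1)) →₀ ℕ} (c : ℂ) (h1 : dl s = p)
    (h2 : dr s = q) : monomial s c ∈ Q m p q := by
  rw [Q, monomial_mem_restrictSupport]; exact Or.inl ⟨h1, h2⟩

theorem pr_mem {p q : ℕ} (a : Fin (m+1)) {g : MvPolynomial (Fin (m+1) ⊕ Fin (m+1)) ℂ}
    (hg : g ∈ Q m p (q+1)) : pderiv (Sum.inr a) g ∈ Q m p q := by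
  refine Q_ext (P := fun g => pderiv (Sum.inr a) g ∈ Q m p q) (by simp)
    (fun f g hf hg => by rw [map_add]; exact add_mem hf hg) ?_ hg
  intro s c h1 h2
  rw [pderiv_monomial]
  by_cases h : s (Sum.inr a) = 0
  · simp [h]
  · obtain ⟨e1, e2⟩ := dr_sub s a h
    exact mon_mem _ (by omega) (by (clear * - h2 e1; omega))

theorem pl_mem {p q : ℕ} (a : Fin (m+1)) {g : MvPolynomial (Fin (m+1) ⊕ Fin (m+1)) ℂ}
    (hg : g ∈ Q m (p+1) q) : pderiv (Sum.inl a) g ∈ Q m p q := by
  refine Q_ext (P := fun g => pderiv (Sum.inl a) g ∈ Q m p q) (by simp)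
    (fun f g hf hg => by rw [map_add]; exact add_mem hf hg) ?_ hg
  intro s c h1 h2
  rw [pderiv_monomial]
  by_cases h : s (Sum.inl a) = 0
  · simp [h]
  · obtain ⟨e1, e2⟩ := dl_sub s a h
    exact mon_mem _ (by omega) (by (clear * - h2 e2; omega))

theorem pr_zero {p : ℕ} (a : Fin (m+1)) {g : MvPolynomial (Fin (m+1) ⊕ Fin (m+1)) ℂ}
    (hg : g ∈ Q m p 0) : pderiv (Sum.inr a) g = 0 := by
  refine Q_ext (P := fun g => pderiv (Sum.inr a) g = 0) (by simp)
    (fun f g hf hg => by rw [map_add, hf, hg, add_zero]) ?_ hg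
  intro s c h1 h2
  rw [pderiv_monomial]
  have h : s (Sum.inr a) = 0 := by
    rw [dr, Finset.sum_eq_zero_iff] at h2; exact h2 a (Finset.mem_univ _)
  simp only [h, CharP.cast_eq_zero, mul_zero, monomial_zero]

theorem pl_zero {q : ℕ} (a : Fin (m+1)) {g : MvPolynomial (Fin (m+1) ⊕ Fin (m+1)) ℂ}
    (hg : g ∈ Q m 0 q) : pderiv (Sum.inl a) g = 0 := by
  refine Q_ext (P := fun g => pderiv (Sum.inl a) g = 0) (by simp)
    (fun f g hf hg => by rw [map_add, hf, hg, add_zero]) ?_ hg
  intro s c h1 h2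
  rw [pderiv_monomial]
  have h : s (Sum.inl a) = 0 := by
    rw [dl, Finset.sum_eq_zero_iff] at h1; exact h1 a (Finset.mem_univ _)
  simp [h]

theorem LW_mem {p q : ℕ} {g : MvPolynomial (Fin (m+1) ⊕ Fin (m+1)) ℂ}
    (hg : g ∈ Q m (p+1) (q+1)) : LW m g ∈ Q m p q := by
  rw [LW_apply]
  exact Submodule.sum_mem _ fun a _ => pl_mem a (pr_mem a hg)

theorem LW_zero_right {p : ℕ} {g : MvPolynomial (Fin (m+1) ⊕ Fin (m+1)) ℂ}
    (hg : g ∈ Q m p 0) : LW m g = 0 := by
  rw [LW_apply]
  exact Finset.sum_eq_zero fun a _ => by rw [pr_zero a hg, map_zero]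

theorem LW_zero_left {q : ℕ} {g : MvPolynomial (Fin (m+1) ⊕ Fin (m+1)) ℂ}
    (hg : g ∈ Q m 0 q) : LW m g = 0 := by
  rcases q with _ | q
  · exact LW_zero_right hg
  · rw [LW_apply]
    exact Finset.sum_eq_zero fun a _ => pl_zero a (pr_mem a hg)

/-- harmonic polynomials of bidegree `(p,q)` -/
noncomputable def K (m p q : ℕ) : Submodule ℂ (MvPolynomial (Fin (m+1) ⊕ Fin (m+1)) ℂ) :=
  Q m p q ⊓ LinearMap.ker (LW m)

theorem finrank_K (hm : 1 ≤ m) (p q : ℕ) :
    (m + p).choose m * (m + q).choose m - (m + p - 1).choose m * (m + q - 1).choose m ≤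
      Module.finrank ℂ (K m p q) := by
  have e1 : K m p q ≃ₗ[ℂ] LinearMap.ker ((LW m).domRestrict (Q m p q)) := by
    refine LinearEquiv.ofBijective
      (LinearMap.codRestrict _ (Submodule.inclusion (inf_le_left : K m p q ≤ Q m p q)) ?_) ⟨?_, ?_⟩
    · intro x; rw [LinearMap.mem_ker, LinearMap.domRestrict_apply]
      exact (Submodule.mem_inf.1 x.2).2
    · intro x y h
      have := congrArg (fun z => (z.1.1 : MvPolynomial (Fin (m+1) ⊕ Fin (m+1)) ℂ)) h
      exact Subtype.ext this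
    · intro y
      refine ⟨⟨y.1.1, Submodule.mem_inf.2 ⟨y.1.2, ?_⟩⟩, rfl⟩
      have := y.2
      rw [LinearMap.mem_ker, LinearMap.domRestrict_apply] at this
      exact this
  rw [LinearEquiv.finrank_eq e1]
  have rn := LinearMap.finrank_range_add_finrank_ker ((LW m).domRestrict (Q m p q))
  rw [finrank_Q] at rn
  have hr : Module.finrank ℂ (LinearMap.range ((LW m).domRestrict (Q m p q))) ≤
      (m + p - 1).choose m * (m + q - 1).choose m := by
    rcases p with _ | p
    · have : LinearMap.range ((LW m).domRestrict (Q m 0 q)) = ⊥ := by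
        rw [LinearMap.range_eq_bot]; ext1 x; exact LW_zero_left x.2
      rw [this]; simp only [finrank_bot, add_zero, zero_le]
    · rcases q with _ | q
      · have : LinearMap.range ((LW m).domRestrict (Q m (p+1) 0)) = ⊥ := by
          rw [LinearMap.range_eq_bot]; ext1 x; exact LW_zero_right x.2
        rw [this]; simp only [finrank_bot, Nat.add_succ_sub_one, add_zero, zero_le]
      · have h1 : m + (p + 1) - 1 = m + p := by (clear * - hm; omega)
        have h2 : m + (q + 1) - 1 = m + q := by (clear * - hm h1; omega)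
        rw [h1, h2, ← finrank_Q]
        apply Submodule.finrank_mono
        rintro _ ⟨x, rfl⟩
        exact LW_mem x.2
  omega

end M36

end Vale.Agent.P225.B
end
end

section

section

/-!
P225, design B, module D8 (GROWTH): periodic weights with negative period sum against a slowly
increasing sequence of stays force linear decay of the normalised logarithmic size.
-/

namespace Vale.Agent.P225.D8

open Finset Filter Topology

theorem per_sum {N : ℕ} (a : ℕ → ℝ) (hper : ∀ j, a (j + N) = a j) (j : ℕ) :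
    ∑ i ∈ range N, a (j + i) = ∑ i ∈ range N, a i := by
  induction j with
  | zero => simp
  | succ j ih =>
    have h1 : ∑ i ∈ range N, a (j + 1 + i) = ∑ i ∈ range N, a (j + (i + 1)) := by
      refine sum_congr rfl fun i _ => ?_
      congr 1; ring
    have h2 := sum_range_succ' (fun i => a (j + i)) N
    have h3 := sum_range_succ (fun i => a (j + i)) N
    have h4 : a (j + N) = a j := hper j
    simp only [add_zero] at h2
    rw [h1]
    linarith only [ih, h3, h4, h2]

theorem per_bound {N : ℕ} (hN : 0 < N) (a : ℕ → ℝ) (hper : ∀ j, a (j + N) = a j) :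
    ∃ M, 0 ≤ M ∧ ∀ j, |a j| ≤ M := by
  refine ⟨∑ i ∈ range N, |a i|, sum_nonneg fun _ _ => abs_nonneg _, fun j => ?_⟩
  induction j using Nat.strong_induction_on with
  | _ j ih =>
    by_cases hj : j < N
    · exact single_le_sum (f := fun i => |a i|) (fun _ _ => abs_nonneg _) (mem_range.2 hj)
    · have := ih (j - N) (by omega)
      have h2 : a j = a (j - N) := by
        have := hper (j - N)
        rwa [Nat.sub_add_cancel (by omega)] at this
      rw [h2]; exact this

/-- Core lemma: `a` is periodic with period `N` and negative sum over a period; the stays `L j`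
are positive and nondecreasing with consecutive ratio tending to one; errors are small
compared to `L j`.  Then `D J + c * ∑_{j<J} L j` is bounded above. -/
theorem abel_core {N : ℕ} (hN : 0 < N) (a : ℕ → ℝ) (hper : ∀ j, a (j + N) = a j)
    (hneg : ∑ i ∈ range N, a i < 0)
    (L err D : ℕ → ℝ) (hL0 : ∀ j, 0 < L j) (hmono : Monotone L)
    (hslow : Tendsto (fun j => L (j + 1) / L j) atTop (𝓝 1))
    (herr : Tendsto (fun j => err j / L j) atTop (𝓝 0))
    (hD : ∀ j, D (j + 1) - D j ≤ a j * L j + err j) :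
    ∃ c > 0, ∃ C : ℝ, ∀ J, D J ≤ C - c * ∑ j ∈ range J, L j := by
  obtain ⟨M, hM0, hM⟩ := per_bound hN a hper
  set A := - ∑ i ∈ range N, a i with hA
  have hApos : 0 < A := by linarith only [hneg]
  have hNr : (0:ℝ) < N := by exact_mod_cast hN
  -- ratio over `i` steps
  have hratio : ∀ i, Tendsto (fun j => L (j + i) / L j) atTop (𝓝 1) := by
    intro i
    induction i with
    | zero =>
      have : (fun j => L (j + 0) / L j) = fun _ => (1:ℝ) := by
        funext j; simp [(hL0 j).ne']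
      rw [this]; exact tendsto_const_nhds
    | succ i ih =>
      have h1 : (fun j => L (j + (i + 1)) / L j)
          = fun j => (L (j + i + 1) / L (j + i)) * (L (j + i) / L j) := by
        funext j
        have := (hL0 (j + i)).ne'
        field_simp
        rfl
      rw [h1]
      have h2 : Tendsto (fun j => L (j + i + 1) / L (j + i)) atTop (𝓝 1) :=
        (hslow.comp (tendsto_add_atTop_nat i))
      simpa only [mul_one] using h2.mul ih
  -- choose `ε`
  set ε := min 1 (A / (2 * (N * M + 2 * N))) with hε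
  have hden : 0 < 2 * ((N:ℝ) * M + 2 * N) := by (clear * - hN hM0; positivity)
  have hεpos : 0 < ε := lt_min one_pos (div_pos hApos hden)
  have hε1 : ε ≤ 1 := min_le_left _ _
  have hε2 : ε * (2 * (N * M + 2 * N)) ≤ A := by
    have := min_le_right 1 (A / (2 * ((N:ℝ) * M + 2 * N)))
    rw [← hε] at this
    exact (le_div_iff₀ hden).1 this
  have hev1 : ∀ᶠ j in atTop, L (j + N) / L j < 1 + ε :=
    (hratio N).eventually (gt_mem_nhds (by linarith only [hεpos]))
  have hev2 : ∀ᶠ j in atTop, err j / L j < ε :=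
    herr.eventually (gt_mem_nhds hεpos)
  obtain ⟨j0, hj0⟩ := eventually_atTop.1 (hev1.and hev2)
  set c := A / (4 * N) with hc
  have hcpos : 0 < c := div_pos hApos (by positivity)
  set E : ℕ → ℝ := fun J => D J + c * ∑ j ∈ range J, L j with hE
  have hblock : ∀ j ≥ j0, E (j + N) ≤ E j := by
    intro j hj
    have hLN : L (j + N) ≤ (1 + ε) * L j := by
      have := (hj0 j hj).1
      exact ((div_lt_iff₀ (hL0 j)).1 this).le
    have hLi : ∀ i ∈ range N, L (j + i) ≤ (1 + ε) * L j := by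
      intro i hi
      exact (hmono (by have := mem_range.1 hi; omega)).trans hLN
    have hLi' : ∀ i, L j ≤ L (j + i) := fun i => hmono (by omega)
    have herri : ∀ i ∈ range N, err (j + i) ≤ ε * ((1 + ε) * L j) := by
      intro i hi
      have h1 := (hj0 (j + i) (by omega)).2
      have h2 : err (j + i) ≤ ε * L (j + i) := ((div_lt_iff₀ (hL0 _)).1 h1).le
      exact h2.trans (mul_le_mul_of_nonneg_left (hLi i hi) hεpos.le)
    have hsumD : D (j + N) - D j ≤ ∑ i ∈ range N, (a (j + i) * L (j + i) + err (j + i)) := by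
      have h1 : D (j + N) - D j = ∑ i ∈ range N, (D (j + i + 1) - D (j + i)) := by
        have := sum_range_sub (fun i => D (j + i)) N
        simp only [add_zero] at this
        rw [← this]
        rfl
      rw [h1]
      exact sum_le_sum fun i _ => hD (j + i)
    have hterm : ∀ i ∈ range N, a (j + i) * L (j + i) ≤ a (j + i) * L j + M * (ε * L j) := by
      intro i hi
      have h1 : a (j + i) * (L (j + i) - L j) ≤ M * (ε * L j) := by
        have h2 : L (j + i) - L j ≤ ε * L j := by linarith only [hLi i hi]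
        have h3 : 0 ≤ L (j + i) - L j := by linarith only [hLi' i]
        calc a (j + i) * (L (j + i) - L j) ≤ |a (j + i)| * (L (j + i) - L j) :=
              mul_le_mul_of_nonneg_right (le_abs_self _) h3
          _ ≤ M * (L (j + i) - L j) := mul_le_mul_of_nonneg_right (hM _) h3
          _ ≤ M * (ε * L j) := mul_le_mul_of_nonneg_left h2 hM0
      linarith only [h1]
    have hsum2 : ∑ i ∈ range N, (a (j + i) * L (j + i) + err (j + i))
        ≤ -A * L j + N * (M * (ε * L j)) + N * (ε * ((1 + ε) * L j)) := by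
      have h1 : ∑ i ∈ range N, (a (j + i) * L (j + i) + err (j + i))
          ≤ ∑ i ∈ range N, (a (j + i) * L j + (M * (ε * L j) + ε * ((1 + ε) * L j))) := by
        refine sum_le_sum fun i hi => ?_
        linarith only [hterm i hi, herri i hi]
      have h2 : ∑ i ∈ range N, (a (j + i) * L j + (M * (ε * L j) + ε * ((1 + ε) * L j)))
          = (∑ i ∈ range N, a (j + i)) * L j + N * (M * (ε * L j) + ε * ((1 + ε) * L j)) := by
        rw [sum_add_distrib, ← sum_mul]
        simp only [sum_const, card_range, nsmul_eq_mul]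
      rw [h2, per_sum a hper j] at h1
      have h3 : ∑ i ∈ range N, a i = -A := by rw [hA]; ring
      rw [h3] at h1
      linarith only [h1]
    have hsumL : ∑ i ∈ range (j + N), L i ≤ ∑ i ∈ range j, L i + N * ((1 + ε) * L j) := by
      rw [sum_range_add]
      have : ∑ i ∈ range N, L (j + i) ≤ ∑ _i ∈ range N, (1 + ε) * L j := sum_le_sum hLi
      simp only [sum_const, card_range, nsmul_eq_mul] at this
      linarith only [this]
    have hLj := hL0 j
    have hkey : -A * L j + N * (M * (ε * L j)) + N * (ε * ((1 + ε) * L j))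
        + c * (N * ((1 + ε) * L j)) ≤ 0 := by
      have h1 : c * (N * ((1 + ε) * L j)) ≤ A / 2 * L j := by
        have : c * (N * ((1 + ε) * L j)) = A / 4 * (1 + ε) * L j := by
          rw [hc]; (clear * - hN hLj hεpos hApos; field_simp)
        rw [this]
        have : A / 4 * (1 + ε) ≤ A / 2 := by linarith only [mul_nonneg (le_of_lt (sub_pos.2 hneg)) (sub_nonneg.2 hε1)]
        exact mul_le_mul_of_nonneg_right this hLj.le
      have h2 : N * (M * (ε * L j)) + N * (ε * ((1 + ε) * L j)) ≤ A / 2 * L j := by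
        have h3 : N * (M * ε) + N * (ε * (1 + ε)) ≤ A / 2 := by
          have h4 : (N:ℝ) * (ε * (1 + ε)) ≤ N * (ε * 2) := by
            apply mul_le_mul_of_nonneg_left _ hNr.le
            apply mul_le_mul_of_nonneg_left _ hεpos.le
            linarith only [hε1]
          linarith only [hε2, h4]
        calc N * (M * (ε * L j)) + N * (ε * ((1 + ε) * L j))
            = (N * (M * ε) + N * (ε * (1 + ε))) * L j := by ring
          _ ≤ A / 2 * L j := mul_le_mul_of_nonneg_right h3 hLj.le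
      linarith only [h2, h1]
    have hcL : c * ∑ i ∈ range (j + N), L i
        ≤ c * ∑ i ∈ range j, L i + c * (N * ((1 + ε) * L j)) := by
      have := mul_le_mul_of_nonneg_left hsumL hcpos.le
      linarith only [this]
    simp only [hE]
    linarith only [hsumD, hsum2, hkey, hcL]
  refine ⟨c, hcpos, ∑ i ∈ range (j0 + N), |E i|, fun J => ?_⟩
  have hall : ∀ J, E J ≤ ∑ i ∈ range (j0 + N), |E i| := by
    intro J
    induction J using Nat.strong_induction_on with
    | _ J ih =>
      by_cases hJ : J < j0 + N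
      · exact (le_abs_self _).trans
          (single_le_sum (f := fun i => |E i|) (fun _ _ => abs_nonneg _) (mem_range.2 hJ))
      · have h1 := ih (J - N) (by (clear * - hN hJ; omega))
        have h2 := hblock (J - N) (by omega)
        rw [Nat.sub_add_cancel (by omega)] at h2
        exact h2.trans h1
  have := hall J
  simp only [hE] at this
  linarith only [this]

/-! ### The concrete time sequence -/

section times

variable {c1 : ℝ} {t : ℕ → ℝ}

theorem t_ge (hc1 : 0 ≤ c1) (ht0 : 1 ≤ t 0)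
    (hrec : ∀ j, t (j + 1) = t j + c1 * t j ^ (3 / 4 : ℝ) + t j ^ (7 / 8 : ℝ)) (j : ℕ) :
    1 + (j : ℝ) ≤ t j := by
  induction j with
  | zero => simpa only [CharP.cast_eq_zero, add_zero] using ht0
  | succ j ih =>
    have hj : (0:ℝ) ≤ j := Nat.cast_nonneg j
    have h1 : (1:ℝ) ≤ t j := by linarith only [ih]
    have h2 : (1:ℝ) ≤ t j ^ (7 / 8 : ℝ) := Real.one_le_rpow h1 (by norm_num)
    have h3 : 0 ≤ c1 * t j ^ (3 / 4 : ℝ) := mul_nonneg hc1 (Real.rpow_nonneg (by linarith only [ih]) _)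
    rw [hrec j]
    push_cast
    linarith only [ih, h2, h3]

theorem t_one (hc1 : 0 ≤ c1) (ht0 : 1 ≤ t 0)
    (hrec : ∀ j, t (j + 1) = t j + c1 * t j ^ (3 / 4 : ℝ) + t j ^ (7 / 8 : ℝ)) (j : ℕ) :
    1 ≤ t j := by
  have := t_ge hc1 ht0 hrec j
  have hj : (0:ℝ) ≤ j := Nat.cast_nonneg j
  linarith only [this]

theorem t_tendsto (hc1 : 0 ≤ c1) (ht0 : 1 ≤ t 0)
    (hrec : ∀ j, t (j + 1) = t j + c1 * t j ^ (3 / 4 : ℝ) + t j ^ (7 / 8 : ℝ)) :
    Tendsto t atTop atTop := by
  refine tendsto_atTop_mono (t_ge hc1 ht0 hrec) ?_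
  exact tendsto_atTop_add_const_left _ _ tendsto_natCast_atTop_atTop

theorem t_mono (hc1 : 0 ≤ c1) (ht0 : 1 ≤ t 0)
    (hrec : ∀ j, t (j + 1) = t j + c1 * t j ^ (3 / 4 : ℝ) + t j ^ (7 / 8 : ℝ)) :
    Monotone t := by
  refine monotone_nat_of_le_succ fun j => ?_
  have h1 := t_one hc1 ht0 hrec j
  have h2 : 0 ≤ t j ^ (7 / 8 : ℝ) := Real.rpow_nonneg (by linarith only [h1]) _
  have h3 : 0 ≤ c1 * t j ^ (3 / 4 : ℝ) := mul_nonneg hc1 (Real.rpow_nonneg (by linarith only [h1]) _)
  rw [hrec j]; linarith only [h2, h3]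

/-- The length of a cycle is at most `(c1 + 1)` times the stay. -/
theorem t_step (hc1 : 0 ≤ c1) (ht0 : 1 ≤ t 0)
    (hrec : ∀ j, t (j + 1) = t j + c1 * t j ^ (3 / 4 : ℝ) + t j ^ (7 / 8 : ℝ)) (j : ℕ) :
    t (j + 1) - t j ≤ (c1 + 1) * t j ^ (7 / 8 : ℝ) := by
  have h1 := t_one hc1 ht0 hrec j
  have h2 : t j ^ (3 / 4 : ℝ) ≤ t j ^ (7 / 8 : ℝ) :=
    Real.rpow_le_rpow_of_exponent_le h1 (by norm_num)
  rw [hrec j]
  linarith only [mul_nonneg (sub_nonneg.2 hc1) (sub_nonneg.2 h2)]

theorem t_ratio (hc1 : 0 ≤ c1) (ht0 : 1 ≤ t 0)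
    (hrec : ∀ j, t (j + 1) = t j + c1 * t j ^ (3 / 4 : ℝ) + t j ^ (7 / 8 : ℝ)) :
    Tendsto (fun j => t (j + 1) ^ (7 / 8 : ℝ) / t j ^ (7 / 8 : ℝ)) atTop (𝓝 1) := by
  have hT := t_tendsto hc1 ht0 hrec
  have h1 : ∀ j, t (j + 1) / t j = 1 + c1 * t j ^ (-(1 / 4) : ℝ) + t j ^ (-(1 / 8) : ℝ) := by
    intro j
    have hpos : 0 < t j := lt_of_lt_of_le one_pos (t_one hc1 ht0 hrec j)
    have e1 : t j ^ (3 / 4 : ℝ) = t j * t j ^ (-(1 / 4) : ℝ) := by
      rw [← Real.rpow_one_add' hpos.le (by norm_num)]; norm_num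
    have e2 : t j ^ (7 / 8 : ℝ) = t j * t j ^ (-(1 / 8) : ℝ) := by
      rw [← Real.rpow_one_add' hpos.le (by norm_num)]; norm_num
    rw [hrec j, e1, e2]
    (clear * - hpos hc1; field_simp)
  have h2 : Tendsto (fun j => t (j + 1) / t j) atTop (𝓝 1) := by
    have h3 : Tendsto (fun j => 1 + c1 * t j ^ (-(1 / 4) : ℝ) + t j ^ (-(1 / 8) : ℝ)) atTop
        (𝓝 (1 + c1 * 0 + 0)) := by
      refine ((tendsto_const_nhds.add (tendsto_const_nhds.mul ?_)).add ?_)
      · exact (tendsto_rpow_neg_atTop (by norm_num : (0:ℝ) < 1 / 4)).comp hT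
      · exact (tendsto_rpow_neg_atTop (by norm_num : (0:ℝ) < 1 / 8)).comp hT
    simp only [mul_zero, add_zero] at h3
    exact h3.congr fun j => (h1 j).symm
  have h4 : Tendsto (fun j => (t (j + 1) / t j) ^ (7 / 8 : ℝ)) atTop (𝓝 (1 ^ (7 / 8 : ℝ))) :=
    h2.rpow_const (Or.inl one_ne_zero)
  rw [Real.one_rpow] at h4
  refine h4.congr fun j => ?_
  have hpos : 0 < t j := lt_of_lt_of_le one_pos (t_one hc1 ht0 hrec j)
  have hpos' : 0 < t (j + 1) := lt_of_lt_of_le one_pos (t_one hc1 ht0 hrec (j + 1))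
  exact Real.div_rpow hpos'.le hpos.le _

/-- D8, discrete part. -/
theorem growth {N : ℕ} (hN : 0 < N) (a : ℕ → ℝ) (hper : ∀ j, a (j + N) = a j)
    (hneg : ∑ i ∈ range N, a i < 0) (hc1 : 0 ≤ c1) (ht0 : 1 ≤ t 0)
    (hrec : ∀ j, t (j + 1) = t j + c1 * t j ^ (3 / 4 : ℝ) + t j ^ (7 / 8 : ℝ))
    (C : ℝ) (D : ℕ → ℝ)
    (hD : ∀ j, D (j + 1) - D j ≤ a j * t j ^ (7 / 8 : ℝ)
      + C * (t j ^ (3 / 4 : ℝ) + t j ^ (-(1 / 2) : ℝ) * t j ^ (7 / 8 : ℝ))) :
    ∃ c > 0, ∃ C' : ℝ, ∀ J, D J ≤ C' - c * t J := by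
  have hpos : ∀ j, 0 < t j := fun j => lt_of_lt_of_le one_pos (t_one hc1 ht0 hrec j)
  have hT := t_tendsto hc1 ht0 hrec
  have herr : Tendsto (fun j => C * (t j ^ (3 / 4 : ℝ) + t j ^ (-(1 / 2) : ℝ) * t j ^ (7 / 8 : ℝ))
        / t j ^ (7 / 8 : ℝ)) atTop (𝓝 0) := by
    have h1 : ∀ j, C * (t j ^ (3 / 4 : ℝ) + t j ^ (-(1 / 2) : ℝ) * t j ^ (7 / 8 : ℝ))
        / t j ^ (7 / 8 : ℝ) = C * (t j ^ (-(1 / 8) : ℝ) + t j ^ (-(1 / 2) : ℝ)) := by
      intro j
      have e1 : t j ^ (3 / 4 : ℝ) = t j ^ (-(1 / 8) : ℝ) * t j ^ (7 / 8 : ℝ) := by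
        rw [← Real.rpow_add (hpos j)]; norm_num
      have hne : t j ^ (7 / 8 : ℝ) ≠ 0 := (Real.rpow_pos_of_pos (hpos j) _).ne'
      rw [e1]
      (clear * - hne; field_simp)
    have h2 : Tendsto (fun j => C * (t j ^ (-(1 / 8) : ℝ) + t j ^ (-(1 / 2) : ℝ))) atTop
        (𝓝 (C * (0 + 0))) := by
      refine tendsto_const_nhds.mul (Tendsto.add ?_ ?_)
      · exact (tendsto_rpow_neg_atTop (by norm_num : (0:ℝ) < 1 / 8)).comp hT
      · exact (tendsto_rpow_neg_atTop (by norm_num : (0:ℝ) < 1 / 2)).comp hT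
    simp only [add_zero, mul_zero] at h2
    exact h2.congr fun j => (h1 j).symm
  obtain ⟨c, hc, C2, h⟩ := abel_core hN a hper hneg (fun j => t j ^ (7 / 8 : ℝ))
    (fun j => C * (t j ^ (3 / 4 : ℝ) + t j ^ (-(1 / 2) : ℝ) * t j ^ (7 / 8 : ℝ))) D
    (fun j => Real.rpow_pos_of_pos (hpos j) _)
    (fun i j hij => Real.rpow_le_rpow (hpos i).le (t_mono hc1 ht0 hrec hij) (by norm_num))
    (t_ratio hc1 ht0 hrec) herr hD
  refine ⟨c / (c1 + 1), div_pos hc (by linarith only [hc1]), C2 + c / (c1 + 1) * t 0, fun J => ?_⟩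
  have h1 : t J - t 0 ≤ (c1 + 1) * ∑ j ∈ range J, t j ^ (7 / 8 : ℝ) := by
    rw [← sum_range_sub t J, mul_sum]
    exact sum_le_sum fun j _ => t_step hc1 ht0 hrec j
  have h2 : c / (c1 + 1) * (t J - t 0) ≤ c * ∑ j ∈ range J, t j ^ (7 / 8 : ℝ) := by
    have h3 : c / (c1 + 1) * ((c1 + 1) * ∑ j ∈ range J, t j ^ (7 / 8 : ℝ))
        = c * ∑ j ∈ range J, t j ^ (7 / 8 : ℝ) := by
      have : c1 + 1 ≠ 0 := by linarith only [hc1]
      field_simp
    rw [← h3]
    exact mul_le_mul_of_nonneg_left h1 (div_pos hc (by linarith only [hc1])).le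
  have h4 := h J
  linarith only [h2, h4]

/-- D8, final form: `W` (the norm of the tracked function) is bounded by `C * exp (k φ)`. -/
theorem growth_bound {N : ℕ} (hN : 0 < N) (a : ℕ → ℝ) (hper : ∀ j, a (j + N) = a j)
    (hneg : ∑ i ∈ range N, a i < 0) (hc1 : 0 ≤ c1) (ht0 : 1 ≤ t 0)
    (hrec : ∀ j, t (j + 1) = t j + c1 * t j ^ (3 / 4 : ℝ) + t j ^ (7 / 8 : ℝ))
    {k : ℝ} (hk : 0 ≤ k) (φ : ℝ → ℝ) (hφ : MonotoneOn φ (Set.Ici (t 0)))
    (ρ : ℕ → ℝ) (C : ℝ)
    (hρ : ∀ j, (ρ (j + 1) - k * φ (t (j + 1))) - (ρ j - k * φ (t j)) ≤ a j * t j ^ (7 / 8 : ℝ)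
      + C * (t j ^ (3 / 4 : ℝ) + t j ^ (-(1 / 2) : ℝ) * t j ^ (7 / 8 : ℝ)))
    (W : ℝ → ℝ) (C2 : ℝ)
    (hW : ∀ j, ∀ τ ∈ Set.Icc (t j) (t (j + 1)), W τ ≤ Real.exp (C2 * (1 + (τ - t j)) + ρ j)) :
    ∃ C3 : ℝ, ∀ τ, t 0 ≤ τ → W τ ≤ C3 * Real.exp (k * φ τ) := by
  obtain ⟨c, hc, C', h⟩ := growth hN a hper hneg hc1 ht0 hrec C (fun j => ρ j - k * φ (t j)) hρ
  have hpos : ∀ j, 0 < t j := fun j => lt_of_lt_of_le one_pos (t_one hc1 ht0 hrec j)
  -- `|C2| (1 + (c1+1) x^{7/8}) - c x` is bounded above on `x ≥ 1`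
  obtain ⟨B, hB⟩ : ∃ B : ℝ, ∀ j, |C2| * (1 + (c1 + 1) * t j ^ (7 / 8 : ℝ)) - c * t j ≤ B := by
    have hT := t_tendsto hc1 ht0 hrec
    have h1 : Tendsto (fun j => t j ^ (-(1 / 8) : ℝ)) atTop (𝓝 0) :=
      (tendsto_rpow_neg_atTop (by norm_num : (0:ℝ) < 1 / 8)).comp hT
    have h2 : ∀ᶠ j in atTop, |C2| * (c1 + 1) * t j ^ (-(1 / 8) : ℝ) < c := by
      have : Tendsto (fun j => |C2| * (c1 + 1) * t j ^ (-(1 / 8) : ℝ)) atTop
          (𝓝 (|C2| * (c1 + 1) * 0)) := tendsto_const_nhds.mul h1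
      rw [mul_zero] at this
      exact this.eventually (gt_mem_nhds hc)
    obtain ⟨j0, hj0⟩ := eventually_atTop.1 h2
    refine ⟨|C2| + ∑ i ∈ range j0, |(|C2| * (1 + (c1 + 1) * t i ^ (7 / 8 : ℝ)) - c * t i)|,
      fun j => ?_⟩
    by_cases hj : j < j0
    · have h3 := single_le_sum
        (f := fun i => |(|C2| * (1 + (c1 + 1) * t i ^ (7 / 8 : ℝ)) - c * t i)|)
        (fun _ _ => abs_nonneg _) (mem_range.2 hj)
      have h4 := le_abs_self (|C2| * (1 + (c1 + 1) * t j ^ (7 / 8 : ℝ)) - c * t j)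
      have h5 := abs_nonneg C2
      linarith only [h3, h4, h5]
    · have h3 := hj0 j (by omega)
      have h4 : t j ^ (7 / 8 : ℝ) = t j ^ (-(1 / 8) : ℝ) * t j := by
        rw [← Real.rpow_add_one (hpos j).ne']; norm_num
      have h5 : |C2| * (c1 + 1) * t j ^ (7 / 8 : ℝ) ≤ c * t j := by
        rw [h4]
        calc |C2| * (c1 + 1) * (t j ^ (-(1 / 8) : ℝ) * t j)
            = |C2| * (c1 + 1) * t j ^ (-(1 / 8) : ℝ) * t j := by ring
          _ ≤ c * t j := mul_le_mul_of_nonneg_right h3.le (hpos j).le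
      have h6 : 0 ≤ ∑ i ∈ range j0, |(|C2| * (1 + (c1 + 1) * t i ^ (7 / 8 : ℝ)) - c * t i)| :=
        sum_nonneg fun _ _ => abs_nonneg _
      linarith only [h6, h5]
  refine ⟨Real.exp (B + C'), fun τ hτ => ?_⟩
  -- locate the cycle
  obtain ⟨j, hj1, hj2⟩ : ∃ j, t j ≤ τ ∧ τ < t (j + 1) := by
    have hT := t_tendsto hc1 ht0 hrec
    have hex : ∃ j, τ < t j := (hT.eventually (eventually_gt_atTop τ)).exists
    classical
    have h1 := Nat.find_spec hex
    have h2 : Nat.find hex ≠ 0 := by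
      intro h0; rw [h0] at h1; linarith only [hτ, h1]
    obtain ⟨j, hj⟩ := Nat.exists_eq_succ_of_ne_zero h2
    refine ⟨j, ?_, by rw [← Nat.succ_eq_add_one, ← hj]; exact h1⟩
    have := Nat.find_min hex (m := j) (by (clear * - hex hj; omega))
    exact not_lt.1 this
  have h1 := hW j τ ⟨hj1, hj2.le⟩
  refine h1.trans ?_
  rw [← Real.exp_add]
  apply Real.exp_le_exp.2
  have h2 : τ - t j ≤ (c1 + 1) * t j ^ (7 / 8 : ℝ) := by
    have := t_step hc1 ht0 hrec j
    linarith only [hj2, this]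
  have h3 : C2 * (1 + (τ - t j)) ≤ |C2| * (1 + (c1 + 1) * t j ^ (7 / 8 : ℝ)) := by
    calc C2 * (1 + (τ - t j)) ≤ |C2| * (1 + (τ - t j)) :=
          mul_le_mul_of_nonneg_right (le_abs_self _) (by linarith only [hj1])
      _ ≤ _ := mul_le_mul_of_nonneg_left (by linarith only [h2]) (abs_nonneg _)
  have h4 := h j
  have h5 := hB j
  have h6 : k * φ (t j) ≤ k * φ τ := by
    apply mul_le_mul_of_nonneg_left _ hk
    have ht0j : t 0 ≤ t j := t_mono hc1 ht0 hrec (Nat.zero_le j)
    exact hφ (Set.mem_Ici.2 ht0j) (Set.mem_Ici.2 (ht0j.trans hj1)) hj1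
  linarith only [h3, h4, h5, h6]

end times

end Vale.Agent.P225.D8
end
end

section

section

/-!
# Ricci curvature in coordinates, and its value for the metrics `F(t) I + K(t) (Jx)(Jx)ᵀ`
-/

open Filter Topology
open scoped ContDiff

namespace Vale.Agent.P225

open RMetric

namespace B

variable {n : ℕ}

/-! ### Calculus of `pd` -/

theorem pd_congr {i : Fin n} {f g : Rn n → ℝ} {x : Rn n} (h : f =ᶠ[𝓝 x] g) :
    pd i f x = pd i g x := by
  unfold pd; rw [h.fderiv_eq]

theorem pd_add {i : Fin n} {f g : Rn n → ℝ} {x : Rn n} (hf : DifferentiableAt ℝ f x)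
    (hg : DifferentiableAt ℝ g x) : pd i (fun y => f y + g y) x = pd i f x + pd i g x := by
  unfold pd; rw [fderiv_fun_add hf hg]; rfl

theorem pd_sub {i : Fin n} {f g : Rn n → ℝ} {x : Rn n} (hf : DifferentiableAt ℝ f x)
    (hg : DifferentiableAt ℝ g x) : pd i (fun y => f y - g y) x = pd i f x - pd i g x := by
  unfold pd; rw [fderiv_fun_sub hf hg]; rfl

theorem pd_mul {i : Fin n} {f g : Rn n → ℝ} {x : Rn n} (hf : DifferentiableAt ℝ f x)
    (hg : DifferentiableAt ℝ g x) :
    pd i (fun y => f y * g y) x = pd i f x * g x + f x * pd i g x := by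
  unfold pd; rw [fderiv_fun_mul hf hg]
  simp only [add_apply, smul_apply, smul_eq_mul]
  ring

theorem pd_const_mul {i : Fin n} {f : Rn n → ℝ} {x : Rn n} (c : ℝ)
    (hf : DifferentiableAt ℝ f x) : pd i (fun y => c * f y) x = c * pd i f x := by
  unfold pd; rw [fderiv_const_mul hf]; rfl

theorem pd_const {i : Fin n} {x : Rn n} (c : ℝ) : pd i (fun _ : Rn n => c) x = 0 := by
  unfold pd; simp

theorem pd_sum {ι : Type*} {s : Finset ι} {i : Fin n} {f : ι → Rn n → ℝ} {x : Rn n}
    (hf : ∀ a ∈ s, DifferentiableAt ℝ (f a) x) :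
    pd i (fun y => ∑ a ∈ s, f a y) x = ∑ a ∈ s, pd i (f a) x := by
  unfold pd; rw [fderiv_fun_sum hf]; simp only [sum_apply]

/-- half of the square of the norm -/
noncomputable def tt (x : Rn n) : ℝ := (∑ i, x i * x i) / 2

/-- coordinates of `J x` -/
noncomputable def yy (J : Matrix (Fin n) (Fin n) ℝ) (x : Rn n) (i : Fin n) : ℝ := ∑ k, J i k * x k

theorem diff_coord (i : Fin n) : Differentiable ℝ (fun x : Rn n => x i) :=
  (EuclideanSpace.proj i : Rn n →L[ℝ] ℝ).differentiable

theorem pd_coord (k i : Fin n) (x : Rn n) : pd k (fun x : Rn n => x i) x = if i = k then 1 else 0 := by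
  unfold pd
  have : (fun x : Rn n => x i) = (EuclideanSpace.proj i : Rn n →L[ℝ] ℝ) := rfl
  rw [this, ContinuousLinearMap.fderiv]
  simp

theorem diff_tt : Differentiable ℝ (tt : Rn n → ℝ) := by
  have h : Differentiable ℝ (fun x : Rn n => ∑ i, x i * x i) :=
    Differentiable.fun_sum (fun i _ => (diff_coord i).fun_mul (diff_coord i))
  have h2 := h.const_mul ((2 : ℝ)⁻¹)
  unfold tt; simpa only [div_eq_inv_mul] using h2

theorem pd_tt (k : Fin n) (x : Rn n) : pd k tt x = x k := by
  unfold tt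
  have h1 : (fun x : Rn n => (∑ i, x i * x i) / 2) = fun x : Rn n => (1 / 2) * ∑ i, x i * x i := by
    ext x; ring
  have h : pd k (fun x : Rn n => (∑ i, x i * x i) / 2) x = pd k (fun x : Rn n =>
      (1 / 2) * ∑ i, x i * x i) x := by rw [h1]
  refine h.trans ?_
  rw [pd_const_mul _ ((Differentiable.fun_sum (fun i _ => (diff_coord i).fun_mul (diff_coord i))) x),
    pd_sum (fun i _ => ((diff_coord i).fun_mul (diff_coord i)) x)]
  have h2 : ∀ i : Fin n, pd k (fun y : Rn n => y i * y i) x = 2 * (if i = k then x i else 0) := by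
    intro i
    rw [pd_mul (diff_coord i x) (diff_coord i x), pd_coord]
    split_ifs <;> ring
  rw [Finset.sum_congr rfl (fun i _ => h2 i), ← Finset.mul_sum]
  simp only [one_div, Finset.sum_ite_eq', Finset.mem_univ, ↓reduceIte, ne_eq, OfNat.ofNat_ne_zero, not_false_eq_true, inv_mul_cancel_left₀]

theorem diff_yy (J : Matrix (Fin n) (Fin n) ℝ) (i : Fin n) :
    Differentiable ℝ (fun x : Rn n => yy J x i) := by
  unfold yy; exact Differentiable.fun_sum (fun k _ => (diff_coord k).const_mul (J i k))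

theorem pd_yy (J : Matrix (Fin n) (Fin n) ℝ) (k i : Fin n) (x : Rn n) :
    pd k (fun x => yy J x i) x = J i k := by
  unfold yy
  rw [pd_sum (fun l _ => ((diff_coord l).const_mul (J i l)) x)]
  have h2 : ∀ l : Fin n, pd k (fun y : Rn n => J i l * y l) x = if l = k then J i l else 0 := by
    intro l
    rw [pd_const_mul _ (diff_coord l x), pd_coord]
    split_ifs <;> ring
  rw [Finset.sum_congr rfl (fun i _ => h2 i)]
  simp only [Finset.sum_ite_eq', Finset.mem_univ, ↓reduceIte]

theorem pd_comp_tt {F : ℝ → ℝ} (k : Fin n) (x : Rn n) (hF : DifferentiableAt ℝ F (tt x)) :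
    pd k (fun y => F (tt y)) x = deriv F (tt x) * x k := by
  have h1 : HasFDerivAt (fun y => F (tt y)) (deriv F (tt x) • fderiv ℝ tt x) x :=
    hF.hasDerivAt.comp_hasFDerivAt x (diff_tt x).hasFDerivAt
  unfold pd
  rw [h1.fderiv]
  simp only [smul_apply, smul_eq_mul]
  congr 1
  exact pd_tt k x

end B

end Vale.Agent.P225
end
end

section

section

/-!
# Christoffel symbols of `F(t) I + K(t) (Jx)(Jx)ᵀ`, `t = |x|²/2`
-/

open Filter Topology
open scoped ContDiff

namespace Vale.Agent.P225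

open RMetric

namespace B

variable {n : ℕ}

/-- an orthogonal complex structure -/
structure IsJ (J : Matrix (Fin n) (Fin n) ℝ) : Prop where
  skew : ∀ i j, J i j = - J j i
  sq : ∀ i j, ∑ k, J i k * J k j = - (if i = j then 1 else 0)

/-- the metric matrix `F(t) I + K(t) (Jx)(Jx)ᵀ`. -/
noncomputable def GG (J : Matrix (Fin n) (Fin n) ℝ) (F K : ℝ → ℝ) (x : Rn n) :
    Matrix (Fin n) (Fin n) ℝ :=
  Matrix.of fun i j => F (tt x) * (if i = j then 1 else 0) + K (tt x) * (yy J x i * yy J x j)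

section Sums

variable {J : Matrix (Fin n) (Fin n) ℝ} (hJ : IsJ J)

theorem IsJ.tr (hJ : IsJ J) (i j : Fin n) : ∑ k, J k i * J k j = if i = j then 1 else 0 := by
  have h := hJ.sq i j
  have : ∑ k, J k i * J k j = - ∑ k, J i k * J k j := by
    rw [← Finset.sum_neg_distrib]
    apply Finset.sum_congr rfl
    intro k _
    rw [hJ.skew k i]; ring
  rw [this, h, neg_neg]

theorem IsJ.diag (hJ : IsJ J) (i : Fin n) : J i i = 0 := by
  have := hJ.skew i i; linarith

theorem sum_xx (x : Rn n) : ∑ i, x i * x i = 2 * tt x := by unfold tt; ring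

include hJ in
theorem sum_yJ (x : Rn n) (i : Fin n) : ∑ k, yy J x k * J k i = x i := by
  unfold yy
  have h1 : ∀ k, (∑ l, J k l * x l) * J k i = ∑ l, x l * (J k l * J k i) := by
    intro k; rw [Finset.sum_mul]; apply Finset.sum_congr rfl; intro l _; ring
  rw [Finset.sum_congr rfl (fun k _ => h1 k), Finset.sum_comm]
  have h2 : ∀ l, ∑ k, x l * (J k l * J k i) = if l = i then x l else 0 := by
    intro l; rw [← Finset.mul_sum, hJ.tr]; split_ifs <;> simp
  rw [Finset.sum_congr rfl (fun l _ => h2 l)]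
  simp only [Finset.sum_ite_eq', Finset.mem_univ, ↓reduceIte]

include hJ in
theorem sum_Jy (x : Rn n) (i : Fin n) : ∑ k, J i k * yy J x k = - x i := by
  have h := sum_yJ hJ x i
  have : ∑ k, J i k * yy J x k = - ∑ k, yy J x k * J k i := by
    rw [← Finset.sum_neg_distrib]
    apply Finset.sum_congr rfl
    intro k _
    rw [hJ.skew i k]; ring
  rw [this, h]

include hJ in
theorem sum_xy (x : Rn n) : ∑ i, x i * yy J x i = 0 := by
  have h : ∑ i, x i * yy J x i = - ∑ i, x i * yy J x i := by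
    have h1 : ∑ i, x i * yy J x i = ∑ i, ∑ k, x i * (J i k * x k) := by
      unfold yy; apply Finset.sum_congr rfl; intro i _; rw [Finset.mul_sum]
    have h2 : ∑ i, ∑ k, x i * (J i k * x k) = ∑ i, ∑ k, -(x i * (J i k * x k)) := by
      rw [Finset.sum_comm]
      apply Finset.sum_congr rfl; intro i _
      apply Finset.sum_congr rfl; intro k _
      rw [hJ.skew k i]; ring
    rw [h1]
    conv_lhs => rw [h2]
    simp only [Finset.sum_neg_distrib]
  linarith

include hJ in
theorem sum_yy (x : Rn n) : ∑ i, yy J x i * yy J x i = 2 * tt x := by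
  have h1 : ∀ i, yy J x i * yy J x i = ∑ k, x k * (yy J x i * J i k) := by
    intro i
    conv_lhs => rw [show yy J x i * yy J x i = yy J x i * (∑ k, J i k * x k) from rfl]
    rw [Finset.mul_sum]
    apply Finset.sum_congr rfl; intro k _; ring
  rw [Finset.sum_congr rfl (fun i _ => h1 i), Finset.sum_comm]
  have h2 : ∀ k, ∑ i, x k * (yy J x i * J i k) = x k * x k := by
    intro k; rw [← Finset.mul_sum, sum_yJ hJ]
  rw [Finset.sum_congr rfl (fun k _ => h2 k), sum_xx]

end Sums

/-- inverse of the metric matrix -/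
theorem GG_inv {J : Matrix (Fin n) (Fin n) ℝ} (hJ : IsJ J) (F K : ℝ → ℝ) (x : Rn n)
    (h1 : F (tt x) ≠ 0) (h2 : F (tt x) + 2 * tt x * K (tt x) ≠ 0) :
    (GG J F K x)⁻¹ = Matrix.of fun i j => (F (tt x))⁻¹ * (if i = j then 1 else 0) -
      K (tt x) / (F (tt x) * (F (tt x) + 2 * tt x * K (tt x))) * (yy J x i * yy J x j) := by
  apply Matrix.inv_eq_right_inv
  set f := F (tt x)
  set κ := K (tt x)
  set t := tt x
  set y := yy J x with hy
  set b := κ / (f * (f + 2 * t * κ)) with hb
  have e1 : GG J F K x = f • (1 : Matrix (Fin n) (Fin n) ℝ) + κ • Matrix.vecMulVec y y := by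
    ext i j
    simp only [GG, mul_ite, mul_one, mul_zero, Matrix.of_apply, Matrix.add_apply, Matrix.smul_apply, Matrix.one_apply, smul_eq_mul, Matrix.vecMulVec_apply, f, κ, y]
  have e2 : (Matrix.of fun i j => f⁻¹ * (if i = j then 1 else 0) - b * (y i * y j)) =
      f⁻¹ • (1 : Matrix (Fin n) (Fin n) ℝ) - b • Matrix.vecMulVec y y := by
    ext i j
    simp only [mul_ite, mul_one, mul_zero, Matrix.of_apply, Matrix.sub_apply, Matrix.smul_apply, Matrix.one_apply, smul_eq_mul, Matrix.vecMulVec_apply]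
  have hyy : y ⬝ᵥ y = 2 * t := sum_yy hJ x
  have e3 : Matrix.vecMulVec y y * Matrix.vecMulVec y y = (2 * t) • Matrix.vecMulVec y y := by
    rw [Matrix.vecMulVec_mul_vecMulVec, hyy]
    ext i j
    simp only [Matrix.smul_apply, Matrix.vecMulVec_apply, smul_eq_mul, Pi.smul_apply]
    ring
  rw [e1, e2, mul_sub, add_mul, add_mul, smul_mul_smul_comm, smul_mul_smul_comm, smul_mul_smul_comm,
    smul_mul_smul_comm, e3, one_mul, mul_one, mul_inv_cancel₀ h1, smul_smul]
  have e4 : b * (f + 2 * t * κ) = κ * f⁻¹ := by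
    rw [hb, div_mul_eq_mul_div, ← div_eq_mul_inv, mul_div_mul_right _ _ h2]
  have e5 : κ * f⁻¹ = f * b + κ * b * (2 * t) := by rw [← e4]; ring
  rw [e5, one_mul, one_smul, add_smul]
  abel

/-- the coefficients -/
noncomputable def A1 (F : ℝ → ℝ) (t : ℝ) : ℝ := deriv F t / (2 * F t)
noncomputable def A3 (F K : ℝ → ℝ) (t : ℝ) : ℝ := deriv K t / (2 * F t)
noncomputable def A4 (F K : ℝ → ℝ) (t : ℝ) : ℝ := K t / F t
noncomputable def A2 (F K : ℝ → ℝ) (t : ℝ) : ℝ :=
  deriv K t / (2 * F t) -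
    K t / (F t * (F t + 2 * t * K t)) * (deriv F t / 2 + t * deriv K t + K t)

theorem pd_GG {J : Matrix (Fin n) (Fin n) ℝ} (F K : ℝ → ℝ) (x : Rn n)
    (hF : DifferentiableAt ℝ F (tt x)) (hK : DifferentiableAt ℝ K (tt x)) (i j k : Fin n) :
    pd k (fun y => GG J F K y i j) x =
      deriv F (tt x) * x k * (if i = j then 1 else 0) +
      deriv K (tt x) * x k * (yy J x i * yy J x j) +
      K (tt x) * (J i k * yy J x j + yy J x i * J j k) := by
  have hFx : DifferentiableAt ℝ (fun y : Rn n => F (tt y)) x :=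
    DifferentiableAt.comp x hF (diff_tt x)
  have hKx : DifferentiableAt ℝ (fun y : Rn n => K (tt y)) x :=
    DifferentiableAt.comp x hK (diff_tt x)
  have hyi := diff_yy J i x
  have hyj := diff_yy J j x
  have hyij : DifferentiableAt ℝ (fun y : Rn n => yy J y i * yy J y j) x := hyi.mul hyj
  have hKyij : DifferentiableAt ℝ (fun y : Rn n => K (tt y) * (yy J y i * yy J y j)) x :=
    hKx.mul hyij
  have hFc : DifferentiableAt ℝ (fun y : Rn n => F (tt y) * (if i = j then 1 else 0)) x :=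
    hFx.mul_const _
  simp only [GG, Matrix.of_apply]
  rw [pd_add hFc hKyij,
    pd_mul hFx (differentiableAt_const _), pd_const, pd_mul hKx hyij, pd_mul hyi hyj,
    pd_comp_tt k x hF, pd_comp_tt k x hK, pd_yy, pd_yy]
  ring

/-- Christoffel symbols -/
theorem christoffel_GG {J : Matrix (Fin n) (Fin n) ℝ} (hJ : IsJ J) (F K : ℝ → ℝ) (x : Rn n)
    (hF : DifferentiableAt ℝ F (tt x)) (hK : DifferentiableAt ℝ K (tt x))
    (h1 : F (tt x) ≠ 0) (h2 : F (tt x) + 2 * tt x * K (tt x) ≠ 0) (k i j : Fin n) :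
    christoffel (GG J F K) k i j x =
      A1 F (tt x) * (x i * (if j = k then 1 else 0) + x j * (if i = k then 1 else 0) -
        x k * (if i = j then 1 else 0)) +
      A2 F K (tt x) * ((x i * yy J x j + x j * yy J x i) * yy J x k) -
      A3 F K (tt x) * (x k * yy J x i * yy J x j) +
      A4 F K (tt x) * (yy J x j * J k i + yy J x i * J k j) := by
  unfold christoffel
  rw [GG_inv hJ F K x h1 h2]
  simp only [Matrix.of_apply, pd_GG F K x hF hK]
  set f := F (tt x) with hf
  set κ := K (tt x) with hκ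
  set t := tt x with ht
  set y := yy J x with hy
  set f' := deriv F t with hf'
  set κ' := deriv K t with hκ'
  set b := κ / (f * (f + 2 * t * κ)) with hb
  have hs : ∀ l, (f⁻¹ * (if k = l then 1 else 0) - b * (y k * y l)) *
      (f' * x i * (if j = l then 1 else 0) + κ' * x i * (y j * y l) + κ * (J j i * y l + y j * J l i)
        + (f' * x j * (if i = l then 1 else 0) + κ' * x j * (y i * y l) +
          κ * (J i j * y l + y i * J l j)) -
        (f' * x l * (if i = j then 1 else 0) + κ' * x l * (y i * y j) +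
          κ * (J i l * y j + y i * J j l))) =
      f⁻¹ * (if k = l then (f' * x i * (if j = l then 1 else 0) + κ' * x i * (y j * y l)
        + (f' * x j * (if i = l then 1 else 0) + κ' * x j * (y i * y l)) -
        (f' * x l * (if i = j then 1 else 0) + κ' * x l * (y i * y j)) +
        2 * κ * (y j * J l i + y i * J l j)) else 0) -
      b * y k * (f' * x i * (if j = l then y l else 0) + f' * x j * (if i = l then y l else 0) +
        (κ' * x i * y j + κ' * x j * y i) * (y l * y l) -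
        (f' * (if i = j then 1 else 0) + κ' * (y i * y j)) * (x l * y l) +
        2 * κ * y j * (y l * J l i) + 2 * κ * y i * (y l * J l j)) := by
    intro l
    have e1 : J j i = - J i j := hJ.skew j i
    have e2 : J i l = - J l i := hJ.skew i l
    have e3 : J j l = - J l j := hJ.skew j l
    rw [e1, e2, e3]
    by_cases h1 : k = l <;> by_cases h2 : j = l <;> by_cases h3 : i = l <;>
      simp only [h1, h2, h3, if_true, if_false] <;> ring
  rw [Finset.sum_congr rfl (fun l _ => hs l)]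
  simp only [Finset.sum_add_distrib, Finset.sum_sub_distrib, ← Finset.mul_sum,
    Finset.sum_ite_eq, Finset.mem_univ, if_true]
  have hyy : ∑ k, y k * y k = 2 * t := sum_yy hJ x
  have hxy : ∑ k, x k * y k = 0 := sum_xy hJ x
  have hyJ : ∀ i, ∑ k, y k * J k i = x i := sum_yJ hJ x
  rw [hyy, hxy, hyJ, hyJ]
  simp only [A1, ← hf', ← hf, A2, ← hκ', ← hκ, ← hb, A3, A4]
  field_simp
  ring

end B

end Vale.Agent.P225
end
end

section

section

/-! # P225, route B: the global metric (module G6)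

`BData n` = the data `(phi, eta, J)` of the metric
`G(x) = e^{2 phi}/|x|^2 (1 + (e^{2 eta} - 1)/|x|^2 (Jx)(Jx)^T)`, `phi, eta, J` evaluated at
`ln |x|`. -/

open Filter Topology Matrix
open scoped ContDiff

namespace Vale.Agent.P225.B

/-- The data of the metric. -/
structure BData (n : ℕ) where
  φ : ℝ → ℝ
  η : ℝ → ℝ
  J : ℝ → Matrix (Fin n) (Fin n) ℝ
  φ_smooth : ContDiff ℝ ∞ φ
  η_smooth : ContDiff ℝ ∞ η
  J_skew : ∀ τ, (J τ)ᵀ = -J τ
  J_sq : ∀ τ, J τ * J τ = -1
  J_loc : ∀ τ, (∀ᶠ s in 𝓝 τ, η s = 0) ∨ (∀ᶠ s in 𝓝 τ, J s = J τ)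
  φ_init : ∀ τ ≤ 0, φ τ = τ
  η_init : ∀ τ ≤ 0, η τ = 0

/-- The matrix `F 1 + H (Jx)(Jx)^T`. -/
noncomputable def mmat {n : ℕ} (F H : ℝ) (J : Matrix (Fin n) (Fin n) ℝ) (x : Rn n) :
    Matrix (Fin n) (Fin n) ℝ :=
  fun i j => F * (if i = j then 1 else 0) + H * ((J *ᵥ x.ofLp) i * (J *ᵥ x.ofLp) j)

theorem norm_sq_eq {n : ℕ} (x : Rn n) : ‖x‖ ^ 2 = x.ofLp ⬝ᵥ x.ofLp := by
  rw [EuclideanSpace.real_norm_sq_eq]
  simp only [pow_two, dotProduct]

/-- `x ⬝ Jx = 0`. -/
theorem dot_J {n : ℕ} {J : Matrix (Fin n) (Fin n) ℝ} (h : Jᵀ = -J) (x : Fin n → ℝ) :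
    x ⬝ᵥ (J *ᵥ x) = 0 := by
  have h1 : x ⬝ᵥ (J *ᵥ x) = (Jᵀ *ᵥ x) ⬝ᵥ x := by
    rw [Matrix.dotProduct_mulVec, Matrix.mulVec_transpose]
  rw [h, Matrix.neg_mulVec, neg_dotProduct] at h1
  rw [dotProduct_comm] at h1 ⊢
  linarith only [h1]

/-- `|Jx|² = |x|²`. -/
theorem J_dot_J {n : ℕ} {J : Matrix (Fin n) (Fin n) ℝ} (h : Jᵀ = -J) (h2 : J * J = -1)
    (x : Fin n → ℝ) : (J *ᵥ x) ⬝ᵥ (J *ᵥ x) = x ⬝ᵥ x := by
  have h1 : (J *ᵥ x) ⬝ᵥ (J *ᵥ x) = (Jᵀ *ᵥ (J *ᵥ x)) ⬝ᵥ x := by
    rw [Matrix.dotProduct_mulVec, Matrix.mulVec_transpose]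
  rw [h1, h, Matrix.neg_mulVec, Matrix.mulVec_mulVec, h2, Matrix.neg_mulVec, Matrix.one_mulVec,
    neg_neg]

/-- The quadratic form of `F 1 + H (Jx)(Jx)^T`. -/
theorem mmat_quad {n : ℕ} (F H : ℝ) (J : Matrix (Fin n) (Fin n) ℝ) (x : Rn n) (v : Fin n → ℝ) :
    v ⬝ᵥ (mmat F H J x *ᵥ v) = F * (v ⬝ᵥ v) + H * ((J *ᵥ x.ofLp) ⬝ᵥ v) ^ 2 := by
  have h : mmat F H J x *ᵥ v = F • v + (H * ((J *ᵥ x.ofLp) ⬝ᵥ v)) • (J *ᵥ x.ofLp) := by
    unfold mmat
    generalize J *ᵥ x.ofLp = y
    funext i
    simp only [Matrix.mulVec, dotProduct, add_mul, Finset.sum_add_distrib, Pi.add_apply,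
      Pi.smul_apply, smul_eq_mul, mul_ite, mul_one, mul_zero, ite_mul, zero_mul]
    rw [Finset.sum_ite_eq]
    simp only [Finset.mem_univ, if_true, Finset.mul_sum, Finset.sum_mul]
    congr 1
    refine Finset.sum_congr rfl fun j _ => ?_
    ring
  rw [h, dotProduct_add, dotProduct_smul, dotProduct_smul, smul_eq_mul, smul_eq_mul,
    dotProduct_comm v (J *ᵥ x.ofLp)]
  ring

theorem mmat_isSymm {n : ℕ} (F H : ℝ) (J : Matrix (Fin n) (Fin n) ℝ) (x : Rn n) :
    (mmat F H J x).IsSymm := by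
  ext i j
  simp only [mmat, Matrix.transpose_apply]
  rw [mul_comm ((J *ᵥ x.ofLp) j)]
  simp only [eq_comm]

/-- Bessel's inequality for `x/|x|, Jx/|x|`. -/
theorem bessel {n : ℕ} {J : Matrix (Fin n) (Fin n) ℝ} (h : Jᵀ = -J) (h2 : J * J = -1)
    (x v : Fin n → ℝ) :
    (x ⬝ᵥ v) ^ 2 + ((J *ᵥ x) ⬝ᵥ v) ^ 2 ≤ (x ⬝ᵥ x) * (v ⬝ᵥ v) := by
  by_cases hx : x ⬝ᵥ x = 0
  · have : x = 0 := by simpa only [dotProduct_self_eq_zero] using hx
    subst this
    simp only [zero_dotProduct, ne_eq, OfNat.ofNat_ne_zero, not_false_eq_true, zero_pow, mulVec_zero, add_zero, dotProduct_zero, zero_mul, Std.le_refl]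
  have hpos : 0 < x ⬝ᵥ x := lt_of_le_of_ne (by
    simp only [dotProduct]
    exact Finset.sum_nonneg fun i _ => mul_self_nonneg _) (Ne.symm hx)
  set w : Fin n → ℝ := (x ⬝ᵥ x) • v - (x ⬝ᵥ v) • x - ((J *ᵥ x) ⬝ᵥ v) • (J *ᵥ x) with hw
  have h0 : 0 ≤ w ⬝ᵥ w := by
    simp only [dotProduct]
    exact Finset.sum_nonneg fun i _ => mul_self_nonneg _
  have hxJ := dot_J h x
  have hJJ := J_dot_J h h2 x
  have hJx : (J *ᵥ x) ⬝ᵥ x = 0 := by rw [dotProduct_comm]; exact hxJ
  have e : w ⬝ᵥ w = (x ⬝ᵥ x) * ((x ⬝ᵥ x) * (v ⬝ᵥ v) - (x ⬝ᵥ v) ^ 2 - ((J *ᵥ x) ⬝ᵥ v) ^ 2) := by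
    rw [hw]
    simp only [sub_dotProduct, dotProduct_sub, smul_dotProduct, dotProduct_smul, smul_eq_mul,
      hxJ, hJJ, hJx, dotProduct_comm v x, dotProduct_comm v (J *ᵥ x)]
    ring
  rw [e] at h0
  have := nonneg_of_mul_nonneg_right h0 hpos
  linarith only [this]

/-- Positive definiteness of the model metric. -/
theorem mmat_posDef {n : ℕ} {F H : ℝ} {J : Matrix (Fin n) (Fin n) ℝ} (h : Jᵀ = -J)
    (h2 : J * J = -1) {x : Rn n} (hF : 0 < F) (hFH : 0 < F + H * ‖x‖ ^ 2) :
    (mmat F H J x).PosDef := by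
  rw [Matrix.posDef_iff_dotProduct_mulVec]
  refine ⟨?_, fun v hv => ?_⟩
  · have := mmat_isSymm F H J x
    rw [Matrix.IsHermitian, Matrix.conjTranspose_eq_transpose_of_trivial]
    exact this
  · simp only [star_trivial]
    rw [mmat_quad]
    have hvv : 0 < v ⬝ᵥ v := by
      have h3 : v ⬝ᵥ v ≠ 0 := by simpa only [ne_eq, dotProduct_self_eq_zero] using hv
      exact lt_of_le_of_ne (by
        simp only [dotProduct]
        exact Finset.sum_nonneg fun i _ => mul_self_nonneg _) (Ne.symm h3)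
    by_cases hH : 0 ≤ H
    · have := mul_nonneg hH (sq_nonneg ((J *ᵥ x.ofLp) ⬝ᵥ v))
      have := mul_pos hF hvv
      linarith
    · push Not at hH
      have hb := bessel h h2 x.ofLp v
      have h4 : ((J *ᵥ x.ofLp) ⬝ᵥ v) ^ 2 ≤ ‖x‖ ^ 2 * (v ⬝ᵥ v) := by
        rw [norm_sq_eq]
        have := sq_nonneg (x.ofLp ⬝ᵥ v)
        linarith only [hb, this]
      have h5 := mul_pos hFH hvv
      linarith only [mul_nonneg (sub_nonneg.2 h4) (le_of_lt (sub_pos.2 hH)), h5]

namespace BData

variable {n : ℕ} (D : BData n)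

/-- `F` as a function of `t = |x|^2/2`. -/
noncomputable def Fof (t : ℝ) : ℝ := Real.exp (2 * D.φ (Real.log (2 * t) / 2)) / (2 * t)

/-- `H = F (e^{2 eta} - 1) / |x|^2` as a function of `t = |x|^2/2`. -/
noncomputable def Hof (t : ℝ) : ℝ :=
  D.Fof t * (Real.exp (2 * D.η (Real.log (2 * t) / 2)) - 1) / (2 * t)

/-- The matrix of the metric. -/
noncomputable def gmat (x : Rn n) : Matrix (Fin n) (Fin n) ℝ :=
  if x = 0 then 1 else
    mmat (D.Fof (‖x‖ ^ 2 / 2)) (D.Hof (‖x‖ ^ 2 / 2)) (D.J (Real.log ‖x‖)) x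

theorem log_aux (x : Rn n) : Real.log (2 * (‖x‖ ^ 2 / 2)) / 2 = Real.log ‖x‖ := by
  rw [show 2 * (‖x‖ ^ 2 / 2) = ‖x‖ ^ 2 by ring, Real.log_pow]
  push_cast
  ring

theorem Fof_norm (x : Rn n) :
    D.Fof (‖x‖ ^ 2 / 2) = Real.exp (2 * D.φ (Real.log ‖x‖)) / ‖x‖ ^ 2 := by
  rw [Fof, log_aux, show 2 * (‖x‖ ^ 2 / 2) = ‖x‖ ^ 2 by ring]

theorem Hof_norm (x : Rn n) :
    D.Hof (‖x‖ ^ 2 / 2) = D.Fof (‖x‖ ^ 2 / 2) * (Real.exp (2 * D.η (Real.log ‖x‖)) - 1) /
      ‖x‖ ^ 2 := by
  rw [Hof, log_aux, show 2 * (‖x‖ ^ 2 / 2) = ‖x‖ ^ 2 by ring]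

theorem Fof_pos {x : Rn n} (hx : x ≠ 0) : 0 < D.Fof (‖x‖ ^ 2 / 2) := by
  rw [Fof_norm]
  have := norm_pos_iff.2 hx
  positivity

theorem Fof_add (x : Rn n) (hx : x ≠ 0) :
    D.Fof (‖x‖ ^ 2 / 2) + D.Hof (‖x‖ ^ 2 / 2) * ‖x‖ ^ 2 =
      D.Fof (‖x‖ ^ 2 / 2) * Real.exp (2 * D.η (Real.log ‖x‖)) := by
  rw [Hof_norm]
  have := norm_pos_iff.2 hx
  field_simp
  ring

theorem gmat_posDef (x : Rn n) : (D.gmat x).PosDef := by
  unfold gmat
  split_ifs with hx
  · exact Matrix.PosDef.one
  · refine mmat_posDef (D.J_skew _) (D.J_sq _) (D.Fof_pos hx) ?_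
    rw [Fof_add D x hx]
    have := D.Fof_pos hx
    positivity

theorem gmat_of_norm_le {x : Rn n} (hx : ‖x‖ ≤ 1) : D.gmat x = 1 := by
  unfold gmat
  split_ifs with h
  · rfl
  · have hp := norm_pos_iff.2 h
    have hl : Real.log ‖x‖ ≤ 0 := Real.log_nonpos hp.le hx
    have h1 : D.Fof (‖x‖ ^ 2 / 2) = 1 := by
      rw [Fof_norm, D.φ_init _ hl, two_mul, Real.exp_add, Real.exp_log hp]
      field_simp
    have h2 : D.Hof (‖x‖ ^ 2 / 2) = 0 := by
      rw [Hof_norm, D.η_init _ hl]
      simp only [mul_zero, Real.exp_zero, sub_self, zero_div]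
    ext i j
    rw [h1, h2, mmat, Matrix.one_apply]
    ring

/-- Near every nonzero point the metric is a model metric with constant `J`. -/
theorem gmat_model {x : Rn n} (hx : x ≠ 0) : ∀ᶠ y in 𝓝 x,
    D.gmat y = mmat (D.Fof (‖y‖ ^ 2 / 2)) (D.Hof (‖y‖ ^ 2 / 2)) (D.J (Real.log ‖x‖)) y := by
  have hc : Tendsto (fun y : Rn n => Real.log ‖y‖) (𝓝 x) (𝓝 (Real.log ‖x‖)) :=
    (Real.continuousAt_log (norm_ne_zero_iff.2 hx)).tendsto.comp
      (continuous_norm.tendsto x)
  have h0 : ∀ᶠ y in 𝓝 x, y ≠ 0 := isOpen_ne.mem_nhds hx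
  rcases D.J_loc (Real.log ‖x‖) with h | h
  · filter_upwards [h0, hc.eventually h] with y hy hη
    rw [gmat, if_neg hy]
    have h2 : D.Hof (‖y‖ ^ 2 / 2) = 0 := by
      rw [Hof_norm, hη]
      simp only [mul_zero, Real.exp_zero, sub_self, zero_div]
    ext i j
    simp only [mmat, mul_ite, mul_one, mul_zero, h2, zero_mul, add_zero]
  · filter_upwards [h0, hc.eventually h] with y hy hJ
    rw [gmat, if_neg hy, hJ]

theorem Fof_contDiffAt {t : ℝ} (ht : 0 < t) : ContDiffAt ℝ ∞ D.Fof t := by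
  unfold Fof
  have h1 : ContDiffAt ℝ ∞ (fun t : ℝ => Real.log (2 * t) / 2) t :=
    ((contDiffAt_const.mul contDiffAt_id).log (by positivity)).div_const 2
  refine ContDiffAt.div ?_ (contDiffAt_const.mul contDiffAt_id) (by positivity)
  exact (contDiffAt_const.mul (D.φ_smooth.contDiffAt.comp t h1)).exp

theorem Hof_contDiffAt {t : ℝ} (ht : 0 < t) : ContDiffAt ℝ ∞ D.Hof t := by
  unfold Hof
  have h1 : ContDiffAt ℝ ∞ (fun t : ℝ => Real.log (2 * t) / 2) t :=
    ((contDiffAt_const.mul contDiffAt_id).log (by positivity)).div_const 2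
  refine ContDiffAt.div ?_ (contDiffAt_const.mul contDiffAt_id) (by positivity)
  refine (D.Fof_contDiffAt ht).mul ?_
  exact (contDiffAt_const.mul (D.η_smooth.contDiffAt.comp t h1)).exp.sub contDiffAt_const

theorem mulVec_contDiff (J : Matrix (Fin n) (Fin n) ℝ) (i : Fin n) :
    ContDiff ℝ ∞ (fun x : Rn n => (J *ᵥ x.ofLp) i) := by
  simp only [Matrix.mulVec, dotProduct]
  refine ContDiff.sum fun j _ => contDiff_const.mul ?_
  fun_prop

theorem gmat_contDiff (i j : Fin n) : ContDiff ℝ ∞ (fun x => D.gmat x i j) := by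
  rw [contDiff_iff_contDiffAt]
  intro x
  by_cases hx : x = 0
  · subst hx
    have h : ∀ᶠ y in 𝓝 (0 : Rn n), D.gmat y i j = (1 : Matrix (Fin n) (Fin n) ℝ) i j := by
      filter_upwards [Metric.ball_mem_nhds (0 : Rn n) one_pos] with y hy
      rw [mem_ball_zero_iff] at hy
      rw [D.gmat_of_norm_le hy.le]
    exact contDiffAt_const.congr_of_eventuallyEq h
  · have h := D.gmat_model hx
    have hp := norm_pos_iff.2 hx
    have ht : 0 < ‖x‖ ^ 2 / 2 := by positivity
    have hn : ContDiffAt ℝ ∞ (fun y : Rn n => ‖y‖ ^ 2 / 2) x :=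
      ((contDiff_norm_sq ℝ).div_const 2).contDiffAt
    have h2 : ContDiffAt ℝ ∞ (fun y : Rn n =>
        mmat (D.Fof (‖y‖ ^ 2 / 2)) (D.Hof (‖y‖ ^ 2 / 2)) (D.J (Real.log ‖x‖)) y i j) x := by
      unfold mmat
      refine ContDiffAt.add ?_ ?_
      · exact ((D.Fof_contDiffAt ht).comp x hn).mul contDiffAt_const
      · exact ((D.Hof_contDiffAt ht).comp x hn).mul
          ((mulVec_contDiff _ i).contDiffAt.mul (mulVec_contDiff _ j).contDiffAt)
    exact h2.congr_of_eventuallyEq (h.mono fun y hy => congrFun (congrFun hy i) j)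

/-- The Riemannian metric of the data `D`. -/
noncomputable def met : RMetric n where
  G := D.gmat
  smooth := D.gmat_contDiff
  pos := D.gmat_posDef

@[simp] theorem met_G : D.met.G = D.gmat := rfl

theorem quad_eq {n : ℕ} (g : RMetric n) (x v : Rn n) :
    g.quad x v = v.ofLp ⬝ᵥ (g.G x *ᵥ v.ofLp) := by
  simp only [RMetric.quad, Matrix.mulVec, dotProduct, Finset.mul_sum]
  refine Finset.sum_congr rfl fun i _ => Finset.sum_congr rfl fun j _ => ?_
  ring

theorem inner_eq {n : ℕ} (x v : Rn n) : inner ℝ x v = x.ofLp ⬝ᵥ v.ofLp := by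
  rw [EuclideanSpace.inner_eq_star_dotProduct, star_trivial, dotProduct_comm]

/-- The lower bound of the metric by its radial part. -/
theorem quad_ge {x : Rn n} (hx : x ≠ 0) (v : Rn n) :
    Real.exp (2 * D.φ (Real.log ‖x‖) - 2 * Real.log ‖x‖) * (inner ℝ x v / ‖x‖) ^ 2 ≤
      D.met.quad x v := by
  have hp := norm_pos_iff.2 hx
  have hF := D.Fof_pos hx
  have hFH := D.Fof_add x hx
  have hb := bessel (D.J_skew (Real.log ‖x‖)) (D.J_sq (Real.log ‖x‖)) x.ofLp v.ofLp
  rw [quad_eq, met_G, gmat, if_neg hx, mmat_quad, inner_eq]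
  rw [← norm_sq_eq] at hb
  have e1 : Real.exp (2 * D.φ (Real.log ‖x‖) - 2 * Real.log ‖x‖) = D.Fof (‖x‖ ^ 2 / 2) := by
    rw [Fof_norm, Real.exp_sub]
    congr 1
    rw [two_mul, Real.exp_add, Real.exp_log hp, pow_two]
  rw [e1, div_pow]
  set F := D.Fof (‖x‖ ^ 2 / 2)
  set H := D.Hof (‖x‖ ^ 2 / 2)
  set a := (x.ofLp ⬝ᵥ v.ofLp) ^ 2
  set b := ((D.J (Real.log ‖x‖) *ᵥ x.ofLp) ⬝ᵥ v.ofLp) ^ 2 with hbd
  set N := ‖x‖ ^ 2
  have hN : 0 < N := by positivity
  have hb0 : 0 ≤ b := sq_nonneg _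
  have hFH0 : 0 ≤ F + H * N := by
    rw [hFH]
    (clear * - hF; positivity)
  have h1 : F * (a / N) + (F + H * N) * (b / N) ≤ F * (v.ofLp ⬝ᵥ v.ofLp) + H * b := by
    have h2 : F * (a / N) + (F + H * N) * (b / N) = F * ((a + b) / N) + H * b := by
      field_simp
      ring
    rw [h2]
    have h3 : (a + b) / N ≤ v.ofLp ⬝ᵥ v.ofLp := by
      rw [div_le_iff₀ hN, mul_comm]
      exact hb
    have := mul_le_mul_of_nonneg_left h3 hF.le
    linarith only [this]
  have h4 : 0 ≤ (F + H * N) * (b / N) := mul_nonneg hFH0 (div_nonneg hb0 hN.le)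
  linarith only [h1, h4]

end BData

end Vale.Agent.P225.B
end
end

section

section

/-! # P225, route B: the functions `u = |x|^{-d} w(ln |x|)(x)` (module G8) -/

open Filter Topology Matrix MvPolynomial
open scoped ContDiff

namespace Vale.Agent.P225.B

variable {n : ℕ}

/-- The function `u(x) = |x|^{-d} w(ln |x|)(x)`. -/
noncomputable def uf (d : ℕ) (w : ℝ → MvPolynomial (Fin n) ℝ) (x : Rn n) : ℝ :=
  (‖x‖ ^ d)⁻¹ * MvPolynomial.eval x.ofLp (w (Real.log ‖x‖))

/-- Evaluation of a homogeneous polynomial as a sum over a fixed finite set of monomials. -/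
theorem eval_homog {d : ℕ} {p : MvPolynomial (Fin n) ℝ} (hp : p.IsHomogeneous d)
    (x : Fin n → ℝ) : MvPolynomial.eval x p =
      ∑ m ∈ (Finset.univ : Finset (Fin n)).finsuppAntidiag d,
        p.coeff m * ∏ i, x i ^ m i := by
  rw [MvPolynomial.eval_eq']
  refine Finset.sum_subset ?_ ?_
  · intro m hm
    rw [Finset.mem_finsuppAntidiag]
    refine ⟨?_, Finset.subset_univ _⟩
    have h1 := hp (MvPolynomial.mem_support_iff.1 hm)
    rw [← h1, Finsupp.weight_apply, Finsupp.sum_fintype _ _ (fun i => by simp)]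
    simp only [Pi.one_apply, smul_eq_mul, mul_one]
  · intro m _ hm
    rw [MvPolynomial.notMem_support_iff.1 hm, zero_mul]

theorem eval_contDiff (p : MvPolynomial (Fin n) ℝ) :
    ContDiff ℝ ∞ (fun x : Rn n => MvPolynomial.eval x.ofLp p) := by
  simp only [MvPolynomial.eval_eq']
  refine ContDiff.sum fun m _ => contDiff_const.mul ?_
  refine contDiff_prod fun i _ => ?_
  refine ContDiff.pow ?_ _
  fun_prop

/-- Near the origin `u` is a polynomial. -/
theorem uf_of_norm_le {d : ℕ} {w : ℝ → MvPolynomial (Fin n) ℝ} {P : MvPolynomial (Fin n) ℝ}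
    (hP : P.IsHomogeneous d) (h0 : ∀ τ ≤ 0, w τ = Real.exp (d * τ) • P) {x : Rn n}
    (hx : ‖x‖ ≤ 1) : uf d w x = MvPolynomial.eval x.ofLp P := by
  by_cases h : x = 0
  · subst h
    rw [uf, norm_zero, Real.log_zero, h0 0 le_rfl]
    simp only [mul_zero, Real.exp_zero, one_smul, WithLp.ofLp_zero]
    rcases Nat.eq_zero_or_pos d with hd | hd
    · subst hd
      simp
    · have : MvPolynomial.eval (0 : Fin n → ℝ) P = 0 := by
        rw [eval_homog hP]
        refine Finset.sum_eq_zero fun m hm => ?_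
        rw [Finset.mem_finsuppAntidiag] at hm
        have h1 : ∃ i, m i ≠ 0 := by
          by_contra hcon
          push Not at hcon
          have h2 := hm.1
          rw [Finset.sum_eq_zero fun i _ => hcon i] at h2
          omega
        obtain ⟨i, hi⟩ := h1
        rw [Finset.prod_eq_zero (Finset.mem_univ i), mul_zero]
        simp [hi]
      rw [this, mul_zero]
  · have hp := norm_pos_iff.2 h
    have hl : Real.log ‖x‖ ≤ 0 := Real.log_nonpos hp.le hx
    rw [uf, h0 _ hl, MvPolynomial.smul_eval, ← Real.log_pow, Real.exp_log (by positivity)]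
    field_simp

theorem uf_contDiffAt {d : ℕ} {w : ℝ → MvPolynomial (Fin n) ℝ}
    (hw : ∀ m, ContDiff ℝ ∞ (fun τ => (w τ).coeff m)) (hh : ∀ τ, (w τ).IsHomogeneous d)
    {x : Rn n} (hx : x ≠ 0) : ContDiffAt ℝ ∞ (uf d w) x := by
  have h1 : uf d w = fun x : Rn n => (‖x‖ ^ d)⁻¹ *
      ∑ m ∈ (Finset.univ : Finset (Fin n)).finsuppAntidiag d,
        (w (Real.log ‖x‖)).coeff m * ∏ i, x.ofLp i ^ m i := by
    funext x
    rw [uf, eval_homog (hh _)]
  rw [h1]
  have hn : ContDiffAt ℝ ∞ (fun y : Rn n => ‖y‖) x := contDiffAt_norm ℝ hx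
  have hl : ContDiffAt ℝ ∞ (fun y : Rn n => Real.log ‖y‖) x := hn.log (norm_ne_zero_iff.2 hx)
  refine ContDiffAt.mul ?_ ?_
  · exact (hn.pow d).inv (pow_ne_zero _ (norm_ne_zero_iff.2 hx))
  · refine ContDiffAt.sum fun m _ => ?_
    refine ContDiffAt.mul ((hw m).contDiffAt.comp x hl) ?_
    refine contDiffAt_prod fun i _ => ?_
    refine ContDiffAt.pow ?_ _
    fun_prop

/-- `u` is smooth. -/
theorem uf_contDiff {d : ℕ} {w : ℝ → MvPolynomial (Fin n) ℝ} {P : MvPolynomial (Fin n) ℝ}
    (hw : ∀ m, ContDiff ℝ ∞ (fun τ => (w τ).coeff m)) (hh : ∀ τ, (w τ).IsHomogeneous d)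
    (hP : P.IsHomogeneous d) (h0 : ∀ τ ≤ 0, w τ = Real.exp (d * τ) • P) :
    ContDiff ℝ ∞ (uf d w) := by
  rw [contDiff_iff_contDiffAt]
  intro x
  by_cases hx : x = 0
  · subst hx
    refine (eval_contDiff P).contDiffAt.congr_of_eventuallyEq ?_
    filter_upwards [Metric.ball_mem_nhds (0 : Rn n) one_pos] with y hy
    rw [mem_ball_zero_iff] at hy
    exact uf_of_norm_le hP h0 hy.le
  · exact uf_contDiffAt hw hh hx

/-- `|u(x)|` is at most the sum of the absolute values of the coefficients of `w(ln |x|)`. -/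
theorem abs_uf_le {d : ℕ} {w : ℝ → MvPolynomial (Fin n) ℝ} (hh : ∀ τ, (w τ).IsHomogeneous d)
    (x : Rn n) : |uf d w x| ≤ ∑ m ∈ (Finset.univ : Finset (Fin n)).finsuppAntidiag d,
      |(w (Real.log ‖x‖)).coeff m| := by
  rw [uf, eval_homog (hh _), abs_mul, abs_inv, abs_pow, abs_norm]
  have h1 : |∑ m ∈ (Finset.univ : Finset (Fin n)).finsuppAntidiag d,
      (w (Real.log ‖x‖)).coeff m * ∏ i, x.ofLp i ^ m i| ≤
      ∑ m ∈ (Finset.univ : Finset (Fin n)).finsuppAntidiag d,
        |(w (Real.log ‖x‖)).coeff m| * ‖x‖ ^ d := by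
    refine (Finset.abs_sum_le_sum_abs _ _).trans (Finset.sum_le_sum fun m hm => ?_)
    rw [abs_mul]
    refine mul_le_mul_of_nonneg_left ?_ (abs_nonneg _)
    rw [Finset.mem_finsuppAntidiag] at hm
    rw [Finset.abs_prod, ← hm.1, ← Finset.prod_pow_eq_pow_sum]
    refine Finset.prod_le_prod (fun i _ => abs_nonneg _) fun i _ => ?_
    rw [abs_pow]
    refine pow_le_pow_left₀ (abs_nonneg _) ?_ _
    have := PiLp.norm_apply_le x i
    rwa [Real.norm_eq_abs] at this
  rw [← Finset.sum_mul] at h1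
  have h2 : 0 ≤ ∑ m ∈ (Finset.univ : Finset (Fin n)).finsuppAntidiag d,
      |(w (Real.log ‖x‖)).coeff m| := Finset.sum_nonneg fun m _ => abs_nonneg _
  have h3 : (‖x‖ ^ d)⁻¹ * ‖x‖ ^ d ≤ 1 := inv_mul_le_one
  calc (‖x‖ ^ d)⁻¹ * |∑ m ∈ (Finset.univ : Finset (Fin n)).finsuppAntidiag d,
        (w (Real.log ‖x‖)).coeff m * ∏ i, x.ofLp i ^ m i|
      ≤ (‖x‖ ^ d)⁻¹ * ((∑ m ∈ (Finset.univ : Finset (Fin n)).finsuppAntidiag d,
        |(w (Real.log ‖x‖)).coeff m|) * ‖x‖ ^ d) :=
        mul_le_mul_of_nonneg_left h1 (by (clear * -; positivity))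
    _ = (∑ m ∈ (Finset.univ : Finset (Fin n)).finsuppAntidiag d,
        |(w (Real.log ‖x‖)).coeff m|) * ((‖x‖ ^ d)⁻¹ * ‖x‖ ^ d) := by ring
    _ ≤ _ := mul_le_of_le_one_right h2 h3

end Vale.Agent.P225.B
end
end

section

section

/-!
P225, module B4 (counting part), first part: the dimension numbers `Dpq`, their polynomial
bounds, and the incomplete Beta integrals `G j u = ∫_0^u (s(1-s))^j`.
-/

namespace Vale.Agent.P225.B4

open Finset

/-- The dimension number `D_{pq}` for `m = 20` (as a sum of three products, so that no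
truncated subtraction occurs). -/
def Dpq (p q : ℕ) : ℕ :=
  (19 + p).choose 19 * (19 + q).choose 19 + (19 + p).choose 19 * (19 + q).choose 20
    + (19 + p).choose 20 * (19 + q).choose 19

theorem choose_succ_add (p : ℕ) :
    (20 + p).choose 20 = (19 + p).choose 19 + (19 + p).choose 20 := by
  have : 20 + p = (19 + p) + 1 := by ring
  rw [this, Nat.choose_succ_succ]

/-- `D_{pq}` in the form of the blueprint. -/
theorem Dpq_eq (p q : ℕ) :
    Dpq p q = (20 + p).choose 20 * (20 + q).choose 20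
      - (19 + p).choose 20 * (19 + q).choose 20 := by
  rw [choose_succ_add, choose_succ_add, Dpq]
  symm
  apply Nat.sub_eq_of_eq_add
  ring

theorem p_mul_choose (p : ℕ) : p * (19 + p).choose 19 = 20 * (19 + p).choose 20 := by
  have h := Nat.choose_succ_right_eq (19 + p) 19
  have h2 : 19 + p - 19 = p := by omega
  rw [h2] at h
  linarith only [h]

theorem twenty_mul_Dpq (p q : ℕ) :
    20 * Dpq p q = (p + q + 20) * ((19 + p).choose 19 * (19 + q).choose 19) := by
  have hp := p_mul_choose p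
  have hq := p_mul_choose q
  unfold Dpq
  calc 20 * ((19 + p).choose 19 * (19 + q).choose 19 + (19 + p).choose 19 * (19 + q).choose 20
        + (19 + p).choose 20 * (19 + q).choose 19)
      = 20 * ((19 + p).choose 19 * (19 + q).choose 19)
        + (19 + p).choose 19 * (20 * (19 + q).choose 20)
        + (20 * (19 + p).choose 20) * (19 + q).choose 19 := by ring
    _ = _ := by rw [← hp, ← hq]; ring

theorem Dpq_pos (p q : ℕ) : 0 < Dpq p q := by
  unfold Dpq
  have h1 : 0 < (19 + p).choose 19 := Nat.choose_pos (by omega)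
  have h2 : 0 < (19 + q).choose 19 := Nat.choose_pos (by omega)
  positivity

/-- `desc p = (19+p)!/p!`. -/
theorem desc_eq (p : ℕ) :
    (19 + p).descFactorial 19 = Nat.factorial 19 * (19 + p).choose 19 :=
  Nat.descFactorial_eq_factorial_mul_choose _ _

theorem scaled_Dpq (p q : ℕ) :
    Dpq p q * 20 * (Nat.factorial 19) ^ 2
      = (p + q + 20) * ((19 + p).descFactorial 19 * (19 + q).descFactorial 19) := by
  rw [desc_eq, desc_eq]
  calc Dpq p q * 20 * (Nat.factorial 19) ^ 2
      = (20 * Dpq p q) * (Nat.factorial 19) ^ 2 := by ring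
    _ = _ := by rw [twenty_mul_Dpq]; ring

theorem desc_lower (p : ℕ) : (p + 1) ^ 19 ≤ (19 + p).descFactorial 19 := by
  have h := Nat.pow_sub_le_descFactorial (19 + p) 19
  have h2 : 19 + p + 1 - 19 = p + 1 := by omega
  rwa [h2] at h

theorem desc_upper (p : ℕ) : (19 + p).descFactorial 19 ≤ (p + 19) ^ 19 := by
  have h := Nat.descFactorial_le_pow (19 + p) 19
  rwa [add_comm 19 p] at h ⊢

theorem Dpq_lower (p q : ℕ) :
    (p + q + 20) * ((p + 1) ^ 19 * (q + 1) ^ 19) ≤ Dpq p q * 20 * (Nat.factorial 19) ^ 2 := by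
  rw [scaled_Dpq]
  exact Nat.mul_le_mul_left _ (Nat.mul_le_mul (desc_lower p) (desc_lower q))

theorem Dpq_upper (p q : ℕ) :
    Dpq p q * 20 * (Nat.factorial 19) ^ 2
      ≤ (p + q + 20) * ((p + 19) ^ 19 * (q + 19) ^ 19) := by
  rw [scaled_Dpq]
  exact Nat.mul_le_mul_left _ (Nat.mul_le_mul (desc_upper p) (desc_upper q))

/-! ### The integrals -/

/-- `G j u = ∫_0^u (s(1-s))^j ds`. -/
noncomputable def G (j : ℕ) (u : ℝ) : ℝ := ∫ s in (0 : ℝ)..u, (s * (1 - s)) ^ j

theorem G_eq (j : ℕ) (u : ℝ) :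
    G j u = ∑ i ∈ range (j + 1),
      (-1 : ℝ) ^ i * (j.choose i) * u ^ (j + i + 1) / ((j + i + 1 : ℕ) : ℝ) := by
  unfold G
  have h1 : ∀ s : ℝ, (s * (1 - s)) ^ j
      = ∑ i ∈ range (j + 1), (-1 : ℝ) ^ i * (j.choose i) * s ^ (j + i) := by
    intro s
    rw [mul_pow, sub_eq_add_neg, add_comm (1 : ℝ) (-s), add_pow, mul_sum]
    refine sum_congr rfl fun i _ => ?_
    rw [neg_pow s i, one_pow, pow_add]
    ring
  simp_rw [h1]
  rw [intervalIntegral.integral_finsetSum]
  · refine sum_congr rfl fun i _ => ?_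
    rw [intervalIntegral.integral_const_mul, integral_pow]
    have h0 : (0 : ℝ) ^ (j + i + 1) = 0 := by simp
    rw [h0, sub_zero, mul_div_assoc]
    push_cast
    ring
  · intro i _
    exact (Continuous.intervalIntegrable (by fun_prop) _ _)

theorem cont_f (j : ℕ) (c : ℝ) : Continuous (fun s : ℝ => (s * (c - s)) ^ j) := by
  fun_prop

theorem G_scale (j : ℕ) (d v : ℝ) :
    ∫ x in (0 : ℝ)..(d * v), (x * (d - x)) ^ j = d ^ (2 * j + 1) * G j v := by
  have h := intervalIntegral.smul_integral_comp_mul_left (a := 0) (b := v)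
    (f := fun x : ℝ => (x * (d - x)) ^ j) d
  rw [mul_zero] at h
  rw [← h, G, smul_eq_mul]
  have h2 : ∀ x : ℝ, (d * x * (d - d * x)) ^ j = d ^ (2 * j) * (x * (1 - x)) ^ j := by
    intro x
    rw [pow_mul, ← mul_pow]
    congr 1
    ring
  simp_rw [h2]
  rw [intervalIntegral.integral_const_mul, pow_succ]
  ring

theorem G_sub (j : ℕ) (u v : ℝ) :
    G j v - G j u = ∫ s in u..v, (s * (1 - s)) ^ j := by
  unfold G
  rw [intervalIntegral.integral_interval_sub_left]
  · exact ((cont_f j 1).intervalIntegrable _ _)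
  · exact ((cont_f j 1).intervalIntegrable _ _)

theorem G_lip (j : ℕ) {u v : ℝ} (hu : 0 ≤ u) (huv : u ≤ v) (hv : v ≤ 1) :
    G j v - G j u ≤ (v - u) * (1 / 4) ^ j := by
  rw [G_sub]
  have h1 : ∫ s in u..v, (s * (1 - s)) ^ j ≤ ∫ _s in u..v, ((1 : ℝ) / 4) ^ j := by
    apply intervalIntegral.integral_mono_on huv
    · exact ((cont_f j 1).intervalIntegrable _ _)
    · exact intervalIntegrable_const
    · intro s hs
      have hs0 : 0 ≤ s := hu.trans hs.1
      have hs1 : s ≤ 1 := hs.2.trans hv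
      apply pow_le_pow_left₀ (mul_nonneg hs0 (by linarith))
      linarith only [sq_nonneg (s - 1 / 2)]
  refine h1.trans (le_of_eq ?_)
  rw [intervalIntegral.integral_const, smul_eq_mul]

theorem G_mono (j : ℕ) {u v : ℝ} (hu : 0 ≤ u) (huv : u ≤ v) (hv : v ≤ 1) :
    G j u ≤ G j v := by
  have h : 0 ≤ G j v - G j u := by
    rw [G_sub]
    apply intervalIntegral.integral_nonneg huv
    intro s hs
    apply pow_nonneg
    exact mul_nonneg (hu.trans hs.1) (by linarith only [hv, hs.2])
  linarith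

theorem G_nonneg (j : ℕ) {u : ℝ} (hu : 0 ≤ u) (hu1 : u ≤ 1) : 0 ≤ G j u := by
  have := G_mono j le_rfl hu hu1
  have h0 : G j 0 = 0 := by simp [G]
  linarith

theorem mono_f (j : ℕ) (c : ℝ) {s : Set ℝ} (hs : s ⊆ Set.Icc 0 (c / 2)) :
    MonotoneOn (fun x : ℝ => (x * (c - x)) ^ j) s := by
  intro x hx y hy hxy
  have hx' := hs hx
  have hy' := hs hy
  have h0 : 0 ≤ x * (c - x) := mul_nonneg hx'.1 (by linarith [hx'.2, hx'.1])
  apply pow_le_pow_left₀ h0
  linarith only [mul_nonneg (sub_nonneg.2 hxy) (sub_nonneg.2 hy'.2), mul_nonneg (sub_nonneg.2 hxy) (sub_nonneg.2 hxy)]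

/-- lower Riemann bound -/
theorem sum_lower (j : ℕ) (d : ℝ) (n : ℕ) (hn : 2 * (n : ℝ) ≤ d) (hd : 0 < d) :
    d ^ (2 * j + 1) * G j (n / d)
      ≤ ∑ p ∈ range n, (((p : ℝ) + 1) * (d - ((p : ℝ) + 1))) ^ j := by
  rw [← G_scale]
  have hdn : d * (n / d) = n := by field_simp
  rw [hdn]
  have hmono : MonotoneOn (fun x : ℝ => (x * (d - x)) ^ j) (Set.Icc 0 (0 + (n : ℝ))) := by
    apply mono_f
    intro x hx
    exact ⟨hx.1, by have := hx.2; linarith only [hn, this]⟩
  have h := hmono.integral_le_sum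
  simp only [zero_add] at h
  refine h.trans (le_of_eq ?_)
  refine sum_congr rfl fun p _ => ?_
  push_cast
  ring

/-- upper Riemann bound -/
theorem sum_upper (j : ℕ) (c : ℝ) (n : ℕ) (hn : 2 * ((n : ℝ) + 19) ≤ c) (hc : 0 < c) :
    ∑ p ∈ range n, (((p : ℝ) + 19) * (c - ((p : ℝ) + 19))) ^ j
      ≤ c ^ (2 * j + 1) * G j (((n : ℝ) + 19) / c) := by
  rw [← G_scale]
  have hdn : c * (((n : ℝ) + 19) / c) = 19 + n := by field_simp; ring
  rw [hdn]
  have hmono : MonotoneOn (fun x : ℝ => (x * (c - x)) ^ j) (Set.Icc 19 (19 + (n : ℝ))) := by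
    apply mono_f
    intro x hx
    exact ⟨by have := hx.1; linarith only [this], by have := hx.2; linarith only [hn, this]⟩
  have h := hmono.sum_le_integral
  have h1 : ∑ p ∈ range n, (((p : ℝ) + 19) * (c - ((p : ℝ) + 19))) ^ j
      ≤ ∫ x in (19 : ℝ)..(19 + n), (x * (c - x)) ^ j := by
    refine (le_of_eq ?_).trans h
    refine sum_congr rfl fun p _ => ?_
    ring
  refine h1.trans ?_
  have hint : ∀ a b : ℝ, IntervalIntegrable (fun x : ℝ => (x * (c - x)) ^ j)
      MeasureTheory.volume a b := fun a b => (cont_f j c).intervalIntegrable a b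
  rw [← intervalIntegral.integral_add_adjacent_intervals (hint 0 19) (hint 19 (19 + n))]
  have : 0 ≤ ∫ x in (0 : ℝ)..19, (x * (c - x)) ^ j := by
    apply intervalIntegral.integral_nonneg (by norm_num)
    intro x hx
    apply pow_nonneg
    have hn0 : (0 : ℝ) ≤ n := Nat.cast_nonneg n
    exact mul_nonneg hx.1 (by linarith only [hn, hx.2])
  linarith only [this]

end Vale.Agent.P225.B4
end
end

section

section

/-!
# The Laplacian of `F(t) I + K(t) (Jx)(Jx)ᵀ`, `t = |x|²/2`
-/

open Filter Topology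
open scoped ContDiff

namespace Vale.Agent.P225

open RMetric

namespace B

variable {n : ℕ}

theorem det_GG {J : Matrix (Fin n) (Fin n) ℝ} (hJ : IsJ J) (F K : ℝ → ℝ) (x : Rn n)
    (h1 : F (tt x) ≠ 0) :
    (GG J F K x).det = F (tt x) ^ n * ((F (tt x) + 2 * tt x * K (tt x)) / F (tt x)) := by
  set f := F (tt x) with hf
  set κ := K (tt x) with hκ
  set t := tt x with ht
  have e1 : GG J F K x = f • (1 + Matrix.replicateCol Unit (fun i => κ / f * yy J x i) *
      Matrix.replicateRow Unit (fun i => yy J x i)) := by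
    ext i j
    simp only [GG, Matrix.of_apply, Matrix.smul_apply, Matrix.add_apply, Matrix.one_apply,
      Matrix.mul_apply, Matrix.replicateCol_apply, Matrix.replicateRow_apply, smul_eq_mul,
      Finset.univ_unique, Finset.sum_const, Finset.card_singleton, one_smul]
    rw [← hf, ← hκ]
    (clear * - h1; field_simp)
  rw [e1, Matrix.det_smul, Matrix.det_one_add_replicateCol_mul_replicateRow, Fintype.card_fin]
  congr 1
  have e2 : (fun i => yy J x i) ⬝ᵥ (fun i => κ / f * yy J x i) = κ / f * (2 * t) := by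
    rw [← sum_yy hJ x, dotProduct, Finset.mul_sum]
    apply Finset.sum_congr rfl; intro i _; ring
  rw [e2]
  field_simp

/-- The Laplacian of the model metric. -/
theorem lap_GG {g : RMetric n} {J : Matrix (Fin n) (Fin n) ℝ} (hJ : IsJ J) {F K : ℝ → ℝ}
    {x : Rn n} (hg : g.G =ᶠ[𝓝 x] GG J F K) (hF : ∀ᶠ t in 𝓝 (tt x), DifferentiableAt ℝ F t)
    (hK : DifferentiableAt ℝ K (tt x))
    (hF0 : 0 < F (tt x)) (hP0 : 0 < F (tt x) + 2 * tt x * K (tt x)) {u : Rn n → ℝ}
    (hu : ContDiffAt ℝ 2 u x) :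
    g.lap u x = (F (tt x))⁻¹ * (∑ i, pd i (pd i u) x +
      (((n : ℝ) - 3) * (deriv F (tt x) / F (tt x)) +
        deriv (fun t => F t + 2 * t * K t) (tt x) / (F (tt x) + 2 * tt x * K (tt x))) / 2 *
          ∑ i, x i * pd i u x -
      K (tt x) / (F (tt x) + 2 * tt x * K (tt x)) *
        ∑ i, yy J x i * pd i (fun y => ∑ j, yy J y j * pd j u y) x) := by
  have dF : DifferentiableAt ℝ F (tt x) := hF.self_of_nhds
  have ct : ContinuousAt (tt : Rn n → ℝ) x := (diff_tt x).continuousAt
  have hFt : ∀ᶠ t in 𝓝 (tt x), 0 < F t := dF.continuousAt.eventually (lt_mem_nhds hF0)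
  have dP : DifferentiableAt ℝ (fun t => F t + 2 * t * K t) (tt x) := by fun_prop
  have hPt : ∀ᶠ t in 𝓝 (tt x), 0 < F t + 2 * t * K t :=
    dP.continuousAt.eventually (lt_mem_nhds hP0)
  set P : ℝ → ℝ := fun t => F t + 2 * t * K t with hPdef
  set Dn : ℝ → ℝ := fun t => √(F t ^ n * (P t / F t)) with hDn
  set b : ℝ → ℝ := fun t => K t / (F t * P t) with hb
  set ξ : Rn n → ℝ := fun y => ∑ j, yy J y j * pd j u y with hξ
  -- differentiability of the derivatives of u
  have hpdu : ∀ i, DifferentiableAt ℝ (pd i u) x := by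
    intro i
    have h1 : ContDiffAt ℝ 1 (fderiv ℝ u) x := hu.fderiv_right (by norm_num)
    have h2 : DifferentiableAt ℝ (fderiv ℝ u) x := h1.differentiableAt (by norm_num)
    exact h2.clm_apply (differentiableAt_const _)
  have hξd : DifferentiableAt ℝ ξ x := by
    simp only [hξ]
    refine DifferentiableAt.fun_sum fun j _ => ?_
    exact (diff_yy J j x).mul (hpdu j)
  -- the density
  have hDpos : 0 < F (tt x) ^ n * (P (tt x) / F (tt x)) :=
    mul_pos (pow_pos hF0 n) (div_pos hP0 hF0)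
  have hDd : DifferentiableAt ℝ Dn (tt x) := by
    simp only [hDn]
    refine DifferentiableAt.sqrt ?_ hDpos.ne'
    exact (dF.pow n).mul (dP.div dF hF0.ne')
  have hDn0 : 0 < Dn (tt x) := Real.sqrt_pos.2 hDpos
  have hDderiv : deriv Dn (tt x) = Dn (tt x) * ((((n : ℝ) - 1) * (deriv F (tt x) / F (tt x)) +
      deriv P (tt x) / P (tt x)) / 2) := by
    have h1 : HasDerivAt (fun t => F t ^ n * (P t / F t))
        ((F (tt x) ^ n * (P (tt x) / F (tt x))) * (((n : ℝ) - 1) * (deriv F (tt x) / F (tt x)) +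
          deriv P (tt x) / P (tt x))) (tt x) := by
      have h2 := (dF.hasDerivAt.pow n).mul (dP.hasDerivAt.div dF.hasDerivAt hF0.ne')
      refine h2.congr_deriv ?_
      have hF0' := hF0.ne'
      have hP0' : P (tt x) ≠ 0 := hP0.ne'
      rcases Nat.eq_zero_or_pos n with hn | hn
      · subst hn
        simp only [Nat.cast_zero, pow_zero, Pi.one_apply, Pi.div_apply]
        field_simp
        ring
      · obtain ⟨k, rfl⟩ : ∃ k, n = k + 1 := ⟨n - 1, by omega⟩
        simp only [Nat.add_sub_cancel, Pi.pow_apply, Pi.div_apply]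
        push_cast
        field_simp
        ring
    have h3 := h1.sqrt hDpos.ne'
    rw [show Dn = fun t => √(F t ^ n * (P t / F t)) from rfl, h3.deriv]
    have h4 : √(F (tt x) ^ n * (P (tt x) / F (tt x))) * √(F (tt x) ^ n * (P (tt x) / F (tt x))) =
        F (tt x) ^ n * (P (tt x) / F (tt x)) := Real.mul_self_sqrt hDpos.le
    have h5 : √(F (tt x) ^ n * (P (tt x) / F (tt x))) ≠ 0 := hDn0.ne'
    rw [div_eq_iff (mul_ne_zero two_ne_zero h5)]
    calc _ = (√(F (tt x) ^ n * (P (tt x) / F (tt x))) *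
          √(F (tt x) ^ n * (P (tt x) / F (tt x)))) *
          (((n : ℝ) - 1) * (deriv F (tt x) / F (tt x)) + deriv P (tt x) / P (tt x)) := by rw [h4]
      _ = _ := by ring
  -- local formula
  have hloc : ∀ i, (fun y => g.dens y * ∑ j, (g.G y)⁻¹ i j * pd j u y) =ᶠ[𝓝 x]
      fun y => Dn (tt y) * ((F (tt y))⁻¹ * pd i u y - b (tt y) * (yy J y i * ξ y)) := by
    intro i
    filter_upwards [hg, ct.eventually hFt, ct.eventually hPt] with y hy hFy hPy
    have e1 : g.dens y = Dn (tt y) := by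
      unfold RMetric.dens
      rw [hy, det_GG hJ F K y hFy.ne']
    rw [e1, hy, GG_inv hJ F K y hFy.ne' hPy.ne']
    congr 1
    simp only [Matrix.of_apply, hξ, hb]
    have e2 : ∀ j, ((F (tt y))⁻¹ * (if i = j then 1 else 0) -
        K (tt y) / (F (tt y) * (F (tt y) + 2 * tt y * K (tt y))) * (yy J y i * yy J y j)) *
        pd j u y = (F (tt y))⁻¹ * (if i = j then pd j u y else 0) -
        K (tt y) / (F (tt y) * P (tt y)) * yy J y i * (yy J y j * pd j u y) := by
      intro j
      have : P (tt y) = F (tt y) + 2 * tt y * K (tt y) := rfl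
      rw [this]
      split_ifs <;> ring
    rw [Finset.sum_congr rfl (fun j _ => e2 j), Finset.sum_sub_distrib, ← Finset.mul_sum,
      ← Finset.mul_sum, Finset.sum_ite_eq]
    simp only [Finset.mem_univ, if_true]
    ring
  -- derivative of the local formula
  have dFi : DifferentiableAt ℝ (fun t => (F t)⁻¹) (tt x) := dF.inv hF0.ne'
  have db : DifferentiableAt ℝ b (tt x) := by
    simp only [hb]
    exact hK.div (dF.mul dP) (mul_pos hF0 hP0).ne'
  have DF : DifferentiableAt ℝ (fun y : Rn n => (F (tt y))⁻¹) x :=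
    DifferentiableAt.comp (g := fun t => (F t)⁻¹) x dFi (diff_tt x)
  have DD : DifferentiableAt ℝ (fun y : Rn n => Dn (tt y)) x :=
    DifferentiableAt.comp (g := Dn) x hDd (diff_tt x)
  have Db : DifferentiableAt ℝ (fun y : Rn n => b (tt y)) x :=
    DifferentiableAt.comp (g := b) x db (diff_tt x)
  have hpd : ∀ i, pd i (fun y => g.dens y * ∑ j, (g.G y)⁻¹ i j * pd j u y) x =
      deriv Dn (tt x) * (F (tt x))⁻¹ * (x i * pd i u x) -
      deriv Dn (tt x) * b (tt x) * ξ x * (x i * yy J x i) +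
      Dn (tt x) * deriv (fun t => (F t)⁻¹) (tt x) * (x i * pd i u x) +
      Dn (tt x) * (F (tt x))⁻¹ * pd i (pd i u) x -
      Dn (tt x) * deriv b (tt x) * ξ x * (x i * yy J x i) -
      Dn (tt x) * b (tt x) * (yy J x i * pd i ξ x) := by
    intro i
    have hyi := diff_yy J i x
    have E1 : DifferentiableAt ℝ (fun y => (F (tt y))⁻¹ * pd i u y) x := DF.mul (hpdu i)
    have E2 : DifferentiableAt ℝ (fun y => yy J y i * ξ y) x := hyi.mul hξd
    have E3 : DifferentiableAt ℝ (fun y => b (tt y) * (yy J y i * ξ y)) x := Db.mul E2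
    have E4 : DifferentiableAt ℝ (fun y => (F (tt y))⁻¹ * pd i u y -
      b (tt y) * (yy J y i * ξ y)) x := E1.sub E3
    rw [pd_congr (hloc i), pd_mul DD E4, pd_sub E1 E3, pd_mul DF (hpdu i), pd_mul Db E2,
      pd_mul hyi hξd, pd_comp_tt i x hDd, pd_comp_tt (F := fun t => (F t)⁻¹) i x dFi,
      pd_comp_tt i x db, pd_yy, hJ.diag i]
    ring
  have e0 : g.dens x = Dn (tt x) := by
    unfold RMetric.dens
    rw [hg.self_of_nhds, det_GG hJ F K x hF0.ne']
  unfold RMetric.lap
  rw [Finset.sum_congr rfl (fun i _ => hpd i), e0]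
  simp only [Finset.sum_sub_distrib, Finset.sum_add_distrib, ← Finset.mul_sum]
  have hxy : ∑ k, x k * yy J x k = 0 := sum_xy hJ x
  have e3 : deriv (fun t => (F t)⁻¹) (tt x) = - (F (tt x))⁻¹ * (deriv F (tt x) / F (tt x)) := by
    rw [(dF.hasDerivAt.fun_inv hF0.ne').deriv]
    (clear * - hF0; field_simp)
  rw [hxy, hDderiv, e3]
  have e4 : b (tt x) = (F (tt x))⁻¹ * (K (tt x) / P (tt x)) := by
    simp only [hb]
    (clear * - hF0; field_simp)
  rw [e4]
  have e5 : (Dn (tt x))⁻¹ * Dn (tt x) = 1 := inv_mul_cancel₀ hDn0.ne'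
  set S1 := ∑ i, x i * pd i u x
  set S2 := ∑ i, pd i (pd i u) x
  set S3 := ∑ i, yy J x i * pd i ξ x
  set dn := Dn (tt x)
  calc _ = (dn⁻¹ * dn) * ((F (tt x))⁻¹ * (S2 +
      (((n : ℝ) - 3) * (deriv F (tt x) / F (tt x)) + deriv P (tt x) / P (tt x)) / 2 * S1 -
      K (tt x) / P (tt x) * S3)) := by ring
    _ = _ := by rw [e5, one_mul]

end B

end Vale.Agent.P225
end
end
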