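import Vale.Agent.P225.MathlibUsed
import Vale.Agent.P225.Bdl.B2
import Vale.Agent.P225.Bdl.B1

set_option linter.all false

section

section

/-! P225, blueprint B2-D5: transfer coefficients of a home block. -/

namespace Vale.Agent.P225.B

open Set Real

namespace IsSol

variable {p Q w dw w₂ dw₂ : ℝ → ℝ} {a b : ℝ}

/-- zero data give the zero solution -/
theorem eq_zero (h : IsSol p Q w dw a b) {K : ℝ} (hp : ∀ t ∈ Icc a b, |p t| ≤ K)
    (hQ : ∀ t ∈ Icc a b, |Q t| ≤ K) (h0 : w a = 0) (h1 : dw a = 0) :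
    ∀ t ∈ Icc a b, w t = 0 ∧ dw t = 0 := by
  intro t ht
  have hab : a ≤ b := ht.1.trans ht.2
  set lam := 1 + 3 * K with hlam
  have hd : ∀ t ∈ Icc a b, HasDerivAt (fun t => exp (-(lam * t)) * (w t * w t + dw t * dw t))
      (exp (-(lam * t)) * (-lam) * (w t * w t + dw t * dw t) + exp (-(lam * t)) *
        ((dw t * w t + w t * dw t) +
          ((Q t * w t - p t * dw t) * dw t + dw t * (Q t * w t - p t * dw t)))) t := by
    intro t ht
    have h1 : HasDerivAt (fun t => -(lam * t)) (-lam) t := by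
      have := ((hasDerivAt_id t).const_mul lam).neg
      rw [mul_one] at this
      exact this
    exact h1.exp.mul (((h.d1 t ht).mul (h.d1 t ht)).add ((h.d2 t ht).mul (h.d2 t ht)))
  have hanti : AntitoneOn (fun t => exp (-(lam * t)) * (w t * w t + dw t * dw t)) (Icc a b) := by
    refine antitoneOn_of_deriv_nonpos (convex_Icc a b)
      (fun t ht => (hd t ht).continuousAt.continuousWithinAt)
      (fun t ht => (hd t (interior_subset ht)).differentiableAt.differentiableWithinAt)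
      fun t ht => ?_
    rw [(hd t (interior_subset ht)).deriv]
    have e1 := abs_le.mp (hp t (interior_subset ht))
    have e2 := abs_le.mp (hQ t (interior_subset ht))
    have e3 := exp_pos (-(lam * t))
    have e4 : (dw t * w t + w t * dw t) +
          ((Q t * w t - p t * dw t) * dw t + dw t * (Q t * w t - p t * dw t))
          ≤ lam * (w t * w t + dw t * dw t) := by
      have hK : 0 ≤ K := (abs_nonneg _).trans (hp t (interior_subset ht))
      have f1 : 2 * (w t * dw t) ≤ w t * w t + dw t * dw t := by linarith only [sq_nonneg (w t - dw t)]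
      have f2 : 2 * (Q t * (w t * dw t)) ≤ K * (w t * w t + dw t * dw t) := by
        have g1 : |Q t * (w t * dw t)| ≤ K * |w t * dw t| := by
          rw [abs_mul]
          exact mul_le_mul_of_nonneg_right (hQ t (interior_subset ht)) (abs_nonneg _)
        have g2 : 2 * |w t * dw t| ≤ w t * w t + dw t * dw t := by
          rw [abs_mul]
          linarith only [abs_mul_abs_self (dw t), abs_mul_abs_self (w t), sq_nonneg (|w t| - |dw t|)]
        have g3 := le_abs_self (Q t * (w t * dw t))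
        nlinarith only [g1, g3, e1, g2]
      have f3 : -(2 * (p t * (dw t * dw t))) ≤ 2 * K * (dw t * dw t) := by
        nlinarith only [e1]
      rw [hlam]
      nlinarith only [f1, f2, e1]
    linarith only [mul_nonneg (le_of_lt (sub_pos.2 e3)) (sub_nonneg.2 e4)]
  have h2 := hanti (left_mem_Icc.mpr hab) ht ht.1
  simp only [h0, h1, mul_zero, add_zero] at h2
  have h3 := exp_pos (-(lam * t))
  have h4 : w t * w t + dw t * dw t ≤ 0 := by
    by_contra hneg
    push Not at hneg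
    have := mul_pos h3 hneg
    linarith only [h2, this]
  constructor <;> nlinarith only [h4]

end IsSol

/-- the transfer coefficients of a home block. -/
theorem home_block {s ss S SS K p₀ : ℝ} (hs : 0 < s) (hss : 0 < ss) (_hS : 0 < S) (hSS : 0 < SS)
    (hK : 0 < K) (hp₀ : 0 < p₀) :
    ∃ C : ℝ, 0 < C ∧ ∀ (p Q : ℝ → ℝ) (t₁ u₁ u₂ r₁ t₃ ε : ℝ), Continuous p →
      t₁ ≤ u₁ → u₁ ≤ u₂ → u₂ ≤ r₁ → r₁ ≤ t₃ → 0 ≤ ε → ε ≤ 1 →
      (∀ t ∈ Icc t₁ t₃, 0 ≤ Q t ∧ Q t ≤ K ∧ p₀ ≤ p t ∧ p t ≤ K) →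
      (∀ t ∈ Icc u₁ u₂, |Q t - S * SS| ≤ ε ∧ |p t - (SS - S)| ≤ ε) →
      (∀ t ∈ Icc r₁ t₃, |Q t - s * ss| ≤ ε ∧ |p t - (ss - s)| ≤ ε) →
      ∀ w₁ dw₁ w₂ dw₂ : ℝ → ℝ, IsSol p Q w₁ dw₁ t₁ t₃ → IsSol p Q w₂ dw₂ t₁ t₃ →
        w₁ t₁ = (s + ss)⁻¹ → dw₁ t₁ = (s + ss)⁻¹ * s →
        w₂ t₁ = -(s + ss)⁻¹ → dw₂ t₁ = (s + ss)⁻¹ * ss →
        ∀ A A' B B' : ℝ, A = dw₁ t₃ + ss * w₁ t₃ → A' = dw₁ t₃ - s * w₁ t₃ →
          B = dw₂ t₃ + ss * w₂ t₃ → B' = dw₂ t₃ - s * w₂ t₃ →
          C⁻¹ ≤ A ∧ |B| ≤ C * A ∧ |A'| ≤ C * (exp (-((s + ss) * (t₃ - r₁))) + ε) * A ∧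
          |A * B' - A' * B| ≤ exp (-(p₀ * (t₃ - t₁))) ∧
          A ≤ exp (S * (u₂ - u₁) + C * ε * (u₂ - u₁) + C * (1 + (u₁ - t₁) + (t₃ - u₂))) ∧
          ∀ w dw : ℝ → ℝ, IsSol p Q w dw t₁ t₃ →
            dw t₃ + ss * w t₃ = A * (dw t₁ + ss * w t₁) + B * (dw t₁ - s * w t₁) ∧
            dw t₃ - s * w t₃ = A' * (dw t₁ + ss * w t₁) + B' * (dw t₁ - s * w t₁) := by
  set κ := (s + ss)⁻¹ with hκ
  have hκ0 : 0 < κ := by (clear * - hs hss; positivity)
  have hκ1 : κ * (s + ss) = 1 := inv_mul_cancel₀ (by positivity)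
  set G := s + (K + ss) * (1 + 1 / ss) with hG
  have hG0 : 0 < G := by positivity
  set C₁ := (ss * κ)⁻¹ with hC₁
  set C₂ := 2 + ss / s with hC₂
  set C₃ := 1 + s / ss with hC₃
  set C₄ := (1 + 1 / ss) * (2 + s / ss) / (s + ss) with hC₄
  set C₅ := 1 + 1 / SS with hC₅
  set C₆ := (1 + ss / SS) * (1 + SS / ss) with hC₆
  have hC₁0 : 0 < C₁ := by positivity
  have hC₂0 : 0 < C₂ := by positivity
  have hC₃0 : 0 < C₃ := by positivity
  have hC₄0 : 0 < C₄ := by positivity
  have hC₅0 : 0 < C₅ := by positivity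
  have hC₆0 : 0 < C₆ := by positivity
  refine ⟨C₁ + C₂ + C₃ + C₄ + C₅ + C₆ + G, by positivity, ?_⟩
  set C := C₁ + C₂ + C₃ + C₄ + C₅ + C₆ + G with hC
  have hC0 : 0 < C := by positivity
  intro p Q t₁ u₁ u₂ r₁ t₃ ε hpc h1 h2 h3 h4 hε hε1 hb hpl hre w₁ dw₁ w₂ dw₂ hw₁ hw₂ i1 i2 i3 i4
    A A' B B' hA hA' hB hB'
  have h13 : t₁ ≤ t₃ := by linarith only [h1, h2, h3, h4]
  have hQ0 : ∀ t ∈ Icc t₁ t₃, 0 ≤ Q t := fun t ht => (hb t ht).1
  have hpos := hw₁.pos hpc hQ0 (by rw [i1]; exact hκ0) (by rw [i2]; positivity)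
  have hwp : ∀ t ∈ Icc t₁ t₃, 0 < w₁ t := fun t ht => by
    have := (hpos t ht).1
    rw [i1] at this
    linarith only [hκ0, this]
  have hdp : ∀ t ∈ Icc t₁ t₃, 0 ≤ dw₁ t := fun t ht => (hpos t ht).2
  have m3 : t₃ ∈ Icc t₁ t₃ := right_mem_Icc.mpr h13
  have hAlow : ss * κ ≤ A := by
    have e1 := (hpos t₃ m3).1
    rw [i1] at e1
    have e2 := hdp t₃ m3
    have e3 := mul_le_mul_of_nonneg_left e1 hss.le
    rw [hA]
    linarith only [e2, e3]
  have hA0 : 0 < A := lt_of_lt_of_le (by positivity) hAlow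
  refine ⟨?_, ?_, ?_, ?_, ?_, ?_⟩
  · calc C⁻¹ ≤ C₁⁻¹ := by
          apply inv_anti₀ hC₁0
          rw [hC]
          (clear * - hG0 hC₂0 hC₃0 hC₄0 hC₅0 hC₆0; linarith)
      _ = ss * κ := by rw [hC₁, inv_inv]
      _ ≤ A := hAlow
  · -- |B| ≤ C₂ A
    have key : ∀ e : ℝ, (e = 1 ∨ e = -1) → 0 ≤ C₂ * A + e * B := by
      intro e he
      have hl := hw₁.lin hw₂ C₂ e
      have f1 : 0 < C₂ * w₁ t₁ + e * w₂ t₁ := by
        rw [i1, i3]
        have : C₂ * κ = 2 * κ + ss / s * κ := by rw [hC₂]; ring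
        have g : 0 < ss / s * κ := by positivity
        rcases he with rfl | rfl <;> rw [this] <;> linarith only [hκ0, g]
      have f2 : 0 ≤ C₂ * dw₁ t₁ + e * dw₂ t₁ := by
        rw [i2, i4]
        have : C₂ * (κ * s) = 2 * (κ * s) + κ * ss := by
          rw [hC₂]
          (clear * - hs hκ0 hss; field_simp)
        have g1 : 0 < κ * s := by positivity
        have g2 : 0 < κ * ss := by positivity
        rcases he with rfl | rfl <;> rw [this] <;> linarith only [g1, hκ1]
      have f3 := hl.pos hpc hQ0 f1 f2 t₃ m3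
      have f4 : 0 ≤ C₂ * w₁ t₃ + e * w₂ t₃ := f1.le.trans f3.1
      have f5 := f3.2
      have f6 := mul_nonneg hss.le f4
      rw [hA, hB]
      linarith only [f3, f6]
    have k1 := key 1 (Or.inl rfl)
    have k2 := key (-1) (Or.inr rfl)
    have : |B| ≤ C₂ * A := abs_le.mpr ⟨by linarith only [k1], by linarith only [k2]⟩
    refine this.trans (mul_le_mul_of_nonneg_right ?_ hA0.le)
    rw [hC]
    linarith only [hG0, hC₁0, hC₃0, hC₄0, hC₅0, hC₆0]
  · -- ratio
    have hr := (hw₁.mono (c := r₁) (d := t₃) (by linarith only [h1, h2, h3]) le_rfl).ratio_le hs hss h4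
      (fun t ht => hwp t ⟨by linarith only [h1, h2, h3, ht.1], ht.2⟩) (fun t ht => hdp t ⟨by linarith only [h1, h2, h3, ht.1], ht.2⟩)
      (fun t ht => (hre t ht).1) (fun t ht => (hre t ht).2)
    rw [← hA, ← hA'] at hr
    refine hr.trans (mul_le_mul_of_nonneg_right ?_ hA0.le)
    have e1 := exp_pos (-((s + ss) * (t₃ - r₁)))
    have e2 : exp (-((s + ss) * (t₃ - r₁))) * C₃ ≤ C * exp (-((s + ss) * (t₃ - r₁))) := by
      rw [mul_comm]
      apply mul_le_mul_of_nonneg_right _ e1.le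
      rw [hC]
      linarith only [hG0, hC₁0, hC₂0, hC₄0, hC₅0, hC₆0]
    have e3 : ε * (1 + 1 / ss) * (2 + s / ss) / (s + ss) = C₄ * ε := by rw [hC₄]; ring
    have e4 : C₄ * ε ≤ C * ε := by
      apply mul_le_mul_of_nonneg_right _ hε
      rw [hC]
      linarith only [hG0, hC₁0, hC₂0, hC₃0, hC₅0, hC₆0]
    rw [e3]
    linarith only [e2, e4]
  · -- Wronskian
    have hW := hw₁.wronskian hw₂ hpc h13
    have e1 : A * B' - A' * B = (s + ss) * (w₁ t₃ * dw₂ t₃ - dw₁ t₃ * w₂ t₃) := by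
      rw [hA, hA', hB, hB']
      ring
    have e2 : w₁ t₁ * dw₂ t₁ - dw₁ t₁ * w₂ t₁ = κ * (κ * (s + ss)) := by
      rw [i1, i2, i3, i4]
      ring
    rw [hκ1, mul_one] at e2
    rw [e1, hW, e2, ← mul_assoc, mul_comm (s + ss) κ, hκ1, one_mul, abs_of_pos (exp_pos _)]
    apply exp_le_exp.mpr
    have e3 : ∫ u in t₁..t₃, p₀ ≤ ∫ u in t₁..t₃, p u :=
      intervalIntegral.integral_mono_on h13 (by simp) (hpc.intervalIntegrable _ _)
        (fun t ht => (hb t ht).2.2.1)
    rw [intervalIntegral.integral_const, smul_eq_mul] at e3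
    linarith only [e3]
  · -- growth
    have rough : ∀ c d, t₁ ≤ c → c ≤ d → d ≤ t₃ →
        dw₁ d + ss * w₁ d ≤ (dw₁ c + ss * w₁ c) * exp (G * (d - c)) := by
      intro c d hc hcd hd
      refine (hw₁.mono hc hd).growth_le (s := s) (ε := K + ss) hss (by positivity) hcd
        (fun t ht => (hwp t ⟨hc.trans ht.1, ht.2.trans hd⟩).le)
        (fun t ht => hdp t ⟨hc.trans ht.1, ht.2.trans hd⟩)
        (fun t ht => ?_) (fun t ht => ?_)
      · have := (hb t ⟨hc.trans ht.1, ht.2.trans hd⟩).2.1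
        have e : 0 ≤ s * ss := by positivity
        linarith only [hss, this, e]
      · have := (hb t ⟨hc.trans ht.1, ht.2.trans hd⟩).2.2.1
        linarith only [hs, hK, hp₀, this]
    have g1 := rough t₁ u₁ le_rfl h1 (by linarith only [h2, h3, h4])
    have g3 := rough u₂ t₃ (by linarith only [h1, h2]) (by linarith only [h3, h4]) le_rfl
    have g2 := (hw₁.mono (c := u₁) (d := u₂) h1 (by linarith only [h3, h4])).growth_le (s := S) (ss := SS)
      (ε := ε) hSS hε h2
      (fun t ht => (hwp t ⟨by linarith only [h1, ht.1], by linarith only [h3, h4, ht.2]⟩).le)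
      (fun t ht => hdp t ⟨by linarith only [h1, ht.1], by linarith only [h3, h4, ht.2]⟩)
      (fun t ht => by linarith only [(abs_le.mp (hpl t ht).1).2])
      (fun t ht => by linarith only [(abs_le.mp (hpl t ht).2).1])
    have g0 : dw₁ t₁ + ss * w₁ t₁ = 1 := by
      rw [i1, i2, ← hκ1]
      ring
    rw [g0, one_mul] at g1
    have mu1 : u₁ ∈ Icc t₁ t₃ := ⟨h1, by linarith only [h2, h3, h4]⟩
    have mu2 : u₂ ∈ Icc t₁ t₃ := ⟨by linarith only [h1, h2], by linarith only [h3, h4]⟩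
    have k1 : dw₁ u₁ + SS * w₁ u₁ ≤ (1 + SS / ss) * (dw₁ u₁ + ss * w₁ u₁) := by
      have e1 := hwp u₁ mu1
      have e2 := hdp u₁ mu1
      have : (1 + SS / ss) * (dw₁ u₁ + ss * w₁ u₁)
          = dw₁ u₁ + SS * w₁ u₁ + (SS / ss * dw₁ u₁ + ss * w₁ u₁) := by
        field_simp
        ring
      rw [this]
      have : 0 ≤ SS / ss * dw₁ u₁ + ss * w₁ u₁ := by (clear * - hSS hss e2 e1; positivity)
      linarith only [this]
    have k2 : dw₁ u₂ + ss * w₁ u₂ ≤ (1 + ss / SS) * (dw₁ u₂ + SS * w₁ u₂) := by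
      have e1 := hwp u₂ mu2
      have e2 := hdp u₂ mu2
      have : (1 + ss / SS) * (dw₁ u₂ + SS * w₁ u₂)
          = dw₁ u₂ + ss * w₁ u₂ + (ss / SS * dw₁ u₂ + SS * w₁ u₂) := by
        field_simp
        ring
      rw [this]
      have : 0 ≤ ss / SS * dw₁ u₂ + SS * w₁ u₂ := by (clear * - hss hSS e2 e1; positivity)
      linarith only [this]
    set lam := (S + ε * (1 + 1 / SS)) * (u₂ - u₁) with hlam
    have tot : A ≤ C₆ * exp (G * (u₁ - t₁) + lam + G * (t₃ - u₂)) := by
      rw [hA, exp_add, exp_add]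
      calc dw₁ t₃ + ss * w₁ t₃ ≤ (dw₁ u₂ + ss * w₁ u₂) * exp (G * (t₃ - u₂)) := g3
        _ ≤ ((1 + ss / SS) * (dw₁ u₂ + SS * w₁ u₂)) * exp (G * (t₃ - u₂)) := by (clear * - k2; gcongr)
        _ ≤ ((1 + ss / SS) * ((dw₁ u₁ + SS * w₁ u₁) * exp lam)) * exp (G * (t₃ - u₂)) := by
            (clear * - g2 hss hSS; gcongr)
        _ ≤ ((1 + ss / SS) * (((1 + SS / ss) * (dw₁ u₁ + ss * w₁ u₁)) * exp lam))
              * exp (G * (t₃ - u₂)) := by (clear * - k1 hss hSS; gcongr)
        _ ≤ ((1 + ss / SS) * (((1 + SS / ss) * exp (G * (u₁ - t₁))) * exp lam))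
              * exp (G * (t₃ - u₂)) := by (clear * - g1 hSS hss; gcongr)
        _ = C₆ * (exp (G * (u₁ - t₁)) * exp lam * exp (G * (t₃ - u₂))) := by
            rw [hC₆]
            ring
    have hC6e : C₆ ≤ exp C₆ := by linarith only [add_one_le_exp C₆]
    have e6 : C₆ + (G * (u₁ - t₁) + lam + G * (t₃ - u₂)) ≤
        S * (u₂ - u₁) + C * ε * (u₂ - u₁) + C * (1 + (u₁ - t₁) + (t₃ - u₂)) := by
      have d1 : 0 ≤ u₁ - t₁ := by linarith only [h1]
      have d2 : 0 ≤ t₃ - u₂ := by linarith only [h3, h4]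
      have d3 : 0 ≤ u₂ - u₁ := by linarith only [h2]
      have e1 : C₆ ≤ C * 1 := by rw [hC]; (clear * - hG0 hC₁0 hC₂0 hC₃0 hC₄0 hC₅0; linarith)
      have e2 : G * (u₁ - t₁) ≤ C * (u₁ - t₁) :=
        mul_le_mul_of_nonneg_right (by rw [hC]; linarith only [hC₁0, hC₂0, hC₃0, hC₄0, hC₅0, hC₆0]) d1
      have e3 : G * (t₃ - u₂) ≤ C * (t₃ - u₂) :=
        mul_le_mul_of_nonneg_right (by rw [hC]; linarith only [hC₁0, hC₂0, hC₃0, hC₄0, hC₅0, hC₆0]) d2
      have e4 : C₅ * (ε * (u₂ - u₁)) ≤ C * (ε * (u₂ - u₁)) :=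
        mul_le_mul_of_nonneg_right (by rw [hC]; linarith only [hG0, hC₁0, hC₂0, hC₃0, hC₄0, hC₆0]) (mul_nonneg hε d3)
      have e5 : lam = S * (u₂ - u₁) + C₅ * (ε * (u₂ - u₁)) := by
        rw [hlam, hC₅]
        ring
      rw [e5]
      linarith only [hG0, hC₁0, hC₂0, hC₃0, hC₄0, hC₅0, e2, e3, e4]
    have e7 : C₆ * exp (G * (u₁ - t₁) + lam + G * (t₃ - u₂)) ≤
        exp (C₆ + (G * (u₁ - t₁) + lam + G * (t₃ - u₂))) := by
      rw [exp_add C₆]
      exact mul_le_mul_of_nonneg_right hC6e (exp_pos _).le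
    exact (tot.trans e7).trans (exp_le_exp.mpr e6)
  · intro w dw hw
    have hl := (hw.lin hw₁ 1 (-(dw t₁ + ss * w t₁))).lin hw₂ 1 (-(dw t₁ - s * w t₁))
    have hK' : 0 ≤ K := hK.le
    have hz := hl.eq_zero (K := K)
      (fun t ht => by
        have := hb t ht
        rw [abs_of_nonneg (by linarith only [hp₀, this])]
        exact this.2.2.2)
      (fun t ht => by
        have := hb t ht
        rw [abs_of_nonneg this.1]
        exact this.2.1)
      (by
        rw [i1, i3]
        linear_combination w t₁ * (-hκ1))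
      (by
        rw [i2, i4]
        linear_combination dw t₁ * (-hκ1)) t₃ m3
    obtain ⟨z1, z2⟩ := hz
    rw [hA, hA', hB, hB']
    constructor
    · linear_combination z2 + ss * z1
    · linear_combination z2 - s * z1

end Vale.Agent.P225.B
end
end

section

section

/-!
P225, route B, part B3-34: polynomials vanishing on the null cone; the powers of null linear
forms span the harmonic polynomials.
-/

open MvPolynomial

namespace Vale.Agent.P225.B

theorem null_divides {m : ℕ} (hm : 1 ≤ m) (f : MvPolynomial (Fin (m + 1)) ℂ)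
    (hf : ∀ x : Fin (m + 1) → ℂ, ∑ i, x i ^ 2 = 0 → eval x f = 0) :
    ∃ q, f = (∑ i, X i * X i) * q := by
  classical
  set s : MvPolynomial (Fin m) ℂ := ∑ i, X i * X i with hs
  set P : Polynomial (MvPolynomial (Fin m) ℂ) := Polynomial.X ^ 2 + Polynomial.C s with hP
  set F := finSuccEquiv ℂ m f with hF
  have hmon : P.Monic := Polynomial.monic_X_pow_add_C s two_ne_zero
  have hdeg : (F %ₘ P).natDegree ≤ 1 := by
    have h1 : P ≠ 1 := by
      intro h
      have h2 := congrArg Polynomial.natDegree h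
      rw [hP, Polynomial.natDegree_X_pow_add_C, Polynomial.natDegree_one] at h2
      omega
    have h2 := Polynomial.natDegree_modByMonic_lt F hmon h1
    rw [hP, Polynomial.natDegree_X_pow_add_C, ← hP] at h2
    omega
  obtain ⟨a, b, hab⟩ := Polynomial.exists_eq_X_add_C_of_natDegree_le_one hdeg
  have hdiv : F = P * (F /ₘ P) + (Polynomial.C a * Polynomial.X + Polynomial.C b) := by
    rw [← hab, add_comm]
    exact (Polynomial.modByMonic_add_div F P).symm
  have hev : ∀ (x : Fin m → ℂ) (t : ℂ), t ^ 2 + eval x s = 0 →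
      eval x a * t + eval x b = 0 := by
    intro x t ht
    have h1 : ∑ i, (Fin.cons t x : Fin (m + 1) → ℂ) i ^ 2 = 0 := by
      rw [Fin.sum_univ_succ]
      simp only [Fin.cons_zero, Fin.cons_succ]
      have h2 : eval x s = ∑ i, x i ^ 2 := by
        rw [hs, map_sum]
        refine Finset.sum_congr rfl fun i _ => ?_
        rw [map_mul, eval_X, sq]
      rw [← h2]
      exact ht
    have h2 := hf _ h1
    rw [eval_eq_eval_mv_eval', ← hF, hdiv] at h2
    simp only [hP, Polynomial.map_add, Polynomial.map_mul, Polynomial.map_pow, Polynomial.map_X, Polynomial.map_C, Polynomial.eval_add, Polynomial.eval_mul, Polynomial.eval_pow, Polynomial.eval_X, Polynomial.eval_C] at h2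
    rw [ht, zero_mul, zero_add] at h2
    exact h2
  have hroot : ∀ x : Fin m → ℂ, ∃ t : ℂ, t ^ 2 + eval x s = 0 := by
    intro x
    obtain ⟨t, ht⟩ := IsAlgClosed.exists_pow_nat_eq (-(eval x s)) (n := 2) (by norm_num)
    exact ⟨t, by rw [ht, neg_add_cancel]⟩
  have hb : b = 0 := by
    apply MvPolynomial.funext
    intro x
    obtain ⟨t, ht⟩ := hroot x
    have h1 := hev x t ht
    have h2 := hev x (-t) (by rw [neg_sq]; exact ht)
    rw [map_zero]
    have h3 : 2 * eval x b = 0 := by linear_combination h1 + h2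
    simpa only [mul_eq_zero, OfNat.ofNat_ne_zero, false_or] using h3
  have hsne : s ≠ 0 := by
    intro h
    have h1 := congrArg (eval (fun i : Fin m => if i = ⟨0, hm⟩ then (1 : ℂ) else 0)) h
    rw [hs, map_sum, map_zero, Finset.sum_eq_single ⟨0, hm⟩] at h1
    · simp at h1
    · intro i _ hi
      simp only [map_mul, eval_X, hi, ↓reduceIte, mul_zero]
    · intro h'
      exact absurd (Finset.mem_univ _) h'
  have ha : a = 0 := by
    have h1 : a ^ 2 * s = 0 := by
      apply MvPolynomial.funext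
      intro x
      obtain ⟨t, ht⟩ := hroot x
      have h1 := hev x t ht
      rw [hb, map_zero, add_zero] at h1
      rw [map_mul, map_pow, map_zero]
      have h2 : eval x s = -t ^ 2 := by linear_combination ht
      rw [h2]
      linear_combination (-(eval x a * t)) * h1
    rcases mul_eq_zero.1 h1 with h2 | h2
    · exact pow_eq_zero_iff (two_ne_zero) |>.1 h2
    · exact absurd h2 hsne
  refine ⟨(finSuccEquiv ℂ m).symm (F /ₘ P), ?_⟩
  apply (finSuccEquiv ℂ m).injective
  rw [map_mul, AlgEquiv.apply_symm_apply, map_sum, Fin.sum_univ_succ]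
  rw [ha, hb, map_zero, zero_mul, add_zero, add_zero] at hdiv
  conv_lhs => rw [← hF, hdiv]
  congr 1
  rw [hP, hs, map_mul, finSuccEquiv_X_zero, map_sum, sq]
  congr 1
  refine Finset.sum_congr rfl fun i _ => ?_
  rw [map_mul, map_mul, finSuccEquiv_X_succ]

variable {n : ℕ}

/-- A harmonic polynomial vanishing on the null cone is zero. -/
theorem null_zero (hn : 2 ≤ n) {d : ℕ} {f : MvPolynomial (Fin n) ℂ} (hf : f ∈ HH ℂ n d)
    (h : ∀ x : Fin n → ℂ, ∑ i, x i ^ 2 = 0 → eval x f = 0) : f = 0 := by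
  obtain ⟨m, rfl⟩ : ∃ m, n = m + 1 := ⟨n - 1, by omega⟩
  obtain ⟨q, hq⟩ := null_divides (by omega) f h
  apply fis_cj_self
  have h1 : fis (m + 1) f (cj f) = fis (m + 1) q (plap ℂ (m + 1) (cj f)) := by
    conv_lhs => enter [1, 2]; rw [hq]
    rw [Finset.sum_mul, map_sum, LinearMap.sum_apply, plap_apply, map_sum]
    refine Finset.sum_congr rfl fun i _ => ?_
    rw [mul_assoc, fis_X_mul, fis_X_mul]
  rw [h1, (mem_HH.1 (cj_mem hf)).2, map_zero]

theorem plap_lf_pow (z : Fin n → ℂ) (hz : ∑ i, z i ^ 2 = 0) (d : ℕ) :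
    plap ℂ n (lf z ^ d) = 0 := by
  rw [plap_apply]
  have h1 : ∀ i, pderiv i (pderiv i (lf z ^ d)) =
      C (z i ^ 2) * (C ((d : ℂ) * ((d - 1 : ℕ) : ℂ)) * lf z ^ (d - 1 - 1)) := by
    intro i
    rw [pderiv_pow, pderiv_lf]
    have h2 : (d : MvPolynomial (Fin n) ℂ) * lf z ^ (d - 1) * C (z i) =
        C ((d : ℂ) * z i) * lf z ^ (d - 1) := by
      rw [map_mul, map_natCast]
      ring
    rw [h2, pderiv_C_mul, pderiv_pow, pderiv_lf]
    simp only [map_mul, map_pow, map_natCast]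
    ring
  rw [Finset.sum_congr rfl fun i _ => h1 i, ← Finset.sum_mul, ← map_sum, hz, map_zero, zero_mul]

theorem lf_pow_mem {z : Fin n → ℂ} (hz : ∑ i, z i ^ 2 = 0) (d : ℕ) : lf z ^ d ∈ HH ℂ n d := by
  rw [mem_HH]
  refine ⟨?_, plap_lf_pow z hz d⟩
  have h := (isHomogeneous_row z).pow d
  rwa [one_mul] at h

/-- The harmonic polynomial `(ζ · x)^d`. -/
noncomputable def vz (d : ℕ) (z : Fin n → ℂ) (hz : ∑ i, z i ^ 2 = 0) : HH ℂ n d :=
  ⟨lf z ^ d, lf_pow_mem hz d⟩

theorem fH_vz {d : ℕ} (f : HH ℂ n d) (z : Fin n → ℂ) (hz : ∑ i, z i ^ 2 = 0) :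
    fH n d f (vz d z hz) = (d.factorial : ℂ) * eval z (f : MvPolynomial (Fin n) ℂ) :=
  fis_lf_pow (mem_HH.1 f.2).1 z

theorem exists_rep {d : ℕ} (φ : HH ℂ n d →ₗ[ℂ] ℂ) : ∃ f : HH ℂ n d, ∀ g, fH n d f g = φ g := by
  refine ⟨((fH n d).toDual (fH_nondegenerate n d)).symm φ, fun g => ?_⟩
  rw [LinearMap.BilinForm.apply_toDual_symm_apply]

theorem span_vz (hn : 2 ≤ n) {d : ℕ} (W : Submodule ℂ (HH ℂ n d))
    (hW : ∀ (z : Fin n → ℂ) (hz : ∑ i, z i ^ 2 = 0), vz d z hz ∈ W) : W = ⊤ := by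
  by_contra hcon
  obtain ⟨φ, hφ, hker⟩ := W.exists_le_ker_of_lt_top (lt_of_le_of_ne le_top hcon)
  obtain ⟨f, hf⟩ := exists_rep φ
  apply hφ
  have h1 : (f : MvPolynomial (Fin n) ℂ) = 0 := by
    apply null_zero hn f.2
    intro z hz
    have h2 : φ (vz d z hz) = 0 := hker (hW z hz)
    rw [← hf, fH_vz] at h2
    rcases mul_eq_zero.1 h2 with h3 | h3
    · exact absurd h3 (by exact_mod_cast Nat.factorial_ne_zero d)
    · exact h3
  have h2 : f = 0 := Subtype.ext h1
  ext g
  rw [← hf, h2, map_zero]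

/-- Continuity argument on the null cone. -/
theorem null_limit (f : MvPolynomial (Fin n) ℂ) {z w : Fin n → ℂ}
    (hw : ∑ i, w i ^ 2 = 0) (hzw : ∑ i, z i * w i = 0)
    (h : ∀ y : Fin n → ℂ, ∑ i, y i ^ 2 = 0 → ∑ i, z i * y i ≠ 0 → eval y f = 0) :
    eval w f = 0 ∨ w = 0 ∨ ∃ c : ℂ, z = fun i => c * w i := by
  by_cases hw0 : w = 0
  · exact Or.inr (Or.inl hw0)
  set a : Fin n → ℝ := fun i => (w i).re with ha
  set b : Fin n → ℝ := fun i => (w i).im with hb
  have hwab : ∀ i, w i = (a i : ℂ) + b i * Complex.I := fun i => (Complex.re_add_im (w i)).symm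
  set r2 : ℝ := ∑ i, a i ^ 2 with hr2
  have hre : ∑ i, (a i ^ 2 - b i ^ 2) = 0 := by
    have h1 := congrArg Complex.re hw
    rw [Complex.re_sum, Complex.zero_re] at h1
    rw [← h1]
    refine Finset.sum_congr rfl fun i _ => ?_
    rw [sq (w i), Complex.mul_re, ha, hb]
    ring
  have him : ∑ i, a i * b i = 0 := by
    have h1 := congrArg Complex.im hw
    rw [Complex.im_sum, Complex.zero_im] at h1
    have h2 : ∑ i, (w i ^ 2).im = 2 * ∑ i, a i * b i := by
      rw [Finset.mul_sum]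
      refine Finset.sum_congr rfl fun i _ => ?_
      rw [sq (w i), Complex.mul_im, ha, hb]
      ring
    rw [h2] at h1
    linarith only [h1]
  have hbb : ∑ i, b i ^ 2 = r2 := by
    rw [Finset.sum_sub_distrib] at hre
    rw [hr2]
    linarith
  have hr2pos : 0 < r2 := by
    rcases (Finset.sum_nonneg fun i _ => sq_nonneg (a i)).lt_or_eq with h1 | h1
    · exact h1
    · exfalso
      apply hw0
      have h2 : ∀ i, a i = 0 := by
        intro i
        have h3 := (Finset.sum_eq_zero_iff_of_nonneg fun i _ => sq_nonneg (a i)).1 h1.symm i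
          (Finset.mem_univ i)
        exact pow_eq_zero_iff (two_ne_zero) |>.1 h3
      have h3 : ∀ i, b i = 0 := by
        intro i
        rw [← hr2] at h1
        rw [← h1] at hbb
        have h3 := (Finset.sum_eq_zero_iff_of_nonneg fun i _ => sq_nonneg (b i)).1 hbb i
          (Finset.mem_univ i)
        exact pow_eq_zero_iff (two_ne_zero) |>.1 h3
      funext i
      rw [hwab, h2, h3]
      simp
  by_cases hc : ∃ c : Fin n → ℝ, ∑ i, c i * a i = 0 ∧ ∑ i, c i * b i = 0 ∧
      ∑ i, z i * (c i : ℂ) ≠ 0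
  · left
    obtain ⟨c, hca, hcb, hzc⟩ := hc
    have hcpos : 0 < ∑ i, c i ^ 2 := by
      rcases (Finset.sum_nonneg fun i _ => sq_nonneg (c i)).lt_or_eq with h1 | h1
      · exact h1
      · exfalso
        apply hzc
        refine Finset.sum_eq_zero fun i _ => ?_
        have h3 := (Finset.sum_eq_zero_iff_of_nonneg fun i _ => sq_nonneg (c i)).1 h1.symm i
          (Finset.mem_univ i)
        have h4 : c i = 0 := pow_eq_zero_iff (two_ne_zero) |>.1 h3
        rw [h4, Complex.ofReal_zero, mul_zero]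
    set s : ℝ := Real.sqrt (r2 / ∑ i, c i ^ 2) with hs
    have hs2 : s ^ 2 * ∑ i, c i ^ 2 = r2 := by
      rw [hs, Real.sq_sqrt (by (clear * - hr2pos hcpos; positivity))]
      (clear * - hcpos hr2pos; field_simp)
    have hspos : 0 < s := Real.sqrt_pos.2 (by (clear * - hr2pos hcpos; positivity))
    set y : ℝ → Fin n → ℂ := fun t i =>
      ((Real.cos t * a i + Real.sin t * (s * c i) : ℝ) : ℂ) + b i * Complex.I with hy
    have hynull : ∀ t, ∑ i, y t i ^ 2 = 0 := by
      intro t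
      have h1 : ∀ i, y t i ^ 2 = (((Real.cos t * a i + Real.sin t * (s * c i)) ^ 2 - b i ^ 2 : ℝ) : ℂ)
          + ((2 * (Real.cos t * (a i * b i) + Real.sin t * s * (c i * b i)) : ℝ) : ℂ) *
            Complex.I := by
        intro i
        rw [hy]
        push_cast
        linear_combination ((b i : ℂ) ^ 2) * Complex.I_sq
      rw [Finset.sum_congr rfl fun i _ => h1 i, Finset.sum_add_distrib, ← Finset.sum_mul,
        ← Complex.ofReal_sum, ← Complex.ofReal_sum]
      have h2 : ∑ i, ((Real.cos t * a i + Real.sin t * (s * c i)) ^ 2 - b i ^ 2) = 0 := by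
        have h3 : ∀ i, (Real.cos t * a i + Real.sin t * (s * c i)) ^ 2 - b i ^ 2 =
            Real.cos t ^ 2 * a i ^ 2 + 2 * Real.cos t * Real.sin t * s * (c i * a i) +
              Real.sin t ^ 2 * s ^ 2 * c i ^ 2 - b i ^ 2 := by
          intro i
          ring
        rw [Finset.sum_congr rfl fun i _ => h3 i, Finset.sum_sub_distrib, Finset.sum_add_distrib,
          Finset.sum_add_distrib, ← Finset.mul_sum, ← Finset.mul_sum, ← Finset.mul_sum, hca, hbb,
          ← hr2, mul_assoc (Real.sin t ^ 2), hs2]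
        have h4 := Real.sin_sq_add_cos_sq t
        linear_combination r2 * h4
      have h3 : ∑ i, (2 * (Real.cos t * (a i * b i) + Real.sin t * s * (c i * b i))) = 0 := by
        rw [← Finset.mul_sum, Finset.sum_add_distrib, ← Finset.mul_sum, ← Finset.mul_sum, him, hcb]
        ring
      rw [h2, h3]
      simp
    set A : ℂ := ∑ i, z i * (a i : ℂ) with hA
    set B : ℂ := ∑ i, z i * (c i : ℂ) with hB
    have hzy : ∀ t, ∑ i, z i * y t i = ((Real.cos t - 1 : ℝ) : ℂ) * A +
        ((Real.sin t * s : ℝ) : ℂ) * B := by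
      intro t
      have h1 : ∀ i, z i * y t i = z i * w i + ((Real.cos t - 1 : ℝ) : ℂ) * (z i * (a i : ℂ)) +
          ((Real.sin t * s : ℝ) : ℂ) * (z i * (c i : ℂ)) := by
        intro i
        rw [hwab i, hy]
        push_cast
        ring
      rw [Finset.sum_congr rfl fun i _ => h1 i, Finset.sum_add_distrib, Finset.sum_add_distrib,
        hzw, ← Finset.mul_sum, ← Finset.mul_sum, zero_add]
    have hcont : Continuous fun t => eval (y t) f := by
      have h1 : Continuous y := by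
        rw [hy]
        fun_prop
      exact (MvPolynomial.continuous_eval f).comp h1
    have hy0 : y 0 = w := by
      funext i
      rw [hy, hwab i]
      simp
    by_contra hne
    have h1 : ∀ᶠ t in nhds (0 : ℝ), eval (y t) f ≠ 0 := by
      apply hcont.continuousAt.eventually_ne
      rw [hy0]
      exact hne
    rw [Metric.eventually_nhds_iff] at h1
    obtain ⟨ε, hε, hball⟩ := h1
    have h2 : ∀ t, |t| < ε → ((Real.cos t - 1 : ℝ) : ℂ) * A + ((Real.sin t * s : ℝ) : ℂ) * B = 0 := by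
      intro t ht
      by_contra h3
      have h4 : eval (y t) f ≠ 0 := hball (by rwa [Real.dist_eq, sub_zero])
      exact h4 (h (y t) (hynull t) (by rw [hzy]; exact h3))
    set t : ℝ := min (ε / 2) 1 with ht
    have htpos : 0 < t := lt_min (by linarith only [hε]) one_pos
    have htε : |t| < ε := by
      rw [abs_of_pos htpos]
      exact lt_of_le_of_lt (min_le_left _ _) (by linarith only [hε])
    have h3 := h2 t htε
    have h4 := h2 (-t) (by rwa [abs_neg])
    rw [Real.cos_neg, Real.sin_neg] at h4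
    have h5 : ((Real.sin t * s : ℝ) : ℂ) * B = 0 := by
      push_cast at h3 h4 ⊢
      linear_combination (1 / 2) * h3 - (1 / 2) * h4
    rcases mul_eq_zero.1 h5 with h6 | h6
    · rw [Complex.ofReal_eq_zero] at h6
      have h7 : 0 < Real.sin t := Real.sin_pos_of_pos_of_lt_pi htpos
        (lt_of_le_of_lt (min_le_right _ _) (by linarith only [Real.pi_gt_three]))
      exact (mul_pos h7 hspos).ne' h6
    · exact hzc h6
  · right
    right
    push Not at hc
    set α : ℂ := (∑ i, z i * (a i : ℂ)) / r2 with hα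
    set β : ℂ := (∑ i, z i * (b i : ℂ)) / r2 with hβ
    have hr2c : (r2 : ℂ) ≠ 0 := by exact_mod_cast hr2pos.ne'
    set u : Fin n → ℂ := fun i => z i - α * a i - β * b i with hu
    have haa : ∑ i, ((a i : ℂ)) * a i = r2 := by
      rw [hr2]
      push_cast
      exact Finset.sum_congr rfl fun i _ => (sq _).symm
    have hbb' : ∑ i, ((b i : ℂ)) * b i = r2 := by
      rw [← hbb]
      push_cast
      exact Finset.sum_congr rfl fun i _ => (sq _).symm
    have hab' : ∑ i, ((a i : ℂ)) * b i = 0 := by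
      rw [← Complex.ofReal_zero, ← him]
      push_cast
      rfl
    have hua : ∑ i, u i * (a i : ℂ) = 0 := by
      have h1 : ∀ i, u i * (a i : ℂ) = z i * a i - α * (a i * a i) - β * (a i * b i) := by
        intro i
        rw [hu]
        ring
      rw [Finset.sum_congr rfl fun i _ => h1 i, Finset.sum_sub_distrib, Finset.sum_sub_distrib,
        ← Finset.mul_sum, ← Finset.mul_sum, haa, hab', hα]
      field_simp
      ring
    have hub : ∑ i, u i * (b i : ℂ) = 0 := by
      have h1 : ∀ i, u i * (b i : ℂ) = z i * b i - α * (a i * b i) - β * (b i * b i) := by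
        intro i
        rw [hu]
        ring
      rw [Finset.sum_congr rfl fun i _ => h1 i, Finset.sum_sub_distrib, Finset.sum_sub_distrib,
        ← Finset.mul_sum, ← Finset.mul_sum, hbb', hab', hβ]
      field_simp
      ring
    have hreim : ∀ v : Fin n → ℝ, (∑ i, u i * (v i : ℂ) = 0) →
        ∑ i, (u i).re * v i = 0 ∧ ∑ i, (u i).im * v i = 0 := by
      intro v hv
      constructor
      · have h1 := congrArg Complex.re hv
        rw [Complex.re_sum, Complex.zero_re] at h1
        rw [← h1]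
        exact Finset.sum_congr rfl fun i _ => by rw [Complex.re_mul_ofReal]
      · have h1 := congrArg Complex.im hv
        rw [Complex.im_sum, Complex.zero_im] at h1
        rw [← h1]
        exact Finset.sum_congr rfl fun i _ => by rw [Complex.im_mul_ofReal]
    obtain ⟨hra, hia⟩ := hreim a hua
    obtain ⟨hrb, hib⟩ := hreim b hub
    have huv : ∀ v : Fin n → ℝ, ∑ i, v i * a i = 0 → ∑ i, v i * b i = 0 →
        ∑ i, u i * (v i : ℂ) = 0 := by
      intro v hva hvb
      have h1 := hc v hva hvb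
      have h2 : ∀ i, u i * (v i : ℂ) = z i * v i - α * ((v i * a i : ℝ) : ℂ) -
          β * ((v i * b i : ℝ) : ℂ) := by
        intro i
        rw [hu]
        push_cast
        ring
      rw [Finset.sum_congr rfl fun i _ => h2 i, Finset.sum_sub_distrib, Finset.sum_sub_distrib,
        ← Finset.mul_sum, ← Finset.mul_sum, ← Complex.ofReal_sum, ← Complex.ofReal_sum, hva, hvb,
        h1]
      simp
    have hur : ∀ i, (u i).re = 0 := by
      have h1 := (hreim _ (huv (fun i => (u i).re) hra hrb)).1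
      intro i
      have h3 := (Finset.sum_eq_zero_iff_of_nonneg fun i _ => mul_self_nonneg (u i).re).1 h1 i
        (Finset.mem_univ i)
      exact mul_self_eq_zero.1 h3
    have hui : ∀ i, (u i).im = 0 := by
      have h1 := (hreim _ (huv (fun i => (u i).im) hia hib)).2
      intro i
      have h3 := (Finset.sum_eq_zero_iff_of_nonneg fun i _ => mul_self_nonneg (u i).im).1 h1 i
        (Finset.mem_univ i)
      exact mul_self_eq_zero.1 h3
    have hz : ∀ i, z i = α * a i + β * b i := by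
      intro i
      have h1 : u i = 0 := Complex.ext (hur i) (hui i)
      rw [hu] at h1
      linear_combination h1
    have hαβ : α = -Complex.I * β := by
      have h1 : ∀ i, z i * w i = α * (a i * a i) + (α * Complex.I + β) * (a i * b i) +
          β * Complex.I * (b i * b i) := by
        intro i
        rw [hz i, hwab i]
        ring
      rw [Finset.sum_congr rfl fun i _ => h1 i, Finset.sum_add_distrib, Finset.sum_add_distrib,
        ← Finset.mul_sum, ← Finset.mul_sum, ← Finset.mul_sum, haa, hab', hbb', mul_zero,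
        add_zero, ← add_mul] at hzw
      rcases mul_eq_zero.1 hzw with h2 | h2
      · linear_combination h2
      · exact absurd h2 hr2c
    refine ⟨-Complex.I * β, ?_⟩
    funext i
    rw [hz i, hwab i, hαβ]
    linear_combination (β * (b i : ℂ)) * Complex.I_sq

end Vale.Agent.P225.B
end
end

section

section

/-!
# Lemma RK (P225, part B3)

Pure linear algebra: a subspace of `End V` closed under commutators which contains all
`v ∧ w` (with respect to a nondegenerate symmetric form `B`) and the rank-one operators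
`v B(v,·)`, `u B(u,·)` for two isotropic vectors with `B(u,v) = 1`
contains every operator of trace zero.
-/

namespace Vale.Agent.P225.RK


variable {K V : Type*} [Field K] [AddCommGroup V] [Module K V]

/-- The rank-one operator `x ↦ B(w,x) v`. -/
def T (B : LinearMap.BilinForm K V) (v w : V) : Module.End K V := (B w).smulRight v

theorem T_apply (B : LinearMap.BilinForm K V) (v w x : V) : T B v w x = B w x • v := rfl

theorem T_mul (B : LinearMap.BilinForm K V) (v w x y : V) :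
    T B v w * T B x y = B w x • T B v y := by
  ext z
  simp only [Module.End.mul_apply, T_apply, map_smul, LinearMap.smul_apply, smul_smul]
  rw [mul_comm]

theorem T_add_left (B : LinearMap.BilinForm K V) (v v' w : V) : T B (v + v') w = T B v w + T B v' w := by
  ext z; simp only [T_apply, smul_add, LinearMap.add_apply]

theorem T_add_right (B : LinearMap.BilinForm K V) (v w w' : V) : T B v (w + w') = T B v w + T B v w' := by
  ext z; simp only [T_apply, map_add, LinearMap.add_apply, add_smul]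

theorem T_smul_left (B : LinearMap.BilinForm K V) (a : K) (v w : V) : T B (a • v) w = a • T B v w := by
  ext z
  rw [LinearMap.smul_apply, T_apply, T_apply, smul_comm]

theorem T_smul_right (B : LinearMap.BilinForm K V) (a : K) (v w : V) : T B v (a • w) = a • T B v w := by
  ext z; simp [T_apply, mul_smul]

theorem T_trace [FiniteDimensional K V] (B : LinearMap.BilinForm K V) (v w : V) :
    LinearMap.trace K V (T B v w) = B w v := by
  rw [T, LinearMap.trace_smulRight]

/-- Every endomorphism is a sum of rank-one operators `T B v w`. -/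
theorem mem_span_T [FiniteDimensional K V] (B : LinearMap.BilinForm K V) (hB : B.Nondegenerate)
    (M : Submodule K (Module.End K V)) (h : ∀ v w, T B v w ∈ M) (X : Module.End K V) :
    X ∈ M := by
  classical
  let b := Module.finBasis K V
  have hX : X = ∑ i, T B (X (b i)) ((B.toDual hB).symm (b.coord i)) := by
    refine b.ext fun j => ?_
    rw [LinearMap.sum_apply]
    simp only [T_apply, LinearMap.BilinForm.apply_toDual_symm_apply, Module.Basis.coord_apply,
      Module.Basis.repr_self]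
    rw [Finset.sum_eq_single j]
    · simp
    · intro i _ hij
      rw [Finsupp.single_eq_of_ne (by simpa using hij), zero_smul]
    · simp only [Finset.mem_univ, not_true_eq_false, Finsupp.single_eq_same, one_smul, IsEmpty.forall_iff]
  rw [hX]
  exact Submodule.sum_mem _ fun i _ => h _ _

/-- **Lemma RK.** -/
theorem mem_of_trace_eq_zero [FiniteDimensional K V] (h2 : (2 : K) ≠ 0)
    (B : LinearMap.BilinForm K V) (hB : B.Nondegenerate) (hs : ∀ x y, B x y = B y x)
    (L : Submodule K (Module.End K V))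
    (hbr : ∀ X ∈ L, ∀ Y ∈ L, X * Y - Y * X ∈ L)
    (hA : ∀ v w, T B v w - T B w v ∈ L)
    {u v : V} (hu : B u u = 0) (hv : B v v = 0) (huv : B u v = 1)
    (hRu : T B u u ∈ L) (hRv : T B v v ∈ L)
    {X : Module.End K V} (hX : LinearMap.trace K V X = 0) : X ∈ L := by
  have hvu : B v u = 1 := by rw [hs, huv]
  -- mixed terms
  have mix : ∀ {a b w : V}, B a b = 1 → B w a = 0 → T B a a ∈ L → T B w a + T B a w ∈ L := by
    intro a b w hab hwa hRa
    have h := hbr _ (hA w b) _ hRa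
    have e : (T B w b - T B b w) * T B a a - T B a a * (T B w b - T B b w)
        = T B w a + T B a w := by
      simp only [sub_mul, mul_sub, T_mul]
      rw [hs b a, hab, hwa, hs a w, hwa]
      simp only [one_smul, zero_smul, sub_zero, zero_sub, sub_neg_eq_add]
    rwa [e] at h
  have half : ∀ {p q : V} {c : K}, T B p q + T B q p - (2 * c) • T B u v ∈ L →
      T B p q - c • T B u v ∈ L := by
    intro p q c h
    have h1 := L.smul_mem (2 : K)⁻¹ (L.add_mem h (hA p q))
    have e : (2 : K)⁻¹ • (T B p q + T B q p - (2 * c) • T B u v + (T B p q - T B q p))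
        = T B p q - c • T B u v := by
      have : T B p q + T B q p - (2 * c) • T B u v + (T B p q - T B q p)
        = (2 : K) • (T B p q - c • T B u v) := by
        rw [smul_sub, smul_smul, two_smul]
        abel
      rw [this, smul_smul, inv_mul_cancel₀ h2, one_smul]
    rwa [e] at h1
  have hwv : ∀ w, B w v = 0 → T B w v ∈ L := by
    intro w hw
    have := half (c := 0) (p := w) (q := v)
    simp only [mul_zero, zero_smul, sub_zero] at this
    exact this (mix hvu hw hRv)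
  have hwu : ∀ w, B w u = 0 → T B w u ∈ L := by
    intro w hw
    have := half (c := 0) (p := w) (q := u)
    simp only [mul_zero, zero_smul, sub_zero] at this
    exact this (mix huv hw hRu)
  -- both in the orthogonal complement
  have hxw : ∀ x w, B x u = 0 → B x v = 0 → B w u = 0 → B w v = 0 →
      T B x w - B w x • T B u v ∈ L := by
    intro x w hxu hxv hwu' hwv'
    apply half
    have h := hbr _ (hA x u) _ (mix hvu hwv' hRv)
    have e : (T B x u - T B u x) * (T B w v + T B v w) - (T B w v + T B v w) * (T B x u - T B u x)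
        = T B x w + T B w x - B w x • (T B u v + T B v u) := by
      simp only [sub_mul, mul_sub, mul_add, add_mul, T_mul]
      rw [hs u w, hwu', huv, hs v x, hxv, hs x w, hvu]
      simp only [zero_smul, one_smul, smul_add]
      abel
    rw [e] at h
    have h3 := L.sub_mem h (L.smul_mem (B w x) (hA u v))
    have e3 : T B x w + T B w x - B w x • (T B u v + T B v u) - B w x • (T B u v - T B v u)
        = T B x w + T B w x - (2 * B w x) • T B u v := by
      rw [mul_smul, two_smul]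
      simp only [smul_add, smul_sub]
      abel
    rwa [e3] at h3
  -- general rank-one operators
  have key : ∀ p q : V, T B p q - B q p • T B u v ∈ L := by
    intro p q
    -- the difference is bilinear; decompose `p = α u + β v + p'`
    obtain ⟨p', hp'u, hp'v, hp⟩ : ∃ p', B p' u = 0 ∧ B p' v = 0 ∧
        p = B v p • u + B u p • v + p' := by
      refine ⟨p - B v p • u - B u p • v, ?_, ?_, by abel⟩
      · simp [hu, hvu, hs p u]
      · simp only [map_sub, map_smul, LinearMap.sub_apply, hs p v, LinearMap.smul_apply, huv, smul_eq_mul, mul_one, sub_self, hv, mul_zero]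
    obtain ⟨q', hq'u, hq'v, hq⟩ : ∃ q', B q' u = 0 ∧ B q' v = 0 ∧
        q = B v q • u + B u q • v + q' := by
      refine ⟨q - B v q • u - B u q • v, ?_, ?_, by abel⟩
      · simp [hu, hvu, hs q u]
      · simp only [map_sub, map_smul, LinearMap.sub_apply, hs q v, LinearMap.smul_apply, huv, smul_eq_mul, mul_one, sub_self, hv, mul_zero]
    generalize B v p = a at hp
    generalize B u p = b at hp
    generalize B v q = c at hq
    generalize B u q = d at hq
    subst hp hq
    have hup' : B u p' = 0 := by rw [hs, hp'u]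
    have hvp' : B v p' = 0 := by rw [hs, hp'v]
    have h0 : ∀ {p q : V}, T B p q ∈ L → T B q p ∈ L := by
      intro p q h
      have := L.sub_mem h (hA p q)
      simpa using this
    have e : T B (a • u + b • v + p') (c • u + d • v + q') -
        B (c • u + d • v + q') (a • u + b • v + p') • T B u v =
        (a * c) • T B u u + (b * d) • T B v v + (b * c) • (T B v u - T B u v)
        + a • T B u q' + b • T B v q' + c • T B p' u + d • T B p' v
        + (T B p' q' - B q' p' • T B u v) := by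
      simp only [T_add_left, T_add_right, T_smul_left, T_smul_right, map_add, map_smul,
        LinearMap.add_apply, LinearMap.smul_apply, smul_eq_mul, hu, hv, huv, hvu, hup', hvp',
        hq'u, hq'v, mul_zero, mul_one, add_zero, zero_add]
      module
    rw [e]
    refine L.add_mem (L.add_mem (L.add_mem (L.add_mem (L.add_mem (L.add_mem (L.add_mem
      (L.smul_mem _ hRu) (L.smul_mem _ hRv)) (L.smul_mem _ (hA v u))) ?_) ?_) ?_) ?_) ?_
    · exact L.smul_mem _ (h0 (hwu _ hq'u))
    · exact L.smul_mem _ (h0 (hwv _ hq'v))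
    · exact L.smul_mem _ (hwu _ hp'u)
    · exact L.smul_mem _ (hwv _ hp'v)
    · exact hxw _ _ hp'u hp'v hq'u hq'v
  have : X - LinearMap.trace K V X • T B u v ∈ L := by
    let M : Submodule K (Module.End K V) :=
      L.comap (LinearMap.id - (LinearMap.trace K V).smulRight (T B u v))
    have hM : X ∈ M := by
      refine mem_span_T B hB M (fun p q => ?_) X
      simp only [Submodule.mem_comap, LinearMap.sub_apply, LinearMap.id_apply, LinearMap.smulRight_apply, T_trace, M]
      exact key p q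
    simpa [M] using hM
  simpa only [hX, zero_smul, sub_zero] using this

end Vale.Agent.P225.RK
end
end

section

section

/-!
P225, route B, part B3-35 (A), second half: submersions onto a product of algebras, modulo
positive block scalars, and the interface with `B2.Dat.ctrl`.
-/

namespace Vale.Agent.P225.B3b

open NormedSpace Set Filter Topology

set_option linter.unusedSectionVars false

section Blocks

variable {D : Type*} [Fintype D] {𝔹 : D → Type*} [∀ d, NormedRing (𝔹 d)]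
  [∀ d, NormedAlgebra ℝ (𝔹 d)] [∀ d, FiniteDimensional ℝ (𝔹 d)] {𝒥 : Type*}

instance instCompleteBlocks : CompleteSpace (∀ d, 𝔹 d) := FiniteDimensional.complete ℝ _

/-- The word map with block scalars. -/
noncomputable def Fw (Z : 𝒥 → ∀ d, 𝔹 d) {l : ℕ} (w : Fin l → 𝒥)
    (p : (Fin l → ℝ) × (D → ℝ)) : ∀ d, 𝔹 d :=
  fun d => Real.exp (-(p.2 d)) • (WP Z w p.1) d

/-- The derivative of the word map with block scalars. -/
noncomputable def Fd (Z : 𝒥 → ∀ d, 𝔹 d) {l : ℕ} (w : Fin l → 𝒥) (c : Fin l → ℝ) (lam : D → ℝ)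
    (F' : (Fin l → ℝ) →L[ℝ] ∀ d, 𝔹 d) : ((Fin l → ℝ) × (D → ℝ)) →L[ℝ] ∀ d, 𝔹 d :=
  ContinuousLinearMap.pi fun d =>
    Real.exp (-(lam d)) • ((ContinuousLinearMap.proj (R := ℝ) (φ := 𝔹) d).comp
      (F'.comp (ContinuousLinearMap.fst ℝ (Fin l → ℝ) (D → ℝ))))
    + (Real.exp (-(lam d)) • -((ContinuousLinearMap.proj (R := ℝ) (φ := fun _ : D => ℝ) d).comp
      (ContinuousLinearMap.snd ℝ (Fin l → ℝ) (D → ℝ)))).smulRight ((WP Z w c) d)

theorem hasStrictFDerivAt_Fw (Z : 𝒥 → ∀ d, 𝔹 d) {l : ℕ} (w : Fin l → 𝒥) (c : Fin l → ℝ)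
    (lam : D → ℝ) (F' : (Fin l → ℝ) →L[ℝ] ∀ d, 𝔹 d) (hF : HasStrictFDerivAt (WP Z w) F' c) :
    HasStrictFDerivAt (Fw Z w) (Fd Z w c lam F') (c, lam) := by
  refine hasStrictFDerivAt_pi.2 fun d => ?_
  have h1 : HasStrictFDerivAt (fun p : (Fin l → ℝ) × (D → ℝ) => (WP Z w p.1) d)
      ((ContinuousLinearMap.proj (R := ℝ) (φ := 𝔹) d).comp
        (F'.comp (ContinuousLinearMap.fst ℝ (Fin l → ℝ) (D → ℝ)))) (c, lam) := by
    have h2 : HasStrictFDerivAt (fun p : (Fin l → ℝ) × (D → ℝ) => WP Z w p.1)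
        (F'.comp (ContinuousLinearMap.fst ℝ (Fin l → ℝ) (D → ℝ))) (c, lam) :=
      HasStrictFDerivAt.comp (c, lam) (g := WP Z w) (g' := F') hF hasStrictFDerivAt_fst
    exact (ContinuousLinearMap.proj (R := ℝ) (φ := 𝔹) d).hasStrictFDerivAt.comp (c, lam) h2
  have h3 : HasStrictFDerivAt (fun p : (Fin l → ℝ) × (D → ℝ) => -(p.2 d))
      (-((ContinuousLinearMap.proj (R := ℝ) (φ := fun _ : D => ℝ) d).comp
        (ContinuousLinearMap.snd ℝ (Fin l → ℝ) (D → ℝ)))) (c, lam) :=
    (-((ContinuousLinearMap.proj (R := ℝ) (φ := fun _ : D => ℝ) d).comp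
        (ContinuousLinearMap.snd ℝ (Fin l → ℝ) (D → ℝ)))).hasStrictFDerivAt
  exact h3.exp.smul h1

variable {Z : 𝒥 → ∀ d, 𝔹 d}

theorem Fd_surj (hspan : ∀ X : ∀ d, 𝔹 d, ∃ G ∈ gg Z, ∃ μ : D → ℝ, X = G + fun d => μ d • 1)
    {l : ℕ} (w : Fin l → 𝒥) (c : Fin l → ℝ) (lam : D → ℝ) (F' : (Fin l → ℝ) →L[ℝ] ∀ d, 𝔹 d)
    (x : (∀ d, 𝔹 d)ˣ) (hx : WP Z w c = x)
    (hF : ∀ X ∈ gg Z, ∃ v, F' v = (x : ∀ d, 𝔹 d) * X) :
    Function.Surjective (Fd Z w c lam F') := by
  intro Y
  obtain ⟨G, hG, μ, hX⟩ := hspan (((x⁻¹ : (∀ d, 𝔹 d)ˣ) : ∀ d, 𝔹 d) *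
    fun d => Real.exp (lam d) • Y d)
  obtain ⟨v, hv⟩ := hF G hG
  refine ⟨(v, -μ), ?_⟩
  have h1 : (x : ∀ d, 𝔹 d) * (G + fun d => μ d • (1 : 𝔹 d)) = fun d => Real.exp (lam d) • Y d := by
    rw [← hX, ← mul_assoc, x.mul_inv, one_mul]
  funext d
  have h2 := congrFun h1 d
  simp only [Pi.mul_apply, Pi.add_apply] at h2
  have h3 : Fd Z w c lam F' (v, -μ) d = Real.exp (-(lam d)) • (F' v) d
      + (Real.exp (-(lam d)) * μ d) • (WP Z w c) d := by
    simp only [Fd, smul_neg, ContinuousLinearMap.coe_pi', add_apply, smul_apply, ContinuousLinearMap.comp_apply, ContinuousLinearMap.coe_fst', ContinuousLinearMap.proj_apply, ContinuousLinearMap.smulRight_apply, neg_apply, ContinuousLinearMap.coe_snd', Pi.neg_apply, smul_eq_mul, mul_neg, neg_neg]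
  rw [h3, hv, hx, Pi.mul_apply, mul_smul, ← smul_add]
  have h4 : (x : ∀ d, 𝔹 d) d * G d + μ d • (x : ∀ d, 𝔹 d) d
      = (x : ∀ d, 𝔹 d) d * (G d + μ d • 1) := by
    rw [mul_add, mul_smul_comm, mul_one]
  rw [h4, h2, smul_smul, ← Real.exp_add, neg_add_cancel, Real.exp_zero, one_smul]

/-- The group of words times positive block scalars. -/
noncomputable def HS (Z : 𝒥 → ∀ d, 𝔹 d) : Submonoid (∀ d, 𝔹 d) where
  carrier := {T | ∃ x ∈ GG Z, ∃ lam : D → ℝ, T = fun d => Real.exp (-(lam d)) • (x : ∀ d, 𝔹 d) d}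
  mul_mem' := by
    rintro S T ⟨x, hx, a, rfl⟩ ⟨y, hy, b, rfl⟩
    refine ⟨x * y, (GG Z).mul_mem hx hy, a + b, ?_⟩
    funext d
    simp only [Pi.mul_apply, Units.val_mul, Pi.add_apply, neg_add, Real.exp_add,
      smul_mul_assoc, mul_smul_comm, smul_smul]
    rw [mul_comm]
  one_mem' := ⟨1, (GG Z).one_mem, 0, by funext d; simp⟩

theorem HS_exists (hspan : ∀ X : ∀ d, 𝔹 d, ∃ G ∈ gg Z, ∃ μ : D → ℝ, X = G + fun d => μ d • 1)
    {T : ∀ d, 𝔹 d} (hT : T ∈ HS Z) :
    ∃ (l : ℕ) (w : Fin l → 𝒥) (c : Fin l → ℝ) (lam : D → ℝ)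
      (F' : ((Fin l → ℝ) × (D → ℝ)) →L[ℝ] ∀ d, 𝔹 d),
      Fw Z w (c, lam) = T ∧ HasStrictFDerivAt (Fw Z w) F' (c, lam) ∧ Function.Surjective F' := by
  obtain ⟨x, hx, lam, rfl⟩ := hT
  obtain ⟨l, w, c, F', h1, h2, h3⟩ := PP_full hx
  refine ⟨l, w, c, lam, Fd Z w c lam F', ?_, hasStrictFDerivAt_Fw Z w c lam F' h2,
    Fd_surj hspan w c lam F' x h1 h3⟩
  rw [← h1]
  rfl

theorem HS_nhds (hspan : ∀ X : ∀ d, 𝔹 d, ∃ G ∈ gg Z, ∃ μ : D → ℝ, X = G + fun d => μ d • 1) :
    (HS Z : Set (∀ d, 𝔹 d)) ∈ 𝓝 (1 : ∀ d, 𝔹 d) := by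
  obtain ⟨l, w, c, lam, F', h1, h2, h3⟩ := HS_exists hspan (HS Z).one_mem
  have h4 := h2.map_nhds_eq_of_surj (LinearMap.range_eq_top.2 h3)
  rw [h1] at h4
  rw [← h4]
  refine mem_map.2 (Eventually.of_forall fun p => ?_)
  change Fw Z w p ∈ HS Z
  obtain ⟨l', w', c', e1, e2⟩ := WP_inv Z w p.1
  exact ⟨⟨WP Z w p.1, WP Z w' c', e1, e2⟩, ⟨l, w, p.1, rfl⟩, p.2, rfl⟩

theorem exp_mem_HS
    (hspan : ∀ X : ∀ d, 𝔹 d, ∃ G ∈ gg Z, ∃ μ : D → ℝ, X = G + fun d => μ d • 1)
    (X : ∀ d, 𝔹 d) : exp X ∈ HS Z := by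
  let _ : NormedAlgebra ℚ (∀ d, 𝔹 d) := NormedAlgebra.restrictScalars ℚ ℝ _
  have h1 : Tendsto (fun m : ℕ => exp ((1 / ((m : ℝ) + 1)) • X)) atTop (𝓝 (1 : ∀ d, 𝔹 d)) := by
    have h2 : Tendsto (fun m : ℕ => (1 / ((m : ℝ) + 1)) • X) atTop (𝓝 ((0 : ℝ) • X)) :=
      tendsto_one_div_add_atTop_nhds_zero_nat.smul_const X
    rw [zero_smul] at h2
    have h3 := h2.exp
    rwa [exp_zero] at h3
  obtain ⟨m, hm⟩ := (h1.eventually (HS_nhds hspan)).exists
  have h5 : exp X = exp ((1 / ((m : ℝ) + 1)) • X) ^ (m + 1) := by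
    rw [← exp_nsmul]
    congr 1
    rw [← Nat.cast_smul_eq_nsmul ℝ, smul_smul]
    have : ((m + 1 : ℕ) : ℝ) * (1 / ((m : ℝ) + 1)) = 1 := by
      push_cast
      field_simp
    rw [this, one_smul]
  rw [h5]
  exact (HS Z).pow_mem hm _

end Blocks

section Interface

variable {D : Type} [Fintype D] {ι : D → Type} [∀ d, Fintype (ι d)] [∀ d, DecidableEq (ι d)]
  {𝒥 : Type}

/-- The generator `Z_J = -2 κ_d M_J`. -/
noncomputable def ZM (kap : D → ℝ) (M : 𝒥 → (d : D) → (ι d → ℝ) →L[ℝ] (ι d → ℝ)) :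
    𝒥 → (d : D) → (ι d → ℝ) →L[ℝ] (ι d → ℝ) := fun J d => (-(2 * kap d)) • M J d

theorem WP_ZM (kap : D → ℝ) (M : 𝒥 → (d : D) → (ι d → ℝ) →L[ℝ] (ι d → ℝ)) {l : ℕ}
    (w : Fin l → 𝒥) (c : Fin l → ℝ) (d : D) :
    WP (ZM kap M) w c d = B2.wordMap (kap d) (fun i => M (w i) d) c := by
  induction l with
  | zero => rfl
  | succ l ih =>
    rw [WP_succ, Pi.mul_apply, ih, B2.wordMap]
    congr 1
    let _ : ∀ d, NormedAlgebra ℚ ((ι d → ℝ) →L[ℝ] (ι d → ℝ)) := fun d =>
      NormedAlgebra.restrictScalars ℚ ℝ _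
    rw [Pi.coe_exp, Pi.smul_apply, ZM, smul_smul]
    congr 2
    ring

/-- **B3-35 (A)**. -/
theorem words_main (kap : D → ℝ) (M : 𝒥 → (d : D) → (ι d → ℝ) →L[ℝ] (ι d → ℝ))
    (Φ : Set (((d : D) → (ι d → ℝ) →L[ℝ] (ι d → ℝ)) ≃ₐ[ℝ]
      ((d : D) → (ι d → ℝ) →L[ℝ] (ι d → ℝ))))
    (hΦ : ∀ φ ∈ Φ, ∀ J, ∃ J', φ (fun d => kap d • M J d) = fun d => kap d • M J' d)
    (hgen : ∀ g : Submodule ℝ ((d : D) → (ι d → ℝ) →L[ℝ] (ι d → ℝ)),
      (∀ J, (fun d => kap d • M J d) ∈ g) → (∀ X ∈ g, ∀ Y ∈ g, X * Y - Y * X ∈ g) →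
      (∀ φ ∈ Φ, ∀ X ∈ g, φ X ∈ g) →
      ∀ X : (d : D) → (ι d → ℝ) →L[ℝ] (ι d → ℝ),
        (∀ d, LinearMap.trace ℝ (ι d → ℝ) (X d).toLinearMap = 0) → X ∈ g) :
    ∃ H : Submonoid ((d : D) → (ι d → ℝ) →L[ℝ] (ι d → ℝ)), (∀ X, exp X ∈ H) ∧
      ∀ T ∈ H, ∃ (l : ℕ) (w : Fin l → 𝒥) (c : Fin l → ℝ) (lam : D → ℝ)
        (F' : ((Fin l → ℝ) × (D → ℝ)) →L[ℝ] ((d : D) → (ι d → ℝ) →L[ℝ] (ι d → ℝ))),
        (fun d => Real.exp (-(lam d)) • B2.wordMap (kap d) (fun i => M (w i) d) c) = T ∧
        HasStrictFDerivAt (fun x : (Fin l → ℝ) × (D → ℝ) => fun d =>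
          Real.exp (-(x.2 d)) • B2.wordMap (kap d) (fun i => M (w i) d) x.1) F' (c, lam) ∧
        Function.Surjective F' := by
  have hZ : ∀ J, ZM kap M J = (-2 : ℝ) • fun d => kap d • M J d := by
    intro J; funext d; rw [ZM, Pi.smul_apply, smul_smul]; congr 1; ring
  have hspan : ∀ X : (d : D) → (ι d → ℝ) →L[ℝ] (ι d → ℝ),
      ∃ G ∈ gg (ZM kap M), ∃ μ : D → ℝ, X = G + fun d => μ d • 1 := by
    intro X
    let μ : D → ℝ := fun d =>
      LinearMap.trace ℝ (ι d → ℝ) (X d).toLinearMap / Fintype.card (ι d)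
    refine ⟨X - fun d => μ d • 1, ?_, μ, by rw [sub_add_cancel]⟩
    refine hgen (gg (ZM kap M)) ?_ (fun X hX Y hY => bracket_mem hX hY) ?_ _ ?_
    · intro J
      have h1 := (gg (ZM kap M)).smul_mem (-(1 / 2) : ℝ) (Z_mem_gg (Z := ZM kap M) J)
      rw [hZ, smul_smul] at h1
      norm_num at h1
      exact h1
    · intro φ hφ X hX
      refine auto_mem φ (fun J => ?_) hX
      obtain ⟨J', hJ'⟩ := hΦ φ hφ J
      refine ⟨J', ?_⟩
      rw [hZ, hZ, map_smul, hJ']
    · intro d
      have h1 : ((X - fun d => μ d • (1 : (ι d → ℝ) →L[ℝ] (ι d → ℝ))) d).toLinearMap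
          = (X d).toLinearMap - μ d • (1 : Module.End ℝ (ι d → ℝ)) := rfl
      rw [h1, map_sub, map_smul, LinearMap.trace_one, Module.finrank_pi, smul_eq_mul]
      by_cases hc : (Fintype.card (ι d) : ℝ) = 0
      · have hc' : Fintype.card (ι d) = 0 := by exact_mod_cast hc
        have he : IsEmpty (ι d) := Fintype.card_eq_zero_iff.1 hc'
        have h2 : (X d).toLinearMap = 0 := LinearMap.ext fun f => Subsingleton.elim _ _
        rw [h2, map_zero, hc, mul_zero, sub_zero]
      · simp only [μ]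
        rw [div_mul_cancel₀ _ hc, sub_self]
  refine ⟨HS (ZM kap M), exp_mem_HS hspan, fun T hT => ?_⟩
  obtain ⟨l, w, c, lam, F', h1, h2, h3⟩ := HS_exists hspan hT
  refine ⟨l, w, c, lam, F', ?_, ?_, h3⟩
  · rw [← h1]
    funext d
    rw [Fw, WP_ZM]
  · have : Fw (ZM kap M) w = (fun x : (Fin l → ℝ) × (D → ℝ) => fun d =>
          Real.exp (-(x.2 d)) • B2.wordMap (kap d) (fun i => M (w i) d) x.1) := by
      funext x d
      rw [Fw, WP_ZM]
    rwa [this] at h2

end Interface

end Vale.Agent.P225.B3b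
end
end

section

section

/-!
P225, route B, part B3-34: downward induction over the degree.
-/

open MvPolynomial

namespace Vale.Agent.P225.B

open Vale.Agent.P225.RK (T T_apply T_mul T_add_left T_add_right T_smul_left T_smul_right)

variable {n D : ℕ}

/-- The operators on the block `d` whose extension by zero lies in `g`. -/
noncomputable def Lblk (g : Submodule ℂ (BA ℂ n D)) (d : Finset.Icc 2 D) :
    Submodule ℂ (Module.End ℂ (HH ℂ n (d : ℕ))) :=
  g.comap (LinearMap.single ℂ (fun d : Finset.Icc 2 D => Module.End ℂ (HH ℂ n (d : ℕ))) d)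

theorem mem_Lblk {g : Submodule ℂ (BA ℂ n D)} {d : Finset.Icc 2 D}
    {A : Module.End ℂ (HH ℂ n (d : ℕ))} : A ∈ Lblk g d ↔ (Pi.single d A : BA ℂ n D) ∈ g :=
  Iff.rfl

theorem single_mul_single (d : Finset.Icc 2 D) (A A' : Module.End ℂ (HH ℂ n (d : ℕ))) :
    (Pi.single d (A * A') : BA ℂ n D) = Pi.single d A * Pi.single d A' := by
  funext e
  rw [Pi.mul_apply]
  by_cases h : e = d
  · subst h
    rw [Pi.single_eq_same, Pi.single_eq_same, Pi.single_eq_same]
  · rw [Pi.single_eq_of_ne h, Pi.single_eq_of_ne h, zero_mul]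

theorem Lblk_bracket {g : Submodule ℂ (BA ℂ n D)}
    (hbr : ∀ X ∈ g, ∀ Y ∈ g, X * Y - Y * X ∈ g) (d : Finset.Icc 2 D) :
    ∀ X ∈ Lblk g d, ∀ Y ∈ Lblk g d, X * Y - Y * X ∈ Lblk g d := by
  intro X hX Y hY
  rw [mem_Lblk] at hX hY ⊢
  have h : (Pi.single d (X * Y - Y * X) : BA ℂ n D) =
      Pi.single d X * Pi.single d Y - Pi.single d Y * Pi.single d X := by
    rw [← single_mul_single, ← single_mul_single]
    funext e
    rw [Pi.sub_apply]
    by_cases h : e = d
    · subst h
      rw [Pi.single_eq_same, Pi.single_eq_same, Pi.single_eq_same]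
    · rw [Pi.single_eq_of_ne h, Pi.single_eq_of_ne h, Pi.single_eq_of_ne h]
      exact (@sub_zero (Module.End ℂ (HH ℂ n (e : ℕ))) _ 0).symm
  rw [h]
  exact hbr _ hX _ hY

theorem Lblk_conj {g : Submodule ℂ (BA ℂ n D)}
    (hconj : ∀ U : Matrix (Fin n) (Fin n) ℝ, U.transpose * U = 1 → ∀ X ∈ g,
      blk D (rop (U.map Complex.ofReal)) * X * blk D (rop (U.transpose.map Complex.ofReal)) ∈ g)
    (d : Finset.Icc 2 D) (U : Matrix (Fin n) (Fin n) ℝ) (hU : U.transpose * U = 1)
    {A : Module.End ℂ (HH ℂ n (d : ℕ))} (hA : A ∈ Lblk g d) :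
    rst (rop (U.map Complex.ofReal)) d * A * rst (rop (U.transpose.map Complex.ofReal)) d ∈
      Lblk g d := by
  rw [mem_Lblk] at hA ⊢
  have h := hconj U hU _ hA
  convert h using 1
  funext e
  rw [Pi.mul_apply, Pi.mul_apply]
  by_cases h : e = d
  · subst h
    rw [Pi.single_eq_same, Pi.single_eq_same]
    rfl
  · rw [Pi.single_eq_of_ne h, Pi.single_eq_of_ne h, mul_zero, zero_mul]

theorem map_ofReal_orth {U : Matrix (Fin n) (Fin n) ℝ} (hU : U.transpose * U = 1) :
    (U.map Complex.ofReal).transpose * U.map Complex.ofReal = 1 := by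
  have h := congrArg (fun M : Matrix (Fin n) (Fin n) ℝ => M.map Complex.ofRealHom) hU
  simp only [Matrix.map_mul] at h
  rw [Matrix.map_one _ (map_zero _) (map_one _)] at h
  exact h

theorem rot_lf (U : Matrix (Fin n) (Fin n) ℝ) (z : Fin n → ℂ) :
    rot (U.map Complex.ofReal) (lf z) = lf (fun i => ∑ j, (U i j : ℂ) * z j) := by
  rw [lf, lf, map_sum]
  have h1 : ∀ i, rot (U.map Complex.ofReal) (C (z i) * X i) =
      ∑ j, C ((U j i : ℂ) * z i) * X j := by
    intro i
    rw [map_mul, rot_C, rot_X, Finset.mul_sum]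
    refine Finset.sum_congr rfl fun j _ => ?_
    rw [map_mul, Matrix.map_apply]
    ring
  rw [Finset.sum_congr rfl fun i _ => h1 i, Finset.sum_comm]
  refine Finset.sum_congr rfl fun j _ => ?_
  rw [← Finset.sum_mul, map_sum]

theorem eval_rot (g : Matrix (Fin n) (Fin n) ℂ) (z : Fin n → ℂ) (f : MvPolynomial (Fin n) ℂ) :
    eval z (rot g f) = eval (fun i => ∑ j, g j i * z j) f := by
  induction f using MvPolynomial.induction_on with
  | C a => simp only [algHom_C, algebraMap_eq, eval_C]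
  | add p q hp hq => simp only [map_add, hp, hq]
  | mul_X p j hp =>
    rw [map_mul, map_mul, hp, map_mul, eval_X, rot_X, map_sum]
    congr 1
    refine Finset.sum_congr rfl fun i _ => ?_
    rw [map_mul, eval_C, eval_X]

/-- The rank one operator `f ↦ d! f(ζ) (ζ · x)^d`. -/
noncomputable def Rz (d : ℕ) (z : Fin n → ℂ) (hz : ∑ i, z i ^ 2 = 0) :
    Module.End ℂ (HH ℂ n d) := T (fH n d) (vz d z hz) (vz d z hz)

theorem Rz_coe (d : ℕ) (z : Fin n → ℂ) (hz : ∑ i, z i ^ 2 = 0) (f : HH ℂ n d) :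
    ((Rz d z hz f : HH ℂ n d) : MvPolynomial (Fin n) ℂ) =
      C ((d.factorial : ℂ) * eval z (f : MvPolynomial (Fin n) ℂ)) * lf z ^ d := by
  rw [Rz, T_apply, fH_comm, fH_vz, Submodule.coe_smul, smul_eq_C_mul]
  rfl

theorem zeta0_null {i0 i1 : Fin n} (h01 : i0 ≠ i1) : ∑ i, zeta0 i0 i1 i ^ 2 = 0 := by
  rw [Finset.sum_eq_add_of_mem i0 i1 (Finset.mem_univ _) (Finset.mem_univ _) h01]
  · simp only [zeta0, ↓reduceIte, one_pow, h01.symm, Complex.I_sq, add_neg_cancel]
  · intro c _ hc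
    simp [zeta0, hc.1, hc.2]

theorem zz_eq_lf {i0 i1 : Fin n} (h01 : i0 ≠ i1) : zz i0 i1 = lf (zeta0 i0 i1) := by
  rw [lf, Finset.sum_eq_add_of_mem i0 i1 (Finset.mem_univ _) (Finset.mem_univ _) h01, zz]
  · simp only [zeta0, ↓reduceIte, C_1, one_mul, h01.symm]
  · intro c _ hc
    simp [zeta0, hc.1, hc.2]

/-- All `R_ζ` lie in the block if `R_{ζ₀}` does. -/
theorem Rz_mem {g : Submodule ℂ (BA ℂ n D)}
    (hconj : ∀ U : Matrix (Fin n) (Fin n) ℝ, U.transpose * U = 1 → ∀ X ∈ g,
      blk D (rop (U.map Complex.ofReal)) * X * blk D (rop (U.transpose.map Complex.ofReal)) ∈ g)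
    (d : Finset.Icc 2 D) {i0 i1 : Fin n} (h01 : i0 ≠ i1)
    (h0 : Rz (d : ℕ) (zeta0 i0 i1) (zeta0_null h01) ∈ Lblk g d)
    (z : Fin n → ℂ) (hz : ∑ i, z i ^ 2 = 0) : Rz (d : ℕ) z hz ∈ Lblk g d := by
  by_cases hz0 : z = 0
  · have h1 : Rz (d : ℕ) z hz = 0 := by
      ext f : 1
      apply Subtype.ext
      rw [Rz_coe]
      have hd : (d : ℕ) ≠ 0 := by
        have := (Finset.mem_Icc.1 d.2).1
        omega
      have h2 : lf z = 0 := by
        rw [lf]
        exact Finset.sum_eq_zero fun i _ => by rw [hz0]; simp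
      rw [h2, zero_pow hd, mul_zero]
      rfl
    rw [h1]
    exact Submodule.zero_mem _
  · obtain ⟨U, c, hU, hc, hzU⟩ := null_orbit i0 i1 h01 z hz hz0
    have h1 := Lblk_conj hconj d U hU h0
    have hUc := map_ofReal_orth hU
    have hUt : (U.transpose.map Complex.ofReal).transpose * U.transpose.map Complex.ofReal = 1 := by
      apply map_ofReal_orth
      rw [Matrix.transpose_transpose]
      exact mul_eq_one_comm.1 hU
    have h2 : Rz (d : ℕ) z hz = ((c : ℂ) ^ (2 * (d : ℕ))) •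
        (rst (rop (U.map Complex.ofReal)) d * Rz (d : ℕ) (zeta0 i0 i1) (zeta0_null h01) *
          rst (rop (U.transpose.map Complex.ofReal)) d) := by
      ext f : 1
      apply Subtype.ext
      have h20 : ∀ a : ℂ, rot (U.map Complex.ofReal) (C a * lf (zeta0 i0 i1) ^ (d : ℕ)) =
          C a * lf (fun i => ∑ j, (U i j : ℂ) * zeta0 i0 i1 j) ^ (d : ℕ) := by
        intro a
        rw [map_mul, rot_C, map_pow, rot_lf]
      rw [Rz_coe, LinearMap.smul_apply, Submodule.coe_smul, Module.End.mul_apply,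
        Module.End.mul_apply, (pres_rop hUc).rst_coe, Rz_coe, (pres_rop hUt).rst_coe, rop_apply,
        rop_apply, h20, eval_rot, smul_eq_C_mul]
      have h3 : (fun i => ∑ j, U.transpose.map Complex.ofReal j i * zeta0 i0 i1 j) =
          fun i => ∑ j, (U i j : ℂ) * zeta0 i0 i1 j := by
        funext i
        rfl
      rw [h3]
      set y : Fin n → ℂ := fun i => ∑ j, (U i j : ℂ) * zeta0 i0 i1 j with hy
      have h4 : z = fun i => (c : ℂ) * y i := funext hzU
      have h5 : lf z = C (c : ℂ) * lf y := by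
        rw [h4, lf, lf, Finset.mul_sum]
        refine Finset.sum_congr rfl fun i _ => ?_
        rw [map_mul]
        ring
      have h6 : eval z (f : MvPolynomial (Fin n) ℂ) = (c : ℂ) ^ (d : ℕ) *
          eval y (f : MvPolynomial (Fin n) ℂ) := by
        rw [h4]
        have h7 := (mem_HH.1 f.2).1
        have h9 : ∀ (p : MvPolynomial (Fin n) ℂ), p.IsHomogeneous (d : ℕ) →
            eval (fun i => (c : ℂ) * y i) p = (c : ℂ) ^ (d : ℕ) * eval y p := by
          intro p hp
          rw [eval_eq, eval_eq, Finset.mul_sum]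
          refine Finset.sum_congr rfl fun α hα => ?_
          have h10 : ∏ i ∈ α.support, ((c : ℂ) * y i) ^ α i =
              (c : ℂ) ^ (d : ℕ) * ∏ i ∈ α.support, y i ^ α i := by
            simp_rw [mul_pow]
            rw [Finset.prod_mul_distrib, Finset.prod_pow_eq_pow_sum]
            congr 2
            have h11 := hp (mem_support_iff.1 hα)
            rw [← h11, Finsupp.weight_apply, Finsupp.sum]
            exact Finset.sum_congr rfl fun i _ => by simp
          rw [h10]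
          ring
        exact h9 _ h7
      rw [h5, h6]
      simp only [map_mul, map_pow]
      ring
    rw [h2]
    exact Submodule.smul_mem _ _ h1

/-- `A(v, w) = v ⊗ ⟨w, ·⟩ - w ⊗ ⟨v, ·⟩`. -/
theorem AA_null {d : ℕ} (hd : d ≠ 0) (L : Submodule ℂ (Module.End ℂ (HH ℂ n d)))
    (hbr : ∀ X ∈ L, ∀ Y ∈ L, X * Y - Y * X ∈ L)
    (hR : ∀ (z : Fin n → ℂ) (hz : ∑ i, z i ^ 2 = 0), Rz d z hz ∈ L)
    (z w : Fin n → ℂ) (hz : ∑ i, z i ^ 2 = 0) (hw : ∑ i, w i ^ 2 = 0) :
    T (fH n d) (vz d z hz) (vz d w hw) - T (fH n d) (vz d w hw) (vz d z hz) ∈ L := by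
  have hne : ∀ (y : Fin n → ℂ) (hy : ∑ i, y i ^ 2 = 0), ∑ i, z i * y i ≠ 0 →
      T (fH n d) (vz d z hz) (vz d y hy) - T (fH n d) (vz d y hy) (vz d z hz) ∈ L := by
    intro y hy hzy
    have h1 := hbr _ (hR z hz) _ (hR y hy)
    have h10 : Rz d z hz * Rz d y hy - Rz d y hy * Rz d z hz =
        fH n d (vz d z hz) (vz d y hy) •
          (T (fH n d) (vz d z hz) (vz d y hy) - T (fH n d) (vz d y hy) (vz d z hz)) := by
      rw [Rz, Rz, T_mul, T_mul, fH_comm (vz d y hy)]
      exact Eq.symm (@smul_sub ℂ (Module.End ℂ (HH ℂ n d)) _ _ _ _ _)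
    rw [h10] at h1
    have h2 : fH n d (vz d z hz) (vz d y hy) ≠ 0 := by
      rw [fH_vz]
      refine mul_ne_zero (by exact_mod_cast Nat.factorial_ne_zero d) ?_
      have h3 : eval y ((vz d z hz : HH ℂ n d) : MvPolynomial (Fin n) ℂ) =
          (∑ i, z i * y i) ^ d := by
        change eval y (lf z ^ d) = _
        rw [map_pow, lf, map_sum]
        congr 1
        refine Finset.sum_congr rfl fun i _ => ?_
        rw [map_mul, eval_C, eval_X]
      rw [h3]
      exact pow_ne_zero _ hzy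
    exact (Submodule.smul_mem_iff _ h2).1 h1
  by_contra hcon
  have hcon' : (T (fH n d) (vz d z hz) (vz d w hw) - T (fH n d) (vz d w hw) (vz d z hz)) ∉ L := hcon
  obtain ⟨φ, hφ, hker⟩ :=
    @Submodule.exists_le_ker_of_notMem ℂ (Module.End ℂ (HH ℂ n d)) _ _ _ L _ hcon'
  let ψ : HH ℂ n d →ₗ[ℂ] ℂ :=
    { toFun := fun u => φ (T (fH n d) (vz d z hz) u - T (fH n d) u (vz d z hz))
      map_add' := fun u v => by
        rw [T_add_right, T_add_left, ← map_add]
        congr 1
        abel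
      map_smul' := fun a u => by
        have h : a • T (fH n d) (vz d z hz) u - a • T (fH n d) u (vz d z hz) =
            a • (T (fH n d) (vz d z hz) u - T (fH n d) u (vz d z hz)) :=
          Eq.symm (@smul_sub ℂ (Module.End ℂ (HH ℂ n d)) _ _ _ _ _)
        rw [T_smul_right, T_smul_left, h, map_smul, RingHom.id_apply] }
  obtain ⟨f, hf⟩ := exists_rep ψ
  have hfac : (d.factorial : ℂ) ≠ 0 := by exact_mod_cast Nat.factorial_ne_zero d
  have hev : ∀ y : Fin n → ℂ, ∑ i, y i ^ 2 = 0 → ∑ i, z i * y i ≠ 0 →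
      eval y (f : MvPolynomial (Fin n) ℂ) = 0 := by
    intro y hy hzy
    have h1 : ψ (vz d y hy) = 0 := hker (hne y hy hzy)
    rw [← hf, fH_vz] at h1
    exact (mul_eq_zero.1 h1).resolve_left hfac
  have hzw : ∑ i, z i * w i = 0 := by
    by_contra h1
    exact hcon (hne w hw h1)
  rcases null_limit (f : MvPolynomial (Fin n) ℂ) hw hzw hev with h1 | h1 | ⟨c, h1⟩
  · apply hφ
    change ψ (vz d w hw) = 0
    rw [← hf, fH_vz, h1, mul_zero]
  · apply hcon
    have h2 : vz d w hw = 0 := by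
      apply Subtype.ext
      change lf w ^ d = 0
      have h3 : lf w = 0 := by
        rw [lf]
        exact Finset.sum_eq_zero fun i _ => by rw [h1]; simp
      rw [h3, zero_pow hd]
    rw [h2]
    have h3 : T (fH n d) (vz d z hz) 0 = 0 := by
      ext x : 1
      rw [T_apply, map_zero, LinearMap.zero_apply, zero_smul, LinearMap.zero_apply]
    have h4 : T (fH n d) 0 (vz d z hz) = 0 := by
      ext x : 1
      rw [T_apply, smul_zero, LinearMap.zero_apply]
    have h5 := @sub_zero (Module.End ℂ (HH ℂ n d)) _ 0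
    rw [h3, h4, h5]
    exact Submodule.zero_mem _
  · apply hcon
    have h2 : vz d z hz = c ^ d • vz d w hw := by
      apply Subtype.ext
      rw [Submodule.coe_smul]
      change lf z ^ d = c ^ d • lf w ^ d
      have h3 : lf z = C c * lf w := by
        rw [h1, lf, lf, Finset.mul_sum]
        refine Finset.sum_congr rfl fun i _ => ?_
        rw [map_mul]
        ring
      rw [h3, mul_pow, smul_eq_C_mul, map_pow]
    have h5 := @sub_self (Module.End ℂ (HH ℂ n d)) _
      (c ^ d • T (fH n d) (vz d w hw) (vz d w hw))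
    rw [h2, T_smul_left, T_smul_right, h5]
    exact Submodule.zero_mem _

theorem AA_mem (hn : 2 ≤ n) {d : ℕ} (hd : d ≠ 0) (L : Submodule ℂ (Module.End ℂ (HH ℂ n d)))
    (hbr : ∀ X ∈ L, ∀ Y ∈ L, X * Y - Y * X ∈ L)
    (hR : ∀ (z : Fin n → ℂ) (hz : ∑ i, z i ^ 2 = 0), Rz d z hz ∈ L)
    (v w : HH ℂ n d) : T (fH n d) v w - T (fH n d) w v ∈ L := by
  have h1 : ∀ (v : HH ℂ n d) (h : ∀ (z : Fin n → ℂ) (hz : ∑ i, z i ^ 2 = 0),
      T (fH n d) v (vz d z hz) - T (fH n d) (vz d z hz) v ∈ L),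
      ∀ w, T (fH n d) v w - T (fH n d) w v ∈ L := by
    intro v h w
    let W : Submodule ℂ (HH ℂ n d) :=
      { carrier := {w | T (fH n d) v w - T (fH n d) w v ∈ L}
        add_mem' := by
          intro a b ha hb
          have h2 := L.add_mem ha hb
          have h3 : T (fH n d) v (a + b) - T (fH n d) (a + b) v =
              (T (fH n d) v a - T (fH n d) a v) + (T (fH n d) v b - T (fH n d) b v) := by
            rw [T_add_right, T_add_left]
            abel
          change T (fH n d) v (a + b) - T (fH n d) (a + b) v ∈ L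
          rw [h3]
          exact h2
        zero_mem' := by
          have h3 : T (fH n d) v 0 - T (fH n d) 0 v = 0 := by
            ext x : 1
            rw [LinearMap.sub_apply, T_apply, T_apply, map_zero, LinearMap.zero_apply, zero_smul,
              smul_zero, sub_zero, LinearMap.zero_apply]
          change T (fH n d) v 0 - T (fH n d) 0 v ∈ L
          rw [h3]
          exact L.zero_mem
        smul_mem' := by
          intro c a ha
          have h3 : T (fH n d) v (c • a) - T (fH n d) (c • a) v =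
              c • (T (fH n d) v a - T (fH n d) a v) := by
            rw [T_smul_right, T_smul_left]
            exact Eq.symm (@smul_sub ℂ (Module.End ℂ (HH ℂ n d)) _ _ _ _ _)
          change T (fH n d) v (c • a) - T (fH n d) (c • a) v ∈ L
          rw [h3]
          exact L.smul_mem c ha }
    have h2 : W = ⊤ := span_vz hn W h
    have h3 : w ∈ W := by rw [h2]; exact Submodule.mem_top
    exact h3
  apply h1
  intro z hz
  have h2 := h1 (vz d z hz) (fun y hy => AA_null hd L hbr hR z y hz hy) v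
  have h3 := @Submodule.neg_mem ℂ (Module.End ℂ (HH ℂ n d)) _ _ _ L _ h2
  have h4 := @neg_sub (Module.End ℂ (HH ℂ n d)) _ (T (fH n d) (vz d z hz) v)
    (T (fH n d) v (vz d z hz))
  rw [← h4]
  exact h3

theorem pres_Sop (i0 i1 : Fin n) : Pres (Sop i0 i1) := by
  refine Pres.sum _ fun j _ => ?_
  have h : (Ed i0 i1 j).toLinearMap = dop (Lab i0 j : Derivation ℂ _ _) +
      Complex.I • dop (Lab i1 j : Derivation ℂ _ _) := by
    ext f
    simp only [Ed, Derivation.coe_add_linearMap, Derivation.coe_smul_linearMap, LinearMap.coe_comp, Function.comp_apply, AddMonoidAlgebra.lsingle_apply, LinearMap.add_apply, Derivation.coeFn_coe, LinearMap.smul_apply, coeff_add, coeff_smul, smul_eq_mul, dop]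
  have h2 : Pres (Ed i0 i1 j).toLinearMap := by
    rw [h]
    exact (pres_Lab _ _).add ((pres_Lab _ _).smul _)
  exact h2.mul h2

/-- B3-34: if `g` is closed under brackets and orthogonal conjugations and contains the
operators `κ^{2j-1} S^j`, then it contains all families with zero traces. -/
theorem b3_sl {i0 i1 : Fin n} (h01 : i0 ≠ i1) (hn : 3 ≤ n) (kap : ℕ → ℂ)
    (hk : ∀ d, 2 ≤ d → d ≤ D → kap d ≠ 0) (g : Submodule ℂ (BA ℂ n D))
    (hbr : ∀ X ∈ g, ∀ Y ∈ g, X * Y - Y * X ∈ g)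
    (hconj : ∀ U : Matrix (Fin n) (Fin n) ℝ, U.transpose * U = 1 → ∀ X ∈ g,
      blk D (rop (U.map Complex.ofReal)) * X * blk D (rop (U.transpose.map Complex.ofReal)) ∈ g)
    (hS : ∀ j, 2 ≤ j → j ≤ D →
      (fun d : Finset.Icc 2 D => kap d ^ (2 * j - 1) • rst (Sop i0 i1) d ^ j : BA ℂ n D) ∈ g) :
    ∀ X : BA ℂ n D, (∀ d, LinearMap.trace ℂ _ (X d) = 0) → X ∈ g := by
  classical
  have hcard : 0 < (oth i0 i1).card := by
    have h1 : (oth i0 i1) = (Finset.univ.erase i0).erase i1 := by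
      ext j
      rw [mem_oth]
      simp only [ne_eq, Finset.mem_erase, Finset.mem_univ, and_comm, true_and]
    rw [h1, Finset.card_erase_of_mem, Finset.card_erase_of_mem (Finset.mem_univ _),
      Finset.card_univ, Fintype.card_fin]
    · omega
    · rw [Finset.mem_erase]
      exact ⟨h01.symm, Finset.mem_univ _⟩
  have hpow : ∀ (j : ℕ) (d : ℕ) (f : HH ℂ n d),
      (((rst (Sop i0 i1) d ^ j) f : HH ℂ n d) : MvPolynomial (Fin n) ℂ) =
        (Sop i0 i1 ^ j) (f : MvPolynomial (Fin n) ℂ) := by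
    intro j d f
    rw [← rst_pow (pres_Sop i0 i1), ((pres_Sop i0 i1).pow j).rst_coe]
  have hzero : ∀ (j d : ℕ), d < j → rst (Sop i0 i1 : Module.End ℂ (MvPolynomial (Fin n) ℂ)) d ^ j
      = 0 := by
    intro j d hdj
    ext f : 1
    apply Subtype.ext
    rw [hpow]
    exact (Sop_pow_homog h01 d _ (mem_HH.1 f.2).1).2 j hdj
  have hblock : ∀ (k : ℕ) (d : Finset.Icc 2 D), D - (d : ℕ) = k →
      ∀ A : Module.End ℂ (HH ℂ n (d : ℕ)), LinearMap.trace ℂ _ A = 0 → A ∈ Lblk g d := by
    intro k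
    induction k using Nat.strong_induction_on with
    | _ k ih =>
    intro d hdk A hA
    obtain ⟨hd2, hdD⟩ := Finset.mem_Icc.1 d.2
    have hd0 : (d : ℕ) ≠ 0 := by omega
    set s : BA ℂ n D := fun e : Finset.Icc 2 D =>
      kap e ^ (2 * (d : ℕ) - 1) • rst (Sop i0 i1) e ^ (d : ℕ) with hs
    have hsg : s ∈ g := hS d hd2 hdD
    have h1 : (Pi.single d (s d) : BA ℂ n D) = s - ∑ e ∈ Finset.univ.filter (fun e => d < e),
        (Pi.single e (s e) : BA ℂ n D) := by
      funext x
      rw [Pi.sub_apply, Finset.sum_apply]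
      have h2 : ∑ e ∈ Finset.univ.filter (fun e => d < e), (Pi.single e (s e) : BA ℂ n D) x =
          if d < x then s x else 0 := by
        by_cases hx : d < x
        · rw [if_pos hx, Finset.sum_eq_single x]
          · rw [Pi.single_eq_same]
          · intro e _ hex
            rw [Pi.single_eq_of_ne (Ne.symm hex)]
          · intro h3
            exact absurd (Finset.mem_filter.2 ⟨Finset.mem_univ _, hx⟩) h3
        · rw [if_neg hx]
          refine Finset.sum_eq_zero fun e he => ?_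
          rw [Pi.single_eq_of_ne]
          intro h3
          subst h3
          exact hx (Finset.mem_filter.1 he).2
      rw [h2]
      rcases lt_trichotomy x d with hx | hx | hx
      · rw [Pi.single_eq_of_ne hx.ne, if_neg (not_lt.2 hx.le)]
        have h3 : (x : ℕ) < (d : ℕ) := hx
        have h4 : s x = 0 := by
          rw [hs]
          simp only [hzero _ _ h3]
          exact smul_zero _
        rw [h4]
        exact (@sub_zero (Module.End ℂ (HH ℂ n (x : ℕ))) _ 0).symm
      · subst hx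
        rw [Pi.single_eq_same, if_neg (lt_irrefl _)]
        exact (@sub_zero (Module.End ℂ (HH ℂ n (x : ℕ))) _ _).symm
      · rw [Pi.single_eq_of_ne hx.ne', if_pos hx]
        exact (@sub_self (Module.End ℂ (HH ℂ n (x : ℕ))) _ _).symm
    have h2 : s d ∈ Lblk g d := by
      rw [mem_Lblk, h1]
      refine @Submodule.sub_mem ℂ (BA ℂ n D) _ _ _ g _ _ hsg (g.sum_mem fun e he => ?_)
      have hde : d < e := (Finset.mem_filter.1 he).2
      have hde' : (d : ℕ) < (e : ℕ) := hde
      have heD := (Finset.mem_Icc.1 e.2).2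
      rw [← mem_Lblk]
      refine ih (D - (e : ℕ)) (by omega) e rfl _ ?_
      rw [hs]
      simp only [map_smul]
      have h4 : IsNilpotent (rst (Sop i0 i1 : Module.End ℂ (MvPolynomial (Fin n) ℂ)) (e : ℕ) ^
          (d : ℕ)) := by
        refine ⟨(e : ℕ) + 1, ?_⟩
        rw [← pow_mul]
        apply hzero
        nlinarith only [hd2]
      have h5 := LinearMap.isNilpotent_trace_of_isNilpotent h4
      rw [h5.eq_zero, smul_zero]
    have h3 : Rz (d : ℕ) (zeta0 i0 i1) (zeta0_null h01) ∈ Lblk g d := by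
      have hcne : kap d ^ (2 * (d : ℕ) - 1) * cS (oth i0 i1).card d ≠ 0 :=
        mul_ne_zero (pow_ne_zero _ (hk d hd2 hdD)) (cS_ne_zero hcard d)
      have h4 : Rz (d : ℕ) (zeta0 i0 i1) (zeta0_null h01) =
          (((d : ℕ).factorial : ℂ) * (kap d ^ (2 * (d : ℕ) - 1) * cS (oth i0 i1).card d)⁻¹) •
            s d := by
        ext f : 1
        apply Subtype.ext
        rw [Rz_coe, LinearMap.smul_apply, hs, LinearMap.smul_apply, Submodule.coe_smul,
          Submodule.coe_smul, hpow, (Sop_pow_homog h01 d _ (mem_HH.1 f.2).1).1, zz_eq_lf h01,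
          smul_smul, smul_eq_C_mul, ← mul_assoc, ← map_mul]
        congr 2
        have h6 := left_ne_zero_of_mul hcne
        have h7 := right_ne_zero_of_mul hcne
        field_simp
      rw [h4]
      exact Submodule.smul_mem _ _ h2
    have hR := Rz_mem hconj d h01 h3
    have hbr' := Lblk_bracket hbr d
    have hAA := AA_mem (by omega : 2 ≤ n) hd0 (Lblk g d) hbr' hR
    set z0 : Fin n → ℂ := zeta0 i0 i1 with hz0
    set z1 : Fin n → ℂ := fun i => (starRingEnd ℂ) (z0 i) with hz1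
    have hz0n : ∑ i, z0 i ^ 2 = 0 := zeta0_null h01
    have hz1n : ∑ i, z1 i ^ 2 = 0 := by
      have h4 := congrArg (starRingEnd ℂ) hz0n
      rw [map_sum, map_zero] at h4
      rw [← h4]
      exact Finset.sum_congr rfl fun i _ => by rw [hz1, map_pow]
    have hB : fH n (d : ℕ) (vz d z1 hz1n) (vz d z0 hz0n) ≠ 0 := by
      rw [fH_vz]
      refine mul_ne_zero (by exact_mod_cast Nat.factorial_ne_zero _) ?_
      have h4 : eval z0 ((vz d z1 hz1n : HH ℂ n d) : MvPolynomial (Fin n) ℂ) =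
          (∑ i, z1 i * z0 i) ^ (d : ℕ) := by
        change eval z0 (lf z1 ^ (d : ℕ)) = _
        rw [map_pow, lf, map_sum]
        congr 1
        refine Finset.sum_congr rfl fun i _ => ?_
        rw [map_mul, eval_C, eval_X]
      rw [h4]
      apply pow_ne_zero
      rw [Finset.sum_eq_add_of_mem i0 i1 (Finset.mem_univ _) (Finset.mem_univ _) h01]
      · simp only [hz1, hz0, zeta0, if_true, if_neg h01.symm, map_one, Complex.conj_I]
        norm_num
      · intro c _ hc
        simp only [hz1, hz0, zeta0, hc.1, ↓reduceIte, hc.2, map_zero, mul_zero]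
    have hself : ∀ (z : Fin n → ℂ) (hz : ∑ i, z i ^ 2 = 0),
        fH n (d : ℕ) (vz d z hz) (vz d z hz) = 0 := by
      intro z hz
      rw [fH_vz]
      have h4 : eval z ((vz d z hz : HH ℂ n d) : MvPolynomial (Fin n) ℂ) =
          (∑ i, z i * z i) ^ (d : ℕ) := by
        change eval z (lf z ^ (d : ℕ)) = _
        rw [map_pow, lf, map_sum]
        congr 1
        refine Finset.sum_congr rfl fun i _ => ?_
        rw [map_mul, eval_C, eval_X]
      have h5 : ∑ i, z i * z i = 0 := by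
        rw [← hz]
        exact Finset.sum_congr rfl fun i _ => (sq _).symm
      rw [h4, h5, zero_pow hd0, mul_zero]
    set c : ℂ := (fH n (d : ℕ) (vz d z1 hz1n) (vz d z0 hz0n))⁻¹ with hc
    refine Vale.Agent.P225.RK.mem_of_trace_eq_zero two_ne_zero (fH n (d : ℕ))
      (fH_nondegenerate n d) fH_comm (Lblk g d) hbr' hAA
      (u := c • vz d z1 hz1n) (v := vz d z0 hz0n) ?_ ?_ ?_ ?_ ?_ hA
    · rw [map_smul, map_smul, LinearMap.smul_apply, hself, smul_zero, smul_zero]
    · exact hself z0 hz0n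
    · rw [map_smul, LinearMap.smul_apply, smul_eq_mul, hc, inv_mul_cancel₀ hB]
    · rw [T_smul_left, T_smul_right]
      exact Submodule.smul_mem _ _ (Submodule.smul_mem _ _ (hR z1 hz1n))
    · exact hR z0 hz0n
  intro X hX
  have h1 : X = ∑ d, (Pi.single d (X d) : BA ℂ n D) := (Finset.univ_sum_single X).symm
  rw [h1]
  exact g.sum_mem fun d _ => hblock _ d rfl (X d) (hX d)

end Vale.Agent.P225.B
end
end

section

section

/-! P225, design B, B2: the transfer coefficients of the home part of a cycle. -/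

open Set Filter Topology
open scoped ContDiff

namespace Vale.Agent.P225.B2.Cyc

theorem sroot_pos {m : ℕ} {P C : ℝ} (hC : 0 < C) : 0 < sroot m P C := by
  unfold sroot
  have h1 : |(m:ℝ) * P| < √((m * P) ^ 2 + C) := by
    rw [← Real.sqrt_sq_eq_abs]
    exact Real.sqrt_lt_sqrt (sq_nonneg _) (by linarith)
  have h2 := le_abs_self ((m:ℝ) * P)
  linarith only [h1, h2]

theorem sroot_mul {m : ℕ} {P C : ℝ} (hC : 0 < C) :
    sroot m P C * (sroot m P C + 2 * m * P) = C := by
  unfold sroot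
  have h1 : √(((m:ℝ) * P) ^ 2 + C) ^ 2 = (m * P) ^ 2 + C :=
    Real.sq_sqrt (by positivity)
  linear_combination h1

theorem tendsto_rr : Tendsto rr atTop atTop := tendsto_rpow_atTop (by norm_num)

theorem rpow_half_tendsto (a : ℝ) : Tendsto (fun t : ℝ => a * t ^ (-(1 / 2) : ℝ)) atTop (𝓝 0) := by
  have := (tendsto_rpow_neg_atTop (by norm_num : (0:ℝ) < 1 / 2)).const_mul a
  simpa only [one_div, mul_zero] using this

variable {D : Type} [Fintype D] {ι : D → Type} [∀ d, Fintype (ι d)] [∀ d, DecidableEq (ι d)]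
  {𝒥 : Type} (P : Dat D ι 𝒥)

theorem C_pos (d : D) : 0 < P.C d := by
  have h1 : (1:ℝ) ≤ P.deg d := by exact_mod_cast P.hdeg d
  unfold Dat.C
  positivity

theorem s_pos (d : D) : 0 < P.s d := sroot_pos (C_pos P d)

theorem m_pos : (0:ℝ) < P.m := by exact_mod_cast P.hm

theorem ss_pos (d : D) : 0 < P.ss d := by
  have := s_pos P d
  have := m_pos P
  have := P.hP0
  unfold Dat.ss
  positivity

theorem s_mul_ss (d : D) : P.s d * P.ss d = P.C d := by
  have := sroot_mul (m := P.m) (P := P.Pinf) (C_pos P d)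
  unfold Dat.ss Dat.s
  exact this

theorem sig0_pos : 0 < P.sig0 := by
  unfold Dat.sig0
  exact mul_pos P.hP0 (Real.exp_pos _)

theorem beta_bounds {x y : ℝ} (h0 : 0 ≤ x) (h1 : x ≤ y) : 0 ≤ beta x ∧ beta x ≤ beta y ∧ beta y < 1 := by
  unfold beta
  refine ⟨?_, ?_, ?_⟩
  · have : Real.exp (-2 * x) ≤ 1 := by rw [Real.exp_le_one_iff]; linarith only [h0]
    linarith only [this]
  · have : Real.exp (-2 * y) ≤ Real.exp (-2 * x) := Real.exp_le_exp.2 (by linarith)
    linarith only [this]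
  · have := Real.exp_pos (-2 * y)
    linarith only [this]

theorem Q_pos (d : D) (i : ι d) {x : ℝ} (h0 : 0 ≤ x) : 0 < P.C d - beta x * P.mu d i := by
  obtain ⟨h1, _, h3⟩ := beta_bounds h0 le_rfl
  have h4 := P.hmu d i
  have h5 := P.hmu0 d i
  have h6 := C_pos P d
  have h7 : P.mu d i ≤ P.C d := h4
  (clear * - h1 h7 h3 h6; nlinarith)

theorem S_pos (d : D) (i : ι d) : 0 < P.S d i := sroot_pos (Q_pos P d i P.heta0)

theorem S_mul (d : D) (i : ι d) :
    P.S d i * (P.S d i + 2 * P.m * P.sig0) = P.C d - beta P.eta0 * P.mu d i :=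
  sroot_mul (Q_pos P d i P.heta0)

/-- The transfer coefficients at home. -/
theorem home_coeffs (l : ℕ) (d : D) (i : ι d) :
    ∃ C : ℝ, 0 < C ∧ ∀ a : ℝ, 0 < a → ∀ᶠ t : ℝ in atTop, ∀ Ψ : ℝ → ℝ, ContDiff ℝ ∞ Ψ →
      (∀ x ∈ Icc t (T3 l t), P.Pinf ≤ Ψ x ∧ Ψ x ≤ P.Pinf + a * x ^ (-(1 / 2) : ℝ)) →
      ∃ A A' B B' : ℝ, C⁻¹ ≤ A ∧ |B| ≤ C * A ∧
        |A'| ≤ C * (Real.exp (-((P.s d + P.ss d) * rr t)) + 2 * P.m * a * t ^ (-(1 / 2) : ℝ)) * A ∧
        |A * B' - A' * B| ≤ Real.exp (-(P.m * P.sig0 * rr t)) ∧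
        A ≤ Real.exp (P.S d i * LL t + C * (2 * P.m * a * t ^ (-(1 / 2) : ℝ)) * LL t
          + C * (1 + 3 * rr t)) ∧
        ∀ w dw : ℝ → ℝ,
          P225.B.IsSol (fun x => 2 * P.m * sigC P.m Ψ P.eta0 l t x + deriv (eh P.eta0 l t) x)
            (fun x => P.C d - beta (eh P.eta0 l t x) * P.mu d i) w dw (T1 l t) (T3 l t) →
          dw (T3 l t) + P.ss d * w (T3 l t)
              = A * (dw (T1 l t) + P.ss d * w (T1 l t)) + B * (dw (T1 l t) - P.s d * w (T1 l t)) ∧
            dw (T3 l t) - P.s d * w (T3 l t)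
              = A' * (dw (T1 l t) + P.ss d * w (T1 l t))
                + B' * (dw (T1 l t) - P.s d * w (T1 l t)) := by
  have hm := m_pos P
  have hσ := sig0_pos P
  have hCd := C_pos P d
  set SS := P.S d i + 2 * P.m * P.sig0 with hSS
  have hSSpos : 0 < SS := by have := S_pos P d i; positivity
  set K := P.C d + 2 * P.m * (P.Pinf + 1) + 1 with hK
  have hKpos : 0 < K := by have := P.hP0; positivity
  obtain ⟨C, hC, hhome⟩ := P225.B.home_block (s := P.s d) (ss := P.ss d) (S := P.S d i) (SS := SS)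
    (K := K) (p₀ := P.m * P.sig0) (s_pos P d) (ss_pos P d) (S_pos P d i) hSSpos hKpos
    (by positivity)
  obtain ⟨Kc, hKc, hchi⟩ := chi_bound
  refine ⟨C, hC, fun a ha => ?_⟩
  have hev1 : ∀ᶠ t : ℝ in atTop, 2 * P.m * a * t ^ (-(1 / 2) : ℝ) < 1 :=
    (rpow_half_tendsto (2 * P.m * a)).eventually (gt_mem_nhds one_pos)
  have hev1' : ∀ᶠ t : ℝ in atTop, a * t ^ (-(1 / 2) : ℝ) < 1 :=
    (rpow_half_tendsto a).eventually (gt_mem_nhds one_pos)
  have hrr0 : Tendsto (fun t => 2 * P.eta0 * Kc / rr t) atTop (𝓝 0) :=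
    tendsto_rr.const_div_atTop _
  have hev2 : ∀ᶠ t : ℝ in atTop, 2 * P.eta0 * Kc / rr t < min (P.m * P.sig0) 1 :=
    hrr0.eventually (gt_mem_nhds (lt_min (by (clear * - hm hσ; positivity)) one_pos))
  filter_upwards [hev1, hev1', hev2, eventually_gt_atTop 0] with t ht1 ht1' ht2 ht0
  intro Ψ hΨ hΨb
  have hr := rr_pos ht0
  have hL := LL_pos ht0
  have hT12 : T2 l t = T1 l t + 2 * rr t + LL t := rfl
  have hT23 : T3 l t = T2 l t + rr t := rfl
  have hT1t : t ≤ T1 l t := by unfold T1; have : 0 ≤ (l:ℝ) * rr t := by (clear * - hr; positivity)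
                               linarith only [this]
  set p : ℝ → ℝ := fun x => 2 * P.m * sigC P.m Ψ P.eta0 l t x + deriv (eh P.eta0 l t) x with hp
  set Qi : ℝ → ℝ := fun x => P.C d - beta (eh P.eta0 l t x) * P.mu d i with hQi
  have hpc : Continuous p :=
    (continuous_const.mul (contDiff_sigC P.m hΨ P.eta0 l t).continuous).add
      (continuous_deriv_of_smooth (contDiff_eh P.eta0 l t))
  have hQc : Continuous Qi := by
    have h1 : Continuous beta := by unfold beta; fun_prop
    exact continuous_const.sub ((h1.comp (contDiff_eh P.eta0 l t).continuous).mul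
      continuous_const)
  -- bounds for `Ψ`
  have hΨ1 : ∀ x, T1 l t ≤ x → x ≤ T3 l t → P.Pinf ≤ Ψ x ∧ Ψ x - P.Pinf ≤ a * t ^ (-(1 / 2) : ℝ) := by
    intro x hx1 hx2
    obtain ⟨h1, h2⟩ := hΨb x ⟨hT1t.trans hx1, hx2⟩
    refine ⟨h1, ?_⟩
    have h3 : x ^ (-(1 / 2) : ℝ) ≤ t ^ (-(1 / 2) : ℝ) :=
      Real.rpow_le_rpow_of_nonpos ht0 (hT1t.trans hx1) (by norm_num)
    have := mul_le_mul_of_nonneg_left h3 ha.le
    linarith only [h2, this]
  set ex : ℝ → ℝ := fun x => Real.exp (-(eh P.eta0 l t x / (2 * P.m + 1))) with hex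
  have hex1 : ∀ x, ex x ≤ 1 := by
    intro x
    rw [hex]
    simp only
    rw [Real.exp_le_one_iff]
    have := eh_nonneg P.heta0 l t x
    have : 0 ≤ eh P.eta0 l t x / (2 * P.m + 1) := by (clear * - this hm; positivity)
    linarith only [this]
  have hex2 : ∀ x, Real.exp (-(P.eta0 / (2 * P.m + 1))) ≤ ex x := by
    intro x
    apply Real.exp_le_exp.2
    have h1 := eh_le P.heta0 l t x
    have : eh P.eta0 l t x / (2 * P.m + 1) ≤ P.eta0 / (2 * P.m + 1) :=
      div_le_div_of_nonneg_right h1 (by (clear * - hm; positivity))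
    linarith only [this]
  have hsig : ∀ x, sigC P.m Ψ P.eta0 l t x = Ψ x * ex x := fun x => rfl
  have hexpos : ∀ x, 0 < ex x := fun x => Real.exp_pos _
  have hderb : ∀ x, |deriv (eh P.eta0 l t) x| ≤ 2 * P.eta0 * Kc / rr t := fun x =>
    deriv_eh_bound P.heta0 hchi l ht0 x
  have hP0 := P.hP0
  -- the hypotheses of `home_block`
  have hb : ∀ x ∈ Icc (T1 l t) (T3 l t), 0 ≤ Qi x ∧ Qi x ≤ K ∧ P.m * P.sig0 ≤ p x ∧ p x ≤ K := by
    intro x hx
    obtain ⟨h1, h2⟩ := hΨ1 x hx.1 hx.2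
    have h3 := eh_nonneg P.heta0 l t x
    refine ⟨(Q_pos P d i h3).le, ?_, ?_, ?_⟩
    · have h4 : 0 ≤ beta (eh P.eta0 l t x) * P.mu d i :=
        mul_nonneg (beta_bounds h3 le_rfl).1 (P.hmu0 d i)
      have : 0 ≤ 2 * P.m * (P.Pinf + 1) := by (clear * - hm hP0; positivity)
      simp only [hQi, hK]; linarith only [h4, this]
    · have h5 := abs_le.1 (hderb x)
      have h6 : P.sig0 ≤ sigC P.m Ψ P.eta0 l t x := by
        rw [hsig]
        unfold Dat.sig0
        exact mul_le_mul h1 (hex2 x) (Real.exp_pos _).le (hP0.le.trans h1)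
      have h7 := min_le_left (P.m * P.sig0) 1
      have h8 : P.m * P.sig0 ≤ P.m * sigC P.m Ψ P.eta0 l t x :=
        mul_le_mul_of_nonneg_left h6 hm.le
      simp only [hp]; linarith only [ht2, h5, h7, h8]
    · have h5 := abs_le.1 (hderb x)
      have h6 : sigC P.m Ψ P.eta0 l t x ≤ P.Pinf + 1 := by
        rw [hsig]
        calc Ψ x * ex x ≤ Ψ x * 1 := mul_le_mul_of_nonneg_left (hex1 x) (hP0.le.trans h1)
          _ ≤ P.Pinf + 1 := by linarith only [ht1', h2]
      have h7 := min_le_right (P.m * P.sig0) 1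
      have h8 : P.m * sigC P.m Ψ P.eta0 l t x ≤ P.m * (P.Pinf + 1) :=
        mul_le_mul_of_nonneg_left h6 hm.le
      simp only [hp, hK]; linarith only [hCd, ht2, h5, h7, h8]
  set ε := 2 * P.m * a * t ^ (-(1 / 2) : ℝ) with hε
  have hε0 : 0 ≤ ε := by (clear * - hm ha ht0; positivity)
  have hpl : ∀ x ∈ Icc (T1 l t + rr t) (T2 l t - rr t),
      |Qi x - P.S d i * SS| ≤ ε ∧ |p x - (SS - P.S d i)| ≤ ε := by
    intro x hx
    have hx1 := hx.1
    have hx2 := hx.2
    have h1 : eh P.eta0 l t x = P.eta0 := eh_home ht0 (by linarith only [hr, hx1]) (by linarith only [hr, hx2])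
    have h2 : deriv (eh P.eta0 l t) x = 0 := by
      rw [(hasDerivAt_eh _ _ _ _).deriv]
      have e1 : chi ((x - T1 l t) / rr t) = 0 := by
        apply chi_zero_right
        rw [lt_div_iff₀ hr]; linarith only [hr, hx1]
      have e2 : chi ((T2 l t - x) / rr t) = 0 := by
        apply chi_zero_right
        rw [lt_div_iff₀ hr]; linarith only [hr, hx2]
      rw [e1, e2]; ring
    constructor
    · have h3 : Qi x - P.S d i * SS = 0 := by
        simp only [hQi, h1, hSS]
        rw [S_mul P d i]; ring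
      rw [h3, abs_zero]; exact hε0
    · obtain ⟨h3, h4⟩ := hΨ1 x (by linarith only [hr, hx1]) (by linarith only [hr, hT23, hx2])
      have h5 : p x - (SS - P.S d i)
          = 2 * P.m * ((Ψ x - P.Pinf) * Real.exp (-(P.eta0 / (2 * P.m + 1)))) := by
        simp only [hp, hsig, hex, h1, h2, hSS, Dat.sig0]
        ring
      rw [h5, abs_of_nonneg (by
        have : 0 ≤ Ψ x - P.Pinf := by linarith only [h3]
        (clear * - hm h3; positivity))]
      have h6 : Real.exp (-(P.eta0 / (2 * P.m + 1))) ≤ 1 := (hex2 x).trans (hex1 x)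
      have h7 : (Ψ x - P.Pinf) * Real.exp (-(P.eta0 / (2 * P.m + 1)))
          ≤ a * t ^ (-(1 / 2) : ℝ) := by
        calc _ ≤ (Ψ x - P.Pinf) * 1 := mul_le_mul_of_nonneg_left h6 (by linarith only [h3])
          _ ≤ _ := by linarith only [h4]
      calc 2 * P.m * ((Ψ x - P.Pinf) * Real.exp (-(P.eta0 / (2 * P.m + 1))))
          ≤ 2 * P.m * (a * t ^ (-(1 / 2) : ℝ)) := mul_le_mul_of_nonneg_left h7 (by (clear * - hm; positivity))
        _ = ε := by rw [hε]; ring
  have hre : ∀ x ∈ Icc (T2 l t) (T3 l t),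
      |Qi x - P.s d * P.ss d| ≤ ε ∧ |p x - (P.ss d - P.s d)| ≤ ε := by
    intro x hx
    have hx1 := hx.1
    have hx2 := hx.2
    have h1 : eh P.eta0 l t x = 0 := eh_zero_right ht0 (by linarith only [hr, hx1])
    have h2 : deriv (eh P.eta0 l t) x = 0 := by
      rw [(hasDerivAt_eh _ _ _ _).deriv]
      have e1 : chi ((x - T1 l t) / rr t) = 0 := by
        apply chi_zero_right
        rw [lt_div_iff₀ hr]; linarith only [hr, hL, hT12, hx1]
      have e2 : chi ((T2 l t - x) / rr t) = 0 := by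
        apply chi_zero_left
        rw [div_lt_iff₀ hr]; linarith only [hr, hx1]
      rw [e1, e2]; ring
    constructor
    · have h3 : Qi x - P.s d * P.ss d = 0 := by
        simp only [hQi, h1, beta_zero]
        rw [s_mul_ss P d]; ring
      rw [h3, abs_zero]; exact hε0
    · obtain ⟨h3, h4⟩ := hΨ1 x (by linarith only [hr, hL, hT12, hx1]) (by linarith only [hx2])
      have h5 : p x - (P.ss d - P.s d) = 2 * P.m * (Ψ x - P.Pinf) := by
        simp only [hp, hsig, hex, h1, h2, Dat.ss]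
        simp only [zero_div, neg_zero, Real.exp_zero, mul_one, add_zero, add_sub_cancel_left]
        ring
      rw [h5, abs_of_nonneg (by
        have : 0 ≤ Ψ x - P.Pinf := by linarith only [h3]
        (clear * - hm h3; positivity))]
      calc 2 * P.m * (Ψ x - P.Pinf) ≤ 2 * P.m * (a * t ^ (-(1 / 2) : ℝ)) :=
            mul_le_mul_of_nonneg_left h4 (by (clear * - hm; positivity))
        _ = ε := by rw [hε]; ring
  -- fundamental solutions
  have hQc' : Continuous fun x => Qi x • (1 : ℝ →L[ℝ] ℝ) := hQc.smul continuous_const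
  have hex' : ∀ w₀ w₁ : ℝ, ∃ w dw : ℝ → ℝ, P225.B.IsSol p Qi w dw (T1 l t) (T3 l t) ∧
      w (T1 l t) = w₀ ∧ dw (T1 l t) = w₁ := by
    intro w₀ w₁
    obtain ⟨w, dw, hs, h0, h1⟩ := sol_exists hpc hQc' (T1 l t) w₀ w₁
    refine ⟨w, dw, ⟨fun x _ => hs.d0 x trivial, fun x _ => ?_⟩, h0, h1⟩
    exact (hs.d1 x trivial).congr_deriv (by simp)
  obtain ⟨w₁, dw₁, hw₁, i1, i2⟩ := hex' (P.s d + P.ss d)⁻¹ ((P.s d + P.ss d)⁻¹ * P.s d)
  obtain ⟨w₂, dw₂, hw₂, i3, i4⟩ := hex' (-(P.s d + P.ss d)⁻¹) ((P.s d + P.ss d)⁻¹ * P.ss d)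
  obtain ⟨r1, r2, r3, r4, r5, r6⟩ := hhome p Qi (T1 l t) (T1 l t + rr t) (T2 l t - rr t) (T2 l t)
    (T3 l t) ε hpc (by linarith only [hr]) (by linarith only [hL, hT12]) (by linarith only [hr]) (by linarith only [hr, hT23]) hε0 ht1.le hb hpl hre
    w₁ dw₁ w₂ dw₂ hw₁ hw₂ i1 i2 i3 i4 _ _ _ _ rfl rfl rfl rfl
  have e1 : T3 l t - T2 l t = rr t := by rw [hT23]; ring
  have e2 : T2 l t - rr t - (T1 l t + rr t) = LL t := by rw [hT12]; ring
  have e3 : T1 l t + rr t - T1 l t + (T3 l t - (T2 l t - rr t)) = 3 * rr t := by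
    rw [hT23]; ring
  refine ⟨_, _, _, _, r1, r2, ?_, ?_, ?_, r6⟩
  · rw [e1] at r3; exact r3
  · refine r4.trans (Real.exp_le_exp.2 ?_)
    have : P.m * P.sig0 * rr t ≤ P.m * P.sig0 * (T3 l t - T1 l t) := by
      apply mul_le_mul_of_nonneg_left _ (by (clear * - hm hσ; positivity))
      rw [hT23, hT12]; linarith only [hr, hL]
    linarith only [this]
  · refine r5.trans (Real.exp_le_exp.2 ?_)
    rw [e2]
    have : C * (1 + (T1 l t + rr t - T1 l t) + (T3 l t - (T2 l t - rr t))) = C * (1 + 3 * rr t) := by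
      rw [add_assoc, e3]
    rw [this]

end Vale.Agent.P225.B2.Cyc
end
end

section

section

/-! P225, design B, B2: D6 + D7, one cycle. -/

open Set Filter Topology Metric
open scoped ContDiff

namespace Vale.Agent.P225.B2.Cyc

/-- The statement of the pulse phase (D3 + D4) for spaces in `Type`. -/
def PulseStmt : Prop :=
  ∀ (V : Type) [NormedAddCommGroup V] [NormedSpace ℝ V] [FiniteDimensional ℝ V]
    (m : ℕ) (_ : 1 ≤ m) (Pinf : ℝ) (_ : 0 < Pinf) (s : ℝ) (_ : 0 < s) (l : ℕ)
    (M : Fin l → V →L[ℝ] V) (R : ℝ) (om : ℝ) (_ : 0 < om),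
    ∃ ε : ℝ, 0 < ε ∧ ∃ K : ℝ, ∀ r : ℝ, 1 / ε ≤ r → ∀ t : ℝ, ∀ Ψ : ℝ → ℝ, Continuous Ψ →
      ∀ ε1 : ℝ, 0 ≤ ε1 → ε1 ≤ ε → ε1 ^ 2 * r ≤ ε →
      (∀ x ∈ Icc t (t + l * r), |Ψ x - Pinf| ≤ ε1) → ∀ Zin : V →L[ℝ] V, ‖Zin‖ ≤ ε →
      ∃ g : ℝ, 0 < g ∧ g ≤ Real.exp (K * r) ∧
      ∃ A B : (Fin l → ℝ) → V →L[ℝ] V,
        (∀ c, ‖c‖ ≤ R → ∀ w w1 : ℝ → V,
          Sol (fun x => 2 * m * Ψ x + deriv (ep r t c) x) (Qp (s * (s + 2 * m * Pinf)) M r t c)
            (Icc t (t + l * r)) w w1 →
          w1 t - s • w t = Zin (w1 t + (s + 2 * m * Pinf) • w t) →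
          w1 (t + l * r) + (s + 2 * m * Pinf) • w (t + l * r)
              = g • A c (w1 t + (s + 2 * m * Pinf) • w t) ∧
            w1 (t + l * r) - s • w (t + l * r) = g • B c (w1 t + (s + 2 * m * Pinf) • w t)) ∧
        (∀ c, ‖c‖ ≤ R → ‖A c - wordMap (1 / (2 * s + 2 * m * Pinf)) M c‖ ≤ om ∧ ‖B c‖ ≤ om) ∧
        (∀ c c', ‖c‖ ≤ R → ‖c'‖ ≤ R →
          ‖(A c - wordMap (1 / (2 * s + 2 * m * Pinf)) M c)
              - (A c' - wordMap (1 / (2 * s + 2 * m * Pinf)) M c')‖ ≤ om * ‖c - c'‖ ∧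
            ‖B c - B c'‖ ≤ om * ‖c - c'‖)

variable {D : Type} [Fintype D] {ι : D → Type} [∀ d, Fintype (ι d)] [∀ d, DecidableEq (ι d)]
  {𝒥 : Type} {P : Dat D ι 𝒥}

theorem T_inv (Q : Ctl P) (d : D) :
    ∃ Ti : (ι d → ℝ) →L[ℝ] (ι d → ℝ), ∀ x, Ti (Q.T d x) = x := by
  obtain ⟨u, hu⟩ := isUnit_wordMap (P.kap d) (fun i => P.M (Q.word i) d) Q.c0
  refine ⟨Real.exp (Q.lam0 d) • (↑u⁻¹ : (ι d → ℝ) →L[ℝ] (ι d → ℝ)), fun x => ?_⟩
  have h1 : Q.T d x = Real.exp (-(Q.lam0 d)) • (↑u : (ι d → ℝ) →L[ℝ] (ι d → ℝ)) x := by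
    rw [hu]; rfl
  have h2 : (↑u⁻¹ : (ι d → ℝ) →L[ℝ] (ι d → ℝ)) ((↑u : (ι d → ℝ) →L[ℝ] (ι d → ℝ)) x) = x := by
    rw [← mul_apply_eq_comp, Units.inv_mul]
    rfl
  rw [h1, smul_apply, map_smul, h2, smul_smul, ← Real.exp_add]
  simp

/-- `M_{J₀}` is diagonal -/
theorem M0_apply (P : Dat D ι 𝒥) (d : D) (y : ι d → ℝ) (i : ι d) :
    P.M P.J0 d y i = P.mu d i * y i := by
  have h1 : y = ∑ j, y j • (Pi.single j (1:ℝ) : ι d → ℝ) := by
    funext k
    simp only [Finset.sum_apply, Pi.smul_apply, Pi.single_apply, smul_eq_mul, mul_ite, mul_one, mul_zero, Finset.sum_ite_eq, Finset.mem_univ, ↓reduceIte]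
  conv_lhs => rw [h1]
  rw [map_sum]
  simp only [map_smul, P.hM0, Finset.sum_apply, Pi.smul_apply, smul_eq_mul, Pi.single_apply]
  simp only [mul_ite, mul_one, mul_zero, Finset.sum_ite_eq, Finset.mem_univ, ↓reduceIte]
  ring

/-- On the home part the coordinates decouple. -/
theorem home_coord (P : Dat D ι 𝒥) {l : ℕ} (word : Fin l → 𝒥) {t : ℝ} (ht : 0 < t)
    (Ψ : ℝ → ℝ) (c : Fin l → ℝ) (d : D) {w w1 : ℝ → ι d → ℝ}
    (hs : Sol (P.pC Ψ t c) (P.QC word t c d) (Icc (T1 l t) (T3 l t)) w w1) (i : ι d) :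
    P225.B.IsSol (fun x => 2 * P.m * sigC P.m Ψ P.eta0 l t x + deriv (eh P.eta0 l t) x)
      (fun x => P.C d - beta (eh P.eta0 l t x) * P.mu d i) (fun x => w x i) (fun x => w1 x i)
      (T1 l t) (T3 l t) := by
  have hr := rr_pos ht
  refine ⟨fun x hx => hasDerivAt_pi.1 (hs.d0 x hx) i, fun x hx => ?_⟩
  refine (hasDerivAt_pi.1 (hs.d1 x hx) i).congr_deriv ?_
  have h1 : P.QC word t c d x (w x) i = (P.C d - beta (eh P.eta0 l t x) * P.mu d i) * w x i := by
    have h2 : ∀ j : Fin l, beta ((rr t)⁻¹ * c j * chi ((x - t) / rr t - (j : ℝ))) = 0 := by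
      intro j
      rw [ep_zero ht (by have := hx.1; linarith) j, mul_zero, beta_zero]
    simp only [Dat.QC, Qp, h2, zero_smul, Finset.sum_const_zero, sub_zero]
    simp only [sub_apply, smul_apply, Pi.sub_apply,
      Pi.smul_apply, smul_eq_mul, M0_apply]
    change P.C d * w x i - _ = _
    ring
  have h3 : P.pC Ψ t c x = 2 * P.m * sigC P.m Ψ P.eta0 l t x + deriv (eh P.eta0 l t) x := by
    unfold Dat.pC
    rw [deriv_etaC_home ht c hx.1]
  simp only [Pi.sub_apply, Pi.smul_apply, smul_eq_mul, h1, h3]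


/-- the home part of a cycle, uniform constants -/
theorem home_cyc (P : Dat D ι 𝒥) (l : ℕ) :
    ∃ C : ℝ, 0 < C ∧ ∀ a : ℝ, 0 < a → ∀ᶠ t : ℝ in atTop, ∀ Ψ : ℝ → ℝ, ContDiff ℝ ∞ Ψ →
      (∀ x ∈ Icc t (T3 l t), P.Pinf ≤ Ψ x ∧ Ψ x ≤ P.Pinf + a * x ^ (-(1 / 2) : ℝ)) →
      ∃ A A' B B' : (d : D) → ι d → ℝ, ∀ d i, C⁻¹ ≤ A d i ∧ |B d i| ≤ C * A d i ∧
        |A' d i| ≤ C * (Real.exp (-((P.s d + P.ss d) * rr t))
          + 2 * P.m * a * t ^ (-(1 / 2) : ℝ)) * A d i ∧
        |A d i * B' d i - A' d i * B d i| ≤ Real.exp (-(P.m * P.sig0 * rr t)) ∧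
        A d i ≤ Real.exp (P.S d i * LL t + C * (2 * P.m * a * t ^ (-(1 / 2) : ℝ)) * LL t
          + C * (1 + 3 * rr t)) ∧
        ∀ (word : Fin l → 𝒥) (c : Fin l → ℝ) (w w1 : ℝ → ι d → ℝ),
          Sol (P.pC Ψ t c) (P.QC word t c d) (Icc (T1 l t) (T3 l t)) w w1 →
          (w1 (T3 l t) + P.ss d • w (T3 l t)) i
              = A d i * (w1 (T1 l t) + P.ss d • w (T1 l t)) i
                + B d i * (w1 (T1 l t) - P.s d • w (T1 l t)) i ∧
            (w1 (T3 l t) - P.s d • w (T3 l t)) i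
              = A' d i * (w1 (T1 l t) + P.ss d • w (T1 l t)) i
                + B' d i * (w1 (T1 l t) - P.s d • w (T1 l t)) i := by
  have hm := m_pos P
  choose Ch hCh hh using fun x : Σ d, ι d => home_coeffs P l x.1 x.2
  set C : ℝ := 1 + ∑ x, Ch x with hC
  have hCle : ∀ x, Ch x ≤ C := by
    intro x
    have := Finset.single_le_sum (f := Ch) (fun y _ => (hCh y).le) (Finset.mem_univ x)
    linarith
  have hC0 : 0 < C := by
    have := Finset.sum_nonneg (s := Finset.univ) (f := Ch) (fun y _ => (hCh y).le)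
    linarith only [this]
  refine ⟨C, hC0, fun a ha => ?_⟩
  have hev : ∀ᶠ t : ℝ in atTop, ∀ x : Σ d, ι d, _ := eventually_all.2 fun x => hh x a ha
  filter_upwards [hev, eventually_gt_atTop 0] with t ht ht0
  intro Ψ hΨ hΨb
  choose A A' B B' k1 k2 k3 k4 k5 k6 using fun x : Σ d, ι d => ht x Ψ hΨ hΨb
  have hr := rr_pos ht0
  have hL := LL_pos ht0
  have hApos : ∀ x, 0 < A x := fun x => (inv_pos.2 (hCh x)).trans_le (k1 x)
  have hε0 : 0 ≤ 2 * P.m * a * t ^ (-(1 / 2) : ℝ) := by (clear * - hm ha ht0; positivity)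
  refine ⟨fun d i => A ⟨d, i⟩, fun d i => A' ⟨d, i⟩, fun d i => B ⟨d, i⟩, fun d i => B' ⟨d, i⟩,
    fun d i => ⟨?_, ?_, ?_, k4 ⟨d, i⟩, ?_, fun word c w w1 hs => ?_⟩⟩
  · exact (inv_anti₀ (hCh _) (hCle _)).trans (k1 _)
  · exact (k2 ⟨d, i⟩).trans (mul_le_mul_of_nonneg_right (hCle _) (hApos _).le)
  · refine (k3 ⟨d, i⟩).trans (mul_le_mul_of_nonneg_right
      (mul_le_mul_of_nonneg_right (hCle _) (add_nonneg (Real.exp_pos _).le hε0)) (hApos _).le)
  · refine (k5 ⟨d, i⟩).trans (Real.exp_le_exp.2 ?_)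
    have h1 := mul_le_mul_of_nonneg_right (mul_le_mul_of_nonneg_right (hCle ⟨d, i⟩) hε0) hL.le
    have h2 := mul_le_mul_of_nonneg_right (hCle ⟨d, i⟩) (by (clear * - hr; positivity) : 0 ≤ 1 + 3 * rr t)
    linarith only [h1, h2]
  · obtain ⟨e1, e2⟩ := k6 ⟨d, i⟩ _ _ (home_coord P word ht0 Ψ c d hs i)
    simp only [Pi.add_apply, Pi.sub_apply, Pi.smul_apply, smul_eq_mul]
    exact ⟨e1, e2⟩

/-- the pulse part of a cycle -/
theorem pulse_cyc (h : PulseStmt) (Q : Ctl P) (d : D) (R om : ℝ) (hom : 0 < om) :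
    ∃ ε : ℝ, 0 < ε ∧ ∃ K : ℝ, ∀ a : ℝ, 0 < a → ∀ᶠ t : ℝ in atTop, ∀ Ψ : ℝ → ℝ,
      ContDiff ℝ ∞ Ψ →
      (∀ x ∈ Icc t (T3 Q.l t), P.Pinf ≤ Ψ x ∧ Ψ x ≤ P.Pinf + a * x ^ (-(1 / 2) : ℝ)) →
      ∀ Z : (ι d → ℝ) →L[ℝ] (ι d → ℝ), ‖Z‖ ≤ ε →
      ∃ g : ℝ, 0 < g ∧ g ≤ Real.exp (K * rr t) ∧
      ∃ A B : (Fin Q.l → ℝ) → (ι d → ℝ) →L[ℝ] (ι d → ℝ),
        (∀ c, ‖c‖ ≤ R → ∀ w w1 : ℝ → ι d → ℝ,
          Sol (P.pC Ψ t c) (P.QC Q.word t c d) (Icc t (T1 Q.l t)) w w1 →
          w1 t - P.s d • w t = Z (w1 t + P.ss d • w t) →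
          w1 (T1 Q.l t) + P.ss d • w (T1 Q.l t) = g • A c (w1 t + P.ss d • w t) ∧
            w1 (T1 Q.l t) - P.s d • w (T1 Q.l t) = g • B c (w1 t + P.ss d • w t)) ∧
        (∀ c, ‖c‖ ≤ R → ‖A c - Q.W d c‖ ≤ om ∧ ‖B c‖ ≤ om) ∧
        (∀ c c', ‖c‖ ≤ R → ‖c'‖ ≤ R →
          ‖(A c - Q.W d c) - (A c' - Q.W d c')‖ ≤ om * ‖c - c'‖ ∧
            ‖B c - B c'‖ ≤ om * ‖c - c'‖) := by
  obtain ⟨ε, hε, K, hp⟩ := h (ι d → ℝ) P.m P.hm P.Pinf P.hP0 (P.s d) (s_pos P d) Q.l
    (fun i => P.M (Q.word i) d) R om hom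
  refine ⟨ε, hε, K, fun a ha => ?_⟩
  have hev1 : ∀ᶠ t : ℝ in atTop, a * t ^ (-(1 / 2) : ℝ) < ε :=
    (rpow_half_tendsto a).eventually (gt_mem_nhds hε)
  have hev2 : ∀ᶠ t : ℝ in atTop, a ^ 2 * t ^ (-(1 / 4) : ℝ) < ε := by
    have := (tendsto_rpow_neg_atTop (by norm_num : (0:ℝ) < 1 / 4)).const_mul (a ^ 2)
    rw [mul_zero] at this
    exact this.eventually (gt_mem_nhds hε)
  filter_upwards [hev1, hev2, eventually_gt_atTop 0, tendsto_rr.eventually_ge_atTop (1 / ε)]
    with t h1 h2 ht0 h3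
  intro Ψ hΨ hΨb Z hZ
  have hr := rr_pos ht0
  have hL := LL_pos ht0
  have hT1 : t ≤ T1 Q.l t := by
    unfold T1; have : 0 ≤ (Q.l:ℝ) * rr t := by (clear * - hr; positivity)
    linarith only [this]
  have hT13 : T1 Q.l t ≤ T3 Q.l t := by unfold T3 T2; linarith only [hr, hL]
  have hsq : (a * t ^ (-(1 / 2) : ℝ)) ^ 2 * rr t ≤ ε := by
    have e1 : (a * t ^ (-(1 / 2) : ℝ)) ^ 2 * rr t = a ^ 2 * t ^ (-(1 / 4) : ℝ) := by
      have e0 : (t ^ (-(1 / 2) : ℝ)) ^ 2 = t ^ (-1 : ℝ) := by
        rw [← Real.rpow_natCast, ← Real.rpow_mul ht0.le]; norm_num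
      unfold rr
      rw [mul_pow, mul_assoc, e0, ← Real.rpow_add ht0]
      norm_num
    rw [e1]; exact h2.le
  have hΨ2 : ∀ x ∈ Icc t (t + Q.l * rr t), |Ψ x - P.Pinf| ≤ a * t ^ (-(1 / 2) : ℝ) := by
    intro x hx
    obtain ⟨k1, k2⟩ := hΨb x ⟨hx.1, hx.2.trans hT13⟩
    have k3 : x ^ (-(1 / 2) : ℝ) ≤ t ^ (-(1 / 2) : ℝ) :=
      Real.rpow_le_rpow_of_nonpos ht0 hx.1 (by norm_num)
    have := mul_le_mul_of_nonneg_left k3 ha.le
    rw [abs_of_nonneg (by linarith only [k1])]
    linarith only [k2, this]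
  obtain ⟨g, hg0, hg1, A, B, hs, hA, hLip⟩ := hp (rr t) h3 t Ψ hΨ.continuous
    (a * t ^ (-(1 / 2) : ℝ)) (by positivity) h1.le hsq hΨ2 Z hZ
  refine ⟨g, hg0, hg1, A, B, ?_, hA, hLip⟩
  intro c hc w w1 hsol hz
  refine hs c hc w w1 (hsol.congr ?_ ?_) hz
  · intro x hx
    have hx2 : x ≤ T1 Q.l t := hx.2
    unfold Dat.pC
    rw [deriv_etaC_pulse ht0 c hx2]
    unfold sigC
    rw [eh_zero_left ht0 (by linarith only [hr, hx2])]
    simp only [zero_div, neg_zero, Real.exp_zero, mul_one]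
  · intro x hx
    have hx2 : x ≤ T1 Q.l t := hx.2
    unfold Dat.QC
    rw [eh_zero_left ht0 (by linarith only [hr, hx2]), beta_zero, zero_smul, sub_zero, ← s_mul_ss P d]
    rfl


/-- The norm of the memory operator. -/
theorem norm_mem_le {I : Type*} [Fintype I] {a b e : I → ℝ} {Bc Ti : (I → ℝ) →L[ℝ] (I → ℝ)}
    {x δ β om C : ℝ} (hδ : 0 ≤ δ) (hβ : 0 ≤ β) (hC : 0 ≤ C) (hx : 0 ≤ x)
    (ha : ∀ i, |a i| ≤ δ) (hb : ∀ i, |b i| ≤ β) (he : ∀ i, |e i| ≤ C) (hB : ‖Bc‖ ≤ om) :
    ‖dg a + x • ((dg b).comp (Bc.comp (Ti.comp (dg e))))‖ ≤ δ + x * (β * (om * (‖Ti‖ * C))) := by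
  refine (norm_add_le _ _).trans (add_le_add (norm_dg_le hδ ha) ?_)
  rw [norm_smul, Real.norm_eq_abs, abs_of_nonneg hx]
  refine mul_le_mul_of_nonneg_left ?_ hx
  have h1 : ‖Ti.comp (dg e)‖ ≤ ‖Ti‖ * C :=
    (ContinuousLinearMap.opNorm_comp_le _ _).trans
      (mul_le_mul_of_nonneg_left (norm_dg_le hC he) (norm_nonneg _))
  have h2 : ‖Bc.comp (Ti.comp (dg e))‖ ≤ om * (‖Ti‖ * C) :=
    (ContinuousLinearMap.opNorm_comp_le _ _).trans
      (mul_le_mul hB h1 (norm_nonneg _) ((norm_nonneg _).trans hB))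
  exact (ContinuousLinearMap.opNorm_comp_le _ _).trans
      (mul_le_mul (norm_dg_le hβ hb) h2 (norm_nonneg _) hβ)

/-- Algebra of one cycle in the block. -/
theorem cycle_algebra {I : Type*} [Fintype I] {A A' B B' : I → ℝ} (hA : ∀ i, A i ≠ 0)
    {v0 v1 z1 v3 z3 : I → ℝ} {Ac Bc T Ti : (I → ℝ) →L[ℝ] (I → ℝ)} {g lam : ℝ} (hg : g ≠ 0)
    (hTi : ∀ x, Ti (T x) = x)
    (hv1 : v1 = g • Ac v0) (hz1 : z1 = g • Bc v0)
    (hv3 : ∀ i, v3 i = A i * v1 i + B i * z1 i) (hz3 : ∀ i, z3 i = A' i * v1 i + B' i * z1 i)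
    (hsolve : ∀ x i, Ac x i + B i / A i * Bc x i = Real.exp lam * T x i) :
    (∀ i, v3 i = g * Real.exp lam * A i * T v0 i) ∧
      z3 = (dg (fun i => A' i / A i) + Real.exp (-lam) •
        ((dg (fun i => (A i * B' i - A' i * B i) / A i)).comp
          (Bc.comp (Ti.comp (dg (fun i => 1 / A i)))))) v3 := by
  have hv : ∀ i, v3 i = g * Real.exp lam * A i * T v0 i := by
    intro i
    have h1 := hsolve v0 i
    have h2 := hA i
    rw [hv3, hv1, hz1, Pi.smul_apply, Pi.smul_apply, smul_eq_mul, smul_eq_mul]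
    calc A i * (g * Ac v0 i) + B i * (g * Bc v0 i)
        = g * A i * (Ac v0 i + B i / A i * Bc v0 i) := by (clear * - h2 hg; field_simp)
      _ = g * Real.exp lam * A i * T v0 i := by rw [h1]; ring
  refine ⟨hv, ?_⟩
  have h1 : dg (fun i => 1 / A i) v3 = (g * Real.exp lam) • T v0 := by
    funext i
    have h2 := hA i
    rw [dg_apply, hv i, Pi.smul_apply, smul_eq_mul]
    (clear * - h2 hg; field_simp)
  have h2 : Real.exp (-lam) • Bc (Ti (dg (fun i => 1 / A i) v3)) = z1 := by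
    rw [h1, map_smul, map_smul, hTi, smul_smul, hz1]
    congr 1
    rw [Real.exp_neg]
    field_simp
  funext i
  have h3 := congrFun h2 i
  rw [Pi.smul_apply, smul_eq_mul] at h3
  have h4 := hA i
  simp only [add_apply, smul_apply, ContinuousLinearMap.comp_apply, Pi.add_apply, Pi.smul_apply,
    smul_eq_mul, dg_apply]
  have h5 : Real.exp (-lam) * ((A i * B' i - A' i * B i) / A i
      * Bc (Ti (dg (fun i => 1 / A i) v3)) i) = (A i * B' i - A' i * B i) / A i * z1 i := by
    rw [← h3]; ring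
  rw [h5, hz3, hv3]
  field_simp
  ring


theorem one_le_rr {t : ℝ} (ht : 1 ≤ t) : 1 ≤ rr t := Real.one_le_rpow ht (by norm_num)

theorem half_mul_LL {t : ℝ} (ht : 1 ≤ t) : t ^ (-(1 / 2) : ℝ) * LL t ≤ rr t := by
  unfold LL rr
  rw [← Real.rpow_add (by linarith)]
  exact Real.rpow_le_rpow_of_exponent_le ht (by norm_num)

/-- D6 + D7. -/
theorem cycle_step_of (h : PulseStmt) (P : Dat D ι 𝒥) (Q : Ctl P) :
    ∃ ε0 : ℝ, 0 < ε0 ∧ ε0 < 1 / 2 ∧ ∀ a : ℝ, 0 < a → ∃ tst : ℝ, 1 ≤ tst ∧ ∃ K : ℝ, 0 ≤ K ∧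
      ∀ t : ℝ, tst ≤ t → ∀ Ψ : ℝ → ℝ, ContDiff ℝ ∞ Ψ →
      (∀ x ∈ Icc t (T3 Q.l t), P.Pinf ≤ Ψ x ∧ Ψ x ≤ P.Pinf + a * x ^ (-(1 / 2) : ℝ)) →
      ∀ Z : (d : D) → (ι d → ℝ) →L[ℝ] (ι d → ℝ), (∀ d, ‖Z d‖ ≤ ε0) →
      ∃ c : Fin Q.l → ℝ, ‖c - Q.c0‖ ≤ 1 ∧
      ∃ Z' : (d : D) → (ι d → ℝ) →L[ℝ] (ι d → ℝ), (∀ d, ‖Z' d‖ ≤ ε0) ∧
      ∃ Λ : (d : D) → ι d → ℝ, CycleOK P Q Ψ t K Z c Z' Λ := by
  obtain ⟨C, hC, hhome⟩ := home_cyc P Q.l
  obtain ⟨om, hom, hsolve⟩ := cycle_solve Q hC.le
  set R := ‖Q.c0‖ + 1 with hR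
  choose ε hε Kp hpulse using fun d => pulse_cyc h Q d R om hom
  choose Ti hTi using fun d => T_inv Q d
  have hsum : 0 ≤ ∑ d, 1 / ε d := Finset.sum_nonneg fun d _ => (by have := hε d; positivity)
  set ε0 : ℝ := 1 / (4 + ∑ d, 1 / ε d) with hε0
  have hε0pos : 0 < ε0 := by (clear * - hsum; positivity)
  have hε0lt : ε0 < 1 / 2 := by
    rw [hε0, div_lt_div_iff₀ (by positivity) (by norm_num)]; linarith only [hsum]
  have hε0le : ∀ d, ε0 ≤ ε d := by
    intro d
    have h1 : 1 / ε d ≤ 4 + ∑ d, 1 / ε d := by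
      have := Finset.single_le_sum (f := fun d => 1 / ε d)
        (fun y _ => by have := hε y; positivity) (Finset.mem_univ d)
      linarith only [this]
    have h2 := one_div_le_one_div_of_le (by have := hε d; (clear * - this; positivity)) h1
    rwa [one_div_one_div] at h2
  refine ⟨ε0, hε0pos, hε0lt, fun a ha => ?_⟩
  have hm := m_pos P
  have hσ := sig0_pos P
  have hevp : ∀ᶠ t : ℝ in atTop, ∀ d, _ := eventually_all.2 fun d => hpulse d a ha
  have hevh := hhome a ha
  have hevZ : ∀ᶠ t : ℝ in atTop, ∀ d, C * (Real.exp (-((P.s d + P.ss d) * rr t))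
      + 2 * P.m * a * t ^ (-(1 / 2) : ℝ)) + Real.exp (1 - Q.lam0 d)
        * (C * Real.exp (-(P.m * P.sig0 * rr t)) * (om * (‖Ti d‖ * C))) < ε0 := by
    refine eventually_all.2 fun d => ?_
    have hsd := s_pos P d
    have hssd := ss_pos P d
    have e1 : Tendsto (fun t => Real.exp (-((P.s d + P.ss d) * rr t))) atTop (𝓝 0) :=
      Real.tendsto_exp_neg_atTop_nhds_zero.comp (tendsto_rr.const_mul_atTop (by (clear * - hsd hssd; positivity)))
    have e2 : Tendsto (fun t => Real.exp (-(P.m * P.sig0 * rr t))) atTop (𝓝 0) :=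
      Real.tendsto_exp_neg_atTop_nhds_zero.comp (tendsto_rr.const_mul_atTop (by (clear * - hm hσ; positivity)))
    have e3 := rpow_half_tendsto (2 * P.m * a)
    have e4 := ((e1.add e3).const_mul C).add
      (((e2.const_mul C).mul_const (om * (‖Ti d‖ * C))).const_mul (Real.exp (1 - Q.lam0 d)))
    have e5 : C * (0 + 0) + Real.exp (1 - Q.lam0 d) * (C * 0 * (om * (‖Ti d‖ * C))) = 0 := by
      ring
    rw [e5] at e4
    exact e4.eventually (gt_mem_nhds hε0pos)
  obtain ⟨t0, ht0⟩ := eventually_atTop.1 (hevp.and (hevh.and hevZ))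
  set K := ∑ d, (|Kp d| + |Q.lam0 d|) + 1 + 2 * P.m * a * C + 4 * C with hK
  have hsum2 : 0 ≤ ∑ d, (|Kp d| + |Q.lam0 d|) := Finset.sum_nonneg fun d _ => by (clear * -; positivity)
  refine ⟨max t0 1, le_max_right _ _, K, by (clear * - hm ha hC; positivity), fun t ht Ψ hΨ hΨb Z hZ => ?_⟩
  obtain ⟨hp, hh, hZt⟩ := ht0 t ((le_max_left _ _).trans ht)
  have ht1 : 1 ≤ t := (le_max_right _ _).trans ht
  have htpos : 0 < t := by linarith only [ht1]
  have hr := rr_pos htpos
  have hL := LL_pos htpos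
  have hT1 : t ≤ T1 Q.l t := by
    unfold T1; have : 0 ≤ (Q.l:ℝ) * rr t := by (clear * - hr; positivity)
    linarith only [this]
  have hT13 : T1 Q.l t ≤ T3 Q.l t := by unfold T3 T2; linarith only [hr, hL]
  choose g hg0 hg1 Ac Bc hsol hAB hLip using
    fun d => hp d Ψ hΨ hΨb (Z d) ((hZ d).trans (hε0le d))
  obtain ⟨A, A', B, B', hco⟩ := hh Ψ hΨ hΨb
  have hApos : ∀ d i, 0 < A d i := fun d i => (inv_pos.2 hC).trans_le (hco d i).1
  have hball : ∀ c ∈ closedBall Q.c0 1, ‖c‖ ≤ R := by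
    intro c hc
    rw [mem_closedBall, dist_eq_norm] at hc
    have := norm_add_le (c - Q.c0) Q.c0
    rw [sub_add_cancel] at this
    linarith only [hc, this]
  obtain ⟨c, hc, lam, hlam, hcs⟩ := hsolve Ac Bc (fun d i => B d i / A d i)
    (fun d i => by
      rw [abs_div, abs_of_pos (hApos d i), div_le_iff₀ (hApos d i)]
      exact (hco d i).2.1)
    (fun d c hc => (hAB d c (hball c hc)).1)
    (fun d c hc c' hc' => (hLip d c c' (hball c hc) (hball c' hc')).1)
    (fun d c hc => (hAB d c (hball c hc)).2)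
    (fun d c hc c' hc' => (hLip d c c' (hball c hc) (hball c' hc')).2)
  have hcn : ‖c - Q.c0‖ ≤ 1 := by rwa [mem_closedBall, dist_eq_norm] at hc
  refine ⟨c, hcn, fun d => dg (fun i => A' d i / A d i) + Real.exp (-lam d) •
        ((dg (fun i => (A d i * B' d i - A' d i * B d i) / A d i)).comp
          ((Bc d c).comp ((Ti d).comp (dg (fun i => 1 / A d i))))), fun d => ?_,
    fun d i => g d * Real.exp (lam d) * A d i, fun d i => ⟨?_, ?_⟩, fun d w w1 hs hz => ?_⟩
  · -- the norm of `Z'`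
    have hε1 : 0 ≤ 2 * P.m * a * t ^ (-(1 / 2) : ℝ) := by positivity
    refine (norm_mem_le (δ := C * (Real.exp (-((P.s d + P.ss d) * rr t))
      + 2 * P.m * a * t ^ (-(1 / 2) : ℝ))) (β := C * Real.exp (-(P.m * P.sig0 * rr t)))
      (om := om) (C := C) (by (clear * - hC hm ha ht1; positivity)) (by positivity) hC.le (Real.exp_pos _).le
      (fun i => ?_) (fun i => ?_) (fun i => ?_) (hAB d c (hball c hc)).2).trans ?_
    · rw [abs_div, abs_of_pos (hApos d i), div_le_iff₀ (hApos d i)]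
      exact (hco d i).2.2.1
    · rw [abs_div, abs_of_pos (hApos d i), div_le_iff₀ (hApos d i)]
      refine (hco d i).2.2.2.1.trans ?_
      have h1 : 1 ≤ C * A d i := by
        have := mul_le_mul_of_nonneg_left (hco d i).1 hC.le
        rwa [mul_inv_cancel₀ hC.ne'] at this
      have h2 := mul_le_mul_of_nonneg_right h1 (Real.exp_pos (-(P.m * P.sig0 * rr t))).le
      linarith only [h2]
    · rw [abs_of_pos (by have := hApos d i; positivity), one_div]
      have := inv_anti₀ (inv_pos.2 hC) (hco d i).1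
      rwa [inv_inv] at this
    · refine le_trans ?_ (hZt d).le
      have h1 : Real.exp (-lam d) ≤ Real.exp (1 - Q.lam0 d) := by
        apply Real.exp_le_exp.2
        have := (abs_le.1 (hlam d)).1
        linarith only [this]
      have h2 := mul_le_mul_of_nonneg_right h1
        (by (clear * - hC hom; positivity) : 0 ≤ C * Real.exp (-(P.m * P.sig0 * rr t)) * (om * (‖Ti d‖ * C)))
      linarith only [h2]
  · have := hApos d i
    have := hg0 d
    positivity
  · -- the bound for `Λ`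
    have h1 := hg1 d
    have h2 := (hco d i).2.2.2.2.1
    have h3 : g d * Real.exp (lam d) * A d i ≤ Real.exp (Kp d * rr t) * Real.exp (lam d)
        * Real.exp (P.S d i * LL t + C * (2 * P.m * a * t ^ (-(1 / 2) : ℝ)) * LL t
          + C * (1 + 3 * rr t)) := by
      apply mul_le_mul (mul_le_mul_of_nonneg_right h1 (Real.exp_pos _).le) h2 (hApos d i).le
      positivity
    refine h3.trans ?_
    rw [← Real.exp_add, ← Real.exp_add]
    apply Real.exp_le_exp.2
    have hr1 := one_le_rr ht1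
    have e1 : Kp d * rr t ≤ |Kp d| * rr t := mul_le_mul_of_nonneg_right (le_abs_self _) hr.le
    have e2 : lam d ≤ (|Q.lam0 d| + 1) * rr t := by
      have k1 := (abs_le.1 (hlam d)).2
      have k2 := le_abs_self (Q.lam0 d)
      have k3 : (|Q.lam0 d| + 1) * 1 ≤ (|Q.lam0 d| + 1) * rr t :=
        mul_le_mul_of_nonneg_left hr1 (by (clear * -; positivity))
      linarith only [k1, k2, k3]
    have e3 : C * (2 * P.m * a * t ^ (-(1 / 2) : ℝ)) * LL t ≤ 2 * P.m * a * C * rr t := by
      have := mul_le_mul_of_nonneg_left (half_mul_LL ht1) (by (clear * - hm ha hC; positivity) : 0 ≤ 2 * P.m * a * C)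
      calc _ = 2 * P.m * a * C * (t ^ (-(1 / 2) : ℝ) * LL t) := by ring
        _ ≤ _ := this
    have e4 : C * (1 + 3 * rr t) ≤ 4 * C * rr t := by
      have := mul_le_mul_of_nonneg_left hr1 hC.le
      linarith only [this]
    have e5 : (|Kp d| + |Q.lam0 d|) * rr t ≤ (∑ d, (|Kp d| + |Q.lam0 d|)) * rr t :=
      mul_le_mul_of_nonneg_right (Finset.single_le_sum (f := fun d => |Kp d| + |Q.lam0 d|)
        (fun y _ => by (clear * -; positivity)) (Finset.mem_univ d)) hr.le
    have e6 : K * rr t = (∑ d, (|Kp d| + |Q.lam0 d|)) * rr t + rr t + 2 * P.m * a * C * rr t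
        + 4 * C * rr t := by rw [hK]; ring
    rw [e6]
    linarith only [e1, e2, e3, e4, e5]
  · -- the transfer
    obtain ⟨k1, k2⟩ := hsol d c (hball c hc) w w1 (hs.mono (Icc_subset_Icc le_rfl hT13)) hz
    have k3 := fun i => (hco d i).2.2.2.2.2 Q.word c w w1 (hs.mono (Icc_subset_Icc hT1 le_rfl))
    exact cycle_algebra (fun i => (hApos d i).ne') (hg0 d).ne' (hTi d) k1 k2
      (fun i => (k3 i).1) (fun i => (k3 i).2) (hcs d)

end Vale.Agent.P225.B2.Cyc
end
end

section

section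

/-!
P225, part B3a: the purely algebraic part (3.2) of the algebra part, first half.
`A` is an associative complex algebra, `g` a complex subspace closed under commutators.
-/

namespace Vale.Agent.P225.B3

open Finset

section Graded

variable {A : Type*} [Ring A] [Algebra ℂ A]

set_option linter.unusedSectionVars false

/-- Commutator. -/
def br (x y : A) : A := x * y - y * x

lemma br_add (x y z : A) : br x (y + z) = br x y + br x z := by
  simp only [br]; noncomm_ring

lemma br_sub (x y z : A) : br x (y - z) = br x y - br x z := by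
  simp only [br]; noncomm_ring

lemma br_smul (c : ℂ) (x y : A) : br x (c • y) = c • br x y := by
  simp only [br, mul_smul_comm, smul_mul_assoc, smul_sub]

lemma br_mul (x y z : A) : br x (y * z) = br x y * z + y * br x z := by
  simp only [br]; noncomm_ring

lemma br_sum {κ : Type*} (s : Finset κ) (x : A) (f : κ → A) :
    br x (∑ i ∈ s, f i) = ∑ i ∈ s, br x (f i) := by
  simp only [br, Finset.mul_sum, Finset.sum_mul, Finset.sum_sub_distrib]

/-- Extraction of graded components: if `K x² ∈ g`, `x = xp + x0 + xm` with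
`[h, xp] = xp`, `[h, x0] = 0`, `[h, xm] = - xm`, then `K xp² ∈ g` and
`K (xp x0 + x0 xp) ∈ g`. -/
theorem extract (g : Submodule ℂ A) (h K xp x0 xm : A)
    (hD : ∀ Y ∈ g, br h Y ∈ g) (hK : br h K = 0)
    (hp : br h xp = xp) (h0 : br h x0 = 0) (hm : br h xm = -xm)
    (hx : K * ((xp + x0 + xm) * (xp + x0 + xm)) ∈ g) :
    K * (xp * xp) ∈ g ∧ K * (xp * x0 + x0 * xp) ∈ g := by
  set a2 := K * (xp * xp) with ha2
  set a1 := K * (xp * x0 + x0 * xp) with ha1
  set a0 := K * (xp * xm + xm * xp + x0 * x0) with ha0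
  set b1 := K * (xm * x0 + x0 * xm) with hb1
  set b2 := K * (xm * xm) with hb2
  have hY : K * ((xp + x0 + xm) * (xp + x0 + xm)) = a2 + a1 + a0 + b1 + b2 := by
    simp only [ha2, ha1, ha0, hb1, hb2]; noncomm_ring
  have d2 : br h a2 = (2 : ℂ) • a2 := by
    simp only [ha2, br_mul, hK, hp, two_smul]; noncomm_ring
  have d1 : br h a1 = a1 := by
    simp only [ha1, br_mul, br_add, hK, hp, h0]; noncomm_ring
  have d0 : br h a0 = 0 := by
    simp only [ha0, br_mul, br_add, hK, hp, h0, hm]; noncomm_ring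
  have e1 : br h b1 = -b1 := by
    simp only [hb1, br_mul, br_add, hK, hm, h0]; noncomm_ring
  have e2 : br h b2 = -((2 : ℂ) • b2) := by
    simp only [hb2, br_mul, hK, hm, two_smul]; noncomm_ring
  rw [hY] at hx
  have step : ∀ p q r s t : ℂ, p • a2 + q • a1 + r • a0 + s • b1 + t • b2 ∈ g →
      (2 * p) • a2 + q • a1 + (-s) • b1 + (-2 * t) • b2 ∈ g := by
    intro p q r s t hmem
    have := hD _ hmem
    simp only [br_add, br_smul, d2, d1, d0, e1, e2] at this
    convert this using 1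
    module
  have y0 : (1 : ℂ) • a2 + (1 : ℂ) • a1 + (1 : ℂ) • a0 + (1 : ℂ) • b1 + (1 : ℂ) • b2 ∈ g := by
    simpa using hx
  have y1 := step _ _ _ _ _ y0
  have y1' : (2 : ℂ) • a2 + (1 : ℂ) • a1 + (0 : ℂ) • a0 + (-1 : ℂ) • b1 + (-2 : ℂ) • b2 ∈ g := by
    convert y1 using 1; module
  have y2 := step _ _ _ _ _ y1'
  have y2' : (4 : ℂ) • a2 + (1 : ℂ) • a1 + (0 : ℂ) • a0 + (1 : ℂ) • b1 + (4 : ℂ) • b2 ∈ g := by
    convert y2 using 1; module
  have y3 := step _ _ _ _ _ y2'
  have y3' : (8 : ℂ) • a2 + (1 : ℂ) • a1 + (0 : ℂ) • a0 + (-1 : ℂ) • b1 + (-8 : ℂ) • b2 ∈ g := by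
    convert y3 using 1; module
  have y4 := step _ _ _ _ _ y3'
  have y4' : (16 : ℂ) • a2 + (1 : ℂ) • a1 + (0 : ℂ) • a0 + (1 : ℂ) • b1 + (16 : ℂ) • b2 ∈ g := by
    convert y4 using 1; module
  constructor
  · have : a2 = (1 / 24 : ℂ) •
        (((16 : ℂ) • a2 + (1 : ℂ) • a1 + (0 : ℂ) • a0 + (1 : ℂ) • b1 + (16 : ℂ) • b2)
        + (2 : ℂ) • ((8 : ℂ) • a2 + (1 : ℂ) • a1 + (0 : ℂ) • a0 + (-1 : ℂ) • b1 + (-8 : ℂ) • b2)
        - ((4 : ℂ) • a2 + (1 : ℂ) • a1 + (0 : ℂ) • a0 + (1 : ℂ) • b1 + (4 : ℂ) • b2)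
        - (2 : ℂ) • ((2 : ℂ) • a2 + (1 : ℂ) • a1 + (0 : ℂ) • a0 + (-1 : ℂ) • b1
          + (-2 : ℂ) • b2)) := by
      module
    rw [this]
    exact g.smul_mem _ (g.sub_mem (g.sub_mem (g.add_mem y4' (g.smul_mem _ y3')) y2')
      (g.smul_mem _ y1'))
  · have : a1 = (-1 / 6 : ℂ) •
        (((16 : ℂ) • a2 + (1 : ℂ) • a1 + (0 : ℂ) • a0 + (1 : ℂ) • b1 + (16 : ℂ) • b2)
        + ((8 : ℂ) • a2 + (1 : ℂ) • a1 + (0 : ℂ) • a0 + (-1 : ℂ) • b1 + (-8 : ℂ) • b2)
        - (4 : ℂ) • ((4 : ℂ) • a2 + (1 : ℂ) • a1 + (0 : ℂ) • a0 + (1 : ℂ) • b1 + (4 : ℂ) • b2)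
        - (4 : ℂ) • ((2 : ℂ) • a2 + (1 : ℂ) • a1 + (0 : ℂ) • a0 + (-1 : ℂ) • b1
          + (-2 : ℂ) • b2)) := by
      module
    rw [this]
    exact g.smul_mem _ (g.sub_mem (g.sub_mem (g.add_mem y4' y3') (g.smul_mem _ y2'))
      (g.smul_mem _ y1'))

end Graded

section Raising

variable {A : Type*} [Ring A] [Algebra ℂ A] {κ : Type*} [Fintype κ] [DecidableEq κ]

/-- `S = ∑ E_j²`. -/
def SS (E : κ → A) : A := ∑ j, E j * E j

/-- The chain of commutators (iii): from `K W_m ∈ g` and `K (E_l E_m - δ S/N) ∈ g` one gets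
`K^(2d-1) S^d ∈ g` for all `d ≥ 2`. -/
theorem chain (g : Submodule ℂ A) (hg : ∀ X ∈ g, ∀ Y ∈ g, br X Y ∈ g)
    (K : A) (E W : κ → A) (hN : 3 ≤ Fintype.card κ)
    (hEE : ∀ j l, E j * E l = E l * E j)
    (hKE : ∀ j, K * E j = E j * K) (hKW : ∀ j, K * W j = W j * K)
    (hWE : ∀ m l, br (W m) (E l) =
      (Fintype.card κ : ℂ) • (E m * E l) - (if m = l then SS E else 0))
    (hW : ∀ m, K * W m ∈ g)
    (hG : ∀ l m, K * (E l * E m - (if l = m then (1 / (Fintype.card κ : ℂ)) • SS E else 0)) ∈ g) :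
    ∀ d : ℕ, 2 ≤ d → K ^ (2 * d - 1) * SS E ^ d ∈ g := by
  set N : ℂ := (Fintype.card κ : ℂ) with hNdef
  have hN0 : N ≠ 0 := by
    rw [hNdef]; exact_mod_cast (by omega : Fintype.card κ ≠ 0)
  have hN1 : N - 1 ≠ 0 := by
    rw [hNdef]; intro h
    have : ((Fintype.card κ : ℂ)) = ((1 : ℕ) : ℂ) := by push_cast; linear_combination h
    have := Nat.cast_injective this
    omega
  have hN2 : N - 2 ≠ 0 := by
    rw [hNdef]; intro h
    have : ((Fintype.card κ : ℂ)) = ((2 : ℕ) : ℂ) := by push_cast; linear_combination h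
    have := Nat.cast_injective this
    omega
  set S : A := SS E with hS
  -- commutation facts
  have cES : ∀ j, E j * S = S * E j := by
    intro j
    simp only [hS, SS, Finset.mul_sum, Finset.sum_mul]
    refine Finset.sum_congr rfl fun l _ => ?_
    rw [← mul_assoc, hEE j l, mul_assoc, hEE j l, ← mul_assoc]
  have cKS : K * S = S * K := by
    simp only [hS, SS, Finset.mul_sum, Finset.sum_mul]
    refine Finset.sum_congr rfl fun l _ => ?_
    rw [← mul_assoc, hKE l, mul_assoc, hKE l, ← mul_assoc]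
  have CKE : ∀ j, Commute K (E j) := hKE
  have CKW : ∀ j, Commute K (W j) := hKW
  have CES : ∀ j, Commute (E j) S := cES
  have CKS : Commute K S := cKS
  -- `[W_m, S] = 2 (N-1) E_m S`
  have hWS : ∀ m, br (W m) S = (2 * (N - 1)) • (E m * S) := by
    intro m
    have h1 : ∀ l, br (W m) (E l * E l) = (2 * N) • (E m * (E l * E l))
        - (if m = l then (2 : ℂ) • (E m * S) else 0) := by
      intro l
      rw [br_mul, hWE]
      by_cases hml : m = l
      · subst hml
        simp only [if_true]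
        rw [sub_mul, mul_sub, smul_mul_assoc, mul_smul_comm, ← cES m]
        simp only [mul_assoc]
        module
      · simp only [if_neg hml, sub_zero]
        rw [smul_mul_assoc, mul_smul_comm, ← mul_assoc (E l) (E m), hEE l m, mul_assoc]
        module
    rw [hS, SS, br_sum, Finset.sum_congr rfl fun l _ => h1 l, Finset.sum_sub_distrib,
      Finset.sum_ite_eq, if_pos (Finset.mem_univ _), ← Finset.smul_sum, ← Finset.mul_sum]
    change (2 * N) • (E m * S) - (2 : ℂ) • (E m * S) = (2 * (N - 1)) • (E m * S)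
    module
  -- `[W_m, S^j] = 2 j (N-1) E_m S^j`
  have hWSj : ∀ m (j : ℕ), br (W m) (S ^ j) = (2 * j * (N - 1)) • (E m * S ^ j) := by
    intro m j
    induction j with
    | zero => simp only [br, pow_zero, mul_one, one_mul, sub_self, CharP.cast_eq_zero, mul_zero, zero_mul, zero_smul]
    | succ j ih =>
      rw [pow_succ, br_mul, ih, hWS, smul_mul_assoc, mul_smul_comm, mul_assoc, ← mul_assoc (S ^ j),
        ((CES m).pow_right j).eq.symm, mul_assoc, ← pow_succ]
      push_cast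
      module
  -- `[K^a X, K^b Y] = K^(a+b) [X, Y]` for `X`, `Y` commuting with `K`
  have hbrK : ∀ (a b : ℕ) (X Y : A), Commute K X → Commute K Y →
      br (K ^ a * X) (K ^ b * Y) = K ^ (a + b) * br X Y := by
    intro a b X Y hX hY
    have e1 : K ^ a * X * (K ^ b * Y) = K ^ (a + b) * (X * Y) := by
      rw [mul_assoc, ← mul_assoc X, ((hX.pow_left b).eq).symm, mul_assoc, ← mul_assoc, ← pow_add]
    have e2 : K ^ b * Y * (K ^ a * X) = K ^ (a + b) * (Y * X) := by
      rw [mul_assoc, ← mul_assoc Y, ((hY.pow_left a).eq).symm, mul_assoc, ← mul_assoc, ← pow_add,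
        add_comm b a]
    rw [br, br, e1, e2, mul_sub]
  -- `K² E_m S ∈ g`
  have hbase1 : ∀ m, K ^ 2 * (E m * S) ∈ g := by
    intro m
    have hsum : ∑ l, br (K * W l)
        (K * (E l * E m - (if l = m then (1 / N) • S else 0))) ∈ g :=
      g.sum_mem fun l _ => hg _ (hW l) _ (hG l m)
    have hterm : ∀ l, br (K * W l) (K * (E l * E m - (if l = m then (1 / N) • S else 0)))
        = K ^ 2 * ((N • (E l * E l) - S) * E m + N • (E l * E l * E m)
          - (if l = m then (E m * S) + (2 * (N - 1) / N) • (E m * S) else 0)) := by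
      intro l
      have h2 := hbrK 1 1 (W l) (E l * E m - (if l = m then (1 / N) • S else 0)) (CKW l)
        (by
          refine Commute.sub_right ((CKE l).mul_right (CKE m)) ?_
          split_ifs
          · exact (CKS.smul_right _)
          · exact Commute.zero_right _)
      rw [pow_one] at h2
      rw [h2]
      congr 1
      rw [br_sub, br_mul, hWE l l, hWE l m, if_pos rfl]
      by_cases hlm : l = m
      · subst hlm
        simp only [if_true]
        rw [br_smul, hWS, mul_sub, mul_smul_comm, mul_assoc]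
        have : (1 / N) • (2 * (N - 1)) • (E l * S) = (2 * (N - 1) / N) • (E l * S) := by
          rw [smul_smul]; congr 1; field_simp
        rw [this]
        abel
      · simp only [if_neg hlm, sub_zero]
        rw [show br (W l) 0 = 0 by simp [br], sub_zero, mul_smul_comm, mul_assoc]
    rw [Finset.sum_congr rfl fun l _ => hterm l, ← Finset.mul_sum, Finset.sum_sub_distrib,
      Finset.sum_ite_eq', if_pos (Finset.mem_univ _), Finset.sum_add_distrib, ← Finset.sum_mul,
      Finset.sum_sub_distrib, ← Finset.smul_sum, ← Finset.smul_sum, ← Finset.sum_mul] at hsum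
    change K ^ 2 * ((N • S - ∑ _x : κ, S) * E m + N • (S * E m)
      - (E m * S + (2 * (N - 1) / N) • (E m * S))) ∈ g at hsum
    have h3 : ∑ _x : κ, S = N • S := by
      rw [Finset.sum_const, Finset.card_univ, hNdef, Nat.cast_smul_eq_nsmul]
    rw [h3, sub_self, zero_mul, zero_add, ← cES m] at hsum
    have h4 : N • (E m * S) - (E m * S + (2 * (N - 1) / N) • (E m * S))
        = ((N - 1) * (N - 2) / N) • (E m * S) := by
      have : (N - 1) * (N - 2) / N = N - (1 + 2 * (N - 1) / N) := by field_simp; ring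
      rw [this]; module
    rw [h4, mul_smul_comm] at hsum
    have hc : (N - 1) * (N - 2) / N ≠ 0 := div_ne_zero (mul_ne_zero hN1 hN2) hN0
    have := g.smul_mem ((N - 1) * (N - 2) / N)⁻¹ hsum
    rwa [smul_smul, inv_mul_cancel₀ hc, one_smul] at this
  -- summation step: `K^b E_m S^j ∈ g` for all `m` gives `K^(b+1) S^(j+1) ∈ g`, `j ≥ 1`
  have hstep : ∀ (b j : ℕ), 1 ≤ j → (∀ m, K ^ b * (E m * S ^ j) ∈ g) →
      K ^ (b + 1) * S ^ (j + 1) ∈ g := by
    intro b j hj hmem
    have hsum : ∑ m, br (K * W m) (K ^ b * (E m * S ^ j)) ∈ g :=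
      g.sum_mem fun m _ => hg _ (hW m) _ (hmem m)
    have hterm : ∀ m, br (K * W m) (K ^ b * (E m * S ^ j))
        = K ^ (b + 1) * ((N • (E m * E m) - S) * S ^ j
          + (2 * j * (N - 1)) • ((E m * E m) * S ^ j)) := by
      intro m
      have h2 := hbrK 1 b (W m) (E m * S ^ j) (CKW m) ((CKE m).mul_right (CKS.pow_right j))
      rw [pow_one] at h2
      rw [h2, add_comm 1 b, br_mul, hWE m m, if_pos rfl, hWSj, mul_smul_comm, ← mul_assoc (E m)]
    rw [Finset.sum_congr rfl fun l _ => hterm l, ← Finset.mul_sum, Finset.sum_add_distrib,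
      ← Finset.sum_mul, Finset.sum_sub_distrib, ← Finset.smul_sum, ← Finset.smul_sum,
      ← Finset.sum_mul] at hsum
    change K ^ (b + 1) * ((N • S - ∑ _x : κ, S) * S ^ j + (2 * j * (N - 1)) • (S * S ^ j)) ∈ g
      at hsum
    have h3 : ∑ _x : κ, S = N • S := by
      rw [Finset.sum_const, Finset.card_univ, hNdef, Nat.cast_smul_eq_nsmul]
    rw [h3, sub_self, zero_mul, zero_add, mul_smul_comm, ← pow_succ'] at hsum
    have hc : (2 * (j : ℂ) * (N - 1)) ≠ 0 := by
      refine mul_ne_zero (mul_ne_zero two_ne_zero ?_) hN1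
      exact_mod_cast (by omega : j ≠ 0)
    have := g.smul_mem (2 * (j : ℂ) * (N - 1))⁻¹ hsum
    rwa [smul_smul, inv_mul_cancel₀ hc, one_smul] at this
  intro d hd
  induction d, hd using Nat.le_induction with
  | base =>
    have := hstep 2 1 le_rfl (fun m => by simpa using hbase1 m)
    simpa only [Nat.reduceMul, Nat.add_one_sub_one, Nat.reduceAdd] using this
  | succ d hd ih =>
    have h5 : ∀ m, K ^ (2 * d) * (E m * S ^ d) ∈ g := by
      intro m
      have h6 := hg _ (hW m) _ ih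
      have h7 := hbrK 1 (2 * d - 1) (W m) (S ^ d) (CKW m) (CKS.pow_right d)
      rw [pow_one] at h7
      rw [h7, hWSj, show 1 + (2 * d - 1) = 2 * d by omega, mul_smul_comm] at h6
      have hc : (2 * (d : ℂ) * (N - 1)) ≠ 0 := by
        refine mul_ne_zero (mul_ne_zero two_ne_zero ?_) hN1
        exact_mod_cast (by omega : d ≠ 0)
      have := g.smul_mem (2 * (d : ℂ) * (N - 1))⁻¹ h6
      rwa [smul_smul, inv_mul_cancel₀ hc, one_smul] at this
    have := hstep (2 * d) d (by omega) h5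
    rwa [show 2 * (d + 1) - 1 = 2 * d + 1 by omega]

end Raising

end Vale.Agent.P225.B3
end
end

section

section

/-!
P225, part B3a: the purely algebraic part (3.2), second half: from the `so(n)` relations and
the elements `K xi_J²` for all orthogonal complex structures `J` to `K^(2d-1) S^d`.
-/

namespace Vale.Agent.P225.B3

open Finset

set_option linter.unusedSectionVars false

section JJ

variable {ι : Type*} [Fintype ι] [DecidableEq ι]

/-- The 4-dimensional orthogonal complex structures used in (3.2). -/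
def J4 (s t ε : ℝ) : Matrix (Fin 4) (Fin 4) ℝ :=
  !![0, -s, -t, 0; s, 0, 0, t * ε; t, 0, 0, -(s * ε); 0, -(t * ε), s * ε, 0]

lemma J4_transpose (s t ε : ℝ) : (J4 s t ε).transpose = -J4 s t ε := by
  ext i j
  fin_cases i <;> fin_cases j <;> simp [J4]

lemma J4_sq (s t ε : ℝ) (hst : s ^ 2 + t ^ 2 = 1) (hε : ε ^ 2 = 1) :
    J4 s t ε * J4 s t ε = -1 := by
  ext i j
  rw [Matrix.mul_apply, Fin.sum_univ_four]
  fin_cases i <;> fin_cases j <;>
    simp only [J4, Matrix.of_apply, Matrix.cons_val', Matrix.cons_val_zero, Matrix.cons_val_one,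
      Matrix.cons_val, Matrix.neg_apply, Matrix.one_apply, Fin.zero_eta, Fin.mk_one, Fin.isValue,
      Fin.reduceFinMk, Fin.reduceEq, if_true, if_false] <;>
    first
      | ring1
      | linear_combination (-1 : ℝ) * hst
      | linear_combination (-1 : ℝ) * hst - t ^ 2 * hε
      | linear_combination (-1 : ℝ) * hst - s ^ 2 * hε
      | linear_combination (-1 : ℝ) * hst - (s ^ 2 + t ^ 2) * hε
      | linear_combination (s * t) * hε

/-- A numbering of an even number of indices starting with four given ones. -/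
lemma exists_equiv (hev : Even (Fintype.card ι)) {p q m k : ι} (hpq : p ≠ q) (hpm : p ≠ m)
    (hpk : p ≠ k) (hqm : q ≠ m) (hqk : q ≠ k) (hmk : m ≠ k) :
    ∃ (r : ℕ) (e : Fin 4 ⊕ (Fin r ⊕ Fin r) ≃ ι), e (Sum.inl 0) = p ∧ e (Sum.inl 1) = q ∧
      e (Sum.inl 2) = m ∧ e (Sum.inl 3) = k := by
  classical
  set s : Finset ι := {p, q, m, k} with hs
  have hcs : s.card = 4 := by
    rw [hs, Finset.card_insert_of_notMem, Finset.card_insert_of_notMem,
      Finset.card_insert_of_notMem, Finset.card_singleton]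
    · simpa using hmk
    · simp [hqm, hqk]
    · simp [hpq, hpm, hpk]
  obtain ⟨c, hc⟩ := hev
  have hle : 4 ≤ Fintype.card ι := hcs ▸ Finset.card_le_univ s
  have hcompl : Fintype.card {x // x ∉ s} = (c - 2) + (c - 2) := by
    rw [Fintype.card_subtype_compl, Fintype.card_coe, hcs, hc]; omega
  have : Fintype.card (Fin (c - 2) ⊕ Fin (c - 2)) = Fintype.card {x // x ∉ s} := by
    rw [hcompl]; simp only [Fintype.card_sum, Fintype.card_fin, Nat.add_left_cancel_iff]
  let φ : Fin (c - 2) ⊕ Fin (c - 2) ≃ {x // x ∉ s} := Fintype.equivOfCardEq this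
  let f : Fin 4 ⊕ (Fin (c - 2) ⊕ Fin (c - 2)) → ι :=
    Sum.elim ![p, q, m, k] (fun x => (φ x).1)
  have hinl : ∀ i, f (Sum.inl i) ∈ s := by
    intro i; fin_cases i <;> simp [f, hs]
  have hinj : Function.Injective f := by
    rintro (i | x) (j | y) h
    · congr 1
      simp only [f, Sum.elim_inl] at h
      fin_cases i <;> fin_cases j <;> simp_all [eq_comm]
    · exact absurd (h ▸ hinl i : f (Sum.inr y) ∈ s) (φ y).2
    · exact absurd (h ▸ hinl j : f (Sum.inr x) ∈ s) (φ x).2
    · simp only [f, Sum.elim_inr] at h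
      rw [φ.injective (Subtype.ext h)]
  have hcard : Fintype.card (Fin 4 ⊕ (Fin (c - 2) ⊕ Fin (c - 2))) = Fintype.card ι := by
    simp only [Fintype.card_sum, Fintype.card_fin]; omega
  have hbij : Function.Bijective f :=
    (Fintype.bijective_iff_injective_and_card f).2 ⟨hinj, hcard⟩
  exact ⟨c - 2, Equiv.ofBijective f hbij, rfl, rfl, rfl, rfl⟩

end JJ

section Main

variable {A : Type*} [Ring A] [Algebra ℂ A] {ι : Type*} [Fintype ι] [DecidableEq ι]

/-- The element `xi_J = ½ ∑ J_ba L_ab`. -/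
noncomputable def xiA (L : ι → ι → A) (J : Matrix ι ι ℝ) : A :=
  (1 / 2 : ℂ) • ∑ a, ∑ b, ((J b a : ℝ) : ℂ) • L a b

/-- The commutation relations of `so(n)`. -/
structure SoRel (L : ι → ι → A) : Prop where
  anti : ∀ a b, L a b = -L b a
  comm : ∀ a b c d, br (L a b) (L c d) =
    (if b = c then L a d else 0) - (if a = c then L b d else 0)
      - (if b = d then L a c else 0) + (if a = d then L b c else 0)

variable {L : ι → ι → A} (hL : SoRel L)

include hL in
lemma SoRel.diag (a : ι) : L a a = 0 := by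
  have h := hL.anti a a
  have h2 : (2 : ℂ) • L a a = 0 := by
    rw [two_smul]; nth_rewrite 1 [h]; exact neg_add_cancel _
  exact (smul_eq_zero.1 h2).resolve_left two_ne_zero

/-- Raising operators `E_j = L_pj + i L_qj`. -/
noncomputable def EE (L : ι → ι → A) (p q j : ι) : A := L p j + Complex.I • L q j

/-- Lowering operators. -/
noncomputable def FF (L : ι → ι → A) (p q j : ι) : A := L p j - Complex.I • L q j

lemma br_smul_left (c : ℂ) (x y : A) : br (c • x) y = c • br x y := by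
  simp only [br, mul_smul_comm, smul_mul_assoc, smul_sub]

lemma br_add_left (x y z : A) : br (x + y) z = br x z + br y z := by
  simp only [br]; noncomm_ring

lemma br_zero (x : A) : br x 0 = 0 := by simp [br]

include hL

lemma br_pq_E {p q j : ι} (hpq : p ≠ q) (hp : j ≠ p) (hq : j ≠ q) :
    br (L p q) (EE L p q j) = Complex.I • EE L p q j := by
  rw [EE, br_add, br_smul, hL.comm, hL.comm]
  simp only [hpq.symm, if_false, if_true, hq.symm, hp.symm, hpq, smul_add, smul_sub, smul_smul, Complex.I_mul_I]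
  module

lemma br_pq_F {p q j : ι} (hpq : p ≠ q) (hp : j ≠ p) (hq : j ≠ q) :
    br (L p q) (FF L p q j) = -(Complex.I • FF L p q j) := by
  rw [FF, br_sub, br_smul, hL.comm, hL.comm]
  simp only [hpq, hpq.symm, hp.symm, hq.symm, if_true, if_false, smul_add, smul_sub,
    smul_smul, Complex.I_mul_I]
  module

lemma br_pq_L {p q a b : ι} (hap : a ≠ p) (haq : a ≠ q) (hbp : b ≠ p)
    (hbq : b ≠ q) : br (L p q) (L a b) = 0 := by
  rw [hL.comm]
  simp [hap.symm, haq.symm, hbp.symm, hbq.symm]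

lemma br_E_E {p q j l : ι} (hpq : p ≠ q) (hp : j ≠ p) (hq : j ≠ q) (hp' : l ≠ p) (hq' : l ≠ q) :
    br (EE L p q j) (EE L p q l) = 0 := by
  rw [EE, EE, br_add_left, br_add, br_add, br_smul_left, br_smul_left, br_smul, br_smul,
    hL.comm, hL.comm, hL.comm, hL.comm]
  simp only [hp, if_false, if_true, hp'.symm, hq, hpq, hpq.symm, hq'.symm]
  by_cases hjl : j = l
  · subst hjl
    simp only [if_true, hL.diag, hL.anti q p]
    rw [smul_smul, Complex.I_mul_I]
    module
  · simp only [if_neg hjl]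
    rw [smul_smul, Complex.I_mul_I]
    module

lemma br_L_E {p q a b l : ι} (ha : a ≠ p) (ha' : a ≠ q) (hb : b ≠ p) (hb' : b ≠ q) :
    br (L a b) (EE L p q l) = (if b = l then EE L p q a else 0) - (if a = l then EE L p q b else 0)
    := by
  rw [EE, br_add, br_smul, hL.comm, hL.comm]
  simp only [ha, ha', hb, hb', if_false, EE, hL.anti a p, hL.anti b p, hL.anti a q, hL.anti b q]
  split_ifs <;> module

end Main

end Vale.Agent.P225.B3
end
end

section

section

/-!
P225, part B3a: the purely algebraic part (3.2), final theorem `raise_main`.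
-/

namespace Vale.Agent.P225.B3

open Finset

set_option linter.unusedSectionVars false

section Main

variable {A : Type*} [Ring A] [Algebra ℂ A] {ι : Type*} [Fintype ι] [DecidableEq ι]
variable {L : ι → ι → A} (hL : SoRel L)

include hL

/-- The part of `xi_J` in the four chosen coordinates, and the rest. -/
theorem xi_decomp (hev : Even (Fintype.card ι)) {p q m k : ι} (hpq : p ≠ q) (hpm : p ≠ m)
    (hpk : p ≠ k) (hqm : q ≠ m) (hqk : q ≠ k) (hmk : m ≠ k) :
    ∃ R : A, br (L p q) R = 0 ∧ ∀ s t ε : ℝ, s ^ 2 + t ^ 2 = 1 → ε ^ 2 = 1 →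
      ∃ J : Matrix ι ι ℝ, J.transpose = -J ∧ J * J = -1 ∧
        xiA L J = (s : ℂ) • (L p q + (ε : ℂ) • L m k) + (t : ℂ) • (L p m - (ε : ℂ) • L q k)
          + R := by
  obtain ⟨r, e, h0, h1, h2, h3⟩ := exists_equiv hev hpq hpm hpk hqm hqk hmk
  let Jr : Matrix (Fin r ⊕ Fin r) (Fin r ⊕ Fin r) ℝ := Matrix.fromBlocks 0 (-1) 1 0
  have hJrT : Jr.transpose = -Jr := by
    simp only [Jr, Matrix.fromBlocks_transpose, Matrix.transpose_zero, Matrix.transpose_one,
      Matrix.transpose_neg, Matrix.fromBlocks_neg, neg_zero, neg_neg]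
  have hJr2 : Jr * Jr = -1 := by
    simp only [Jr, Matrix.fromBlocks_multiply, mul_zero, zero_mul, mul_one, one_mul, zero_add,
      add_zero]
    rw [← Matrix.fromBlocks_one, Matrix.fromBlocks_neg, neg_zero]
  refine ⟨(1 / 2 : ℂ) • ∑ x, ∑ y, ((Jr y x : ℝ) : ℂ) • L (e (Sum.inr x)) (e (Sum.inr y)), ?_, ?_⟩
  · rw [br_smul, br_sum]
    have : ∀ x, br (L p q) (∑ y, ((Jr y x : ℝ) : ℂ) • L (e (Sum.inr x)) (e (Sum.inr y))) = 0 := by
      intro x
      rw [br_sum]
      refine Finset.sum_eq_zero fun y _ => ?_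
      have hne : ∀ (z : Fin r ⊕ Fin r), e (Sum.inr z) ≠ p ∧ e (Sum.inr z) ≠ q := by
        intro z
        rw [← h0, ← h1]
        constructor <;> · intro h; have := e.injective h; simp at this
      rw [br_smul, br_pq_L hL (hne x).1 (hne x).2 (hne y).1 (hne y).2, smul_zero]
    rw [Finset.sum_congr rfl fun x _ => this x, Finset.sum_const_zero, smul_zero]
  · intro s t ε hst hε
    let J0 : Matrix (Fin 4 ⊕ (Fin r ⊕ Fin r)) (Fin 4 ⊕ (Fin r ⊕ Fin r)) ℝ :=
      Matrix.fromBlocks (J4 s t ε) 0 0 Jr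
    have hJ0T : J0.transpose = -J0 := by
      simp only [Matrix.fromBlocks_transpose, J4_transpose, Matrix.transpose_zero, hJrT, Matrix.fromBlocks_neg, neg_zero, J0]
    have hJ02 : J0 * J0 = -1 := by
      have hone : (Matrix.fromBlocks (-1) 0 0 (-1) :
          Matrix (Fin 4 ⊕ (Fin r ⊕ Fin r)) (Fin 4 ⊕ (Fin r ⊕ Fin r)) ℝ) = -1 := by
        calc (Matrix.fromBlocks (-1) 0 0 (-1) :
            Matrix (Fin 4 ⊕ (Fin r ⊕ Fin r)) (Fin 4 ⊕ (Fin r ⊕ Fin r)) ℝ)
            = -(Matrix.fromBlocks 1 0 0 1) := by rw [Matrix.fromBlocks_neg, neg_zero, neg_zero]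
          _ = -1 := by rw [Matrix.fromBlocks_one]
      rw [← hone]
      simp only [J0]
      rw [Matrix.fromBlocks_multiply, J4_sq s t ε hst hε, hJr2, Matrix.mul_zero, Matrix.zero_mul,
        Matrix.mul_zero, Matrix.zero_mul, Matrix.mul_zero, Matrix.mul_zero, add_zero, add_zero,
        add_zero, zero_add]
    refine ⟨J0.submatrix e.symm e.symm, ?_, ?_, ?_⟩
    · rw [Matrix.transpose_submatrix, hJ0T]; rfl
    · rw [Matrix.submatrix_mul_equiv, hJ02]
      ext a b
      simp only [Matrix.submatrix_apply, Matrix.neg_apply, Matrix.one_apply, EmbeddingLike.apply_eq_iff_eq]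
    · rw [xiA]
      have e1 : ∑ a, ∑ b, (((J0.submatrix e.symm e.symm) b a : ℝ) : ℂ) • L a b
          = ∑ x, ∑ y, ((J0 y x : ℝ) : ℂ) • L (e x) (e y) := by
        rw [← Equiv.sum_comp e]
        refine Finset.sum_congr rfl fun x _ => ?_
        rw [← Equiv.sum_comp e]
        refine Finset.sum_congr rfl fun y _ => ?_
        simp only [Matrix.submatrix_apply, Equiv.symm_apply_apply]
      rw [e1, Fintype.sum_sum_type]
      simp only [Fintype.sum_sum_type (α₁ := Fin 4)]
      simp only [J0, Matrix.fromBlocks_apply₁₁, Matrix.fromBlocks_apply₁₂,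
        Matrix.fromBlocks_apply₂₁, Matrix.fromBlocks_apply₂₂, Matrix.zero_apply,
        Complex.ofReal_zero, zero_smul, Finset.sum_const_zero, add_zero, zero_add, smul_add]
      congr 1
      simp only [Fin.sum_univ_four, h0, h1, h2, h3, J4, Matrix.of_apply, Matrix.cons_val',
        Matrix.cons_val_zero, Matrix.cons_val_one, Matrix.cons_val, Complex.ofReal_zero, zero_smul,
        zero_add, add_zero, Complex.ofReal_neg, Complex.ofReal_mul]
      rw [hL.anti q p, hL.anti m p, hL.anti k m, hL.anti k q]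
      module

/-- The elements (i) and (ii). -/
theorem elems (g : Submodule ℂ A) (K : A) (hKL : ∀ a b, K * L a b = L a b * K)
    (hgL : ∀ a b, ∀ Y ∈ g, br (L a b) Y ∈ g)
    (hJ : ∀ J : Matrix ι ι ℝ, J.transpose = -J → J * J = -1 → K * (xiA L J * xiA L J) ∈ g)
    (hev : Even (Fintype.card ι)) {p q m k : ι} (hpq : p ≠ q) (hpm : p ≠ m)
    (hpk : p ≠ k) (hqm : q ≠ m) (hqk : q ≠ k) (hmk : m ≠ k) :
    K * (EE L p q m * EE L p q k) ∈ g ∧
    K * (EE L p q m * EE L p q m - EE L p q k * EE L p q k) ∈ g ∧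
    K * ((EE L p q m * L p q + L p q * EE L p q m)
      + Complex.I • (EE L p q k * L m k + L m k * EE L p q k)) ∈ g := by
  obtain ⟨R, hR, hdec⟩ := xi_decomp hL hev hpq hpm hpk hqm hqk hmk
  set Em := EE L p q m with hEm
  set Ek := EE L p q k with hEk
  set Fm := FF L p q m with hFm
  set Fk := FF L p q k with hFk
  set h : A := (-Complex.I) • L p q with hh
  have hbr : ∀ Y, br h Y = (-Complex.I) • br (L p q) Y := fun Y => by rw [hh, br_smul_left]
  have hhE : ∀ j, j ≠ p → j ≠ q → br h (EE L p q j) = EE L p q j := by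
    intro j hp hq
    rw [hbr, br_pq_E hL hpq hp hq, smul_smul]
    simp
  have hhF : ∀ j, j ≠ p → j ≠ q → br h (FF L p q j) = -FF L p q j := by
    intro j hp hq
    rw [hbr, br_pq_F hL hpq hp hq, smul_neg, smul_smul]
    simp only [neg_mul, Complex.I_mul_I, neg_neg, one_smul]
  have hhK : br h K = 0 := by
    rw [hbr]; simp only [br]; rw [hKL, sub_self, smul_zero]
  have hhR : br h R = 0 := by rw [hbr, hR, smul_zero]
  have hhmk : br h (L m k) = 0 := by
    rw [hbr, br_pq_L hL hpm.symm hqm.symm hpk.symm hqk.symm, smul_zero]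
  have hhpq : br h (L p q) = 0 := by
    rw [hbr]; simp [br]
  have hEc : Em * Ek = Ek * Em := by
    have := br_E_E hL hpq hpm.symm hqm.symm hpk.symm hqk.symm
    exact sub_eq_zero.1 this
  -- the extraction for given parameters
  have main : ∀ s t ε : ℝ, s ^ 2 + t ^ 2 = 1 → ε ^ 2 = 1 →
      K * (((t : ℂ) • ((1 / 2 : ℂ) • (Em + (Complex.I * ε) • Ek))) *
        ((t : ℂ) • ((1 / 2 : ℂ) • (Em + (Complex.I * ε) • Ek)))) ∈ g ∧
      K * (((t : ℂ) • ((1 / 2 : ℂ) • (Em + (Complex.I * ε) • Ek))) *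
          ((s : ℂ) • (L p q + (ε : ℂ) • L m k) + R) +
        ((s : ℂ) • (L p q + (ε : ℂ) • L m k) + R) *
          ((t : ℂ) • ((1 / 2 : ℂ) • (Em + (Complex.I * ε) • Ek)))) ∈ g := by
    intro s t ε hst hε
    obtain ⟨J, hJT, hJ2, hxi⟩ := hdec s t ε hst hε
    have hmem := hJ J hJT hJ2
    refine extract g h K ((t : ℂ) • ((1 / 2 : ℂ) • (Em + (Complex.I * ε) • Ek)))
      ((s : ℂ) • (L p q + (ε : ℂ) • L m k) + R)
      ((t : ℂ) • ((1 / 2 : ℂ) • (Fm - (Complex.I * ε) • Fk))) ?_ hhK ?_ ?_ ?_ ?_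
    · intro Y hY
      rw [hbr]; exact g.smul_mem _ (hgL _ _ _ hY)
    · rw [br_smul, br_smul, br_add, br_smul, hEm, hEk, hhE m hpm.symm hqm.symm,
        hhE k hpk.symm hqk.symm]
    · rw [br_add, br_smul, br_add, br_smul, hhR, hhmk, hhpq]
      simp
    · rw [br_smul, br_smul, br_sub, br_smul, hFm, hFk, hhF m hpm.symm hqm.symm,
        hhF k hpk.symm hqk.symm]
      module
    · have hx : ((t : ℂ) • ((1 / 2 : ℂ) • (Em + (Complex.I * ε) • Ek))) +
          ((s : ℂ) • (L p q + (ε : ℂ) • L m k) + R) +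
          ((t : ℂ) • ((1 / 2 : ℂ) • (Fm - (Complex.I * ε) • Fk))) = xiA L J := by
        rw [hxi, hEm, hEk, hFm, hFk, EE, EE, FF, FF]
        have hI : Complex.I * Complex.I = -1 := Complex.I_mul_I
        match_scalars <;> first | ring1 | linear_combination ((t : ℂ) * ε) * hI
      rw [hx]; exact hmem
  have m1 := (main 0 1 1 (by norm_num) (by norm_num)).1
  have m2 := (main 0 1 (-1) (by norm_num) (by norm_num)).1
  simp only [Complex.ofReal_one, mul_one, one_smul, Complex.ofReal_neg, mul_neg] at m1 m2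
  have hsq : (√2 / 2 : ℝ) ^ 2 = 1 / 2 := by
    rw [div_pow, Real.sq_sqrt (by norm_num)]; norm_num
  set σ : ℝ := √2 / 2 with hσ
  have hσ0 : (σ : ℂ) ≠ 0 := by
    have : σ ≠ 0 := by intro h0; rw [h0] at hsq; norm_num at hsq
    exact_mod_cast this
  have hσ2 : (σ : ℂ) * (σ : ℂ) = 1 / 2 := by
    have : ((σ ^ 2 : ℝ) : ℂ) = ((1 / 2 : ℝ) : ℂ) := by rw [hsq]
    push_cast at this; linear_combination this
  have n1 := (main σ σ 1 (by rw [hsq]; norm_num) (by norm_num)).2
  have n2 := (main (-σ) σ 1 (by rw [neg_sq, hsq]; norm_num) (by norm_num)).2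
  have n3 := (main σ σ (-1) (by rw [hsq]; norm_num) (by norm_num)).2
  have n4 := (main (-σ) σ (-1) (by rw [neg_sq, hsq]; norm_num) (by norm_num)).2
  have hI : Complex.I * Complex.I = -1 := Complex.I_mul_I
  refine ⟨?_, ?_, ?_⟩
  · -- K E_m E_k = -i (m1 - m2)
    have : K * (Em * Ek) = (-Complex.I) • (K * ((1 / 2 : ℂ) • (Em + Complex.I • Ek) *
        (1 / 2 : ℂ) • (Em + Complex.I • Ek)) - K * ((1 / 2 : ℂ) • (Em + (-Complex.I) • Ek) *
        (1 / 2 : ℂ) • (Em + (-Complex.I) • Ek))) := by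
      rw [← mul_sub, ← mul_smul_comm]
      congr 1
      simp only [smul_add, smul_smul, mul_add, mul_smul_comm, add_mul, smul_mul_assoc, ← hEc, smul_sub]
      match_scalars <;> first
        | ring1
        | linear_combination (-1 : ℂ) * hI
        | linear_combination hI
    rw [this]
    exact g.smul_mem _ (g.sub_mem m1 m2)
  · have : K * (Em * Em - Ek * Ek) = (2 : ℂ) • (K * ((1 / 2 : ℂ) • (Em + Complex.I • Ek) *
        (1 / 2 : ℂ) • (Em + Complex.I • Ek)) + K * ((1 / 2 : ℂ) • (Em + (-Complex.I) • Ek) *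
        (1 / 2 : ℂ) • (Em + (-Complex.I) • Ek))) := by
      rw [← mul_add, ← mul_smul_comm]
      congr 1
      simp only [smul_mul_assoc, mul_smul_comm, mul_add, add_mul, smul_add, smul_smul,
        ← hEc]
      match_scalars <;> first
        | ring1
        | linear_combination (-1 : ℂ) * hI
    rw [this]
    exact g.smul_mem _ (g.add_mem m1 m2)
  · simp only [Complex.ofReal_one, mul_one, one_smul, Complex.ofReal_neg, neg_smul, mul_neg] at n1 n2 n3 n4
    have key : ∀ X : A, X ∈ g → ∀ Y, Y = X → Y ∈ g := fun X hX Y hY => hY ▸ hX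
    refine key _ (g.add_mem (g.sub_mem n1 n2) (g.sub_mem n3 n4)) _ ?_
    rw [← mul_sub, ← mul_sub, ← mul_add]
    congr 1
    simp only [smul_mul_assoc, mul_smul_comm, mul_add, add_mul, smul_add, smul_smul,
      neg_mul, mul_neg, smul_neg]
    match_scalars <;> first
      | ring1
      | linear_combination (-2 : ℂ) * hσ2
      | linear_combination (-2 * Complex.I : ℂ) * hσ2

/-- **(3.2)** From `K xi_J² ∈ g` for all orthogonal complex structures `J` (and `g` closed under
commutators and under `[L_ab, ·]`) to `K^(2d-1) S^d ∈ g`. -/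
theorem raise_main (g : Submodule ℂ A) (hg : ∀ X ∈ g, ∀ Y ∈ g, br X Y ∈ g)
    (K : A) (hKL : ∀ a b, K * L a b = L a b * K)
    (hgL : ∀ a b, ∀ Y ∈ g, br (L a b) Y ∈ g)
    (hJ : ∀ J : Matrix ι ι ℝ, J.transpose = -J → J * J = -1 → K * (xiA L J * xiA L J) ∈ g)
    (hev : Even (Fintype.card ι)) (hcard : 6 ≤ Fintype.card ι) {p q : ι} (hpq : p ≠ q) :
    ∀ d : ℕ, 2 ≤ d →
      K ^ (2 * d - 1) * (∑ j : {j : ι // j ≠ p ∧ j ≠ q}, EE L p q j * EE L p q j) ^ d ∈ g := by
  classical
  have hI : Complex.I * Complex.I = -1 := Complex.I_mul_I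
  set κ := {j : ι // j ≠ p ∧ j ≠ q} with hκ
  have hcκ : Fintype.card κ = Fintype.card ι - 2 := by
    have h1 : Fintype.card κ = Fintype.card {j : ι // j ∉ ({p, q} : Finset ι)} := by
      refine Fintype.card_congr (Equiv.subtypeEquivRight fun j => ?_)
      simp
    rw [h1, Fintype.card_subtype_compl, Fintype.card_coe, Finset.card_pair hpq]
  have hN : 3 ≤ Fintype.card κ := by omega
  have hN0 : (Fintype.card κ : ℂ) ≠ 0 := by exact_mod_cast (by omega : Fintype.card κ ≠ 0)
  let E : κ → A := fun j => EE L p q j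
  have hEE : ∀ j l : κ, E j * E l = E l * E j := fun j l =>
    sub_eq_zero.1 (br_E_E hL hpq j.2.1 j.2.2 l.2.1 l.2.2)
  have hKE : ∀ j : κ, K * E j = E j * K := by
    intro j
    simp only [EE, mul_add, hKL, mul_smul_comm, add_mul, smul_mul_assoc, E]
  let W : κ → A := fun m => ((Fintype.card κ - 1 : ℂ) / (2 * Complex.I)) •
      (E m * L p q + L p q * E m)
      + (1 / 2 : ℂ) • ∑ k : κ, (E k * L m k + L m k * E k)
  have hel : ∀ m k : κ, m ≠ k → K * (E m * E k) ∈ g ∧ K * (E m * E m - E k * E k) ∈ g ∧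
      K * ((E m * L p q + L p q * E m) + Complex.I • (E k * L m k + L m k * E k)) ∈ g := by
    intro m k hmk
    exact elems hL g K hKL hgL hJ hev hpq m.2.1.symm k.2.1.symm m.2.2.symm k.2.2.symm
      (fun h => hmk (Subtype.ext h))
  refine chain g hg K E W hN hEE hKE ?_ ?_ ?_ ?_
  · -- K commutes with W
    intro m
    have c1 : ∀ X : A, Commute K X → ∀ a b, Commute K (X * L a b + L a b * X) := fun X hX a b =>
      (hX.mul_right (hKL a b)).add_right (Commute.mul_right (hKL a b) hX)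
    exact ((c1 _ (hKE m) p q).smul_right _).add_right
      ((Commute.sum_right _ _ _ fun k _ => c1 _ (hKE k) _ _).smul_right _)
  · -- commutation relation
    intro m l
    have e1 : br (E m * L p q + L p q * E m) (E l) = (2 * Complex.I) • (E m * E l) := by
      have h1 := br_pq_E hL hpq l.2.1 l.2.2
      have h2 : br (E m * L p q + L p q * E m) (E l)
          = E m * br (L p q) (E l) + br (L p q) (E l) * E m := by
        simp only [br]
        have := hEE m l
        calc (E m * L p q + L p q * E m) * E l - E l * (E m * L p q + L p q * E m)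
            = E m * (L p q * E l) + L p q * (E m * E l) - (E l * E m) * L p q
              - (E l * L p q) * E m := by noncomm_ring
          _ = E m * (L p q * E l) + L p q * (E l * E m) - (E m * E l) * L p q
              - (E l * L p q) * E m := by rw [this]
          _ = _ := by noncomm_ring
      rw [h2, h1]
      change E m * (Complex.I • E l) + (Complex.I • E l) * E m = _
      rw [mul_smul_comm, smul_mul_assoc, ← hEE m l]
      module
    have e2 : ∀ k : κ, br (E k * L m k + L m k * E k) (E l)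
        = (if k = l then (2 : ℂ) • (E m * E l) else 0)
          - (if m = l then (2 : ℂ) • (E k * E k) else 0) := by
      intro k
      have h1 := br_L_E hL (l := (l : ι)) m.2.1 m.2.2 k.2.1 k.2.2
      have h2 : br (E k * L m k + L m k * E k) (E l)
          = E k * br (L m k) (E l) + br (L m k) (E l) * E k := by
        simp only [br]
        have := hEE k l
        calc (E k * L m k + L m k * E k) * E l - E l * (E k * L m k + L m k * E k)
            = E k * (L m k * E l) + L m k * (E k * E l) - (E l * E k) * L m k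
              - (E l * L m k) * E k := by noncomm_ring
          _ = E k * (L m k * E l) + L m k * (E l * E k) - (E k * E l) * L m k
              - (E l * L m k) * E k := by rw [this]
          _ = _ := by noncomm_ring
      rw [h2, h1]
      have h3 : ∀ a b : κ, ((a : ι) = (b : ι)) = (a = b) := fun a b => by
        rw [Subtype.ext_iff]
      simp only [h3]
      change E k * ((if k = l then E m else 0) - (if m = l then E k else 0))
        + ((if k = l then E m else 0) - (if m = l then E k else 0)) * E k = _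
      by_cases hkl : k = l
      · subst hkl
        by_cases hml : m = k
        · subst hml
          simp
        · simp only [if_true, if_neg hml, sub_zero]
          rw [hEE k m]; module
      · by_cases hml : m = l
        · simp only [if_neg hkl, if_pos hml]
          rw [zero_sub, zero_sub, mul_neg, neg_mul]; module
        · simp only [if_neg hkl, if_neg hml, sub_self, mul_zero, zero_mul, add_zero]
    change br (((Fintype.card κ - 1 : ℂ) / (2 * Complex.I)) • (E m * L p q + L p q * E m)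
      + (1 / 2 : ℂ) • ∑ k : κ, (E k * L m k + L m k * E k)) (E l) = _
    have e3 : br (∑ k : κ, (E k * L m k + L m k * E k)) (E l)
        = ∑ k : κ, br (E k * L m k + L m k * E k) (E l) := by
      simp only [br, Finset.sum_mul, Finset.mul_sum, Finset.sum_sub_distrib]
    rw [br_add_left, br_smul_left, br_smul_left, e1, e3, Finset.sum_congr rfl fun k _ => e2 k,
      Finset.sum_sub_distrib, Finset.sum_ite_eq', if_pos (Finset.mem_univ _)]
    have h2I : (2 * Complex.I : ℂ) ≠ 0 := mul_ne_zero two_ne_zero Complex.I_ne_zero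
    rw [smul_smul, div_mul_cancel₀ _ h2I]
    by_cases hml : m = l
    · simp only [if_pos hml, ← Finset.smul_sum, SS]
      module
    · simp only [if_neg hml, sum_const_zero]
      module
  · -- K W ∈ g
    intro m
    have hsum : ∑ k ∈ Finset.univ.erase m, (1 / (2 * Complex.I)) •
        (K * ((E m * L p q + L p q * E m) + Complex.I • (E k * L m k + L m k * E k))) ∈ g := by
      refine g.sum_mem fun k hk => g.smul_mem _ ?_
      exact (hel m k (Finset.ne_of_mem_erase hk).symm).2.2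
    convert hsum using 1
    have hterm : ∀ k : κ, (1 / (2 * Complex.I)) •
        (K * ((E m * L p q + L p q * E m) + Complex.I • (E k * L m k + L m k * E k)))
        = K * ((1 / (2 * Complex.I)) • (E m * L p q + L p q * E m))
          + K * ((1 / 2 : ℂ) • (E k * L m k + L m k * E k)) := by
      intro k
      have : (1 / (2 * Complex.I)) * Complex.I = 1 / 2 := by
        (clear * -; field_simp [Complex.I_ne_zero])
      rw [← mul_smul_comm, smul_add, smul_smul, this, mul_add]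
    rw [Finset.sum_congr rfl fun k _ => hterm k, Finset.sum_add_distrib, Finset.sum_const,
      Finset.card_erase_of_mem (Finset.mem_univ _), Finset.card_univ]
    have hz : E m * L m m + L m m * E m = 0 := by rw [hL.diag, mul_zero, zero_mul, add_zero]
    have hz2 : ∑ k ∈ Finset.univ.erase m, K * ((1 / 2 : ℂ) • (E k * L m k + L m k * E k))
        = K * ((1 / 2 : ℂ) • ∑ k : κ, (E k * L m k + L m k * E k)) := by
      rw [← Finset.add_sum_erase _ (fun k : κ => E k * L m k + L m k * E k) (Finset.mem_univ m),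
        hz, zero_add, Finset.smul_sum, Finset.mul_sum]
    rw [hz2, ← mul_smul_comm, ← mul_add]
    change K * (((Fintype.card κ - 1 : ℂ) / (2 * Complex.I)) • (E m * L p q + L p q * E m)
      + (1 / 2 : ℂ) • ∑ k : κ, (E k * L m k + L m k * E k)) = _
    rw [← Nat.cast_smul_eq_nsmul ℂ, smul_smul, Nat.cast_sub (by omega), Nat.cast_one,
      mul_one_div]
  · -- K (E_l E_m - δ S / N) ∈ g
    intro l m
    by_cases hlm : l = m
    · subst hlm
      simp only [if_true]
      have hsum : ∑ k ∈ Finset.univ.erase l, (1 / (Fintype.card κ : ℂ)) •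
          (K * (E l * E l - E k * E k)) ∈ g := by
        refine g.sum_mem fun k hk => g.smul_mem _ ?_
        exact (hel l k (Finset.ne_of_mem_erase hk).symm).2.1
      convert hsum using 1
      have hz : ∑ k ∈ Finset.univ.erase l, (1 / (Fintype.card κ : ℂ)) •
          (K * (E l * E l - E k * E k))
          = ∑ k : κ, (1 / (Fintype.card κ : ℂ)) • (K * (E l * E l - E k * E k)) := by
        rw [← Finset.add_sum_erase _ (fun k : κ => (1 / (Fintype.card κ : ℂ)) •
          (K * (E l * E l - E k * E k))) (Finset.mem_univ l), sub_self, mul_zero, smul_zero,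
          zero_add]
      rw [hz, ← Finset.smul_sum, ← Finset.mul_sum, Finset.sum_sub_distrib, Finset.sum_const,
        Finset.card_univ, ← Nat.cast_smul_eq_nsmul ℂ, ← mul_smul_comm, smul_sub, smul_smul,
        one_div, inv_mul_cancel₀ hN0, one_smul, SS]
    · simp only [if_neg hlm, sub_zero]
      exact (hel l m hlm).1

end Main

end Vale.Agent.P225.B3
end
end

section

section

/-!
P225, part B3a: (3.2) without the assumption that `g` is invariant under `[L_ab, ·]`.
-/

namespace Vale.Agent.P225.B3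

open Finset

set_option linter.unusedSectionVars false

section Mat

variable {ι : Type*} [Fintype ι] [DecidableEq ι]

/-- The generator of the rotations in the plane `(a, b)`. -/
def Nab (a b : ι) : Matrix ι ι ℝ := Matrix.single b a 1 - Matrix.single a b 1

/-- The projection to the plane `(a, b)`. -/
def Pab (a b : ι) : Matrix ι ι ℝ := Matrix.single a a 1 + Matrix.single b b 1

lemma single_mul_single' (i j k l : ι) :
    Matrix.single i j (1 : ℝ) * Matrix.single k l (1 : ℝ)
      = if j = k then Matrix.single i l 1 else 0 := by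
  split_ifs with h
  · subst h; rw [Matrix.single_mul_single_same, mul_one]
  · exact Matrix.single_mul_single_of_ne (h := h) ..

lemma single_mul_mul_single' (i j k l : ι) (J : Matrix ι ι ℝ) :
    Matrix.single i j (1 : ℝ) * J * Matrix.single k l (1 : ℝ)
      = J j k • Matrix.single i l (1 : ℝ) := by
  rw [Matrix.single_mul_mul_single, Matrix.smul_single, one_mul, mul_one, smul_eq_mul, mul_one]

variable {a b : ι} (hab : a ≠ b)

lemma Nab_transpose (a b : ι) : (Nab a b).transpose = -Nab a b := by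
  rw [Nab, Matrix.transpose_sub, Matrix.transpose_single, Matrix.transpose_single, neg_sub]

lemma Pab_transpose (a b : ι) : (Pab a b).transpose = Pab a b := by
  rw [Pab, Matrix.transpose_add, Matrix.transpose_single, Matrix.transpose_single]

include hab

lemma Nab_sq : Nab a b * Nab a b = -Pab a b := by
  simp only [Nab, Pab, mul_sub, sub_mul, single_mul_single', if_neg hab, if_neg hab.symm, if_true]
  abel

lemma Pab_Nab : Pab a b * Nab a b = Nab a b := by
  simp only [Pab, Nab, mul_sub, add_mul, single_mul_single', if_neg hab, if_true, if_neg hab.symm]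
  abel

lemma Nab_Pab : Nab a b * Pab a b = Nab a b := by
  simp only [Nab, Pab, sub_mul, mul_add, single_mul_single', if_neg hab, if_neg hab.symm, if_true]
  abel

lemma Pab_sq : Pab a b * Pab a b = Pab a b := by
  simp only [Pab, add_mul, mul_add, single_mul_single', if_neg hab, if_neg hab.symm, if_true]
  abel

omit hab in
lemma diag_zero {J : Matrix ι ι ℝ} (hJ : J.transpose = -J) (a : ι) : J a a = 0 := by
  have := congrFun (congrFun hJ a) a
  simp only [Matrix.transpose_apply, Matrix.neg_apply] at this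
  linarith only [this]

omit hab in
lemma skew_swap {J : Matrix ι ι ℝ} (hJ : J.transpose = -J) (a b : ι) : J b a = -J a b := by
  have := congrFun (congrFun hJ a) b
  simpa only [Matrix.transpose_apply, Matrix.neg_apply] using this

lemma NJN {J : Matrix ι ι ℝ} (hJ : J.transpose = -J) :
    Nab a b * J * Nab a b = -(Pab a b * J * Pab a b) := by
  simp only [Nab, Pab, sub_mul, mul_sub, add_mul, mul_add, single_mul_mul_single',
    diag_zero hJ, skew_swap hJ a b]
  module

lemma NJP {J : Matrix ι ι ℝ} (hJ : J.transpose = -J) :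
    Nab a b * J * Pab a b = Pab a b * J * Nab a b := by
  simp only [Nab, Pab, sub_mul, mul_sub, add_mul, mul_add, single_mul_mul_single',
    diag_zero hJ, skew_swap hJ a b]
  module

/-- The rotation in the plane `(a, b)`. -/
def Rot (a b : ι) (c s : ℝ) : Matrix ι ι ℝ := 1 + (c - 1) • Pab a b - s • Nab a b

omit hab in
lemma Rot_transpose (a b : ι) (c s : ℝ) :
    (Rot a b c s).transpose = 1 + (c - 1) • Pab a b + s • Nab a b := by
  rw [Rot, Matrix.transpose_sub, Matrix.transpose_add, Matrix.transpose_one,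
    Matrix.transpose_smul, Matrix.transpose_smul, Nab_transpose, Pab_transpose, smul_neg,
    sub_neg_eq_add]

lemma Rot_T_mul {c s : ℝ} (hcs : c ^ 2 + s ^ 2 = 1) :
    (Rot a b c s).transpose * Rot a b c s = 1 := by
  rw [Rot_transpose, Rot]
  have h : (1 + (c - 1) • Pab a b + s • Nab a b) * (1 + (c - 1) • Pab a b - s • Nab a b)
      = 1 + (2 * (c - 1)) • Pab a b + (c - 1) ^ 2 • (Pab a b * Pab a b)
        - s ^ 2 • (Nab a b * Nab a b)
        + (s * (c - 1)) • (Nab a b * Pab a b - Pab a b * Nab a b) := by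
    simp only [mul_add, mul_sub, add_mul, mul_one, one_mul, smul_mul_assoc, mul_smul_comm]
    module
  rw [h, Pab_sq hab, Nab_sq hab, Nab_Pab hab, Pab_Nab hab, sub_self, smul_zero, add_zero]
  have : (1 : Matrix ι ι ℝ) + (2 * (c - 1)) • Pab a b + (c - 1) ^ 2 • Pab a b
      - s ^ 2 • -Pab a b = 1 + (c ^ 2 + s ^ 2 - 1) • Pab a b := by
    module
  rw [this, hcs, sub_self, zero_smul, add_zero]

lemma Rot_conj {J : Matrix ι ι ℝ} (hJ : J.transpose = -J) {c s : ℝ} (hcs : c ^ 2 + s ^ 2 = 1) :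
    Rot a b c s * J * (Rot a b c s).transpose
      = J + s • (J * Nab a b - Nab a b * J)
        + (1 - c) • ((J * Nab a b - Nab a b * J) * Nab a b
          - Nab a b * (J * Nab a b - Nab a b * J)) := by
  rw [Rot_transpose, Rot]
  have e1 : (1 + (c - 1) • Pab a b - s • Nab a b) * J * (1 + (c - 1) • Pab a b + s • Nab a b)
      = J + (c - 1) • (Pab a b * J + J * Pab a b) + s • (J * Nab a b - Nab a b * J)
        + (c - 1) ^ 2 • (Pab a b * J * Pab a b)
        + ((c - 1) * s) • (Pab a b * J * Nab a b - Nab a b * J * Pab a b)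
        - s ^ 2 • (Nab a b * J * Nab a b) := by
    simp only [mul_add, sub_mul, add_mul, mul_one, one_mul, smul_mul_assoc, mul_smul_comm]
    module
  have e2 : (J * Nab a b - Nab a b * J) * Nab a b - Nab a b * (J * Nab a b - Nab a b * J)
      = J * (Nab a b * Nab a b) - (2 : ℝ) • (Nab a b * J * Nab a b) + (Nab a b * Nab a b) * J := by
    rw [two_smul]; noncomm_ring
  rw [e1, e2, NJN hab hJ, NJP hab hJ, Nab_sq hab, sub_self, smul_zero, add_zero]
  have h3 : (c - 1) ^ 2 + s ^ 2 = 2 * (1 - c) := by linear_combination hcs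
  have e3 : J + (c - 1) • (Pab a b * J + J * Pab a b) + s • (J * Nab a b - Nab a b * J)
        + (c - 1) ^ 2 • (Pab a b * J * Pab a b) - s ^ 2 • -(Pab a b * J * Pab a b)
      = J + (c - 1) • (Pab a b * J + J * Pab a b) + s • (J * Nab a b - Nab a b * J)
        + ((c - 1) ^ 2 + s ^ 2) • (Pab a b * J * Pab a b) := by
    module
  rw [e3, h3, mul_neg, neg_mul]
  module

/-- The rotated complex structures. -/
lemma rotJ {J : Matrix ι ι ℝ} (hJ : J.transpose = -J) (hJ2 : J * J = -1) {c s : ℝ}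
    (hcs : c ^ 2 + s ^ 2 = 1) :
    (J + s • (J * Nab a b - Nab a b * J)
        + (1 - c) • ((J * Nab a b - Nab a b * J) * Nab a b
          - Nab a b * (J * Nab a b - Nab a b * J))).transpose
      = -(J + s • (J * Nab a b - Nab a b * J)
        + (1 - c) • ((J * Nab a b - Nab a b * J) * Nab a b
          - Nab a b * (J * Nab a b - Nab a b * J))) ∧
    (J + s • (J * Nab a b - Nab a b * J)
        + (1 - c) • ((J * Nab a b - Nab a b * J) * Nab a b
          - Nab a b * (J * Nab a b - Nab a b * J))) *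
      (J + s • (J * Nab a b - Nab a b * J)
        + (1 - c) • ((J * Nab a b - Nab a b * J) * Nab a b
          - Nab a b * (J * Nab a b - Nab a b * J))) = -1 := by
  rw [← Rot_conj hab hJ hcs]
  have h1 := Rot_T_mul hab hcs
  have h2 : Rot a b c s * (Rot a b c s).transpose = 1 := mul_eq_one_comm.1 h1
  constructor
  · rw [Matrix.transpose_mul, Matrix.transpose_mul, Matrix.transpose_transpose, hJ]
    rw [neg_mul, mul_neg, mul_assoc]
  · calc Rot a b c s * J * (Rot a b c s).transpose * (Rot a b c s * J * (Rot a b c s).transpose)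
        = Rot a b c s * J * ((Rot a b c s).transpose * Rot a b c s) * J
            * (Rot a b c s).transpose := by simp only [mul_assoc]
      _ = Rot a b c s * (J * J) * (Rot a b c s).transpose := by
          rw [h1, mul_one, mul_assoc (Rot a b c s)]
      _ = -1 := by rw [hJ2, mul_neg, mul_one, neg_mul, h2]

end Mat

section Main

variable {A : Type*} [Ring A] [Algebra ℂ A] {ι : Type*} [Fintype ι] [DecidableEq ι]
variable {L : ι → ι → A}

lemma xiA_add (L : ι → ι → A) (J J' : Matrix ι ι ℝ) : xiA L (J + J') = xiA L J + xiA L J' := by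
  simp only [xiA, Matrix.add_apply, Complex.ofReal_add, add_smul, sum_add_distrib, smul_add]

lemma xiA_smul (L : ι → ι → A) (r : ℝ) (J : Matrix ι ι ℝ) :
    xiA L (r • J) = (r : ℂ) • xiA L J := by
  simp only [xiA, Matrix.smul_apply, smul_eq_mul, Complex.ofReal_mul, mul_smul]
  simp only [← Finset.smul_sum]
  rw [smul_comm]

lemma xiA_neg (L : ι → ι → A) (J : Matrix ι ι ℝ) : xiA L (-J) = -xiA L J := by
  have := xiA_smul L (-1) J
  simpa only [neg_smul, one_smul, Complex.ofReal_neg, Complex.ofReal_one] using this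

lemma xiA_sub (L : ι → ι → A) (J J' : Matrix ι ι ℝ) : xiA L (J - J') = xiA L J - xiA L J' := by
  rw [sub_eq_add_neg, xiA_add, xiA_neg, sub_eq_add_neg]

lemma xiA_zero (L : ι → ι → A) : xiA L (0 : Matrix ι ι ℝ) = 0 := by
  simp only [xiA, one_div, Matrix.zero_apply, Complex.ofReal_zero, zero_smul, sum_const_zero, smul_zero]

lemma xiA_single (L : ι → ι → A) (i j : ι) :
    xiA L (Matrix.single i j (1 : ℝ)) = (1 / 2 : ℂ) • L j i := by
  rw [xiA]
  congr 1
  rw [Finset.sum_eq_single j, Finset.sum_eq_single i]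
  · simp
  · intro b _ hb
    rw [Matrix.single_apply_of_row_ne hb.symm]
    simp
  · simp only [mem_univ, not_true_eq_false, Matrix.single_apply_same, Complex.ofReal_one, one_smul, IsEmpty.forall_iff]
  · intro b _ hb
    refine Finset.sum_eq_zero fun c _ => ?_
    rw [Matrix.single_apply_of_col_ne _ _ hb.symm]
    simp only [Complex.ofReal_zero, zero_smul]
  · simp only [mem_univ, not_true_eq_false, Complex.coe_smul, IsEmpty.forall_iff]

variable (hL : SoRel L)
include hL

lemma br_L_xi (a b : ι) (J : Matrix ι ι ℝ) :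
    br (L a b) (xiA L J) = xiA L (J * Nab a b - Nab a b * J) := by
  induction J using Matrix.induction_on' with
  | h_zero => simp [xiA_zero, br]
  | h_add p q hp hq =>
    rw [xiA_add, br_add, hp, hq, ← xiA_add]
    congr 1
    noncomm_ring
  | h_std_basis i j x =>
    have hx : Matrix.single i j x = x • Matrix.single i j (1 : ℝ) := by
      rw [Matrix.smul_single, smul_eq_mul, mul_one]
    rw [hx, xiA_smul, br_smul, smul_mul_assoc, mul_smul_comm, ← smul_sub, xiA_smul]
    congr 1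
    rw [xiA_single, br_smul, hL.comm, Nab, mul_sub, sub_mul]
    simp only [single_mul_single']
    rw [xiA_sub, xiA_sub, xiA_sub]
    have h : ∀ (P : Prop) [Decidable P] (k l : ι),
        xiA L (if P then Matrix.single k l (1 : ℝ) else 0) = if P then (1 / 2 : ℂ) • L l k else 0 := by
      intro P _ k l
      split_ifs
      · rw [xiA_single]
      · rw [xiA_zero]
    simp only [h]
    have e1 : (if b = j then L a i else 0 : A) = if j = b then L a i else 0 := by
      simp only [eq_comm]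
    have e2 : (if a = j then L b i else 0 : A) = if j = a then L b i else 0 := by
      simp only [eq_comm]
    rw [e1, e2, hL.anti a j, hL.anti b j]
    split_ifs <;> module

/-- `K [L_ab, ξ_J²] ∈ g`. -/
lemma ad_gen (g : Submodule ℂ A) (K : A) (hKL : ∀ a b, K * L a b = L a b * K)
    (hJ : ∀ J : Matrix ι ι ℝ, J.transpose = -J → J * J = -1 → K * (xiA L J * xiA L J) ∈ g)
    (a b : ι) (J : Matrix ι ι ℝ) (h1 : J.transpose = -J) (h2 : J * J = -1) :
    br (L a b) (K * (xiA L J * xiA L J)) ∈ g := by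
  by_cases hab : a = b
  · subst hab
    rw [hL.diag]
    simp only [br, zero_mul, mul_zero, sub_self, zero_mem]
  set u := xiA L J with hu
  set v := xiA L (J * Nab a b - Nab a b * J) with hv
  set w := xiA L ((J * Nab a b - Nab a b * J) * Nab a b
          - Nab a b * (J * Nab a b - Nab a b * J)) with hw
  have key : ∀ c s : ℝ, c ^ 2 + s ^ 2 = 1 →
      K * ((u + (s : ℂ) • v + ((1 - c : ℝ) : ℂ) • w) *
        (u + (s : ℂ) • v + ((1 - c : ℝ) : ℂ) • w)) ∈ g := by
    intro c s hcs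
    obtain ⟨r1, r2⟩ := rotJ hab h1 h2 hcs
    have := hJ _ r1 r2
    rwa [xiA_add, xiA_add, xiA_smul, xiA_smul] at this
  have k1 := key 0 1 (by norm_num)
  have k2 := key 0 (-1) (by norm_num)
  have k3 := key (3 / 5) (4 / 5) (by norm_num)
  have k4 := key (3 / 5) (-(4 / 5)) (by norm_num)
  have hbr : br (L a b) (K * (u * u)) = K * (u * v + v * u) := by
    have hK : br (L a b) K = 0 := by simp only [br]; rw [hKL, sub_self]
    rw [br_mul, hK, zero_mul, zero_add, br_mul, hu, br_L_xi hL, ← hu, ← hv, add_comm (v * u)]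
  rw [hbr]
  have hlin : K * (u * v + v * u) =
      (-(1 / 3) : ℂ) • (K * ((u + ((1 : ℝ) : ℂ) • v + ((1 - 0 : ℝ) : ℂ) • w) *
        (u + ((1 : ℝ) : ℂ) • v + ((1 - 0 : ℝ) : ℂ) • w))
      - K * ((u + ((-1 : ℝ) : ℂ) • v + ((1 - 0 : ℝ) : ℂ) • w) *
        (u + ((-1 : ℝ) : ℂ) • v + ((1 - 0 : ℝ) : ℂ) • w)))
      + (25 / 24 : ℂ) • (K * ((u + ((4 / 5 : ℝ) : ℂ) • v + ((1 - 3 / 5 : ℝ) : ℂ) • w) *
        (u + ((4 / 5 : ℝ) : ℂ) • v + ((1 - 3 / 5 : ℝ) : ℂ) • w))
      - K * ((u + ((-(4 / 5) : ℝ) : ℂ) • v + ((1 - 3 / 5 : ℝ) : ℂ) • w) *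
        (u + ((-(4 / 5) : ℝ) : ℂ) • v + ((1 - 3 / 5 : ℝ) : ℂ) • w))) := by
    rw [← mul_sub, ← mul_sub, ← mul_smul_comm, ← mul_smul_comm, ← mul_add]
    congr 1
    push_cast
    simp only [mul_add, add_mul, smul_mul_assoc, mul_smul_comm, smul_add, smul_smul, smul_sub]
    module
  rw [hlin]
  exact g.add_mem (g.smul_mem _ (g.sub_mem k1 k2)) (g.smul_mem _ (g.sub_mem k3 k4))

omit [Fintype ι] [DecidableEq ι] hL in
lemma br_jacobi (x y z : A) : br x (br y z) = br (br x y) z + br y (br x z) := by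
  simp only [br]; noncomm_ring

/-- **(3.2)** From `K xi_J² ∈ g` for all orthogonal complex structures `J` and `g` closed under
commutators to `K^(2d-1) S^d`. -/
theorem raise_main' (g : Submodule ℂ A) (hg : ∀ X ∈ g, ∀ Y ∈ g, br X Y ∈ g)
    (K : A) (hKL : ∀ a b, K * L a b = L a b * K)
    (hJ : ∀ J : Matrix ι ι ℝ, J.transpose = -J → J * J = -1 → K * (xiA L J * xiA L J) ∈ g)
    (hev : Even (Fintype.card ι)) (hcard : 6 ≤ Fintype.card ι) {p q : ι} (hpq : p ≠ q) :
    ∀ d : ℕ, 2 ≤ d →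
      K ^ (2 * d - 1) * (∑ j : {j : ι // j ≠ p ∧ j ≠ q}, EE L p q j * EE L p q j) ^ d ∈ g := by
  let P : Submodule ℂ A → Prop := fun g' =>
    (∀ X ∈ g', ∀ Y ∈ g', br X Y ∈ g') ∧
    (∀ J : Matrix ι ι ℝ, J.transpose = -J → J * J = -1 → K * (xiA L J * xiA L J) ∈ g')
  let g0 : Submodule ℂ A := sInf {g' | P g'}
  have h0 : P g0 := by
    constructor
    · intro X hX Y hY
      rw [Submodule.mem_sInf] at hX hY ⊢
      intro g' hg'
      exact hg'.1 X (hX g' hg') Y (hY g' hg')
    · intro J hJ1 hJ2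
      rw [Submodule.mem_sInf]
      intro g' hg'
      exact hg'.2 J hJ1 hJ2
  have hle : g0 ≤ g := sInf_le ⟨hg, hJ⟩
  have had : ∀ a b, ∀ Y ∈ g0, br (L a b) Y ∈ g0 := by
    intro a b
    let g1 : Submodule ℂ A :=
      { carrier := {Y | Y ∈ g0 ∧ br (L a b) Y ∈ g0}
        add_mem' := by
          rintro x y ⟨hx, hx'⟩ ⟨hy, hy'⟩
          exact ⟨g0.add_mem hx hy, by rw [br_add]; exact g0.add_mem hx' hy'⟩
        zero_mem' := ⟨g0.zero_mem, by rw [br_zero]; exact g0.zero_mem⟩
        smul_mem' := by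
          rintro c x ⟨hx, hx'⟩
          exact ⟨g0.smul_mem c hx, by rw [br_smul]; exact g0.smul_mem c hx'⟩ }
    have h1 : P g1 := by
      constructor
      · rintro X ⟨hX, hX'⟩ Y ⟨hY, hY'⟩
        refine ⟨h0.1 X hX Y hY, ?_⟩
        rw [br_jacobi]
        exact g0.add_mem (h0.1 _ hX' _ hY) (h0.1 _ hX _ hY')
      · intro J hJ1 hJ2
        exact ⟨h0.2 J hJ1 hJ2, ad_gen hL g0 K hKL h0.2 a b J hJ1 hJ2⟩
    have h2 : g0 ≤ g1 := sInf_le h1
    intro Y hY
    exact (h2 hY).2
  intro d hd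
  exact hle (raise_main hL g0 h0.1 K hKL had h0.2 hev hcard hpq d hd)

end Main

end Vale.Agent.P225.B3
end
end

section

section

/-!
P225, route B, part B3-32: the raising operators lie in the Lie algebra generated by the
operators `kap_d M_J`.
-/

open MvPolynomial

namespace Vale.Agent.P225.B

set_option linter.unusedSectionVars false

section General

variable {R : Type*} [CommRing R] {n D : ℕ}

theorem blk_mul {T U : Module.End R (MvPolynomial (Fin n) R)} (hT : Pres T) (hU : Pres U) :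
    blk D (T * U) = blk D T * blk D U := by
  funext d; exact rst_mul hT hU _

theorem blk_add {T U : Module.End R (MvPolynomial (Fin n) R)} (hT : Pres T) (hU : Pres U) :
    blk D (T + U) = blk D T + blk D U := by
  funext d; exact rst_add hT hU _

theorem blk_sub {T U : Module.End R (MvPolynomial (Fin n) R)} (hT : Pres T) (hU : Pres U) :
    blk D (T - U) = blk D T - blk D U := by
  funext d; exact rst_sub hT hU _

theorem blk_neg {T : Module.End R (MvPolynomial (Fin n) R)} (hT : Pres T) :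
    blk D (-T) = -blk D T := by
  funext d; exact rst_neg hT _

theorem blk_smul {T : Module.End R (MvPolynomial (Fin n) R)} (c : R) (hT : Pres T) :
    blk D (c • T) = c • blk D T := by
  funext d; exact rst_smul c hT _

theorem blk_sum {ι : Type*} (s : Finset ι) {T : ι → Module.End R (MvPolynomial (Fin n) R)}
    (hT : ∀ i ∈ s, Pres (T i)) : blk D (∑ i ∈ s, T i) = ∑ i ∈ s, blk D (T i) := by
  funext d
  rw [Finset.sum_apply]
  exact rst_sum s hT _

theorem Lab_X (a b l : Fin n) : (Lab a b : Derivation R _ _) (X l) =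
    (if b = l then 1 else 0) * X a - (if a = l then 1 else 0) * X b := by
  rw [Lab_apply]
  congr 1
  · by_cases hb : b = l
    · subst hb; rw [pderiv_X_self, if_pos rfl, mul_one, one_mul]
    · rw [pderiv_X_of_ne (Ne.symm hb), if_neg hb, mul_zero, zero_mul]
  · by_cases ha : a = l
    · subst ha; rw [pderiv_X_self, if_pos rfl, mul_one, one_mul]
    · rw [pderiv_X_of_ne (Ne.symm ha), if_neg ha, mul_zero, zero_mul]

theorem Lab_Lab_X (a b c d l : Fin n) :
    (Lab a b : Derivation R _ _) ((Lab c d : Derivation R _ _) (X l)) =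
    (if d = l then 1 else 0) * ((if b = c then 1 else 0) * X a - (if a = c then 1 else 0) * X b)
    - (if c = l then 1 else 0) * ((if b = d then 1 else 0) * X a - (if a = d then 1 else 0) * X b)
    := by
  rw [Lab_X, map_sub]
  have h : ∀ (P : Prop) [Decidable P] (k : Fin n),
      (Lab a b : Derivation R _ _) ((if P then 1 else 0) * X k) =
        (if P then 1 else 0) * (Lab a b : Derivation R _ _) (X k) := by
    intro P _ k
    split_ifs <;> simp
  rw [h, h, Lab_X, Lab_X]

/-- Derivations of the polynomial ring. -/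
abbrev DD (R : Type*) [CommRing R] (n : ℕ) : Type _ :=
  Derivation R (MvPolynomial (Fin n) R) (MvPolynomial (Fin n) R)

theorem Lab_comm (a b c d : Fin n) :
    ⁅(Lab a b : DD R n), (Lab c d : DD R n)⁆ =
    (if b = c then 1 else 0 : R) • (Lab a d : DD R n)
      - (if a = c then 1 else 0 : R) • (Lab b d : DD R n)
      - (if b = d then 1 else 0 : R) • (Lab a c : DD R n)
      + (if a = d then 1 else 0 : R) • (Lab b c : DD R n) := by
  apply derivation_ext
  intro l
  rw [Derivation.commutator_apply, Lab_Lab_X, Lab_Lab_X]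
  simp only [Derivation.add_apply, Derivation.sub_apply, Derivation.smul_apply]
  have h : ∀ (P : Prop) [Decidable P] (f : MvPolynomial (Fin n) R),
      (if P then 1 else 0 : R) • f = (if P then 1 else 0) * f := by
    intro P _ f
    split_ifs <;> simp
  rw [h, h, h, h, Lab_X, Lab_X, Lab_X, Lab_X]
  have s : ∀ x y : Fin n, (if x = y then 1 else 0 : MvPolynomial (Fin n) R)
      = if y = x then 1 else 0 := by
    intro x y; simp only [eq_comm]
  rw [s d a, s c a, s d b, s c b]
  ring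

end General

section Inst

variable {n D : ℕ}

open Vale.Agent.P225.B3

/-- The rotation fields as block operators. -/
noncomputable def LB (n D : ℕ) (a b : Fin n) : BA ℂ n D :=
  blk D (dop (Lab a b : Derivation ℂ _ _))

theorem soRel_LB : SoRel (LB n D) := by
  constructor
  · intro a b
    rw [LB, LB, ← blk_neg (pres_Lab _ _)]
    congr 1
    refine LinearMap.ext fun f => ?_
    rw [LinearMap.neg_apply, dop_apply, dop_apply, Lab_apply, Lab_apply]
    ring
  · intro a b c d
    have hp := fun a b : Fin n => pres_Lab (R := ℂ) a b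
    have h1 : br (LB n D a b) (LB n D c d) =
        blk D (dop ⁅(Lab a b : DD ℂ n), (Lab c d : DD ℂ n)⁆) := by
      rw [br, LB, LB, ← blk_mul (hp _ _) (hp _ _), ← blk_mul (hp _ _) (hp _ _),
        ← blk_sub ((hp _ _).mul (hp _ _)) ((hp _ _).mul (hp _ _))]
      rfl
    rw [h1, Lab_comm]
    have h2 : dop ((if b = c then 1 else 0 : ℂ) • (Lab a d : DD ℂ n)
      - (if a = c then 1 else 0 : ℂ) • (Lab b d : DD ℂ n)
      - (if b = d then 1 else 0 : ℂ) • (Lab a c : DD ℂ n)
      + (if a = d then 1 else 0 : ℂ) • (Lab b c : DD ℂ n)) =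
      (if b = c then 1 else 0 : ℂ) • dop (Lab a d) - (if a = c then 1 else 0 : ℂ) • dop (Lab b d)
      - (if b = d then 1 else 0 : ℂ) • dop (Lab a c)
      + (if a = d then 1 else 0 : ℂ) • dop (Lab b c) := by
      refine LinearMap.ext fun f => ?_
      simp only [dop_apply, Derivation.add_apply, Derivation.sub_apply, Derivation.smul_apply,
        LinearMap.add_apply, LinearMap.sub_apply, LinearMap.smul_apply]
    have q := fun (P : Prop) [Decidable P] (a b : Fin n) =>
      (hp a b).smul (if P then 1 else 0 : ℂ)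
    rw [h2, blk_add (((q _ _ _).sub (q _ _ _)).sub (q _ _ _)) (q _ _ _),
      blk_sub ((q _ _ _).sub (q _ _ _)) (q _ _ _), blk_sub (q _ _ _) (q _ _ _),
      blk_smul _ (hp _ _), blk_smul _ (hp _ _), blk_smul _ (hp _ _), blk_smul _ (hp _ _)]
    simp only [ite_smul, one_smul, zero_smul, LB]

theorem xiA_LB {J : Matrix (Fin n) (Fin n) ℝ} (hJ : J.transpose = -J) :
    xiA (LB n D) J = blk D (dop (xi (J.map Complex.ofReal))) := by
  have hp := fun a b : Fin n => pres_Lab (R := ℂ) a b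
  have h1 : dop (xi (J.map Complex.ofReal)) =
      (1 / 2 : ℂ) • ∑ a, ∑ b, ((J b a : ℝ) : ℂ) • dop (Lab a b : Derivation ℂ _ _) := by
    have h2 : xi (J.map Complex.ofReal) =
        (1 / 2 : ℂ) • ∑ a, ∑ b, ((J b a : ℝ) : ℂ) • (Lab a b : Derivation ℂ _ _) := by
      apply derivation_ext
      intro i
      rw [xi_X, Derivation.smul_apply, der_sum_apply]
      have h3 : ∀ a : Fin n, (∑ b, ((J b a : ℝ) : ℂ) • (Lab a b : Derivation ℂ _ _))
          (X i : MvPolynomial (Fin n) ℂ) = C ((J i a : ℝ) : ℂ) * X a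
            - (if a = i then 1 else 0) * ∑ b, C ((J b a : ℝ) : ℂ) * X b := by
        intro a
        rw [der_sum_apply]
        have h4 : ∀ b : Fin n, (((J b a : ℝ) : ℂ) • (Lab a b : Derivation ℂ _ _))
            (X i : MvPolynomial (Fin n) ℂ) = (if b = i then C ((J b a : ℝ) : ℂ) * X a else 0)
            - (if a = i then 1 else 0) * (C ((J b a : ℝ) : ℂ) * X b) := by
          intro b
          rw [Derivation.smul_apply, Lab_X, smul_eq_C_mul]
          by_cases hb : b = i
          · rw [if_pos hb, if_pos hb]; ring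
          · rw [if_neg hb, if_neg hb]; ring
        rw [Finset.sum_congr rfl fun b _ => h4 b, Finset.sum_sub_distrib, Finset.sum_ite_eq',
          if_pos (Finset.mem_univ _), ← Finset.mul_sum]
      rw [Finset.sum_congr rfl fun a _ => h3 a, Finset.sum_sub_distrib]
      have h5 : ∑ a : Fin n, (if a = i then 1 else 0) * ∑ b, C ((J b a : ℝ) : ℂ) * X b
          = -∑ a : Fin n, (C ((J i a : ℝ) : ℂ) * X a : MvPolynomial (Fin n) ℂ) := by
        rw [Finset.sum_eq_single i]
        · rw [if_pos rfl, one_mul, ← Finset.sum_neg_distrib]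
          refine Finset.sum_congr rfl fun b _ => ?_
          rw [skew_swap hJ i b, Complex.ofReal_neg, map_neg, neg_mul]
        · intro a _ ha
          rw [if_neg ha, zero_mul]
        · intro h; exact absurd (Finset.mem_univ i) h
      rw [h5, sub_neg_eq_add, ← two_smul ℂ, smul_smul]
      norm_num
    rw [h2]
    refine LinearMap.ext fun f => ?_
    rw [dop_apply, Derivation.smul_apply, der_sum_apply, LinearMap.smul_apply,
      LinearMap.sum_apply]
    congr 1
    refine Finset.sum_congr rfl fun a _ => ?_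
    rw [der_sum_apply, LinearMap.sum_apply]
    rfl
  rw [h1, blk_smul _ (Pres.sum _ fun a _ => Pres.sum _ fun b _ => (hp a b).smul _),
    blk_sum _ fun a _ => Pres.sum _ fun b _ => (hp a b).smul _, xiA]
  congr 1
  refine Finset.sum_congr rfl fun a _ => ?_
  rw [blk_sum _ fun b _ => (hp a b).smul _]
  refine Finset.sum_congr rfl fun b _ => ?_
  rw [blk_smul _ (hp a b), LB]

theorem neg_mem_BA (g : Submodule ℂ (BA ℂ n D)) {X : BA ℂ n D} (h : X ∈ g) : -X ∈ g := by
  have h1 := g.smul_mem (-1) h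
  have e : (-1 : ℂ) • X = -X := neg_one_smul ℂ X
  exact e ▸ h1

/-- **B3-32**: the powers of the raising operator lie in the Lie algebra. -/
theorem b3_raise (hn : 6 ≤ n) (hev : Even n) (kap : ℕ → ℂ) (g : Submodule ℂ (BA ℂ n D))
    (hbr : ∀ X ∈ g, ∀ Y ∈ g, X * Y - Y * X ∈ g)
    (hJ : ∀ J ∈ JJ n, bsc kap (blk D (MM (J.map Complex.ofReal))) ∈ g)
    {i0 i1 : Fin n} (h01 : i0 ≠ i1) (j : ℕ) (hj : 2 ≤ j) :
    (fun d : Finset.Icc 2 D => kap d ^ (2 * j - 1) • (rst (Sop i0 i1) d) ^ j) ∈ g := by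
  set K : BA ℂ n D := fun d => kap d • 1 with hK
  have hmain := raise_main' (soRel_LB (n := n) (D := D)) g hbr K ?_ ?_ ?_ ?_ h01 j hj
  · convert hmain using 1
    funext d
    rw [Pi.mul_apply, Pi.pow_apply, Pi.pow_apply, hK]
    have h1 : ∀ i : Fin n, EE (LB n D) i0 i1 i = blk D (Ed i0 i1 i).toLinearMap := by
      intro i
      have : (Ed i0 i1 i).toLinearMap = dop (Lab i0 i : Derivation ℂ _ _) +
          Complex.I • dop (Lab i1 i : Derivation ℂ _ _) := by
        exact LinearMap.ext fun f => rfl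
      rw [this, blk_add (pres_Lab _ _) ((pres_Lab _ _).smul _), blk_smul _ (pres_Lab _ _)]
      rfl
    have hpE : ∀ i : Fin n, Pres (Ed i0 i1 i).toLinearMap := by
      intro i
      have : (Ed i0 i1 i).toLinearMap = dop (Lab i0 i : Derivation ℂ _ _) +
          Complex.I • dop (Lab i1 i : Derivation ℂ _ _) := by
        exact LinearMap.ext fun f => rfl
      rw [this]
      exact (pres_Lab _ _).add ((pres_Lab _ _).smul _)
    have h2 : (∑ i : {i : Fin n // i ≠ i0 ∧ i ≠ i1}, EE (LB n D) i0 i1 i * EE (LB n D) i0 i1 i)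
        = blk D (Sop i0 i1) := by
      rw [Sop, blk_sum _ fun i _ => (hpE i).mul (hpE i)]
      have h3 : ∀ i : Fin n, blk D ((Ed i0 i1 i).toLinearMap * (Ed i0 i1 i).toLinearMap)
          = EE (LB n D) i0 i1 i * EE (LB n D) i0 i1 i := by
        intro i
        rw [blk_mul (hpE i) (hpE i), ← h1]
      rw [Finset.sum_congr rfl fun i _ => h3 i, oth]
      exact (Finset.sum_subtype (Finset.univ.filter fun j => j ≠ i0 ∧ j ≠ i1) (by simp only [ne_eq, Finset.mem_filter, Finset.mem_univ, true_and, implies_true])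
        (fun i => EE (LB n D) i0 i1 i * EE (LB n D) i0 i1 i)).symm
    rw [h2, smul_pow, one_pow, smul_mul_assoc, one_mul]
    rfl
  · intro a b
    funext d
    simp [hK, Pi.mul_apply]
  · intro J hJ1 hJ2
    have h1 := hJ J ⟨hJ1, hJ2⟩
    have hJc : (J.map Complex.ofReal).transpose = -(J.map Complex.ofReal) := by
      ext a b
      have := congrFun (congrFun hJ1 a) b
      simp only [Matrix.transpose_apply, Matrix.neg_apply, Matrix.map_apply] at this ⊢
      rw [this, Complex.ofReal_neg]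
    rw [xiA_LB hJ1, ← blk_mul (pres_xi hJc) (pres_xi hJc)]
    have h2 : K * blk D (dop (xi (J.map Complex.ofReal)) * dop (xi (J.map Complex.ofReal)))
        = -bsc kap (blk D (MM (J.map Complex.ofReal))) := by
      have h3 : ∀ X : BA ℂ n D, -bsc kap (-X) = K * X := by
        intro X
        funext d
        change -(kap d • -(X d)) = (kap d • (1 : Module.End ℂ (HH ℂ n d))) * X d
        refine LinearMap.ext fun f => ?_
        simp
      rw [MM, blk_neg ((pres_xi hJc).mul (pres_xi hJc)), h3]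
    rw [h2]
    exact neg_mem_BA g h1
  · rwa [Fintype.card_fin]
  · rwa [Fintype.card_fin]

end Inst

end Vale.Agent.P225.B
end
end
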