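import Vale.Agent.P225.MathlibUsed
import Vale.Agent.P225.Bdl.B1
import Vale.Agent.P225.Bdl.B2
import Vale.Agent.P225.Defs
import Vale.Agent.P225.Flag

set_option linter.all false

section

section

/-! # P225, design B, D0: profiles and curvature inequalities -/

open Set Filter Topology
open scoped ContDiff

namespace Vale.Agent.P225.B2

namespace CurvProof

theorem Th_contDiff : ContDiff ℝ ∞ Th := by
  have h1 : ContDiff ℝ ∞ (fun x : ℝ => 2 * x - 1 / 2) := by fun_prop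
  exact Real.smoothTransition.contDiff.comp h1

theorem Th_nonneg (x : ℝ) : 0 ≤ Th x := Real.smoothTransition.nonneg _

theorem Th_le_one (x : ℝ) : Th x ≤ 1 := Real.smoothTransition.le_one _

theorem Th_zero {x : ℝ} (h : x ≤ 1 / 4) : Th x = 0 :=
  Real.smoothTransition.zero_of_nonpos (by linarith)

theorem Th_one {x : ℝ} (h : 3 / 4 ≤ x) : Th x = 1 :=
  Real.smoothTransition.one_of_one_le (by linarith)

theorem Th_hasDeriv (x : ℝ) : HasDerivAt Th (chi x) x :=
  ((Th_contDiff.differentiable (by simp)) x).hasDerivAt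

theorem chi_contDiff : ContDiff ℝ ∞ chi := by
  have h2 := contDiff_infty_iff_deriv.1 Th_contDiff
  exact h2.2

theorem dchi_contDiff : ContDiff ℝ ∞ (deriv chi) :=
  (contDiff_infty_iff_deriv.1 chi_contDiff).2

theorem chi_hasDeriv (x : ℝ) : HasDerivAt chi (deriv chi x) x :=
  ((chi_contDiff.differentiable (by simp)) x).hasDerivAt

theorem dchi_hasDeriv (x : ℝ) : HasDerivAt (deriv chi) (deriv (deriv chi) x) x :=
  ((dchi_contDiff.differentiable (by simp)) x).hasDerivAt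

theorem ddchi_continuous : Continuous (deriv (deriv chi)) :=
  (contDiff_infty_iff_deriv.1 dchi_contDiff).2.continuous

theorem chi_zero_left {x : ℝ} (h : x < 1 / 4) :
    chi x = 0 ∧ deriv chi x = 0 ∧ deriv (deriv chi) x = 0 := by
  have h0 : ∀ y ∈ Iio (1 / 4 : ℝ), chi y = 0 := by
    intro y hy
    have he : Th =ᶠ[𝓝 y] fun _ => (0 : ℝ) := by
      filter_upwards [Iio_mem_nhds hy] with z hz
      exact Th_zero (le_of_lt hz)
    unfold chi
    rw [he.deriv_eq]
    simp only [deriv_const']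
  have h1 : ∀ y ∈ Iio (1 / 4 : ℝ), deriv chi y = 0 := by
    intro y hy
    have he : chi =ᶠ[𝓝 y] fun _ => (0 : ℝ) := by
      filter_upwards [Iio_mem_nhds hy] with z hz
      exact h0 z hz
    rw [he.deriv_eq]
    simp only [deriv_const']
  have h2 : deriv (deriv chi) x = 0 := by
    have he : deriv chi =ᶠ[𝓝 x] fun _ => (0 : ℝ) := by
      filter_upwards [Iio_mem_nhds h] with z hz
      exact h1 z hz
    rw [he.deriv_eq]
    simp only [deriv_const']
  exact ⟨h0 x h, h1 x h, h2⟩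

theorem chi_zero_right {x : ℝ} (h : 3 / 4 < x) :
    chi x = 0 ∧ deriv chi x = 0 ∧ deriv (deriv chi) x = 0 := by
  have h0 : ∀ y ∈ Ioi (3 / 4 : ℝ), chi y = 0 := by
    intro y hy
    have he : Th =ᶠ[𝓝 y] fun _ => (1 : ℝ) := by
      filter_upwards [Ioi_mem_nhds hy] with z hz
      exact Th_one (le_of_lt hz)
    unfold chi
    rw [he.deriv_eq]
    simp only [deriv_const']
  have h1 : ∀ y ∈ Ioi (3 / 4 : ℝ), deriv chi y = 0 := by
    intro y hy
    have he : chi =ᶠ[𝓝 y] fun _ => (0 : ℝ) := by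
      filter_upwards [Ioi_mem_nhds hy] with z hz
      exact h0 z hz
    rw [he.deriv_eq]
    simp only [deriv_const']
  have h2 : deriv (deriv chi) x = 0 := by
    have he : deriv chi =ᶠ[𝓝 x] fun _ => (0 : ℝ) := by
      filter_upwards [Ioi_mem_nhds h] with z hz
      exact h1 z hz
    rw [he.deriv_eq]
    simp only [deriv_const']
  exact ⟨h0 x h, h1 x h, h2⟩

theorem bounded_of_zero {f : ℝ → ℝ} (hf : Continuous f) (h1 : ∀ x < 1 / 4, f x = 0)
    (h2 : ∀ x > 3 / 4, f x = 0) : ∃ B, ∀ x, |f x| ≤ B := by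
  have hs : HasCompactSupport f := by
    refine HasCompactSupport.of_support_subset_isCompact (isCompact_Icc (a := (1 / 4 : ℝ))
      (b := 3 / 4)) ?_
    intro x hx
    rw [Function.mem_support] at hx
    constructor
    · by_contra h
      exact hx (h1 x (not_le.1 h))
    · by_contra h
      exact hx (h2 x (not_le.1 h))
  obtain ⟨C, hC⟩ := hf.bounded_above_of_compact_support hs
  exact ⟨C, fun x => by simpa only [Real.norm_eq_abs] using hC x⟩

/-- Common bound of the profiles. -/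
theorem exists_bound : ∃ B : ℝ, 1 ≤ B ∧ ∀ x, |chi x| ≤ B ∧ |deriv chi x| ≤ B ∧
    |deriv (deriv chi) x| ≤ B := by
  obtain ⟨B1, h1⟩ := bounded_of_zero chi_contDiff.continuous (fun x h => (chi_zero_left h).1)
    (fun x h => (chi_zero_right h).1)
  obtain ⟨B2, h2⟩ := bounded_of_zero dchi_contDiff.continuous (fun x h => (chi_zero_left h).2.1)
    (fun x h => (chi_zero_right h).2.1)
  obtain ⟨B3, h3⟩ := bounded_of_zero ddchi_continuous (fun x h => (chi_zero_left h).2.2)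
    (fun x h => (chi_zero_right h).2.2)
  refine ⟨max 1 (max B1 (max B2 B3)), le_max_left _ _, fun x => ⟨?_, ?_, ?_⟩⟩
  · exact (h1 x).trans ((le_max_left _ _).trans (le_max_right _ _))
  · exact (h2 x).trans (((le_max_left _ _).trans (le_max_right _ _)).trans (le_max_right _ _))
  · exact (h3 x).trans (((le_max_right _ _).trans (le_max_right _ _)).trans (le_max_right _ _))

/-! ### derivatives of `ep` and `eh` -/

/-- first derivative of `ep` -/
noncomputable def ep1 {l : ℕ} (r t : ℝ) (c : Fin l → ℝ) (x : ℝ) : ℝ :=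
  ∑ i : Fin l, r⁻¹ * c i * (deriv chi ((x - t) / r - (i : ℝ)) * r⁻¹)

/-- second derivative of `ep` -/
noncomputable def ep2 {l : ℕ} (r t : ℝ) (c : Fin l → ℝ) (x : ℝ) : ℝ :=
  ∑ i : Fin l, r⁻¹ * c i * (deriv (deriv chi) ((x - t) / r - (i : ℝ)) * r⁻¹ * r⁻¹)

theorem inner_deriv (t r i x : ℝ) : HasDerivAt (fun x : ℝ => (x - t) / r - i) r⁻¹ x := by
  have h := (((hasDerivAt_id x).sub_const t).div_const r).sub_const i
  simpa only [hasDerivAt_sub_const_iff, id_eq, one_div] using h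

theorem ep_hasDeriv {l : ℕ} (r t : ℝ) (c : Fin l → ℝ) (x : ℝ) :
    HasDerivAt (ep r t c) (ep1 r t c x) x := by
  unfold ep ep1
  refine HasDerivAt.fun_sum fun i _ => ?_
  exact ((chi_hasDeriv _).comp x (inner_deriv t r i x)).const_mul _

theorem ep1_hasDeriv {l : ℕ} (r t : ℝ) (c : Fin l → ℝ) (x : ℝ) :
    HasDerivAt (ep1 r t c) (ep2 r t c x) x := by
  unfold ep1 ep2
  refine HasDerivAt.fun_sum fun i _ => ?_
  exact (((dchi_hasDeriv _).comp x (inner_deriv t r i x)).mul_const _).const_mul _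

/-- first derivative of `eh` -/
noncomputable def eh1 (eta0 : ℝ) (l : ℕ) (t : ℝ) (x : ℝ) : ℝ :=
  eta0 * (chi ((x - T1 l t) / rr t) * (rr t)⁻¹) * Th ((T2 l t - x) / rr t) +
    eta0 * Th ((x - T1 l t) / rr t) * (chi ((T2 l t - x) / rr t) * (-(rr t)⁻¹))

/-- second derivative of `eh` -/
noncomputable def eh2 (eta0 : ℝ) (l : ℕ) (t : ℝ) (x : ℝ) : ℝ :=
  (eta0 * (deriv chi ((x - T1 l t) / rr t) * (rr t)⁻¹ * (rr t)⁻¹) * Th ((T2 l t - x) / rr t) +
    eta0 * (chi ((x - T1 l t) / rr t) * (rr t)⁻¹) * (chi ((T2 l t - x) / rr t) * (-(rr t)⁻¹))) +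
    (eta0 * (chi ((x - T1 l t) / rr t) * (rr t)⁻¹) * (chi ((T2 l t - x) / rr t) * (-(rr t)⁻¹)) +
    eta0 * Th ((x - T1 l t) / rr t) *
      (deriv chi ((T2 l t - x) / rr t) * (-(rr t)⁻¹) * (-(rr t)⁻¹)))

theorem innerL (t r x : ℝ) : HasDerivAt (fun x : ℝ => (x - t) / r) r⁻¹ x := by
  have h := (((hasDerivAt_id x).sub_const t).div_const r)
  simpa only [id_eq, one_div] using h

theorem innerR (t r x : ℝ) : HasDerivAt (fun x : ℝ => (t - x) / r) (-r⁻¹) x := by
  have h := (((hasDerivAt_id x).const_sub t).div_const r)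
  simpa only [id_eq, neg_div, one_div] using h

theorem eh_hasDeriv (eta0 : ℝ) (l : ℕ) (t : ℝ) (x : ℝ) :
    HasDerivAt (eh eta0 l t) (eh1 eta0 l t x) x := by
  have a := (((Th_hasDeriv _).comp x (innerL (T1 l t) (rr t) x)).const_mul eta0)
  have b := ((Th_hasDeriv _).comp x (innerR (T2 l t) (rr t) x))
  have h := a.mul b
  unfold eh1
  exact h

theorem eh1_hasDeriv (eta0 : ℝ) (l : ℕ) (t : ℝ) (x : ℝ) :
    HasDerivAt (eh1 eta0 l t) (eh2 eta0 l t x) x := by
  have a := (((Th_hasDeriv _).comp x (innerL (T1 l t) (rr t) x)).const_mul eta0)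
  have b := ((Th_hasDeriv _).comp x (innerR (T2 l t) (rr t) x))
  have a' := ((((chi_hasDeriv _).comp x (innerL (T1 l t) (rr t) x)).mul_const (rr t)⁻¹).const_mul
    eta0)
  have b' := (((chi_hasDeriv _).comp x (innerR (T2 l t) (rr t) x)).mul_const (-(rr t)⁻¹))
  have h := (a'.mul b).add (a.mul b')
  unfold eh2
  exact h

theorem etaC_deriv {l : ℕ} (eta0 t : ℝ) (c : Fin l → ℝ) (x : ℝ) :
    deriv (etaC eta0 t c) x = ep1 (rr t) t c x + eh1 eta0 l t x :=
  ((ep_hasDeriv (rr t) t c x).add (eh_hasDeriv eta0 l t x)).deriv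

theorem etaC_deriv2 {l : ℕ} (eta0 t : ℝ) (c : Fin l → ℝ) (x : ℝ) :
    deriv (deriv (etaC eta0 t c)) x = ep2 (rr t) t c x + eh2 eta0 l t x := by
  have h : deriv (etaC eta0 t c) = fun x => ep1 (rr t) t c x + eh1 eta0 l t x := by
    funext x
    exact etaC_deriv eta0 t c x
  rw [h]
  exact ((ep1_hasDeriv (rr t) t c x).add (eh1_hasDeriv eta0 l t x)).deriv

/-! ### support and bounds -/

theorem eh_left {eta0 : ℝ} {l : ℕ} {t x : ℝ} (hr : 0 < rr t) (hx : x ≤ T1 l t) :
    eh eta0 l t x = 0 ∧ eh1 eta0 l t x = 0 ∧ eh2 eta0 l t x = 0 := by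
  have hu : (x - T1 l t) / rr t < 1 / 4 := by
    have : (x - T1 l t) / rr t ≤ 0 := div_nonpos_of_nonpos_of_nonneg (by (clear * - hx; linarith)) hr.le
    linarith only [this]
  have h1 := Th_zero hu.le
  obtain ⟨h2, h3, -⟩ := chi_zero_left hu
  unfold eh eh1 eh2
  rw [h1, h2, h3]
  simp only [mul_zero, zero_mul, mul_neg, neg_zero, add_zero, neg_mul, neg_neg, and_self]

theorem ep_right {l : ℕ} {r t x : ℝ} {c : Fin l → ℝ} (hr : 0 < r) (hx : t + l * r ≤ x) :
    ep r t c x = 0 ∧ ep1 r t c x = 0 ∧ ep2 r t c x = 0 := by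
  have hu : ∀ i : Fin l, 3 / 4 < (x - t) / r - (i : ℝ) := by
    intro i
    have hi : ((i : ℕ) : ℝ) + 1 ≤ l := by exact_mod_cast i.2
    have h1 : (l : ℝ) ≤ (x - t) / r := by
      rw [le_div_iff₀ hr]
      linarith
    linarith only [hi, h1]
  unfold ep ep1 ep2
  refine ⟨Finset.sum_eq_zero fun i _ => ?_, Finset.sum_eq_zero fun i _ => ?_,
    Finset.sum_eq_zero fun i _ => ?_⟩
  · rw [(chi_zero_right (hu i)).1, mul_zero]
  · rw [(chi_zero_right (hu i)).2.1]
    ring
  · rw [(chi_zero_right (hu i)).2.2]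
    ring

theorem sum_bound {l : ℕ} {f : Fin l → ℝ} {b : ℝ} (h : ∀ i, |f i| ≤ b) :
    |∑ i : Fin l, f i| ≤ l * b := by
  calc |∑ i : Fin l, f i| ≤ ∑ i : Fin l, |f i| := Finset.abs_sum_le_sum_abs _ _
    _ ≤ ∑ _i : Fin l, b := Finset.sum_le_sum fun i _ => h i
    _ = l * b := by simp only [Finset.sum_const, Finset.card_univ, Fintype.card_fin, nsmul_eq_mul]

theorem ep_bounds {B : ℝ} (hB1 : 1 ≤ B) (hB : ∀ x, |chi x| ≤ B ∧ |deriv chi x| ≤ B ∧
    |deriv (deriv chi) x| ≤ B) {l : ℕ} {r R : ℝ} (hr : 1 ≤ r) (hR : 0 ≤ R) (t : ℝ)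
    (c : Fin l → ℝ) (hc : ‖c‖ ≤ R) (x : ℝ) :
    |ep r t c x| ≤ (l * (R * B)) * r⁻¹ ∧ |ep1 r t c x| ≤ (l * (R * B)) * (r⁻¹ * r⁻¹) ∧
      |ep2 r t c x| ≤ (l * (R * B)) * (r⁻¹ * r⁻¹) := by
  have hr0 : 0 < r := by linarith only [hr]
  have hi0 : 0 < r⁻¹ := inv_pos.2 hr0
  have hi1 : r⁻¹ ≤ 1 := inv_le_one_of_one_le₀ hr
  have hci : ∀ i, |c i| ≤ R := fun i => (by simpa only [Real.norm_eq_abs] using norm_le_pi_norm c i : |c i| ≤ ‖c‖).trans hc
  have hB0 : 0 ≤ B := by linarith only [hB1]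
  refine ⟨?_, ?_, ?_⟩
  · unfold ep
    have := sum_bound (l := l) (f := fun i : Fin l => r⁻¹ * c i * chi ((x - t) / r - (i : ℝ)))
      (b := (R * B) * r⁻¹) (fun i => ?_)
    · calc _ ≤ _ := this
        _ = _ := by ring
    · rw [abs_mul, abs_mul, abs_of_pos hi0]
      calc r⁻¹ * |c i| * |chi ((x - t) / r - (i : ℝ))| ≤ r⁻¹ * R * B := by
            gcongr
            · exact hci i
            · exact (hB _).1
        _ = _ := by ring
  · unfold ep1
    have := sum_bound (l := l)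
      (f := fun i : Fin l => r⁻¹ * c i * (deriv chi ((x - t) / r - (i : ℝ)) * r⁻¹))
      (b := (R * B) * (r⁻¹ * r⁻¹)) (fun i => ?_)
    · calc _ ≤ _ := this
        _ = _ := by ring
    · rw [abs_mul, abs_mul, abs_mul, abs_of_pos hi0]
      calc r⁻¹ * |c i| * (|deriv chi ((x - t) / r - (i : ℝ))| * r⁻¹) ≤ r⁻¹ * R * (B * r⁻¹) := by
            gcongr
            · exact hci i
            · exact (hB _).2.1
        _ = _ := by ring
  · unfold ep2
    have := sum_bound (l := l)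
      (f := fun i : Fin l => r⁻¹ * c i * (deriv (deriv chi) ((x - t) / r - (i : ℝ)) * r⁻¹ * r⁻¹))
      (b := (R * B) * (r⁻¹ * r⁻¹)) (fun i => ?_)
    · calc _ ≤ _ := this
        _ = _ := by ring
    · rw [abs_mul, abs_mul, abs_mul, abs_mul, abs_of_pos hi0]
      calc r⁻¹ * |c i| * (|deriv (deriv chi) ((x - t) / r - (i : ℝ))| * r⁻¹ * r⁻¹)
          ≤ 1 * R * (B * r⁻¹ * r⁻¹) := by
            gcongr
            · exact hci i
            · exact (hB _).2.2
        _ = _ := by ring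

theorem eh_bounds {B : ℝ} (hB1 : 1 ≤ B) (hB : ∀ x, |chi x| ≤ B ∧ |deriv chi x| ≤ B ∧
    |deriv (deriv chi) x| ≤ B) {eta0 : ℝ} (he : 0 ≤ eta0) {l : ℕ} {t : ℝ} (hr : 1 ≤ rr t)
    (x : ℝ) :
    0 ≤ eh eta0 l t x ∧ eh eta0 l t x ≤ eta0 ∧
      |eh1 eta0 l t x| ≤ (2 * (eta0 * B)) * (rr t)⁻¹ ∧
      |eh2 eta0 l t x| ≤ (4 * (eta0 * B ^ 2)) * ((rr t)⁻¹ * (rr t)⁻¹) := by
  have hr0 : 0 < rr t := by linarith
  have hi0 : 0 < (rr t)⁻¹ := inv_pos.2 hr0
  have hB0 : 0 ≤ B := by linarith only [hB1]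
  set u := (x - T1 l t) / rr t with hu
  set v := (T2 l t - x) / rr t with hv
  set y := (rr t)⁻¹ with hy
  have hTu : |Th u| ≤ 1 := by rw [abs_of_nonneg (Th_nonneg _)]; exact Th_le_one _
  have hTv : |Th v| ≤ 1 := by rw [abs_of_nonneg (Th_nonneg _)]; exact Th_le_one _
  obtain ⟨a1, a2, a3⟩ := hB u
  obtain ⟨b1, b2, b3⟩ := hB v
  refine ⟨?_, ?_, ?_, ?_⟩
  · unfold eh
    exact mul_nonneg (mul_nonneg he (Th_nonneg _)) (Th_nonneg _)
  · unfold eh
    calc eta0 * Th u * Th v ≤ eta0 * 1 * 1 := by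
          gcongr
          · exact Th_nonneg _
          · exact Th_le_one _
          · exact Th_le_one _
      _ = eta0 := by ring
  · unfold eh1
    rw [← hu, ← hv, ← hy]
    calc |eta0 * (chi u * y) * Th v + eta0 * Th u * (chi v * -y)|
        ≤ |eta0 * (chi u * y) * Th v| + |eta0 * Th u * (chi v * -y)| := abs_add_le _ _
      _ = eta0 * (|chi u| * y) * |Th v| + eta0 * |Th u| * (|chi v| * y) := by
          simp only [abs_mul, abs_neg, abs_of_pos hi0, abs_of_nonneg he]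
      _ ≤ eta0 * (B * y) * 1 + eta0 * 1 * (B * y) := by (clear * - a1 hr he hTv hB1 hTu b1; gcongr)
      _ = _ := by ring
  · unfold eh2
    rw [← hu, ← hv, ← hy]
    calc |(eta0 * (deriv chi u * y * y) * Th v + eta0 * (chi u * y) * (chi v * -y)) +
          (eta0 * (chi u * y) * (chi v * -y) + eta0 * Th u * (deriv chi v * -y * -y))|
        ≤ (|eta0 * (deriv chi u * y * y) * Th v| + |eta0 * (chi u * y) * (chi v * -y)|) +
          (|eta0 * (chi u * y) * (chi v * -y)| + |eta0 * Th u * (deriv chi v * -y * -y)|) :=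
          (abs_add_le _ _).trans (add_le_add (abs_add_le _ _) (abs_add_le _ _))
      _ = (eta0 * (|deriv chi u| * y * y) * |Th v| + eta0 * (|chi u| * y) * (|chi v| * y)) +
          (eta0 * (|chi u| * y) * (|chi v| * y) + eta0 * |Th u| * (|deriv chi v| * y * y)) := by
          simp only [abs_mul, abs_of_nonneg he, abs_of_pos hi0, abs_neg]
      _ ≤ (eta0 * (B * y * y) * 1 + eta0 * (B * y) * (B * y)) +
          (eta0 * (B * y) * (B * y) + eta0 * 1 * (B * y * y)) := by (clear * - a2 hr he hTv hB1 a1 b1 hTu b2; gcongr)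
      _ ≤ (eta0 * (B ^ 2 * y * y) * 1 + eta0 * (B * y) * (B * y)) +
          (eta0 * (B * y) * (B * y) + eta0 * 1 * (B ^ 2 * y * y)) := by
          have : B ≤ B ^ 2 := by (by_contra nlg; linarith only [nlg, mul_pos (sub_pos.2 (not_le.1 nlg)) (sub_pos.2 (not_le.1 nlg)), mul_nonneg (sq_nonneg (B : ℝ)) (sub_nonneg.2 hB1), mul_nonneg (sq_nonneg (B : ℝ)) (le_of_lt (sub_pos.2 (not_le.1 nlg)))])
          (clear * - this hr he; gcongr)
      _ = _ := by ring

/-! ### the static margin -/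

theorem static_convex (m : ℕ) (P : ℝ) :
    ConvexOn ℝ univ (fun x : ℝ => Real.exp (2 * x) +
      m * (P * Real.exp (-(x / (2 * m + 1)))) ^ 2) := by
  have h : ∀ a : ℝ, ConvexOn ℝ univ (fun x : ℝ => Real.exp (a * x)) := by
    intro a
    have := convexOn_exp.comp_linearMap (a • (LinearMap.id : ℝ →ₗ[ℝ] ℝ))
    simpa only [LinearMap.coe_smul, LinearMap.id_coe, preimage_univ, Function.comp_def, Pi.smul_apply, id_eq,     smul_eq_mul] using this
  have h2 : (fun x : ℝ => (m : ℝ) * (P * Real.exp (-(x / (2 * m + 1)))) ^ 2)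
      = fun x : ℝ => (m * P ^ 2) • Real.exp ((-(2 / (2 * m + 1))) * x) := by
    funext x
    rw [mul_pow, ← Real.exp_nat_mul, smul_eq_mul, mul_assoc]
    congr 3
    push_cast
    ring
  refine (h 2).add ?_
  rw [h2]
  exact (h _).smul (by (clear * -; positivity))

/-- the static margin `c1` -/
theorem static_margin {m : ℕ} (hm : 1 ≤ m) {P eta0 : ℝ} (hP0 : 0 < P) (hP1 : P < 1)
    (hs : Real.exp (2 * eta0) + m * (P * Real.exp (-(eta0 / (2 * m + 1)))) ^ 2 < m + 1) :
    ∃ c1 : ℝ, 0 < c1 ∧ c1 ≤ m * (1 - P ^ 2) ∧ ∀ x, 0 ≤ x → x ≤ eta0 →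
      Real.exp (2 * x) + m * (P * Real.exp (-(x / (2 * m + 1)))) ^ 2 + c1 ≤ m + 1 := by
  have hm' : (1 : ℝ) ≤ m := by exact_mod_cast hm
  have h1 : 0 < m * (1 - P ^ 2) := by
    apply mul_pos (by linarith only [hm'])
    nlinarith only [hP1, hP0]
  refine ⟨min (m * (1 - P ^ 2))
    (m + 1 - (Real.exp (2 * eta0) + m * (P * Real.exp (-(eta0 / (2 * m + 1)))) ^ 2)),
    lt_min h1 (by linarith), min_le_left _ _, fun x hx0 hx1 => ?_⟩
  have h := (static_convex m P).le_max_of_mem_Icc (mem_univ (0 : ℝ)) (mem_univ eta0)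
    (z := x) ⟨hx0, hx1⟩
  have ha := min_le_left (m * (1 - P ^ 2))
    (m + 1 - (Real.exp (2 * eta0) + m * (P * Real.exp (-(eta0 / (2 * m + 1)))) ^ 2))
  have hb := min_le_right (m * (1 - P ^ 2))
    (m + 1 - (Real.exp (2 * eta0) + m * (P * Real.exp (-(eta0 / (2 * m + 1)))) ^ 2))
  rcases le_max_iff.1 h with h | h
  · have h' : Real.exp (2 * x) + m * (P * Real.exp (-(x / (2 * m + 1)))) ^ 2
        ≤ Real.exp (2 * 0) + m * (P * Real.exp (-(0 / (2 * m + 1)))) ^ 2 := h
    rw [zero_div, neg_zero, mul_zero, Real.exp_zero, mul_one] at h'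
    linarith only [ha, h']
  · have h' : Real.exp (2 * x) + m * (P * Real.exp (-(x / (2 * m + 1)))) ^ 2
        ≤ Real.exp (2 * eta0) + m * (P * Real.exp (-(eta0 / (2 * m + 1)))) ^ 2 := h
    linarith only [hb, h]

/-! ### pointwise inequalities -/

theorem point_pulse {m K y e P psi Psi et et1 et2 c1 : ℝ} (hm : 1 ≤ m) (hK : 0 ≤ K)
    (hy0 : 0 ≤ y) (hy1 : y ≤ 1) (he1 : e ≤ 1) (hP0 : 0 < P) (hP1 : P < 1)
    (hPsi0 : P ≤ Psi) (hPsi1 : Psi ≤ P + e) (hPsi2 : Psi ≤ 1)
    (h0 : |et| ≤ K * y) (h1 : |et1| ≤ K * (y * y)) (h2 : |et2| ≤ K * (y * y))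
    (hpsi : (2 * K + K ^ 2) * (y * y) ≤ psi) (hKy : 4 * K * y ≤ 1)
    (hc1 : c1 ≤ m * (1 - P ^ 2))
    (hsm : (4 * m * K + 8 * K + (2 * m + 1) * K + 2 * K + K ^ 2) * y + 6 * m * e ≤ 2 * c1) :
    0 ≤ -((2 * m + 1) * (-psi)) - et2 - Psi * et1 - et1 ^ 2 ∧
    0 ≤ 2 * m * (Real.exp (2 * et) - Psi ^ 2) - (-psi) - (2 * m + 1) * Psi * et1 - et1 ^ 2 - et2 ∧
    0 ≤ 2 * m + 2 - 2 * Real.exp (2 * et) - 2 * m * Psi ^ 2 - (-psi) - Psi * et1 := by
  have hyy : y * y ≤ y := by linarith only [mul_nonneg (sub_nonneg.2 hy0) (sub_nonneg.2 hy1)]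
  have hyy0 : 0 ≤ y * y := mul_nonneg hy0 hy0
  obtain ⟨a0, b0⟩ := abs_le.1 h0
  obtain ⟨a1, b1⟩ := abs_le.1 h1
  obtain ⟨a2, b2⟩ := abs_le.1 h2
  have hsq : et1 ^ 2 ≤ K ^ 2 * (y * y) := by
    have : et1 ^ 2 ≤ (K * (y * y)) ^ 2 := by
      rw [← sq_abs]
      exact pow_le_pow_left₀ (abs_nonneg _) h1 2
    have h3 : (K * (y * y)) ^ 2 = K ^ 2 * ((y * y) * (y * y)) := by ring
    have h4 : (y * y) * (y * y) ≤ (y * y) * 1 := by
      apply mul_le_mul_of_nonneg_left _ hyy0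
      linarith
    have := mul_le_mul_of_nonneg_left h4 (sq_nonneg K)
    (clear m e P psi Psi et et2 c1 hm hK he1 hP0 hP1 hPsi0 hPsi1 hPsi2 h0 h2 hpsi hKy hc1 hsm a0 b0 a1 b1 a2 b2 h3; linarith)
  have hPe : |Psi * et1| ≤ K * (y * y) := by
    rw [abs_mul, abs_of_nonneg (hP0.le.trans hPsi0)]
    calc Psi * |et1| ≤ 1 * |et1| := by (clear * - hPsi2; gcongr)
      _ = |et1| := one_mul _
      _ ≤ _ := h1
  obtain ⟨a3, b3⟩ := abs_le.1 hPe
  have hpsi0 : 0 ≤ psi := le_trans (by (clear * - hK hy0; positivity)) hpsi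
  have he0 : 0 ≤ e := by linarith only [hPsi0, hPsi1]
  have hPsq : Psi ^ 2 ≤ P ^ 2 + 3 * e := by nlinarith only [hPsi1, he1, hPsi0, hP1]
  have hexp1 : 1 - 2 * (K * y) ≤ Real.exp (2 * et) := by
    have := Real.add_one_le_exp (2 * et)
    linarith only [a0, this]
  have hexp2 : Real.exp (2 * et) ≤ 1 + 4 * (K * y) := by
    have h5 : Real.exp (2 * et) ≤ Real.exp (2 * (K * y)) := Real.exp_le_exp.2 (by linarith only [b0])
    have h6 := Real.add_one_le_exp (-(2 * (K * y)))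
    rw [Real.exp_neg] at h6
    have h7 : 0 < Real.exp (2 * (K * y)) := Real.exp_pos _
    have hKy0 : 0 ≤ K * y := mul_nonneg hK hy0
    have h8 : (-(2 * (K * y)) + 1) * Real.exp (2 * (K * y)) ≤ 1 := by
      calc _ ≤ (Real.exp (2 * (K * y)))⁻¹ * Real.exp (2 * (K * y)) := by (clear * - h6; gcongr)
        _ = 1 := inv_mul_cancel₀ h7.ne'
    have h9 : Real.exp (2 * (K * y)) ≤ 1 + 4 * (K * y) := by
      by_contra hcon
      push Not at hcon
      have : (-(2 * (K * y)) + 1) * (1 + 4 * (K * y)) < (-(2 * (K * y)) + 1) *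
          Real.exp (2 * (K * y)) := by
        apply mul_lt_mul_of_pos_left hcon
        nlinarith only [hKy]
      nlinarith only [h8, this, hKy, a0, b0]
    linarith only [h5, h9]
  have hKyy : K * (y * y) ≤ K * y := mul_le_mul_of_nonneg_left hyy hK
  have hK2yy : K ^ 2 * (y * y) ≤ K ^ 2 * y := mul_le_mul_of_nonneg_left hyy (sq_nonneg K)
  have hmPsq : 2 * m * Psi ^ 2 ≤ 2 * m * (P ^ 2 + 3 * e) := by (clear * - hPsq hm; gcongr)
  have hme : 2 * m * (1 - 2 * (K * y)) ≤ 2 * m * Real.exp (2 * et) := by (clear * - hexp1 hm; gcongr)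
  have hmPe : (2 * m + 1) * (Psi * et1) ≤ (2 * m + 1) * (K * (y * y)) := by (clear * - b3 hm; gcongr)
  have hmKyy : (2 * m + 1) * (K * (y * y)) ≤ (2 * m + 1) * (K * y) := by gcongr
  have hmpsi : 0 ≤ 2 * m * psi := by positivity
  have hKy0 : 0 ≤ K * y := mul_nonneg hK hy0
  have hmKy0 : 0 ≤ m * (K * y) := by (clear * - hm hK hy0; positivity)
  have hK2y0 : 0 ≤ K ^ 2 * y := by (clear * - hy0; positivity)
  have hpsi' : 2 * (K * (y * y)) + K ^ 2 * (y * y) ≤ psi := by linarith only [hpsi]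
  refine ⟨?_, ?_, ?_⟩
  · linarith only [hpsi, b2, hsq, b3, hmpsi]
  · linarith only [hc1, hsm, a0, b0, b2, hsq, hpsi0, hKyy, hK2yy, hmPsq, hme, hmPe, hmKyy]
  · linarith only [hc1, hsm, a0, b0, b3, hpsi0, hexp2, hKyy, hmPsq, hmKy0, hK2y0]

theorem point_travel {m K y e P psi Psi et et1 et2 E c1 : ℝ} (hm : 1 ≤ m) (hK : 0 ≤ K)
    (hy0 : 0 ≤ y) (hy1 : y ≤ 1) (he1 : e ≤ 1) (hP0 : 0 < P) (hP1 : P < 1)
    (hPsi0 : P ≤ Psi) (hPsi1 : Psi ≤ P + e) (hPsi2 : Psi ≤ 1)
    (h0 : 0 ≤ et) (h1 : |et1| ≤ K * y) (h2 : |et2| ≤ K * (y * y))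
    (hE0 : 0 < E) (hE1 : E ≤ 1)
    (hpsi : (2 * K + K ^ 2) * (y * y) ≤ psi * E)
    (hc2 : Real.exp (2 * et) + m * (P * E) ^ 2 + c1 ≤ m + 1)
    (hsm : (4 * m * K + 8 * K + (2 * m + 1) * K + 2 * K + K ^ 2) * y + 6 * m * e ≤ 2 * c1) :
    0 ≤ -((2 * m + 1) * (-psi * E + Psi * (E * (-(et1 / (2 * m + 1)))))) - et2
        - Psi * E * et1 - et1 ^ 2 ∧
    0 ≤ 2 * m * (Real.exp (2 * et) - (Psi * E) ^ 2)
        - (-psi * E + Psi * (E * (-(et1 / (2 * m + 1)))))
        - (2 * m + 1) * (Psi * E) * et1 - et1 ^ 2 - et2 ∧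
    0 ≤ 2 * m + 2 - 2 * Real.exp (2 * et) - 2 * m * (Psi * E) ^ 2
        - (-psi * E + Psi * (E * (-(et1 / (2 * m + 1))))) - Psi * E * et1 := by
  have hyy : y * y ≤ y := by linarith only [mul_nonneg (sub_nonneg.2 hy0) (sub_nonneg.2 hy1)]
  have hyy0 : 0 ≤ y * y := mul_nonneg hy0 hy0
  obtain ⟨a1, b1⟩ := abs_le.1 h1
  obtain ⟨a2, b2⟩ := abs_le.1 h2
  have hq : 0 < 2 * m + 1 := by linarith only [hm]
  have hsq : et1 ^ 2 ≤ K ^ 2 * (y * y) := by
    have : et1 ^ 2 ≤ (K * y) ^ 2 := by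
      rw [← sq_abs]
      exact pow_le_pow_left₀ (abs_nonneg _) h1 2
    calc et1 ^ 2 ≤ (K * y) ^ 2 := this
      _ = _ := by ring
  have hPsi00 : 0 ≤ Psi := hP0.le.trans hPsi0
  have hPE0 : 0 ≤ Psi * E := mul_nonneg hPsi00 hE0.le
  have hPE1 : Psi * E ≤ 1 := by nlinarith only [hPsi2, hP0, hE1, hPsi0]
  have hPe : |Psi * E * et1| ≤ K * y := by
    rw [abs_mul, abs_of_nonneg hPE0]
    calc Psi * E * |et1| ≤ 1 * |et1| := by (clear * - hPE1; gcongr)
      _ = |et1| := one_mul _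
      _ ≤ _ := h1
  obtain ⟨a3, b3⟩ := abs_le.1 hPe
  have hPeq : |Psi * E * et1 / (2 * m + 1)| ≤ K * y := by
    rw [abs_div, abs_of_pos hq]
    calc |Psi * E * et1| / (2 * m + 1) ≤ |Psi * E * et1| / 1 := by
          gcongr
          linarith only [hm]
      _ = |Psi * E * et1| := div_one _
      _ ≤ _ := hPe
  obtain ⟨a4, b4⟩ := abs_le.1 hPeq
  have hpsi0 : 0 ≤ psi * E := le_trans (by (clear * - hK hy0; positivity)) hpsi
  have he0 : 0 ≤ e := by linarith only [hPsi0, hPsi1]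
  have hPsq : Psi ^ 2 ≤ P ^ 2 + 3 * e := by nlinarith only [hPsi1, he1, hPsi0, hP1]
  have hE2 : E ^ 2 ≤ 1 := by nlinarith only [hE1, hE0]
  have hPEsq : (Psi * E) ^ 2 ≤ (P * E) ^ 2 + 3 * e := by
    rw [mul_pow, mul_pow]
    have h5 : Psi ^ 2 * E ^ 2 ≤ (P ^ 2 + 3 * e) * E ^ 2 := by (clear * - hPsq hE0; gcongr)
    have h6 : 3 * e * E ^ 2 ≤ 3 * e * 1 := by (clear * - hE2 he0; gcongr)
    linarith only [h5, h6]
  have hPEsq2 : (Psi * E) ^ 2 ≤ P ^ 2 + 3 * e := by
    rw [mul_pow]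
    have : Psi ^ 2 * E ^ 2 ≤ Psi ^ 2 * 1 := by (clear * - hE2; gcongr)
    linarith only [hPsq, this]
  have hexp1 : 1 ≤ Real.exp (2 * et) := Real.one_le_exp (by linarith only [h0])
  have hKyy : K * (y * y) ≤ K * y := mul_le_mul_of_nonneg_left hyy hK
  have hK2yy : K ^ 2 * (y * y) ≤ K ^ 2 * y := mul_le_mul_of_nonneg_left hyy (sq_nonneg K)
  have hKy0 : 0 ≤ K * y := mul_nonneg hK hy0
  have hmKy0 : 0 ≤ m * (K * y) := by (clear * - hm hK hy0; positivity)
  have hK2y0 : 0 ≤ K ^ 2 * y := by (clear * - hy0; positivity)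
  have e1 : (2 * m + 1) * (-psi * E + Psi * (E * (-(et1 / (2 * m + 1)))))
      = -((2 * m + 1) * (psi * E)) - Psi * E * et1 := by
    field_simp
    ring
  have e2 : -psi * E + Psi * (E * (-(et1 / (2 * m + 1))))
      = -(psi * E) - Psi * E * et1 / (2 * m + 1) := by
    ring
  have hmpsi : 0 ≤ 2 * m * (psi * E) := by (clear * - hm hpsi0; positivity)
  have hmPEsq : 2 * m * (Psi * E) ^ 2 ≤ 2 * m * ((P * E) ^ 2 + 3 * e) := by (clear * - hPEsq hm; gcongr)
  have hmPEsq2 : 2 * m * (Psi * E) ^ 2 ≤ 2 * m * (P ^ 2 + 3 * e) := by (clear * - hPEsq2 hm; gcongr)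
  have hme : 2 * m * 1 ≤ 2 * m * Real.exp (2 * et) := by (clear * - hexp1 hm; gcongr)
  have hmPe : (2 * m + 1) * (Psi * E * et1) ≤ (2 * m + 1) * (K * y) := by (clear * - b3 hm; gcongr)
  rw [e1, e2]
  have hpsi' : 2 * (K * (y * y)) + K ^ 2 * (y * y) ≤ psi * E := by linarith only [hpsi]
  refine ⟨?_, ?_, ?_⟩
  · linarith only [hpsi, a2, b2, hsq, hmpsi]
  · linarith only [hc2, hsm, a1, b1, b2, hsq, a4, hpsi0, hexp1, hKyy, hK2yy, hmKy0, hmPEsq, hme, hmPe]
  · linarith only [hmPEsq, hK2y0, hmKy0, hpsi0, a4, b3, b1, a1, hsm, hc2]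

end CurvProof

end Vale.Agent.P225.B2
end
end

section

section

/-! # P225, design B, D0: the core -/

open Set Filter Topology
open scoped ContDiff

namespace Vale.Agent.P225.B2

namespace CurvProof

end CurvProof

open CurvProof

/-- D0 for the core: no `η`, `Ψ` decreasing from `1`. -/
theorem curv_core_proof (m : ℕ) (hm : 1 ≤ m) (Pinf a : ℝ) (h0 : 0 < Pinf) (h1 : Pinf < 1) (ha : 0 < a) :
    ∃ tst : ℝ, 1 ≤ tst ∧ ∀ t0 : ℝ, tst ≤ t0 →
      ContDiff ℝ ∞ (PsiG Pinf a t0) ∧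
      (∀ x, x ≤ 5 / 16 * t0 → PsiG Pinf a t0 x = 1) ∧
      (∀ x, 7 / 16 * t0 ≤ x → PsiG Pinf a t0 x = Pinf + a * x ^ (-(1 / 2) : ℝ)) ∧
      (∀ x, Pinf ≤ PsiG Pinf a t0 x ∧ PsiG Pinf a t0 x ≤ 1) ∧
      (∀ η : ℝ → ℝ, ∀ x, (∀ᶠ y in 𝓝 x, η y = 0) → Curv m (PsiG Pinf a t0) η x) := by
  have hlim : Tendsto (fun t : ℝ => a * (5 / 16 * t) ^ (-(1 / 2) : ℝ)) atTop (𝓝 0) := by
    have h3 : Tendsto (fun t : ℝ => t ^ (-(1 / 2) : ℝ)) atTop (𝓝 0) :=
      tendsto_rpow_neg_atTop (by norm_num)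
    have h4 : Tendsto (fun t : ℝ => 5 / 16 * t) atTop atTop :=
      Tendsto.const_mul_atTop (by norm_num) tendsto_id
    have := (h3.comp h4).const_mul a
    simpa only [one_div, Function.comp_apply, mul_zero] using this
  have hev : ∀ᶠ t : ℝ in atTop, a * (5 / 16 * t) ^ (-(1 / 2) : ℝ) < 1 - Pinf :=
    hlim.eventually (gt_mem_nhds (by linarith only [h1]))
  obtain ⟨T, hT⟩ := eventually_atTop.1 hev
  refine ⟨max 1 T, le_max_left _ _, fun t0 ht0 => ?_⟩
  have ht1 : 1 ≤ t0 := (le_max_left _ _).trans ht0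
  have htp : 0 < t0 := by linarith only [ht1]
  have hT0 := hT t0 ((le_max_right _ _).trans ht0)
  have hl : ∀ x, x ≤ 5 / 16 * t0 → PsiG Pinf a t0 x = 1 := by
    intro x hx
    unfold PsiG
    rw [Th_zero, mul_zero, sub_zero]
    have : 4 * x / t0 ≤ 5 / 4 := by
      rw [div_le_iff₀ htp]
      linarith only [hx]
    linarith only [this]
  have hr : ∀ x, 7 / 16 * t0 ≤ x → PsiG Pinf a t0 x = Pinf + a * x ^ (-(1 / 2) : ℝ) := by
    intro x hx
    unfold PsiG
    rw [Th_one]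
    · ring
    · have : 7 / 4 ≤ 4 * x / t0 := by
        rw [le_div_iff₀ htp]
        linarith only [hx]
      linarith only [this]
  have hfac : ∀ x, 5 / 16 * t0 ≤ x → 0 ≤ 1 - Pinf - a * x ^ (-(1 / 2) : ℝ) := by
    intro x hx
    have h5 : x ^ (-(1 / 2) : ℝ) ≤ (5 / 16 * t0) ^ (-(1 / 2) : ℝ) :=
      Real.rpow_le_rpow_of_nonpos (by positivity) hx (by (clear * -; norm_num))
    have := mul_le_mul_of_nonneg_left h5 ha.le
    linarith only [hT0, this]
  have hb : ∀ x, Pinf ≤ PsiG Pinf a t0 x ∧ PsiG Pinf a t0 x ≤ 1 := by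
    intro x
    rcases le_total x (5 / 16 * t0) with h | h
    · rw [hl x h]
      exact ⟨h1.le, le_rfl⟩
    · have hx : 0 < x := lt_of_lt_of_le (by (clear * - ht1; positivity)) h
      have h2 := hfac x h
      have h3 : 0 ≤ a * x ^ (-(1 / 2) : ℝ) := mul_nonneg ha.le (Real.rpow_nonneg hx.le _)
      have h4 := Th_nonneg (4 * x / t0 - 1)
      have h5 := Th_le_one (4 * x / t0 - 1)
      unfold PsiG
      have h6 : (1 - Pinf - a * x ^ (-(1 / 2) : ℝ)) * Th (4 * x / t0 - 1)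
          ≤ (1 - Pinf - a * x ^ (-(1 / 2) : ℝ)) * 1 := mul_le_mul_of_nonneg_left h5 h2
      have h7 := mul_nonneg h2 h4
      constructor <;> linarith only [h3, h6, h7]
  have hone : ∀ x, x < 5 / 16 * t0 → PsiG Pinf a t0 =ᶠ[𝓝 x] fun _ => (1 : ℝ) := by
    intro x hx
    filter_upwards [Iio_mem_nhds hx] with z hz
    exact hl z (le_of_lt hz)
  have hsm : ContDiff ℝ ∞ (PsiG Pinf a t0) := by
    rw [contDiff_iff_contDiffAt]
    intro x
    by_cases hx : x < 5 / 16 * t0
    · exact contDiffAt_const.congr_of_eventuallyEq (hone x hx)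
    · have hx0 : 0 < x := lt_of_lt_of_le (by positivity) (not_lt.1 hx)
      have e1 : ContDiffAt ℝ ∞ (fun x : ℝ => x ^ (-(1 / 2) : ℝ)) x :=
        Real.contDiffAt_rpow_const_of_ne hx0.ne'
      have e2 : ContDiffAt ℝ ∞ (fun x : ℝ => Th (4 * x / t0 - 1)) x := by
        have : ContDiff ℝ ∞ (fun x : ℝ => 4 * x / t0 - 1) := by fun_prop
        exact (Th_contDiff.comp this).contDiffAt
      exact contDiffAt_const.sub ((contDiffAt_const.sub (contDiffAt_const.mul e1)).mul e2)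
  have hder : ∀ x, deriv (PsiG Pinf a t0) x ≤ 0 := by
    intro x
    by_cases hx : x < 5 / 16 * t0
    · rw [(hone x hx).deriv_eq]
      simp
    · have hx' := not_lt.1 hx
      have hx0 : 0 < x := lt_of_lt_of_le (by positivity) hx'
      have d1 : HasDerivAt (fun z : ℝ => 1 - Pinf - a * z ^ (-(1 / 2) : ℝ))
          (-(a * (-(1 / 2) * x ^ (-(1 / 2) - 1 : ℝ)))) x :=
        ((Real.hasDerivAt_rpow_const (Or.inl hx0.ne')).const_mul a).const_sub _
      have d2 : HasDerivAt (fun z : ℝ => 4 * z / t0 - 1) (4 * 1 / t0) x :=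
        ((((hasDerivAt_id x).const_mul 4).div_const t0).sub_const 1)
      have d3 : HasDerivAt (fun z : ℝ => Th (4 * z / t0 - 1)) (chi (4 * x / t0 - 1) * (4 * 1 / t0)) x :=
        (Th_hasDeriv _).comp x d2
      have d4 := (d1.mul d3).const_sub 1
      have d5 : deriv (PsiG Pinf a t0) x = _ := d4.deriv
      rw [d5]
      have n1 : 0 ≤ a * (1 / 2 * x ^ (-(1 / 2) - 1 : ℝ)) * Th (4 * x / t0 - 1) := by
        have := Th_nonneg (4 * x / t0 - 1)
        have := Real.rpow_nonneg hx0.le (-(1 / 2) - 1 : ℝ)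
        (clear m hm Pinf h0 h1 hlim hev hT htp hT0 hl hr hfac hb hone hsm d1 d2 d3 d4 d5 this; positivity)
      have n2 : 0 ≤ (1 - Pinf - a * x ^ (-(1 / 2) : ℝ)) * (chi (4 * x / t0 - 1) * (4 * 1 / t0)) := by
        have := chi_nonneg (4 * x / t0 - 1)
        have := hfac x hx'
        (clear m hm h0 h1 hlim hev htp hl hr hb hone hsm hx0 d1 d2 d3 d4 d5 n1; positivity)
      (clear * - n1 n2; linarith)
  refine ⟨hsm, hl, hr, hb, fun η x hη => ?_⟩
  have g0 : η x = 0 := hη.self_of_nhds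
  have g1 : η =ᶠ[𝓝 x] fun _ => (0 : ℝ) := hη
  have g2 : deriv η x = 0 := by
    rw [g1.deriv_eq]
    simp
  have g3 : deriv (deriv η) x = 0 := by
    have : deriv η =ᶠ[𝓝 x] deriv (fun _ => (0 : ℝ)) := g1.deriv
    rw [this.deriv_eq]
    simp
  obtain ⟨b0, b1⟩ := hb x
  have hd := hder x
  unfold Curv
  rw [g0, g2, g3]
  have hm0 : (0 : ℝ) ≤ m := by positivity
  have hPsq : PsiG Pinf a t0 x ^ 2 ≤ 1 := by nlinarith only [b1, h0, b0]
  have hm2 : 2 * (m : ℝ) * PsiG Pinf a t0 x ^ 2 ≤ 2 * m * 1 := by (clear * - hPsq hm; gcongr)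
  have hmd : (m : ℝ) * deriv (PsiG Pinf a t0) x ≤ 0 := mul_nonpos_of_nonneg_of_nonpos hm0 hd
  simp only [mul_zero, Real.exp_zero]
  refine ⟨?_, ?_, ?_⟩ <;> nlinarith only [hd, hm2]

end Vale.Agent.P225.B2
end
end

section

section

/-! B3-(3.6), part b: transport to the variables `x_i` and decomposition. -/

set_option linter.all false

open MvPolynomial

namespace Vale.Agent.P225.B

/-- The standard complex structure for a splitting `e` of the coordinates. -/
def J0 (R : Type*) [CommRing R] {m n : ℕ} (e : Fin n ≃ Fin (m+1) ⊕ Fin (m+1)) :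
    Matrix (Fin n) (Fin n) R := fun i j =>
  Sum.elim (fun a => Sum.elim (fun _ => 0) (fun b => if a = b then -1 else 0) (e j))
    (fun a => Sum.elim (fun b => if a = b then 1 else 0) (fun _ => 0) (e j)) (e i)

namespace M36

variable {m n : ℕ} (e : Fin n ≃ Fin (m+1) ⊕ Fin (m+1))

theorem J0_transpose (R : Type*) [CommRing R] : (J0 R e).transpose = - J0 R e := by
  ext i j
  simp only [Matrix.transpose_apply, Matrix.neg_apply, J0]
  rcases e i with a | a <;> rcases e j with b | b <;> simp [eq_comm] <;> split_ifs <;> simp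

theorem J0_sq (R : Type*) [CommRing R] : J0 R e * J0 R e = -1 := by
  ext i j
  rw [Matrix.mul_apply, ← e.symm.sum_comp, Fintype.sum_sum_type]
  simp only [J0, Equiv.apply_symm_apply, Matrix.neg_apply, Matrix.one_apply]
  have hij : (i = j) ↔ (e i = e j) := e.injective.eq_iff.symm
  rcases hi : e i with a | a <;> rcases hj : e j with b | b <;>
    simp only [Sum.elim_inl, Sum.elim_inr, hij, hi, hj] <;> simp <;> split_ifs <;> (clear * -; simp_all)

theorem sum_e {M : Type*} [AddCommMonoid M] (f : Fin n → M) :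
    ∑ i, f i = ∑ a, f (e.symm (Sum.inl a)) + ∑ a, f (e.symm (Sum.inr a)) := by
  rw [← e.symm.sum_comp, Fintype.sum_sum_type]

theorem xi_inl (a : Fin (m+1)) :
    xi (J0 ℂ e) (X (e.symm (Sum.inl a))) = - X (e.symm (Sum.inr a)) := by
  rw [xi_X, sum_e e]
  have : ∀ x, (C (if a = x then (-1 : ℂ) else 0) : MvPolynomial (Fin n) ℂ) *
      X (e.symm (Sum.inr x)) = if a = x then - X (e.symm (Sum.inr x)) else 0 := by
    intro x; split_ifs <;> simp
  simp only [J0, Equiv.apply_symm_apply, Sum.elim_inl, Sum.elim_inr, this]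
  simp only [C_0, zero_mul, Finset.sum_const_zero, Finset.sum_ite_eq, Finset.mem_univ, ↓reduceIte, zero_add]

theorem xi_inr (a : Fin (m+1)) :
    xi (J0 ℂ e) (X (e.symm (Sum.inr a))) = X (e.symm (Sum.inl a)) := by
  rw [xi_X, sum_e e]
  simp [J0]

/-- the substitution `z_a = x_a + i x_{a'}`, `w_a = x_a - i x_{a'}` -/
noncomputable def Phi : MvPolynomial (Fin (m+1) ⊕ Fin (m+1)) ℂ →ₐ[ℂ] MvPolynomial (Fin n) ℂ :=
  aeval (Sum.elim (fun a => X (e.symm (Sum.inl a)) + C Complex.I * X (e.symm (Sum.inr a)))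
    (fun a => X (e.symm (Sum.inl a)) - C Complex.I * X (e.symm (Sum.inr a))))

/-- the inverse substitution -/
noncomputable def Psi : MvPolynomial (Fin n) ℂ →ₐ[ℂ] MvPolynomial (Fin (m+1) ⊕ Fin (m+1)) ℂ :=
  aeval (fun i => Sum.elim (fun a => C (1/2) * (X (Sum.inl a) + X (Sum.inr a)))
    (fun a => C (-Complex.I/2) * (X (Sum.inl a) - X (Sum.inr a))) (e i))

@[simp] theorem Phi_inl (a : Fin (m+1)) : Phi e (X (Sum.inl a)) =
    X (e.symm (Sum.inl a)) + C Complex.I * X (e.symm (Sum.inr a)) := by simp [Phi]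
@[simp] theorem Phi_inr (a : Fin (m+1)) : Phi e (X (Sum.inr a)) =
    X (e.symm (Sum.inl a)) - C Complex.I * X (e.symm (Sum.inr a)) := by simp [Phi]
@[simp] theorem Psi_inl (a : Fin (m+1)) : Psi e (X (e.symm (Sum.inl a))) =
    C (1/2) * (X (Sum.inl a) + X (Sum.inr a)) := by simp only [Psi, one_div, aeval_eq_bind₁, bind₁_X_right, Equiv.apply_symm_apply, Sum.elim_inl]
@[simp] theorem Psi_inr (a : Fin (m+1)) : Psi e (X (e.symm (Sum.inr a))) =
    C (-Complex.I/2) * (X (Sum.inl a) - X (Sum.inr a)) := by simp only [Psi, one_div, aeval_eq_bind₁, bind₁_X_right, Equiv.apply_symm_apply, Sum.elim_inr]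

theorem cII {σ : Type*} : (C Complex.I : MvPolynomial σ ℂ) * C (-Complex.I/2) = C (1/2) := by
  rw [← C_mul]; congr 1
  have := Complex.I_mul_I
  linear_combination (-1/2 : ℂ) * this

theorem cII' {σ : Type*} : (C (-Complex.I/2) : MvPolynomial σ ℂ) * C Complex.I = C (1/2) := by
  rw [mul_comm, cII]

theorem chh {σ : Type*} : (C (1/2 : ℂ) : MvPolynomial σ ℂ) + C (1/2) = 1 := by
  rw [← C_add]; norm_num

theorem Psi_Phi (g : MvPolynomial (Fin (m+1) ⊕ Fin (m+1)) ℂ) : Psi e (Phi e g) = g := by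
  have : (Psi e).comp (Phi e) = AlgHom.id ℂ _ := by
    apply MvPolynomial.algHom_ext
    rintro (a | a)
    · rw [AlgHom.comp_apply, Phi_inl, map_add, map_mul, Psi_inl, Psi_inr]
      rw [show (Psi e) (C Complex.I) = C Complex.I from (Psi e).commutes Complex.I, ← mul_assoc,
        cII, AlgHom.id_apply]
      linear_combination (X (Sum.inl a)) * chh (σ := Fin (m+1) ⊕ Fin (m+1))
    · rw [AlgHom.comp_apply, Phi_inr, map_sub, map_mul, Psi_inl, Psi_inr]
      rw [show (Psi e) (C Complex.I) = C Complex.I from (Psi e).commutes Complex.I, ← mul_assoc,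
        cII, AlgHom.id_apply]
      linear_combination (X (Sum.inr a)) * chh (σ := Fin (m+1) ⊕ Fin (m+1))
  exact congrArg (fun F => F g) this

theorem Phi_Psi (f : MvPolynomial (Fin n) ℂ) : Phi e (Psi e f) = f := by
  have : (Phi e).comp (Psi e) = AlgHom.id ℂ _ := by
    apply MvPolynomial.algHom_ext
    intro i
    obtain ⟨j, rfl⟩ := e.symm.surjective i
    rcases j with a | a
    · rw [AlgHom.comp_apply, Psi_inl, map_mul, map_add, Phi_inl, Phi_inr]
      rw [show (Phi e) (C (1/2)) = C (1/2) from (Phi e).commutes _, AlgHom.id_apply]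
      linear_combination (X (e.symm (Sum.inl a))) * chh (σ := Fin n)
    · rw [AlgHom.comp_apply, Psi_inr, map_mul, map_sub, Phi_inl, Phi_inr]
      rw [show (Phi e) (C (-Complex.I/2)) = C (-Complex.I/2) from (Phi e).commutes _,
        AlgHom.id_apply]
      linear_combination (2 * X (e.symm (Sum.inr a))) * cII' (σ := Fin n) +
        (X (e.symm (Sum.inr a))) * chh (σ := Fin n)
  exact congrArg (fun F => F f) this

theorem Phi_inj : Function.Injective (Phi e) :=
  Function.LeftInverse.injective (Psi_Phi e)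

theorem Phi_homog {d : ℕ} {g : MvPolynomial (Fin (m+1) ⊕ Fin (m+1)) ℂ} (hg : g.IsHomogeneous d) :
    (Phi e g).IsHomogeneous d := by
  have := hg.aeval (n := 1) (Sum.elim
    (fun a => (X (e.symm (Sum.inl a)) + C Complex.I * X (e.symm (Sum.inr a)) :
      MvPolynomial (Fin n) ℂ))
    (fun a => X (e.symm (Sum.inl a)) - C Complex.I * X (e.symm (Sum.inr a)))) ?_
  · rwa [one_mul] at this
  · rintro (a | a)
    · exact (isHomogeneous_X _ _).add (by simpa using (isHomogeneous_C_mul_X _ _))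
    · exact (isHomogeneous_X _ _).sub (by simpa only using (isHomogeneous_C_mul_X _ _))

theorem Psi_homog {d : ℕ} {f : MvPolynomial (Fin n) ℂ} (hf : f.IsHomogeneous d) :
    (Psi e f).IsHomogeneous d := by
  have := hf.aeval (n := 1) (fun i => Sum.elim
    (fun a => (C (1/2) * (X (Sum.inl a) + X (Sum.inr a)) :
      MvPolynomial (Fin (m+1) ⊕ Fin (m+1)) ℂ))
    (fun a => C (-Complex.I/2) * (X (Sum.inl a) - X (Sum.inr a))) (e i)) ?_
  · rwa [one_mul] at this
  · intro i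
    rcases e i with a | a
    · simpa only [one_div, Sum.elim_inl, zero_add] using     (isHomogeneous_C _ _).mul ((isHomogeneous_X _ _).add (isHomogeneous_X _ _))
    · simpa only [one_div, Sum.elim_inr, zero_add] using     (isHomogeneous_C _ _).mul ((isHomogeneous_X _ _).sub (isHomogeneous_X _ _))

theorem pd_inl (a : Fin (m+1)) (g : MvPolynomial (Fin (m+1) ⊕ Fin (m+1)) ℂ) :
    pderiv (e.symm (Sum.inl a)) (Phi e g) =
      Phi e (pderiv (Sum.inl a) g + pderiv (Sum.inr a) g) := by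
  induction g using MvPolynomial.induction_on with
  | C c => simp only [show (Phi e) (C c) = C c from (Phi e).commutes c, derivation_C, add_zero, map_zero]
  | add f g hf hg => rw [map_add, map_add, hf, hg, ← map_add]; simp only [map_add]; ring_nf
  | mul_X f i hf =>
    have hX : pderiv (e.symm (Sum.inl a)) (Phi e (X i)) =
        Phi e (pderiv (Sum.inl a) (X i) + pderiv (Sum.inr a) (X i)) := by
      rcases i with b | b
      · rw [Phi_inl]
        simp only [map_add, Derivation.leibniz, pderiv_X, pderiv_C, smul_eq_mul, Pi.single_apply,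
          e.symm.injective.eq_iff, Sum.inl.injEq, reduceCtorEq, if_false]
        split_ifs <;> simp
      · rw [Phi_inr]
        simp only [map_sub, pderiv_X, Pi.single_apply, e.symm.injective.eq_iff, Sum.inl.injEq, Derivation.leibniz, reduceCtorEq, if_false, smul_eq_mul, pderiv_C, Sum.inr.injEq, map_add]
        split_ifs <;> simp_all
    rw [map_mul, Derivation.leibniz, hf, hX, Derivation.leibniz, Derivation.leibniz]
    simp only [map_add, smul_eq_mul, map_mul]
    ring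

theorem pd_inr (a : Fin (m+1)) (g : MvPolynomial (Fin (m+1) ⊕ Fin (m+1)) ℂ) :
    pderiv (e.symm (Sum.inr a)) (Phi e g) =
      Phi e (C Complex.I * (pderiv (Sum.inl a) g - pderiv (Sum.inr a) g)) := by
  have hI : Phi e (C Complex.I) = C Complex.I := (Phi e).commutes _
  induction g using MvPolynomial.induction_on with
  | C c => simp [show (Phi e) (C c) = C c from (Phi e).commutes c]
  | add f g hf hg =>
    rw [map_add, map_add, hf, hg]; simp only [map_mul, map_sub, map_add]; ring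
  | mul_X f i hf =>
    have hX : pderiv (e.symm (Sum.inr a)) (Phi e (X i)) =
        Phi e (C Complex.I * (pderiv (Sum.inl a) (X i) - pderiv (Sum.inr a) (X i))) := by
      rcases i with b | b
      · rw [Phi_inl]
        simp only [map_add, Derivation.leibniz, pderiv_X, pderiv_C, smul_eq_mul, Pi.single_apply,
          e.symm.injective.eq_iff, Sum.inl.injEq, Sum.inr.injEq, reduceCtorEq, if_false]
        split_ifs <;> simp_all
      · rw [Phi_inr]
        simp only [map_add, map_sub, Derivation.leibniz, pderiv_X, pderiv_C, smul_eq_mul,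
          Pi.single_apply, e.symm.injective.eq_iff, Sum.inr.injEq, Sum.inl.injEq,
          reduceCtorEq, if_false]
        split_ifs <;> simp_all
    rw [map_mul, Derivation.leibniz, hf, hX, Derivation.leibniz, Derivation.leibniz]
    simp only [map_mul, map_sub, smul_eq_mul, map_add]
    ring

theorem CII {σ : Type*} : (C Complex.I : MvPolynomial σ ℂ) * C Complex.I = -1 := by
  rw [← C_mul, Complex.I_mul_I]; simp only [C_neg, C_1]

/-- the grading derivation -/
noncomputable def Dg (m : ℕ) : Derivation ℂ (MvPolynomial (Fin (m+1) ⊕ Fin (m+1)) ℂ)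
    (MvPolynomial (Fin (m+1) ⊕ Fin (m+1)) ℂ) :=
  mkDerivation ℂ (Sum.elim (fun a => C Complex.I * X (Sum.inl a))
    (fun a => - (C Complex.I * X (Sum.inr a))))

theorem xi_Phi (g : MvPolynomial (Fin (m+1) ⊕ Fin (m+1)) ℂ) :
    xi (J0 ℂ e) (Phi e g) = Phi e (Dg m g) := by
  have hI : Phi e (C Complex.I) = C Complex.I := (Phi e).commutes _
  induction g using MvPolynomial.induction_on with
  | C c => simp [show (Phi e) (C c) = C c from (Phi e).commutes c, derivation_C]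
  | add f g hf hg => rw [map_add, map_add, hf, hg, map_add, map_add]
  | mul_X f i hf =>
    have hX : xi (J0 ℂ e) (Phi e (X i)) = Phi e (Dg m (X i)) := by
      rcases i with b | b
      · rw [Phi_inl, map_add, Derivation.leibniz, derivation_C, xi_inl, xi_inr, Dg,
          mkDerivation_X]
        simp only [Sum.elim_inl, map_mul, hI, Phi_inl, smul_eq_mul]
        linear_combination (-(X (e.symm (Sum.inr b)) : MvPolynomial (Fin n) ℂ)) *
          CII (σ := Fin n)
      · rw [Phi_inr, map_sub, Derivation.leibniz, derivation_C, xi_inl, xi_inr, Dg,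
          mkDerivation_X]
        simp only [smul_eq_mul, Sum.elim_inr, map_neg, map_mul, hI, Phi_inr]
        linear_combination (-(X (e.symm (Sum.inr b)) : MvPolynomial (Fin n) ℂ)) *
          CII (σ := Fin n)
    rw [map_mul, Derivation.leibniz, hf, hX, Derivation.leibniz]
    simp only [smul_eq_mul, map_add, map_mul]

theorem Dg_monomial (s : (Fin (m+1) ⊕ Fin (m+1)) →₀ ℕ) (c : ℂ) :
    Dg m (monomial s c) = (Complex.I * ((dl s : ℂ) - dr s)) • monomial s c := by
  rw [Dg, mkDerivation_monomial, Finsupp.sum_fintype _ _ (by simp), Fintype.sum_sum_type,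
    smul_add, Finset.smul_sum, Finset.smul_sum]
  have h1 : ∀ a : Fin (m+1), c • (monomial (s - Finsupp.single (Sum.inl a) 1)
      ((s (Sum.inl a) : ℕ) : ℂ) • (Sum.elim (fun a => C Complex.I * X (Sum.inl a))
        (fun a => - (C Complex.I * X (Sum.inr a))) (Sum.inl a) :
          MvPolynomial (Fin (m+1) ⊕ Fin (m+1)) ℂ)) =
      (Complex.I * (s (Sum.inl a) : ℂ)) • monomial s c := by
    intro a
    have h := X_mul_pderiv_monomial (R := ℂ) (i := (Sum.inl a : Fin (m+1) ⊕ Fin (m+1)))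
      (m := s) (r := c)
    rw [pderiv_monomial] at h
    have h3 : (monomial (s - Finsupp.single (Sum.inl a) 1) (c * (s (Sum.inl a) : ℂ))) =
      c • (monomial (s - Finsupp.single (Sum.inl a) 1)) (s (Sum.inl a) : ℂ) := by
      rw [smul_monomial, smul_eq_mul]
    rw [h3] at h
    simp only [Sum.elim_inl, smul_eq_mul]
    rw [mul_smul, Nat.cast_smul_eq_nsmul, ← h]
    simp only [smul_eq_C_mul]
    ring
  have h2 : ∀ a : Fin (m+1), c • (monomial (s - Finsupp.single (Sum.inr a) 1)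
      ((s (Sum.inr a) : ℕ) : ℂ) • (Sum.elim (fun a => C Complex.I * X (Sum.inl a))
        (fun a => - (C Complex.I * X (Sum.inr a))) (Sum.inr a) :
          MvPolynomial (Fin (m+1) ⊕ Fin (m+1)) ℂ)) =
      (-(Complex.I * (s (Sum.inr a) : ℂ))) • monomial s c := by
    intro a
    have h := X_mul_pderiv_monomial (R := ℂ) (i := (Sum.inr a : Fin (m+1) ⊕ Fin (m+1)))
      (m := s) (r := c)
    rw [pderiv_monomial] at h
    have h3 : (monomial (s - Finsupp.single (Sum.inr a) 1) (c * (s (Sum.inr a) : ℂ))) =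
      c • (monomial (s - Finsupp.single (Sum.inr a) 1)) (s (Sum.inr a) : ℂ) := by
      rw [smul_monomial, smul_eq_mul]
    rw [h3] at h
    simp only [Sum.elim_inr, smul_eq_mul]
    rw [neg_smul, mul_smul, Nat.cast_smul_eq_nsmul, ← h]
    simp only [smul_eq_C_mul]
    ring
  rw [Finset.sum_congr rfl (fun a _ => h1 a), Finset.sum_congr rfl (fun a _ => h2 a),
    ← Finset.sum_smul, ← Finset.sum_smul, ← add_smul]
  congr 1
  rw [Finset.sum_neg_distrib, ← Finset.mul_sum, ← Finset.mul_sum, dl, dr]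
  push_cast
  ring

theorem Dg_Q {p q : ℕ} {g : MvPolynomial (Fin (m+1) ⊕ Fin (m+1)) ℂ} (hg : g ∈ Q m p q) :
    Dg m g = (Complex.I * ((p : ℂ) - q)) • g := by
  refine Q_ext (P := fun g => Dg m g = (Complex.I * ((p : ℂ) - q)) • g) (by simp)
    (fun f g hf hg => by rw [map_add, hf, hg, smul_add]) ?_ hg
  intro s c h1 h2
  rw [Dg_monomial, h1, h2]

theorem xi_sq_Q {p q : ℕ} {g : MvPolynomial (Fin (m+1) ⊕ Fin (m+1)) ℂ} (hg : g ∈ Q m p q) :
    xi (J0 ℂ e) (xi (J0 ℂ e) (Phi e g)) = (-((p : ℂ) - q)^2) • Phi e g := by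
  rw [xi_Phi, Dg_Q hg, map_smul, Derivation.map_smul, xi_Phi, Dg_Q hg, map_smul, smul_smul]
  congr 1
  have := Complex.I_sq
  linear_combination ((p : ℂ) - q)^2 * this

theorem Q_homog {p q : ℕ} {g : MvPolynomial (Fin (m+1) ⊕ Fin (m+1)) ℂ} (hg : g ∈ Q m p q) :
    g.IsHomogeneous (p + q) := by
  intro s hs
  obtain ⟨h1, h2⟩ := mem_Q.1 hg s hs
  have e1 : s.degree = Finsupp.weight 1 s := by rw [Finsupp.degree_eq_weight_one]; rfl
  rw [← h1, ← h2, ← e1, Finsupp.degree_eq_sum, Fintype.sum_sum_type]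
  rfl

theorem pderiv_comm' {σ : Type*} (i j : σ) (g : MvPolynomial σ ℂ) :
    pderiv i (pderiv j g) = pderiv j (pderiv i g) := by
  classical
  have h : ⁅(pderiv i : Derivation ℂ (MvPolynomial σ ℂ) (MvPolynomial σ ℂ)),
      (pderiv j : Derivation ℂ (MvPolynomial σ ℂ) (MvPolynomial σ ℂ))⁆ = 0 := by
    apply MvPolynomial.derivation_ext
    intro l
    rw [Derivation.commutator_apply, pderiv_X, pderiv_X]
    simp only [Pi.single_apply]
    split_ifs <;> simp
  have h2 := congrArg (fun D => D g) h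
  simp only [Derivation.commutator_apply, Derivation.zero_apply] at h2
  exact sub_eq_zero.1 h2

theorem plap_Phi (g : MvPolynomial (Fin (m+1) ⊕ Fin (m+1)) ℂ) :
    plap ℂ n (Phi e g) = Phi e (4 * LW m g) := by
  rw [plap_apply, sum_e e, ← Finset.sum_add_distrib, LW_apply, Finset.mul_sum, map_sum]
  refine Finset.sum_congr rfl fun a _ => ?_
  rw [pd_inl, pd_inl, pd_inr, pd_inr, ← map_add]
  congr 1
  simp only [map_add, map_sub, Derivation.leibniz, pderiv_C, smul_eq_mul]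
  rw [pderiv_comm' (Sum.inr a) (Sum.inl a)]
  linear_combination (pderiv (Sum.inl a) (pderiv (Sum.inl a) g) -
    2 * pderiv (Sum.inl a) (pderiv (Sum.inr a) g) +
    pderiv (Sum.inr a) (pderiv (Sum.inr a) g)) * CII (σ := Fin (m+1) ⊕ Fin (m+1))

theorem K_mem {p q : ℕ} {g : MvPolynomial (Fin (m+1) ⊕ Fin (m+1)) ℂ} (hg : g ∈ K m p q) :
    Phi e g ∈ HH ℂ n (p + q) := by
  obtain ⟨h1, h2⟩ := Submodule.mem_inf.1 hg
  rw [mem_HH]
  refine ⟨Phi_homog e (Q_homog h1), ?_⟩
  rw [LinearMap.mem_ker] at h2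
  rw [plap_Phi, h2, mul_zero, map_zero]

end M36

end Vale.Agent.P225.B
end
end

section

section

/-!
# Trace identities
-/

open Filter Topology
open scoped ContDiff

namespace Vale.Agent.P225

open RMetric

namespace B

variable {n : ℕ}

/-- trace of the square of `c I + ρ J + U₁ xᵀ + U₂ vᵀ + U₃ yᵀ` -/
theorem trace_sq (J : Matrix (Fin n) (Fin n) ℝ) (c ρ : ℝ) (U1 U2 U3 x v y : Fin n → ℝ) :
    ∑ k, ∑ l, (c * (if l = k then 1 else 0) + ρ * J k l + U1 k * x l + U2 k * v l + U3 k * y l) *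
      (c * (if k = l then 1 else 0) + ρ * J l k + U1 l * x k + U2 l * v k + U3 l * y k) =
    c ^ 2 * n + 2 * c * ρ * ∑ k, J k k + ρ ^ 2 * ∑ k, ∑ l, J k l * J l k +
      2 * c * (∑ k, x k * U1 k + ∑ k, v k * U2 k + ∑ k, y k * U3 k) +
      2 * ρ * (∑ k, x k * ∑ l, J k l * U1 l + ∑ k, v k * ∑ l, J k l * U2 l +
        ∑ k, y k * ∑ l, J k l * U3 l) +
      (∑ k, x k * U1 k) ^ 2 + (∑ k, v k * U2 k) ^ 2 + (∑ k, y k * U3 k) ^ 2 +
      2 * (∑ k, x k * U2 k) * (∑ k, v k * U1 k) + 2 * (∑ k, x k * U3 k) * (∑ k, y k * U1 k) +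
      2 * (∑ k, v k * U3 k) * (∑ k, y k * U2 k) := by
  classical
  -- matrix form
  set V1 := Matrix.vecMulVec U1 x with hV1
  set V2 := Matrix.vecMulVec U2 v with hV2
  set V3 := Matrix.vecMulVec U3 y with hV3
  set M : Matrix (Fin n) (Fin n) ℝ := c • (1 : Matrix (Fin n) (Fin n) ℝ) + ρ • J + V1 + V2 + V3
    with hM
  have e1 : ∀ k l, M k l = c * (if k = l then 1 else 0) + ρ * J k l + U1 k * x l + U2 k * v l +
      U3 k * y l := by
    intro k l
    simp only [hM, hV1, hV2, hV3, Matrix.add_apply, Matrix.smul_apply, Matrix.one_apply, smul_eq_mul, mul_ite, mul_one, mul_zero, Matrix.vecMulVec_apply]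
  have e2 : ∑ k, ∑ l, (c * (if l = k then 1 else 0) + ρ * J k l + U1 k * x l + U2 k * v l +
      U3 k * y l) * (c * (if k = l then 1 else 0) + ρ * J l k + U1 l * x k + U2 l * v k +
      U3 l * y k) = (M * M).trace := by
    rw [Matrix.trace]
    apply Finset.sum_congr rfl
    intro k _
    rw [Matrix.diag_apply, Matrix.mul_apply]
    apply Finset.sum_congr rfl
    intro l _
    rw [e1, e1]
    have : (if l = k then (1 : ℝ) else 0) = if k = l then 1 else 0 := by
      by_cases h : l = k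
      · simp [h]
      · have h' : ¬ k = l := fun h2 => h h2.symm
        simp [h, h']
    rw [this]
  rw [e2]
  have t1 : ∀ a b a' b' : Fin n → ℝ, (Matrix.vecMulVec a b * Matrix.vecMulVec a' b').trace =
      (∑ k, b k * a' k) * (∑ k, b' k * a k) := by
    intro a b a' b'
    rw [Matrix.vecMulVec_mul_vecMulVec]
    simp only [Matrix.trace, dotProduct, Matrix.diag_apply, Matrix.vecMulVec_apply, Pi.smul_apply, smul_eq_mul]
    rw [Finset.mul_sum]
    apply Finset.sum_congr rfl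
    intro k _
    ring
  have t2 : ∀ a b : Fin n → ℝ, (J * Matrix.vecMulVec a b).trace = ∑ k, b k * ∑ l, J k l * a l := by
    intro a b
    rw [Matrix.trace]
    apply Finset.sum_congr rfl
    intro k _
    rw [Matrix.diag_apply, Matrix.mul_apply, Finset.mul_sum]
    apply Finset.sum_congr rfl
    intro l _
    rw [Matrix.vecMulVec_apply]; ring
  have t3 : ∀ a b : Fin n → ℝ, (Matrix.vecMulVec a b * J).trace = ∑ k, b k * ∑ l, J k l * a l := by
    intro a b
    rw [Matrix.trace_mul_comm]; exact t2 a b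
  have t4 : ∀ a b : Fin n → ℝ, (Matrix.vecMulVec a b).trace = ∑ k, b k * a k := by
    intro a b
    rw [Matrix.trace]
    apply Finset.sum_congr rfl
    intro k _
    rw [Matrix.diag_apply, Matrix.vecMulVec_apply]; ring
  have t5 : (J * J).trace = ∑ k, ∑ l, J k l * J l k := by
    rw [Matrix.trace]
    apply Finset.sum_congr rfl
    intro k _
    rw [Matrix.diag_apply, Matrix.mul_apply]
  have t6 : J.trace = ∑ k, J k k := rfl
  simp only [hM, hV1, hV2, hV3, mul_add, add_mul, Matrix.trace_add, smul_mul_assoc, mul_smul_comm,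
    Matrix.trace_smul, smul_eq_mul, mul_one, one_mul, t1, t2, t3, t4, t5, t6, Matrix.trace_one,
    Fintype.card_fin]
  ring

/-! ### scalar products -/

/-- `p = ⟨x,v⟩` -/
noncomputable def pp (v x : Rn n) : ℝ := ∑ i, x i * v i
/-- `r = ⟨Jx,v⟩` -/
noncomputable def rr (J : Matrix (Fin n) (Fin n) ℝ) (v x : Rn n) : ℝ := ∑ i, yy J x i * v i

section Dots

variable {J : Matrix (Fin n) (Fin n) ℝ} (hJ : IsJ J) (v x : Rn n)

theorem sum_yx_swap (x v : Rn n) (hJ : IsJ J) :
    ∑ i, yy J v i * x i = - rr J v x := by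
  unfold rr
  have h1 : ∀ i, yy J v i * x i = ∑ k, J i k * v k * x i := by
    intro i; unfold yy; rw [Finset.sum_mul]
  have h2 : ∀ i, yy J x i * v i = ∑ k, J i k * x k * v i := by
    intro i; unfold yy; rw [Finset.sum_mul]
  rw [Finset.sum_congr rfl (fun i _ => h1 i), Finset.sum_congr rfl (fun i _ => h2 i),
    Finset.sum_comm, ← Finset.sum_neg_distrib]
  apply Finset.sum_congr rfl; intro i _
  rw [← Finset.sum_neg_distrib]
  apply Finset.sum_congr rfl; intro k _
  rw [hJ.skew k i]; ring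

include hJ in
theorem sum_yv_y : ∑ i, yy J v i * yy J x i = pp v x := by
  unfold pp
  have h1 : ∀ i, yy J v i * yy J x i = ∑ k, v k * (yy J x i * J i k) := by
    intro i
    conv_lhs => rw [show yy J v i * yy J x i = (∑ k, J i k * v k) * yy J x i from rfl]
    rw [Finset.sum_mul]
    apply Finset.sum_congr rfl; intro k _; ring
  rw [Finset.sum_congr rfl (fun i _ => h1 i), Finset.sum_comm]
  apply Finset.sum_congr rfl; intro k _
  rw [← Finset.mul_sum, sum_yJ hJ]; ring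

end Dots

/-- contraction of the Christoffel symbols with a vector -/
noncomputable def MMc (J : Matrix (Fin n) (Fin n) ℝ) (a1 a2 a3 a4 : ℝ) (v x : Rn n) (k i : Fin n) :
    ℝ :=
  a1 * (x i * v k + pp v x * (if i = k then 1 else 0) - x k * v i) +
    a2 * ((x i * rr J v x + pp v x * yy J x i) * yy J x k) -
    a3 * (x k * yy J x i * rr J v x) +
    a4 * (rr J v x * J k i + yy J x i * yy J v k)

/-- the formula for the Christoffel symbols -/
noncomputable def chr (J : Matrix (Fin n) (Fin n) ℝ) (a1 a2 a3 a4 : ℝ) (k i j : Fin n) (x : Rn n) :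
    ℝ :=
  a1 * (x i * (if j = k then 1 else 0) + x j * (if i = k then 1 else 0) -
        x k * (if i = j then 1 else 0)) +
      a2 * ((x i * yy J x j + x j * yy J x i) * yy J x k) -
      a3 * (x k * yy J x i * yy J x j) +
      a4 * (yy J x j * J k i + yy J x i * J k j)

theorem chr_symm (J : Matrix (Fin n) (Fin n) ℝ) (a1 a2 a3 a4 : ℝ) (k i j : Fin n) (x : Rn n) :
    chr J a1 a2 a3 a4 k i j x = chr J a1 a2 a3 a4 k j i x := by
  unfold chr
  have : (if i = j then (1 : ℝ) else 0) = if j = i then 1 else 0 := by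
    by_cases h : i = j
    · simp [h]
    · have h' : ¬ j = i := fun h2 => h h2.symm
      simp [h, h']
  rw [this]; ring

theorem sum_chr (J : Matrix (Fin n) (Fin n) ℝ) (a1 a2 a3 a4 : ℝ) (k i : Fin n) (v x : Rn n) :
    ∑ j, chr J a1 a2 a3 a4 k i j x * v j = MMc J a1 a2 a3 a4 v x k i := by
  unfold chr MMc
  have h : ∀ j, (a1 * (x i * (if j = k then 1 else 0) + x j * (if i = k then 1 else 0) -
        x k * (if i = j then 1 else 0)) +
      a2 * ((x i * yy J x j + x j * yy J x i) * yy J x k) -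
      a3 * (x k * yy J x i * yy J x j) +
      a4 * (yy J x j * J k i + yy J x i * J k j)) * v j =
      a1 * x i * (if j = k then v j else 0) + a1 * (if i = k then 1 else 0) * (x j * v j) -
        a1 * x k * (if i = j then v j else 0) + a2 * x i * yy J x k * (yy J x j * v j) +
        a2 * yy J x i * yy J x k * (x j * v j) - a3 * x k * yy J x i * (yy J x j * v j) +
        a4 * J k i * (yy J x j * v j) + a4 * yy J x i * (J k j * v j) := by
    intro j
    have c1 : (if j = k then (1 : ℝ) else 0) * v j = if j = k then v j else 0 := by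
      split_ifs <;> ring
    have c2 : (if i = j then (1 : ℝ) else 0) * v j = if i = j then v j else 0 := by
      split_ifs <;> ring
    rw [← c1, ← c2]; ring
  rw [Finset.sum_congr rfl (fun j _ => h j)]
  simp only [Finset.sum_add_distrib, Finset.sum_sub_distrib, ← Finset.mul_sum, Finset.sum_ite_eq', Finset.mem_univ, if_true, Finset.sum_ite_eq]
  have e1 : ∑ j, x j * v j = pp v x := rfl
  have e2 : ∑ j, yy J x j * v j = rr J v x := rfl
  have e3 : ∑ j, J k j * v j = yy J v k := rfl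
  rw [e1, e2, e3]
  ring

/-- `Γᵏ(v,v)` -/
noncomputable def QQ (J : Matrix (Fin n) (Fin n) ℝ) (a1 a2 a3 a4 : ℝ) (v x : Rn n) (k : Fin n) : ℝ :=
  a1 * (2 * pp v x * v k - x k * (∑ i, v i * v i)) + a2 * (2 * pp v x * rr J v x * yy J x k) -
    a3 * (rr J v x ^ 2 * x k) + a4 * (2 * rr J v x * yy J v k)

theorem sum_MM (J : Matrix (Fin n) (Fin n) ℝ) (a1 a2 a3 a4 : ℝ) (k : Fin n) (v x : Rn n) :
    ∑ i, MMc J a1 a2 a3 a4 v x k i * v i = QQ J a1 a2 a3 a4 v x k := by
  unfold MMc QQ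
  have h : ∀ i, (a1 * (x i * v k + pp v x * (if i = k then 1 else 0) - x k * v i) +
      a2 * ((x i * rr J v x + pp v x * yy J x i) * yy J x k) -
      a3 * (x k * yy J x i * rr J v x) +
      a4 * (rr J v x * J k i + yy J x i * yy J v k)) * v i =
      a1 * v k * (x i * v i) + a1 * pp v x * (if i = k then v i else 0) - a1 * x k * (v i * v i) +
      a2 * rr J v x * yy J x k * (x i * v i) + a2 * pp v x * yy J x k * (yy J x i * v i) -
      a3 * x k * rr J v x * (yy J x i * v i) + a4 * rr J v x * (J k i * v i) +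
      a4 * yy J v k * (yy J x i * v i) := by
    intro i
    by_cases h1 : i = k <;> simp only [h1, if_true, if_false] <;> ring
  rw [Finset.sum_congr rfl (fun j _ => h j)]
  simp only [Finset.sum_add_distrib, Finset.sum_sub_distrib, ← Finset.mul_sum,
    Finset.sum_ite_eq', Finset.mem_univ, if_true]
  have e1 : ∑ j, x j * v j = pp v x := rfl
  have e2 : ∑ j, yy J x j * v j = rr J v x := rfl
  have e3 : ∑ j, J k j * v j = yy J v k := rfl
  rw [e1, e2, e3]
  ring

/-- trace of the Christoffel symbols -/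
theorem sum_chr_tr {J : Matrix (Fin n) (Fin n) ℝ} (hJ : IsJ J) (a1 a2 a3 a4 : ℝ) (i : Fin n)
    (x : Rn n) :
    ∑ k, chr J a1 a2 a3 a4 k i k x = (n * a1 + 2 * tt x * a2 + a4) * x i := by
  unfold chr
  have h : ∀ k, (a1 * (x i * (if k = k then 1 else 0) + x k * (if i = k then 1 else 0) -
        x k * (if i = k then 1 else 0)) +
      a2 * ((x i * yy J x k + x k * yy J x i) * yy J x k) -
      a3 * (x k * yy J x i * yy J x k) +
      a4 * (yy J x k * J k i + yy J x i * J k k)) =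
      a1 * x i * 1 + a2 * x i * (yy J x k * yy J x k) + a2 * yy J x i * (x k * yy J x k) -
      a3 * yy J x i * (x k * yy J x k) + a4 * (yy J x k * J k i) := by
    intro k
    rw [hJ.diag k, if_pos rfl]; ring
  rw [Finset.sum_congr rfl (fun j _ => h j)]
  simp only [Finset.sum_add_distrib, Finset.sum_sub_distrib, ← Finset.mul_sum]
  rw [sum_yy hJ, sum_xy hJ, sum_yJ hJ]
  simp only [Finset.sum_const, Finset.card_univ, Fintype.card_fin, nsmul_eq_mul]
  ring

/-- value of the quadratic trace term -/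
theorem sum_MM_sq {J : Matrix (Fin n) (Fin n) ℝ} (hJ : IsJ J) (a1 a2 a3 a4 : ℝ) (v x : Rn n) :
    ∑ k, ∑ l, MMc J a1 a2 a3 a4 v x k l * MMc J a1 a2 a3 a4 v x l k =
      a1 ^ 2 * ((n + 2) * pp v x ^ 2 - 4 * tt x * (∑ i, v i * v i)) +
      a1 * a2 * (4 * tt x * pp v x ^ 2 - 4 * tt x * rr J v x ^ 2) -
      4 * tt x * rr J v x ^ 2 * a1 * a3 + a1 * a4 * (2 * pp v x ^ 2 - 6 * rr J v x ^ 2) +
      4 * tt x ^ 2 * pp v x ^ 2 * a2 ^ 2 - 8 * tt x ^ 2 * rr J v x ^ 2 * a2 * a3 +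
      a2 * a4 * (4 * tt x * pp v x ^ 2 - 8 * tt x * rr J v x ^ 2) -
      4 * tt x * rr J v x ^ 2 * a3 * a4 + a4 ^ 2 * (pp v x ^ 2 - (n + 2) * rr J v x ^ 2) := by
  set p := pp v x with hp
  set r := rr J v x with hr
  set y : Fin n → ℝ := yy J x with hy
  set w : Fin n → ℝ := yy J v with hw
  set N := ∑ i, v i * v i with hN
  set t := tt x with ht
  have key := trace_sq J (a1 * p) (a4 * r) (fun k => a1 * v k + a2 * r * y k)
    (fun k => - a1 * x k) (fun k => a2 * p * y k - a3 * r * x k + a4 * w k) x v y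
  have e0 : ∑ k, ∑ l, MMc J a1 a2 a3 a4 v x k l * MMc J a1 a2 a3 a4 v x l k =
      ∑ k, ∑ l, (a1 * p * (if l = k then 1 else 0) + a4 * r * J k l +
        (a1 * v k + a2 * r * y k) * x l + (- a1 * x k) * v l +
        (a2 * p * y k - a3 * r * x k + a4 * w k) * y l) *
      (a1 * p * (if k = l then 1 else 0) + a4 * r * J l k + (a1 * v l + a2 * r * y l) * x k +
        (- a1 * x l) * v k + (a2 * p * y l - a3 * r * x l + a4 * w l) * y k) := by
    apply Finset.sum_congr rfl; intro k _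
    apply Finset.sum_congr rfl; intro l _
    unfold MMc
    simp only [← hp, ← hr, ← hy, ← hw]
    ring
  rw [e0, key]
  -- scalar products
  have s_xv : ∑ k, x k * v k = p := rfl
  have s_yv : ∑ k, y k * v k = r := rfl
  have s_vy : ∑ k, v k * y k = r := by rw [← s_yv]; exact Finset.sum_congr rfl fun _ _ => mul_comm _ _
  have s_vx : ∑ k, v k * x k = p := by rw [← s_xv]; exact Finset.sum_congr rfl fun _ _ => mul_comm _ _
  have s_xx : ∑ k, x k * x k = 2 * t := sum_xx x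
  have s_xy : ∑ k, x k * y k = 0 := sum_xy hJ x
  have s_yx : ∑ k, y k * x k = 0 := by rw [← s_xy]; exact Finset.sum_congr rfl fun _ _ => mul_comm _ _
  have s_yy : ∑ k, y k * y k = 2 * t := sum_yy hJ x
  have s_wx : ∑ k, w k * x k = - r := sum_yx_swap x v hJ
  have s_xw : ∑ k, x k * w k = - r := by rw [← s_wx]; exact Finset.sum_congr rfl fun _ _ => mul_comm _ _
  have s_wy : ∑ k, w k * y k = p := sum_yv_y hJ v x
  have s_yw : ∑ k, y k * w k = p := by rw [← s_wy]; exact Finset.sum_congr rfl fun _ _ => mul_comm _ _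
  have s_vw : ∑ k, v k * w k = 0 := sum_xy hJ v
  have J_v : ∀ k, ∑ l, J k l * v l = w k := fun k => rfl
  have J_x : ∀ k, ∑ l, J k l * x l = y k := fun k => rfl
  have J_y : ∀ k, ∑ l, J k l * y l = - x k := fun k => sum_Jy hJ x k
  have J_w : ∀ k, ∑ l, J k l * w l = - v k := fun k => sum_Jy hJ v k
  have J1 : ∀ k, ∑ l, J k l * (a1 * v l + a2 * r * y l) = a1 * w k - a2 * r * x k := by
    intro k
    have : ∀ l, J k l * (a1 * v l + a2 * r * y l) = a1 * (J k l * v l) + a2 * r * (J k l * y l) :=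
      fun l => by ring
    rw [Finset.sum_congr rfl (fun l _ => this l), Finset.sum_add_distrib, ← Finset.mul_sum,
      ← Finset.mul_sum, J_v, J_y]; ring
  have J2 : ∀ k, ∑ l, J k l * (- a1 * x l) = - a1 * y k := by
    intro k
    have : ∀ l, J k l * (- a1 * x l) = - a1 * (J k l * x l) := fun l => by ring
    rw [Finset.sum_congr rfl (fun l _ => this l), ← Finset.mul_sum, J_x]
  have J3 : ∀ k, ∑ l, J k l * (a2 * p * y l - a3 * r * x l + a4 * w l) =
      - a2 * p * x k - a3 * r * y k - a4 * v k := by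
    intro k
    have : ∀ l, J k l * (a2 * p * y l - a3 * r * x l + a4 * w l) =
        a2 * p * (J k l * y l) - a3 * r * (J k l * x l) + a4 * (J k l * w l) := fun l => by ring
    rw [Finset.sum_congr rfl (fun l _ => this l), Finset.sum_add_distrib, Finset.sum_sub_distrib,
      ← Finset.mul_sum, ← Finset.mul_sum, ← Finset.mul_sum, J_y, J_x, J_w]; ring
  have lin3 : ∀ (f g1 g2 g3 : Fin n → ℝ) (c1 c2 c3 : ℝ),
      ∑ k, f k * (c1 * g1 k + c2 * g2 k + c3 * g3 k) =
        c1 * ∑ k, f k * g1 k + c2 * ∑ k, f k * g2 k + c3 * ∑ k, f k * g3 k := by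
    intro f g1 g2 g3 c1 c2 c3
    rw [Finset.mul_sum, Finset.mul_sum, Finset.mul_sum, ← Finset.sum_add_distrib,
      ← Finset.sum_add_distrib]
    apply Finset.sum_congr rfl; intro k _; ring
  have q1 : ∑ k, x k * (a1 * v k + a2 * r * y k) = a1 * p := by
    have := lin3 x v y 0 a1 (a2 * r) 0
    simp only [Pi.zero_apply, mul_zero, add_zero, Finset.sum_const_zero] at this
    rw [this, s_xv, s_xy]; ring
  have q2 : ∑ k, v k * (- a1 * x k) = - a1 * p := by
    have := lin3 v x 0 0 (-a1) 0 0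
    simp only [Pi.zero_apply, mul_zero, add_zero, Finset.sum_const_zero] at this
    rw [this, s_vx]
  have q3 : ∑ k, y k * (a2 * p * y k - a3 * r * x k + a4 * w k) = 2 * t * a2 * p + a4 * p := by
    have := lin3 y y x w (a2 * p) (-(a3 * r)) a4
    have h2 : ∀ k, y k * (a2 * p * y k - a3 * r * x k + a4 * w k) =
      y k * (a2 * p * y k + -(a3 * r) * x k + a4 * w k) := fun k => by ring
    rw [Finset.sum_congr rfl (fun k _ => h2 k), this, s_yy, s_yx, s_yw]; ring
  have q4 : ∑ k, x k * ∑ l, J k l * (a1 * v l + a2 * r * y l) = - a1 * r - 2 * t * a2 * r := by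
    have := lin3 x w x 0 a1 (-(a2 * r)) 0
    simp only [Pi.zero_apply, mul_zero, add_zero, Finset.sum_const_zero] at this
    have h2 : ∀ k, x k * ∑ l, J k l * (a1 * v l + a2 * r * y l) =
      x k * (a1 * w k + -(a2 * r) * x k) := fun k => by rw [J1]; ring
    rw [Finset.sum_congr rfl (fun k _ => h2 k), this, s_xw, s_xx]; ring
  have q5 : ∑ k, v k * ∑ l, J k l * (- a1 * x l) = - a1 * r := by
    have := lin3 v y 0 0 (-a1) 0 0
    simp only [Pi.zero_apply, mul_zero, add_zero, Finset.sum_const_zero] at this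
    have h2 : ∀ k, v k * ∑ l, J k l * (- a1 * x l) = v k * (- a1 * y k) := fun k => by rw [J2]
    rw [Finset.sum_congr rfl (fun k _ => h2 k), this, s_vy]
  have q6 : ∑ k, y k * ∑ l, J k l * (a2 * p * y l - a3 * r * x l + a4 * w l) =
      - 2 * t * a3 * r - a4 * r := by
    have := lin3 y x y v (-(a2 * p)) (-(a3 * r)) (-a4)
    have h2 : ∀ k, y k * ∑ l, J k l * (a2 * p * y l - a3 * r * x l + a4 * w l) =
      y k * (-(a2 * p) * x k + -(a3 * r) * y k + -a4 * v k) := fun k => by rw [J3]; ring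
    rw [Finset.sum_congr rfl (fun k _ => h2 k), this, s_yx, s_yy, s_yv]; ring
  have q7 : ∑ k, x k * (- a1 * x k) = - 2 * t * a1 := by
    have := lin3 x x 0 0 (-a1) 0 0
    simp only [Pi.zero_apply, mul_zero, add_zero, Finset.sum_const_zero] at this
    rw [this, s_xx]; ring
  have q8 : ∑ k, v k * (a1 * v k + a2 * r * y k) = a1 * N + a2 * r ^ 2 := by
    have := lin3 v v y 0 a1 (a2 * r) 0
    simp only [Pi.zero_apply, mul_zero, add_zero, Finset.sum_const_zero] at this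
    rw [this, s_vy]
    have : ∑ k, v k * v k = N := rfl
    rw [this]; ring
  have q9 : ∑ k, x k * (a2 * p * y k - a3 * r * x k + a4 * w k) = - 2 * t * a3 * r - a4 * r := by
    have := lin3 x y x w (a2 * p) (-(a3 * r)) a4
    have h2 : ∀ k, x k * (a2 * p * y k - a3 * r * x k + a4 * w k) =
      x k * (a2 * p * y k + -(a3 * r) * x k + a4 * w k) := fun k => by ring
    rw [Finset.sum_congr rfl (fun k _ => h2 k), this, s_xy, s_xx, s_xw]; ring
  have q10 : ∑ k, y k * (a1 * v k + a2 * r * y k) = a1 * r + 2 * t * a2 * r := by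
    have := lin3 y v y 0 a1 (a2 * r) 0
    simp only [Pi.zero_apply, mul_zero, add_zero, Finset.sum_const_zero] at this
    rw [this, s_yv, s_yy]; ring
  have q11 : ∑ k, y k * (- a1 * x k) = 0 := by
    have := lin3 y x 0 0 (-a1) 0 0
    simp only [Pi.zero_apply, mul_zero, add_zero, Finset.sum_const_zero] at this
    rw [this, s_yx]; ring
  have q12 : ∑ k, J k k = 0 := Finset.sum_eq_zero fun k _ => hJ.diag k
  have q13 : ∑ k, ∑ l, J k l * J l k = - (n : ℝ) := by
    have : ∀ k, ∑ l, J k l * J l k = -1 := by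
      intro k; rw [hJ.sq k k]; simp
    rw [Finset.sum_congr rfl (fun k _ => this k)]
    simp only [Finset.sum_neg_distrib, Finset.sum_const, Finset.card_univ, Fintype.card_fin, nsmul_eq_mul, mul_one]
  rw [q1, q2, q3, q4, q5, q6, q7, q8, q9, q10, q11, q12, q13]
  ring

end B

end Vale.Agent.P225
end
end

section

section

/-!
# The Ricci curvature of `F(t) I + K(t) (Jx)(Jx)ᵀ`, `t = |x|²/2`
-/

open Filter Topology
open scoped ContDiff

namespace Vale.Agent.P225

open RMetric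

namespace B

variable {n : ℕ}

/-- `α`, the coefficient of `|v|²` -/
noncomputable def cAl (n : ℕ) (a1 a2 a4 : ℝ → ℝ) (t : ℝ) : ℝ :=
  -2 * t * deriv a1 t + (2 - n) * a1 t - 2 * a4 t - (n * a1 t + 2 * t * a2 t + a4 t) -
    2 * t * (n * a1 t + 2 * t * a2 t + a4 t) * a1 t + 4 * t * a1 t ^ 2

/-- `β`, the coefficient of `⟨x,v⟩²` -/
noncomputable def cBe (n : ℕ) (a1 a2 a4 : ℝ → ℝ) (t : ℝ) : ℝ :=
  2 * deriv a1 t - 2 * a2 t - deriv (fun t => n * a1 t + 2 * t * a2 t + a4 t) t +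
    2 * (n * a1 t + 2 * t * a2 t + a4 t) * a1 t -
    ((n + 2) * a1 t ^ 2 + 4 * t * a1 t * a2 t + 2 * a1 t * a4 t + 4 * t ^ 2 * a2 t ^ 2 +
      4 * t * a2 t * a4 t + a4 t ^ 2)

/-- `γ`, the coefficient of `⟨Jx,v⟩²` -/
noncomputable def cGa (n : ℕ) (a1 a2 a3 a4 : ℝ → ℝ) (t : ℝ) : ℝ :=
  2 * a2 t - 2 * t * deriv a3 t - (n + 2) * a3 t - 2 * deriv a4 t -
    (n * a1 t + 2 * t * a2 t + a4 t) * (2 * t * a3 t + 2 * a4 t) +
    4 * t * a1 t * a2 t + 4 * t * a1 t * a3 t + 6 * a1 t * a4 t + 8 * t ^ 2 * a2 t * a3 t +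
    8 * t * a2 t * a4 t + 4 * t * a3 t * a4 t + (n + 2) * a4 t ^ 2

theorem diff_pp (v : Rn n) : Differentiable ℝ (fun x : Rn n => pp v x) := by
  unfold pp; exact Differentiable.fun_sum (fun i _ => (diff_coord i).mul_const (v i))

theorem diff_rr (J : Matrix (Fin n) (Fin n) ℝ) (v : Rn n) :
    Differentiable ℝ (fun x : Rn n => rr J v x) := by
  unfold rr
  have := diff_yy J
  fun_prop

theorem pd_pp (v : Rn n) (k : Fin n) (x : Rn n) : pd k (fun x => pp v x) x = v k := by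
  unfold pp
  rw [pd_sum (fun i _ => ((diff_coord i).mul_const (v i)) x)]
  have h2 : ∀ i : Fin n, pd k (fun y : Rn n => y i * v i) x = if i = k then v i else 0 := by
    intro i
    rw [pd_mul (diff_coord i x) (differentiableAt_const _), pd_coord, pd_const]
    split_ifs <;> ring
  rw [Finset.sum_congr rfl (fun i _ => h2 i)]
  simp only [Finset.sum_ite_eq', Finset.mem_univ, ↓reduceIte]

theorem pd_rr {J : Matrix (Fin n) (Fin n) ℝ} (hJ : IsJ J) (v : Rn n) (k : Fin n) (x : Rn n) :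
    pd k (fun x => rr J v x) x = - yy J v k := by
  have h0 : ∀ i : Fin n, DifferentiableAt ℝ (fun y : Rn n => yy J y i * v i) x := by
    intro i
    exact (diff_yy J i x).mul (differentiableAt_const _)
  unfold rr
  rw [pd_sum (fun i _ => h0 i)]
  have h2 : ∀ i : Fin n, pd k (fun y : Rn n => yy J y i * v i) x = - (J k i * v i) := by
    intro i
    rw [pd_mul (diff_yy J i x) (differentiableAt_const _), pd_yy, pd_const, hJ.skew i k]
    ring
  rw [Finset.sum_congr rfl (fun i _ => h2 i), Finset.sum_neg_distrib]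
  rfl

/-- divergence of `Γᵏ(v,v)` -/
theorem div_QQ {J : Matrix (Fin n) (Fin n) ℝ} (hJ : IsJ J) (a1 a2 a3 a4 : ℝ → ℝ) (x : Rn n)
    (d1 : DifferentiableAt ℝ a1 (tt x)) (d2 : DifferentiableAt ℝ a2 (tt x))
    (d3 : DifferentiableAt ℝ a3 (tt x)) (d4 : DifferentiableAt ℝ a4 (tt x)) (v : Rn n) :
    ∑ k, pd k (fun y => QQ J (a1 (tt y)) (a2 (tt y)) (a3 (tt y)) (a4 (tt y)) v y k) x =
      deriv a1 (tt x) * (2 * pp v x ^ 2 - 2 * tt x * (∑ i, v i * v i)) +
      a1 (tt x) * (2 - n) * (∑ i, v i * v i) + a2 (tt x) * (2 * rr J v x ^ 2 - 2 * pp v x ^ 2) -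
      2 * tt x * deriv a3 (tt x) * rr J v x ^ 2 - a3 (tt x) * (n + 2) * rr J v x ^ 2 -
      2 * deriv a4 (tt x) * rr J v x ^ 2 - 2 * a4 (tt x) * (∑ i, v i * v i) := by
  set N := ∑ i, v i * v i with hN
  have D1 : DifferentiableAt ℝ (fun y : Rn n => a1 (tt y)) x := DifferentiableAt.comp x d1 (diff_tt x)
  have D2 : DifferentiableAt ℝ (fun y : Rn n => a2 (tt y)) x := DifferentiableAt.comp x d2 (diff_tt x)
  have D3 : DifferentiableAt ℝ (fun y : Rn n => a3 (tt y)) x := DifferentiableAt.comp x d3 (diff_tt x)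
  have D4 : DifferentiableAt ℝ (fun y : Rn n => a4 (tt y)) x := DifferentiableAt.comp x d4 (diff_tt x)
  have Dp := diff_pp v x
  have Dr := diff_rr J v x
  have key : ∀ k, pd k (fun y => QQ J (a1 (tt y)) (a2 (tt y)) (a3 (tt y)) (a4 (tt y)) v y k) x =
      deriv a1 (tt x) * (2 * pp v x * (x k * v k) - N * (x k * x k)) +
      a1 (tt x) * (2 * (v k * v k) - N * 1) +
      deriv a2 (tt x) * (2 * pp v x * rr J v x) * (x k * yy J x k) +
      a2 (tt x) * (2 * rr J v x * (v k * yy J x k) - 2 * pp v x * (yy J v k * yy J x k)) -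
      deriv a3 (tt x) * rr J v x ^ 2 * (x k * x k) -
      a3 (tt x) * (rr J v x ^ 2 * 1 - 2 * rr J v x * (x k * yy J v k)) +
      deriv a4 (tt x) * (2 * rr J v x) * (x k * yy J v k) -
      a4 (tt x) * 2 * (yy J v k * yy J v k) := by
    intro k
    have Dk := diff_coord k x
    have Dy := diff_yy J k x
    unfold QQ
    rw [← hN]
    have E1 : DifferentiableAt ℝ (fun y : Rn n => 2 * pp v y) x := Dp.const_mul 2
    have E2 : DifferentiableAt ℝ (fun y : Rn n => 2 * pp v y * v k) x := E1.mul_const _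
    have E3 : DifferentiableAt ℝ (fun y : Rn n => y k * N) x := Dk.mul_const _
    have E4 : DifferentiableAt ℝ (fun y : Rn n => 2 * pp v y * v k - y k * N) x := E2.sub E3
    have E5 : DifferentiableAt ℝ (fun y : Rn n => a1 (tt y) * (2 * pp v y * v k - y k * N)) x :=
      D1.mul E4
    have E6 : DifferentiableAt ℝ (fun y : Rn n => 2 * pp v y * rr J v y) x := E1.mul Dr
    have E7 : DifferentiableAt ℝ (fun y : Rn n => 2 * pp v y * rr J v y * yy J y k) x := E6.mul Dy
    have E8 : DifferentiableAt ℝ (fun y : Rn n => a2 (tt y) *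
        (2 * pp v y * rr J v y * yy J y k)) x := D2.mul E7
    have E9 : DifferentiableAt ℝ (fun y : Rn n => rr J v y ^ 2) x := Dr.pow 2
    have E9' : DifferentiableAt ℝ (fun y : Rn n => rr J v y * rr J v y) x := Dr.mul Dr
    have E10 : DifferentiableAt ℝ (fun y : Rn n => rr J v y * rr J v y * y k) x := E9'.mul Dk
    have E11 : DifferentiableAt ℝ (fun y : Rn n => a3 (tt y) * (rr J v y * rr J v y * y k)) x :=
      D3.mul E10
    have E12 : DifferentiableAt ℝ (fun y : Rn n => 2 * rr J v y) x := Dr.const_mul 2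
    have E13 : DifferentiableAt ℝ (fun y : Rn n => 2 * rr J v y * yy J v k) x := E12.mul_const _
    have E14 : DifferentiableAt ℝ (fun y : Rn n => a4 (tt y) * (2 * rr J v y * yy J v k)) x :=
      D4.mul E13
    have E15 : DifferentiableAt ℝ (fun y : Rn n => a1 (tt y) * (2 * pp v y * v k - y k * N) +
      a2 (tt y) * (2 * pp v y * rr J v y * yy J y k)) x := E5.add E8
    have E16 : DifferentiableAt ℝ (fun y : Rn n => a1 (tt y) * (2 * pp v y * v k - y k * N) +
      a2 (tt y) * (2 * pp v y * rr J v y * yy J y k) - a3 (tt y) * (rr J v y * rr J v y * y k)) x :=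
      E15.sub E11
    have hsq : (fun y : Rn n => a1 (tt y) * (2 * pp v y * v k - y k * N) +
      a2 (tt y) * (2 * pp v y * rr J v y * yy J y k) - a3 (tt y) * (rr J v y ^ 2 * y k) +
      a4 (tt y) * (2 * rr J v y * yy J v k)) = fun y : Rn n =>
      a1 (tt y) * (2 * pp v y * v k - y k * N) +
      a2 (tt y) * (2 * pp v y * rr J v y * yy J y k) - a3 (tt y) * (rr J v y * rr J v y * y k) +
      a4 (tt y) * (2 * rr J v y * yy J v k) := by
      ext y; ring
    rw [hsq, pd_add E16 E14, pd_sub E15 E11, pd_add E5 E8, pd_mul D1 E4, pd_sub E2 E3,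
      pd_mul E1 (differentiableAt_const _), pd_const_mul _ Dp, pd_mul Dk (differentiableAt_const _),
      pd_mul D2 E7, pd_mul E6 Dy, pd_mul E1 Dr, pd_const_mul _ Dp, pd_mul D3 E10, pd_mul E9' Dk,
      pd_mul Dr Dr, pd_mul D4 E13, pd_mul E12 (differentiableAt_const _), pd_const_mul _ Dr,
      pd_const, pd_const, pd_const, pd_pp, pd_rr hJ, pd_coord, pd_yy, pd_comp_tt k x d1, pd_comp_tt k x d2,
      pd_comp_tt k x d3, pd_comp_tt k x d4, hJ.diag k, if_pos rfl]
    ring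
  rw [Finset.sum_congr rfl (fun k _ => key k)]
  simp only [Finset.sum_sub_distrib, Finset.sum_add_distrib, ← Finset.mul_sum]
  have s_xv : ∑ k, x k * v k = pp v x := rfl
  have s_vy : ∑ k, v k * yy J x k = rr J v x := Finset.sum_congr rfl fun _ _ => mul_comm _ _
  have s_xx : ∑ k, x k * x k = 2 * tt x := sum_xx x
  have s_xy : ∑ k, x k * yy J x k = 0 := sum_xy hJ x
  have s_xw : ∑ k, x k * yy J v k = - rr J v x := by
    rw [← sum_yx_swap x v hJ]; exact Finset.sum_congr rfl fun _ _ => mul_comm _ _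
  have s_wy : ∑ k, yy J v k * yy J x k = pp v x := sum_yv_y hJ v x
  have s_ww : ∑ k, yy J v k * yy J v k = N := by
    rw [sum_yy hJ v, ← sum_xx v]
  have s_1 : ∑ _k : Fin n, (1 : ℝ) = n := by simp only [Finset.sum_const, Finset.card_univ, Fintype.card_fin, nsmul_eq_mul, mul_one]
  rw [s_xv, s_vy, s_xx, s_xy, s_xw, s_wy, s_ww, s_1]
  ring

/-- `∑ x_l Γ^l(v,v)` -/
theorem sum_xQQ {J : Matrix (Fin n) (Fin n) ℝ} (hJ : IsJ J) (a1 a2 a3 a4 : ℝ) (v x : Rn n) :
    ∑ l, x l * QQ J a1 a2 a3 a4 v x l =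
      a1 * (2 * pp v x ^ 2 - 2 * tt x * (∑ i, v i * v i)) - 2 * tt x * a3 * rr J v x ^ 2 -
        2 * a4 * rr J v x ^ 2 := by
  set N := ∑ i, v i * v i with hN
  have h : ∀ l, x l * QQ J a1 a2 a3 a4 v x l =
      a1 * (2 * pp v x * (x l * v l) - N * (x l * x l)) +
        a2 * (2 * pp v x * rr J v x) * (x l * yy J x l) - a3 * rr J v x ^ 2 * (x l * x l) +
        a4 * (2 * rr J v x) * (x l * yy J v l) := by
    intro l; unfold QQ; rw [← hN]; ring
  rw [Finset.sum_congr rfl (fun k _ => h k)]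
  simp only [Finset.sum_add_distrib, Finset.sum_sub_distrib, ← Finset.mul_sum]
  have s_xv : ∑ k, x k * v k = pp v x := rfl
  have s_xx : ∑ k, x k * x k = 2 * tt x := sum_xx x
  have s_xy : ∑ k, x k * yy J x k = 0 := sum_xy hJ x
  have s_xw : ∑ k, x k * yy J v k = - rr J v x := by
    rw [← sum_yx_swap x v hJ]; exact Finset.sum_congr rfl fun _ _ => mul_comm _ _
  rw [s_xv, s_xx, s_xy, s_xw]
  ring

/-- the Ricci form in terms of the Christoffel coefficients -/
theorem ric_quad {J : Matrix (Fin n) (Fin n) ℝ} (hJ : IsJ J)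
    {G : Rn n → Matrix (Fin n) (Fin n) ℝ} (a1 a2 a3 a4 : ℝ → ℝ) (x : Rn n)
    (h : ∀ᶠ y in 𝓝 x, ∀ k i j, christoffel G k i j y =
      chr J (a1 (tt y)) (a2 (tt y)) (a3 (tt y)) (a4 (tt y)) k i j y)
    (d1 : DifferentiableAt ℝ a1 (tt x)) (d2 : DifferentiableAt ℝ a2 (tt x))
    (d3 : DifferentiableAt ℝ a3 (tt x)) (d4 : DifferentiableAt ℝ a4 (tt x)) (v : Rn n) :
    ∑ i, ∑ j, ricci G i j x * v i * v j =
      cAl n a1 a2 a4 (tt x) * (∑ i, v i * v i) + cBe n a1 a2 a4 (tt x) * pp v x ^ 2 +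
        cGa n a1 a2 a3 a4 (tt x) * rr J v x ^ 2 := by
  set CC : Fin n → Fin n → Fin n → Rn n → ℝ := fun k i j y =>
    chr J (a1 (tt y)) (a2 (tt y)) (a3 (tt y)) (a4 (tt y)) k i j y with hCC
  have D1 : DifferentiableAt ℝ (fun y : Rn n => a1 (tt y)) x := DifferentiableAt.comp x d1 (diff_tt x)
  have D2 : DifferentiableAt ℝ (fun y : Rn n => a2 (tt y)) x := DifferentiableAt.comp x d2 (diff_tt x)
  have D3 : DifferentiableAt ℝ (fun y : Rn n => a3 (tt y)) x := DifferentiableAt.comp x d3 (diff_tt x)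
  have D4 : DifferentiableAt ℝ (fun y : Rn n => a4 (tt y)) x := DifferentiableAt.comp x d4 (diff_tt x)
  have Dc : ∀ k i j, DifferentiableAt ℝ (CC k i j) x := by
    intro k i j
    have Dk := diff_coord k x
    have Di := diff_coord i x
    have Dj := diff_coord j x
    have Dyk := diff_yy J k x
    have Dyi := diff_yy J i x
    have Dyj := diff_yy J j x
    have Dt : DifferentiableAt ℝ (fun y : Rn n => tt y) x := diff_tt x
    simp only [hCC]
    unfold chr
    fun_prop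
  have hx : ∀ k i j, christoffel G k i j x = CC k i j x := h.self_of_nhds
  have hpd : ∀ l k i j, pd l (christoffel G k i j) x = pd l (CC k i j) x := by
    intro l k i j
    apply pd_congr
    filter_upwards [h] with y hy
    exact hy k i j
  -- the four pieces
  have P1 : ∑ k, pd k (fun y => QQ J (a1 (tt y)) (a2 (tt y)) (a3 (tt y)) (a4 (tt y)) v y k) x =
      ∑ i, ∑ j, ∑ k, pd k (CC k i j) x * v i * v j := by
    have e : ∀ k, pd k (fun y => QQ J (a1 (tt y)) (a2 (tt y)) (a3 (tt y)) (a4 (tt y)) v y k) x =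
        ∑ i, ∑ j, pd k (CC k i j) x * v i * v j := by
      intro k
      have e1 : (fun y => QQ J (a1 (tt y)) (a2 (tt y)) (a3 (tt y)) (a4 (tt y)) v y k) =
          fun y => ∑ i, ∑ j, (v i * v j) * CC k i j y := by
        ext y
        rw [← sum_MM]
        apply Finset.sum_congr rfl; intro i _
        rw [← sum_chr, Finset.sum_mul]
        apply Finset.sum_congr rfl; intro j _
        simp only [hCC]; ring
      have Dij : ∀ i j, DifferentiableAt ℝ (fun y => (v i * v j) * CC k i j y) x :=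
        fun i j => (Dc k i j).const_mul _
      rw [e1, pd_sum (fun i _ => DifferentiableAt.fun_sum (fun j _ => Dij i j))]
      apply Finset.sum_congr rfl; intro i _
      rw [pd_sum (fun j _ => Dij i j)]
      apply Finset.sum_congr rfl; intro j _
      rw [pd_const_mul _ (Dc k i j)]; ring
    rw [Finset.sum_congr rfl (fun k _ => e k), Finset.sum_comm]
    apply Finset.sum_congr rfl; intro i _
    rw [Finset.sum_comm]
  have hΘ : ∀ y : Rn n, ∀ i, ∑ k, CC k i k y =
      (n * a1 (tt y) + 2 * tt y * a2 (tt y) + a4 (tt y)) * y i := by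
    intro y i
    exact sum_chr_tr hJ _ _ _ _ i y
  set Θ : ℝ → ℝ := fun t => n * a1 t + 2 * t * a2 t + a4 t with hΘdef
  have dΘ : DifferentiableAt ℝ Θ (tt x) := by
    simp only [hΘdef]; fun_prop
  have DΘ : DifferentiableAt ℝ (fun y : Rn n => Θ (tt y)) x :=
    DifferentiableAt.comp x dΘ (diff_tt x)
  have P2 : ∑ j, v j * pd j (fun y => Θ (tt y) * pp v y) x =
      ∑ i, ∑ j, ∑ k, pd j (CC k i k) x * v i * v j := by
    have e : ∀ j, v j * pd j (fun y => Θ (tt y) * pp v y) x =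
        ∑ i, ∑ k, pd j (CC k i k) x * v i * v j := by
      intro j
      have e1 : (fun y => Θ (tt y) * pp v y) = fun y => ∑ i, ∑ k, v i * CC k i k y := by
        ext y
        unfold pp
        rw [Finset.mul_sum]
        apply Finset.sum_congr rfl; intro i _
        rw [← Finset.mul_sum, hΘ]; simp only [hΘdef]; ring
      have Dik : ∀ i k, DifferentiableAt ℝ (fun y => v i * CC k i k y) x :=
        fun i k => (Dc k i k).const_mul _
      rw [e1, pd_sum (fun i _ => DifferentiableAt.fun_sum (fun k _ => Dik i k)), Finset.mul_sum]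
      apply Finset.sum_congr rfl; intro i _
      rw [pd_sum (fun k _ => Dik i k), Finset.mul_sum]
      apply Finset.sum_congr rfl; intro k _
      rw [pd_const_mul _ (Dc k i k)]; ring
    rw [Finset.sum_congr rfl (fun j _ => e j), Finset.sum_comm]
  have P3 : Θ (tt x) * ∑ l, x l * QQ J (a1 (tt x)) (a2 (tt x)) (a3 (tt x)) (a4 (tt x)) v x l =
      ∑ i, ∑ j, ∑ k, ∑ l, CC k k l x * CC l i j x * v i * v j := by
    have e : ∀ l, Θ (tt x) * (x l * QQ J (a1 (tt x)) (a2 (tt x)) (a3 (tt x)) (a4 (tt x)) v x l) =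
        ∑ i, ∑ j, ∑ k, CC k k l x * CC l i j x * v i * v j := by
      intro l
      rw [← sum_MM, Finset.mul_sum, Finset.mul_sum]
      apply Finset.sum_congr rfl; intro i _
      rw [← sum_chr, Finset.sum_mul, Finset.mul_sum, Finset.mul_sum]
      apply Finset.sum_congr rfl; intro j _
      have e2 : ∑ k, CC k k l x = Θ (tt x) * x l := by
        rw [← hΘ]
        apply Finset.sum_congr rfl; intro k _
        exact chr_symm J _ _ _ _ k k l x
      have e3 : ∑ k, CC k k l x * CC l i j x * v i * v j =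
          (∑ k, CC k k l x) * (CC l i j x * v i * v j) := by
        rw [Finset.sum_mul]
        apply Finset.sum_congr rfl; intro k _; ring
      rw [e3, e2]
      simp only [hCC]; ring
    rw [Finset.mul_sum, Finset.sum_congr rfl (fun l _ => e l), Finset.sum_comm]
    apply Finset.sum_congr rfl; intro i _
    rw [Finset.sum_comm]
    apply Finset.sum_congr rfl; intro j _
    rw [Finset.sum_comm]
  have P4 : ∑ k, ∑ l, MMc J (a1 (tt x)) (a2 (tt x)) (a3 (tt x)) (a4 (tt x)) v x k l *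
      MMc J (a1 (tt x)) (a2 (tt x)) (a3 (tt x)) (a4 (tt x)) v x l k =
      ∑ i, ∑ j, ∑ k, ∑ l, CC k j l x * CC l i k x * v i * v j := by
    have e : ∀ k l, MMc J (a1 (tt x)) (a2 (tt x)) (a3 (tt x)) (a4 (tt x)) v x k l *
        MMc J (a1 (tt x)) (a2 (tt x)) (a3 (tt x)) (a4 (tt x)) v x l k =
        ∑ i, ∑ j, CC k j l x * CC l i k x * v i * v j := by
      intro k l
      rw [← sum_chr, ← sum_chr, Finset.sum_mul_sum, Finset.sum_comm]
      apply Finset.sum_congr rfl; intro i _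
      apply Finset.sum_congr rfl; intro j _
      rw [chr_symm J _ _ _ _ k l j, chr_symm J _ _ _ _ l k i]
      simp only [hCC]; ring
    rw [Finset.sum_congr rfl (fun k _ => Finset.sum_congr rfl (fun l _ => e k l))]
    -- ∑ k ∑ l ∑ i ∑ j → ∑ i ∑ j ∑ k ∑ l
    have s1 : ∀ k, ∑ l, ∑ i, ∑ j, CC k j l x * CC l i k x * v i * v j =
        ∑ i, ∑ j, ∑ l, CC k j l x * CC l i k x * v i * v j := by
      intro k
      rw [Finset.sum_comm]
      apply Finset.sum_congr rfl; intro i _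
      rw [Finset.sum_comm]
    rw [Finset.sum_congr rfl (fun k _ => s1 k), Finset.sum_comm]
    apply Finset.sum_congr rfl; intro i _
    rw [Finset.sum_comm]
  -- assemble
  have main : ∑ i, ∑ j, ricci G i j x * v i * v j =
      ∑ i, ∑ j, ∑ k, pd k (CC k i j) x * v i * v j -
      ∑ i, ∑ j, ∑ k, pd j (CC k i k) x * v i * v j +
      ∑ i, ∑ j, ∑ k, ∑ l, CC k k l x * CC l i j x * v i * v j -
      ∑ i, ∑ j, ∑ k, ∑ l, CC k j l x * CC l i k x * v i * v j := by
    rw [← Finset.sum_sub_distrib, ← Finset.sum_add_distrib, ← Finset.sum_sub_distrib]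
    apply Finset.sum_congr rfl; intro i _
    rw [← Finset.sum_sub_distrib, ← Finset.sum_add_distrib, ← Finset.sum_sub_distrib]
    apply Finset.sum_congr rfl; intro j _
    rw [← Finset.sum_sub_distrib, ← Finset.sum_add_distrib, ← Finset.sum_sub_distrib]
    unfold ricci
    rw [mul_assoc, Finset.sum_mul]
    apply Finset.sum_congr rfl; intro k _
    have e5 : ∑ l, (christoffel G k k l x * christoffel G l i j x -
        christoffel G k j l x * christoffel G l i k x) =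
        ∑ l, CC k k l x * CC l i j x - ∑ l, CC k j l x * CC l i k x := by
      rw [← Finset.sum_sub_distrib]
      apply Finset.sum_congr rfl; intro l _
      rw [hx, hx, hx, hx]
    have e6 : ∑ l, CC k k l x * CC l i j x * v i * v j =
        (∑ l, CC k k l x * CC l i j x) * (v i * v j) := by
      rw [Finset.sum_mul]; apply Finset.sum_congr rfl; intro l _; ring
    have e7 : ∑ l, CC k j l x * CC l i k x * v i * v j =
        (∑ l, CC k j l x * CC l i k x) * (v i * v j) := by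
      rw [Finset.sum_mul]; apply Finset.sum_congr rfl; intro l _; ring
    rw [e5, e6, e7, hpd, hpd]
    ring
  rw [main, ← P1, ← P2, ← P3, ← P4, div_QQ hJ a1 a2 a3 a4 x d1 d2 d3 d4, sum_xQQ hJ, sum_MM_sq hJ]
  have e8 : ∀ j, v j * pd j (fun y => Θ (tt y) * pp v y) x =
      deriv Θ (tt x) * pp v x * (x j * v j) + Θ (tt x) * (v j * v j) := by
    intro j
    rw [pd_mul DΘ (diff_pp v x), pd_comp_tt j x dΘ, pd_pp]; ring
  rw [Finset.sum_congr rfl (fun j _ => e8 j)]
  simp only [Finset.sum_add_distrib, ← Finset.mul_sum]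
  have s_xv : ∑ k, x k * v k = pp v x := rfl
  rw [s_xv]
  unfold cAl cBe cGa
  simp only [← hΘdef]
  simp only [hΘdef]
  ring

end B

end Vale.Agent.P225
end
end

section

section

set_option linter.all false

/-!
# P225, route B, module G4: the logarithmic substitution in the curvature formulas

`F t = exp (2 φ(τ)) / (2 t)`, `K t = F t (exp (2 η(τ)) - 1) / (2 t)`, `τ = log (2 t) / 2`.
-/

open Filter Topology
open scoped ContDiff

namespace Vale.Agent.P225.B

/-- `F` as a function of `t = |x|²/2`. -/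
noncomputable def Fo (φ : ℝ → ℝ) (t : ℝ) : ℝ := Real.exp (2 * φ (Real.log (2 * t) / 2)) / (2 * t)

/-- `K` as a function of `t = |x|²/2`. -/
noncomputable def Ko (φ η : ℝ → ℝ) (t : ℝ) : ℝ :=
  Fo φ t * (Real.exp (2 * η (Real.log (2 * t) / 2)) - 1) / (2 * t)

theorem Fo_pos (φ : ℝ → ℝ) {t : ℝ} (ht : 0 < t) : 0 < Fo φ t := by
  unfold Fo; (clear * - ht; positivity)

theorem Fo_Ko (φ η : ℝ → ℝ) {t : ℝ} (ht : 0 < t) :
    Fo φ t + 2 * t * Ko φ η t = Fo φ t * Real.exp (2 * η (Real.log (2 * t) / 2)) := by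
  unfold Ko
  field_simp
  ring

theorem Fo_Ko_pos (φ η : ℝ → ℝ) {t : ℝ} (ht : 0 < t) : 0 < Fo φ t + 2 * t * Ko φ η t := by
  rw [Fo_Ko φ η ht]
  have := Fo_pos φ ht
  positivity

theorem hasDerivAt_tau {t : ℝ} (ht : 0 < t) :
    HasDerivAt (fun t : ℝ => Real.log (2 * t) / 2) (1 / (2 * t)) t := by
  have h1 : HasDerivAt (fun t : ℝ => 2 * t) 2 t := by
    simpa using (hasDerivAt_id t).const_mul (2 : ℝ)
  have h2 := (h1.log (by positivity)).div_const 2
  refine h2.congr_deriv ?_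
  field_simp

theorem hasDerivAt_comp_tau {f : ℝ → ℝ} {f' t : ℝ} (ht : 0 < t)
    (hf : HasDerivAt f f' (Real.log (2 * t) / 2)) :
    HasDerivAt (fun t => f (Real.log (2 * t) / 2)) (f' / (2 * t)) t := by
  refine (hf.comp t (hasDerivAt_tau ht)).congr_deriv ?_
  ring

theorem hasDerivAt_Fo {φ : ℝ → ℝ} {s t : ℝ} (ht : 0 < t)
    (hf : HasDerivAt φ s (Real.log (2 * t) / 2)) :
    HasDerivAt (Fo φ) (Fo φ t * ((s - 1) / t)) t := by
  have h1 := ((hasDerivAt_comp_tau ht hf).const_mul 2).exp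
  have h2 : HasDerivAt (fun t : ℝ => 2 * t) 2 t := by
    simpa using (hasDerivAt_id t).const_mul (2 : ℝ)
  refine (h1.div h2 (by positivity)).congr_deriv ?_
  unfold Fo
  field_simp

theorem hasDerivAt_Ko {φ η : ℝ → ℝ} {s e t : ℝ} (ht : 0 < t)
    (hf : HasDerivAt φ s (Real.log (2 * t) / 2)) (hg : HasDerivAt η e (Real.log (2 * t) / 2)) :
    HasDerivAt (Ko φ η) (Fo φ t * (((s - 2) * (Real.exp (2 * η (Real.log (2 * t) / 2)) - 1) +
      e * Real.exp (2 * η (Real.log (2 * t) / 2))) / (2 * t ^ 2))) t := by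
  have h1 := ((hasDerivAt_comp_tau ht hg).const_mul 2).exp
  have h2 : HasDerivAt (fun t : ℝ => 2 * t) 2 t := by
    simpa using (hasDerivAt_id t).const_mul (2 : ℝ)
  have h3 := (((hasDerivAt_Fo ht hf).mul (h1.sub_const 1)).div h2 (by (clear * - ht; positivity)))
  refine h3.congr_deriv ?_
  simp only [Pi.mul_apply]
  field_simp
  ring

section

variable {φ η : ℝ → ℝ}

theorem A1_Fo {t : ℝ} (ht : 0 < t) (hφ : Differentiable ℝ φ) :
    A1 (Fo φ) t = (deriv φ (Real.log (2 * t) / 2) - 1) / (2 * t) := by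
  have h := (hasDerivAt_Fo ht (hφ (Real.log (2 * t) / 2)).hasDerivAt).deriv
  have hp := (Fo_pos φ ht).ne'
  unfold A1
  rw [h]
  field_simp

theorem A4_Fo {t : ℝ} (ht : 0 < t) :
    A4 (Fo φ) (Ko φ η) t = (Real.exp (2 * η (Real.log (2 * t) / 2)) - 1) / (2 * t) := by
  have hp := (Fo_pos φ ht).ne'
  unfold A4 Ko
  field_simp

theorem A3_Fo {t : ℝ} (ht : 0 < t) (hφ : Differentiable ℝ φ) (hη : Differentiable ℝ η) :
    A3 (Fo φ) (Ko φ η) t = ((deriv φ (Real.log (2 * t) / 2) - 2) *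
      (Real.exp (2 * η (Real.log (2 * t) / 2)) - 1) +
      deriv η (Real.log (2 * t) / 2) * Real.exp (2 * η (Real.log (2 * t) / 2))) / (4 * t ^ 2) := by
  have h := (hasDerivAt_Ko ht (hφ (Real.log (2 * t) / 2)).hasDerivAt
    (hη (Real.log (2 * t) / 2)).hasDerivAt).deriv
  have hp := (Fo_pos φ ht).ne'
  unfold A3
  rw [h]
  field_simp
  ring

theorem A2_Fo {t : ℝ} (ht : 0 < t) (hφ : Differentiable ℝ φ) (hη : Differentiable ℝ η) :
    A2 (Fo φ) (Ko φ η) t = (deriv η (Real.log (2 * t) / 2) -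
      Real.exp (2 * η (Real.log (2 * t) / 2)) + 1) / (4 * t ^ 2) := by
  have h := (hasDerivAt_Ko ht (hφ (Real.log (2 * t) / 2)).hasDerivAt
    (hη (Real.log (2 * t) / 2)).hasDerivAt).deriv
  have h0 := (hasDerivAt_Fo ht (hφ (Real.log (2 * t) / 2)).hasDerivAt).deriv
  have hp := (Fo_pos φ ht).ne'
  have hK : Ko φ η t = Fo φ t * (Real.exp (2 * η (Real.log (2 * t) / 2)) - 1) / (2 * t) := rfl
  have he : Real.exp (2 * η (Real.log (2 * t) / 2)) ≠ 0 := (Real.exp_pos _).ne'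
  unfold A2
  rw [Fo_Ko φ η ht, h, h0, hK]
  field_simp
  ring

end


/-! ### The coefficient functions -/

/-- first Christoffel coefficient -/
noncomputable def b1 (φ : ℝ → ℝ) (t : ℝ) : ℝ := (deriv φ (Real.log (2 * t) / 2) - 1) / (2 * t)

/-- second Christoffel coefficient -/
noncomputable def b2 (η : ℝ → ℝ) (t : ℝ) : ℝ :=
  (deriv η (Real.log (2 * t) / 2) - Real.exp (2 * η (Real.log (2 * t) / 2)) + 1) / (4 * t ^ 2)

/-- third Christoffel coefficient -/
noncomputable def b3 (φ η : ℝ → ℝ) (t : ℝ) : ℝ :=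
  ((deriv φ (Real.log (2 * t) / 2) - 2) * (Real.exp (2 * η (Real.log (2 * t) / 2)) - 1) +
      deriv η (Real.log (2 * t) / 2) * Real.exp (2 * η (Real.log (2 * t) / 2))) / (4 * t ^ 2)

/-- fourth Christoffel coefficient -/
noncomputable def b4 (η : ℝ → ℝ) (t : ℝ) : ℝ :=
  (Real.exp (2 * η (Real.log (2 * t) / 2)) - 1) / (2 * t)

section

variable {φ η : ℝ → ℝ} {s' e' e'' t : ℝ}

theorem hasDerivAt_b1 (ht : 0 < t) (h : HasDerivAt (deriv φ) s' (Real.log (2 * t) / 2)) :
    HasDerivAt (b1 φ) ((s' - 2 * (deriv φ (Real.log (2 * t) / 2) - 1)) / (4 * t ^ 2)) t := by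
  have h2 : HasDerivAt (fun t : ℝ => 2 * t) 2 t := by
    simpa only [id_eq, mul_one] using (hasDerivAt_id t).const_mul (2 : ℝ)
  refine (((hasDerivAt_comp_tau ht h).sub_const 1).div h2 (by positivity)).congr_deriv ?_
  field_simp
  ring

theorem hasDerivAt_quarter (ht : 0 < t) : HasDerivAt (fun t : ℝ => 4 * t ^ 2) (8 * t) t := by
  have h := ((hasDerivAt_id t).pow 2).const_mul (4 : ℝ)
  refine h.congr_deriv ?_
  simp only [Nat.cast_ofNat, id_eq, Nat.add_one_sub_one, pow_one, mul_one]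
  ring

theorem hasDerivAt_b2 (ht : 0 < t) (hη : HasDerivAt η e' (Real.log (2 * t) / 2))
    (h : HasDerivAt (deriv η) e'' (Real.log (2 * t) / 2)) :
    HasDerivAt (b2 η) ((e'' - 2 * e' * Real.exp (2 * η (Real.log (2 * t) / 2)) -
      4 * (deriv η (Real.log (2 * t) / 2) - Real.exp (2 * η (Real.log (2 * t) / 2)) + 1)) /
      (8 * t ^ 3)) t := by
  have h1 := ((hasDerivAt_comp_tau ht hη).const_mul 2).exp
  refine ((((hasDerivAt_comp_tau ht h).sub h1).add_const 1).div (hasDerivAt_quarter ht)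
    (by positivity)).congr_deriv ?_
  simp only [Pi.sub_apply]
  field_simp
  ring

theorem hasDerivAt_b3 (ht : 0 < t) (hφ : HasDerivAt (deriv φ) s' (Real.log (2 * t) / 2))
    (hη : HasDerivAt η e' (Real.log (2 * t) / 2))
    (h : HasDerivAt (deriv η) e'' (Real.log (2 * t) / 2)) :
    HasDerivAt (b3 φ η) ((s' * (Real.exp (2 * η (Real.log (2 * t) / 2)) - 1) +
      (deriv φ (Real.log (2 * t) / 2) - 2) * (2 * e' * Real.exp (2 * η (Real.log (2 * t) / 2))) +
      e'' * Real.exp (2 * η (Real.log (2 * t) / 2)) +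
      deriv η (Real.log (2 * t) / 2) * (2 * e' * Real.exp (2 * η (Real.log (2 * t) / 2))) -
      4 * ((deriv φ (Real.log (2 * t) / 2) - 2) * (Real.exp (2 * η (Real.log (2 * t) / 2)) - 1) +
      deriv η (Real.log (2 * t) / 2) * Real.exp (2 * η (Real.log (2 * t) / 2)))) /
      (8 * t ^ 3)) t := by
  have h1 := ((hasDerivAt_comp_tau ht hη).const_mul 2).exp
  have h2 := (hasDerivAt_comp_tau ht hφ).sub_const 2
  have h3 := (hasDerivAt_comp_tau ht h).mul h1
  refine (((h2.mul (h1.sub_const 1)).add h3).div (hasDerivAt_quarter ht)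
    (by positivity)).congr_deriv ?_
  simp only [Pi.add_apply, Pi.mul_apply]
  field_simp
  ring

theorem hasDerivAt_b4 (ht : 0 < t) (hη : HasDerivAt η e' (Real.log (2 * t) / 2)) :
    HasDerivAt (b4 η) ((2 * e' * Real.exp (2 * η (Real.log (2 * t) / 2)) -
      2 * (Real.exp (2 * η (Real.log (2 * t) / 2)) - 1)) / (4 * t ^ 2)) t := by
  have h2 : HasDerivAt (fun t : ℝ => 2 * t) 2 t := by
    simpa only [id_eq, mul_one] using (hasDerivAt_id t).const_mul (2 : ℝ)
  have h1 := ((hasDerivAt_comp_tau ht hη).const_mul 2).exp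
  refine ((h1.sub_const 1).div h2 (by positivity)).congr_deriv ?_
  field_simp
  ring

/-- the trace of the Christoffel symbols -/
theorem theta_eq (n : ℕ) (ht : 0 < t) :
    (n : ℝ) * b1 φ t + 2 * t * b2 η t + b4 η t =
      (n * (deriv φ (Real.log (2 * t) / 2) - 1) + deriv η (Real.log (2 * t) / 2)) / (2 * t) := by
  unfold b1 b2 b4
  field_simp
  ring

theorem hasDerivAt_theta (n : ℕ) (ht : 0 < t)
    (hφ : HasDerivAt (deriv φ) s' (Real.log (2 * t) / 2))
    (h : HasDerivAt (deriv η) e'' (Real.log (2 * t) / 2)) :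
    HasDerivAt (fun t => (n : ℝ) * b1 φ t + 2 * t * b2 η t + b4 η t)
      ((n * s' + e'' - 2 * (n * (deriv φ (Real.log (2 * t) / 2) - 1) +
        deriv η (Real.log (2 * t) / 2))) / (4 * t ^ 2)) t := by
  have h2 : HasDerivAt (fun t : ℝ => 2 * t) 2 t := by
    simpa only [id_eq, mul_one] using (hasDerivAt_id t).const_mul (2 : ℝ)
  have h3 := ((((hasDerivAt_comp_tau ht hφ).sub_const 1).const_mul (n : ℝ)).add
    (hasDerivAt_comp_tau ht h)).div h2 (by positivity)
  refine (h3.congr_of_eventuallyEq ?_).congr_deriv ?_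
  · filter_upwards [lt_mem_nhds ht] with u hu
    rw [theta_eq n hu]
    rfl
  · simp only [Pi.add_apply]
    field_simp
    ring

/-- `R₃`, the curvature in the directions orthogonal to `x, Jx`. -/
theorem two_t_cAl (n : ℕ) (ht : 0 < t) (hφ : HasDerivAt (deriv φ) s' (Real.log (2 * t) / 2))
    (hη : HasDerivAt η e' (Real.log (2 * t) / 2)) :
    2 * t * cAl n (b1 φ) (b2 η) (b4 η) t =
      n - 2 * Real.exp (2 * η (Real.log (2 * t) / 2)) -
        (n - 2) * deriv φ (Real.log (2 * t) / 2) ^ 2 - s' -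
        deriv φ (Real.log (2 * t) / 2) * e' := by
  have he : deriv η (Real.log (2 * t) / 2) = e' := hη.deriv
  unfold cAl
  rw [theta_eq n ht, (hasDerivAt_b1 ht hφ).deriv]
  unfold b1 b4
  rw [he]
  field_simp
  ring

/-- `R₁`, the radial curvature. -/
theorem two_t_cBe (n : ℕ) (ht : 0 < t) (hφ : HasDerivAt (deriv φ) s' (Real.log (2 * t) / 2))
    (hη : HasDerivAt η e' (Real.log (2 * t) / 2))
    (h : HasDerivAt (deriv η) e'' (Real.log (2 * t) / 2)) :
    2 * t * (cAl n (b1 φ) (b2 η) (b4 η) t + 2 * t * cBe n (b1 φ) (b2 η) (b4 η) t) =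
      -(n - 1) * s' - e'' - deriv φ (Real.log (2 * t) / 2) * e' - e' ^ 2 := by
  have he : deriv η (Real.log (2 * t) / 2) = e' := hη.deriv
  rw [mul_add, two_t_cAl n ht hφ hη]
  unfold cBe
  rw [theta_eq n ht, (hasDerivAt_b1 ht hφ).deriv, (hasDerivAt_theta n ht hφ h).deriv]
  unfold b1 b2 b4
  rw [he]
  field_simp
  ring

/-- `h² R₂`, the curvature in the direction `Jx`. -/
theorem two_t_cGa (n : ℕ) (ht : 0 < t) (hφ : HasDerivAt (deriv φ) s' (Real.log (2 * t) / 2))
    (hη : HasDerivAt η e' (Real.log (2 * t) / 2))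
    (h : HasDerivAt (deriv η) e'' (Real.log (2 * t) / 2)) :
    2 * t * (cAl n (b1 φ) (b2 η) (b4 η) t + 2 * t * cGa n (b1 φ) (b2 η) (b3 φ η) (b4 η) t) =
      Real.exp (2 * η (Real.log (2 * t) / 2)) *
      ((n - 2) * (Real.exp (2 * η (Real.log (2 * t) / 2)) -
        deriv φ (Real.log (2 * t) / 2) ^ 2) - s' -
        (n - 1) * deriv φ (Real.log (2 * t) / 2) * e' - e' ^ 2 - e'') := by
  have he : deriv η (Real.log (2 * t) / 2) = e' := hη.deriv
  rw [mul_add, two_t_cAl n ht hφ hη]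
  unfold cGa
  rw [theta_eq n ht, (hasDerivAt_b3 ht hφ hη h).deriv, (hasDerivAt_b4 ht hη).deriv]
  unfold b1 b2 b3 b4
  rw [he]
  field_simp
  ring

end

/-! ### The conclusion -/

open RMetric

variable {n : ℕ}

theorem tt_eq (x : Rn n) : tt x = ‖x‖ ^ 2 / 2 := by
  unfold tt
  rw [EuclideanSpace.real_norm_sq_eq]
  congr 1
  exact Finset.sum_congr rfl fun i _ => (pow_two _).symm

theorem tt_pos {x : Rn n} (hx : x ≠ 0) : 0 < tt x := by
  rw [tt_eq]
  have := norm_pos_iff.2 hx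
  positivity

theorem log_tt (x : Rn n) : Real.log (2 * tt x) / 2 = Real.log ‖x‖ := by
  rw [tt_eq, show 2 * (‖x‖ ^ 2 / 2) = ‖x‖ ^ 2 by ring, Real.log_pow]
  push_cast
  ring

/-- Bessel's inequality for the orthogonal vectors `x, Jx`. -/
theorem bessel_sum {J : Matrix (Fin n) (Fin n) ℝ} (hJ : IsJ J) {x : Rn n} (hx : x ≠ 0)
    (v : Rn n) : pp v x ^ 2 + rr J v x ^ 2 ≤ 2 * tt x * ∑ i, v i * v i := by
  have ht := tt_pos hx
  have h0 : 0 ≤ ∑ i, (2 * tt x * v i - pp v x * x i - rr J v x * yy J x i) *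
      (2 * tt x * v i - pp v x * x i - rr J v x * yy J x i) :=
    Finset.sum_nonneg fun i _ => mul_self_nonneg _
  have h1 : ∑ i, (2 * tt x * v i - pp v x * x i - rr J v x * yy J x i) *
      (2 * tt x * v i - pp v x * x i - rr J v x * yy J x i) =
      (2 * tt x) ^ 2 * (∑ i, v i * v i) + pp v x ^ 2 * (∑ i, x i * x i) +
      rr J v x ^ 2 * (∑ i, yy J x i * yy J x i) - 4 * tt x * pp v x * (∑ i, x i * v i) -
      4 * tt x * rr J v x * (∑ i, yy J x i * v i) +
      2 * pp v x * rr J v x * (∑ i, x i * yy J x i) := by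
    simp only [Finset.mul_sum, ← Finset.sum_add_distrib, ← Finset.sum_sub_distrib]
    exact Finset.sum_congr rfl fun i _ => by ring
  have e1 : ∑ i, x i * v i = pp v x := rfl
  have e2 : ∑ i, yy J x i * v i = rr J v x := rfl
  rw [h1, sum_xx x, sum_yy hJ, sum_xy hJ, e1, e2] at h0
  have h2 : 0 ≤ (2 * tt x) * (2 * tt x * (∑ i, v i * v i) - pp v x ^ 2 - rr J v x ^ 2) := by
    linarith only [h0]
  have h3 := nonneg_of_mul_nonneg_right h2 (by (clear * - ht; positivity))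
  linarith only [h3]

theorem christoffel_congr_at {G G' : Rn n → Matrix (Fin n) (Fin n) ℝ} {x : Rn n}
    (h : G =ᶠ[𝓝 x] G') (k i j : Fin n) : christoffel G k i j x = christoffel G' k i j x := by
  have h1 : ∀ i j l, pd l (fun y => G y i j) x = pd l (fun y => G' y i j) x := by
    intro i j l
    apply pd_congr
    filter_upwards [h] with y hy
    rw [hy]
  unfold christoffel
  rw [h.self_of_nhds]
  simp only [h1]

theorem christoffel_model {J : Matrix (Fin n) (Fin n) ℝ} (hJ : IsJ J) {φ η : ℝ → ℝ}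
    (hφ : Differentiable ℝ φ) (hη : Differentiable ℝ η) {x : Rn n} (hx : x ≠ 0) (k i j : Fin n) :
    christoffel (GG J (Fo φ) (Ko φ η)) k i j x =
      chr J (b1 φ (tt x)) (b2 η (tt x)) (b3 φ η (tt x)) (b4 η (tt x)) k i j x := by
  have ht := tt_pos hx
  have hF := (hasDerivAt_Fo ht (hφ (Real.log (2 * tt x) / 2)).hasDerivAt).differentiableAt
  have hK := (hasDerivAt_Ko ht (hφ (Real.log (2 * tt x) / 2)).hasDerivAt
    (hη (Real.log (2 * tt x) / 2)).hasDerivAt).differentiableAt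
  rw [christoffel_GG hJ _ _ x hF hK (Fo_pos φ ht).ne' (Fo_Ko_pos φ η ht).ne', A1_Fo ht hφ,
    A2_Fo ht hφ hη, A3_Fo ht hφ hη, A4_Fo ht]
  rfl

/-- **G4.** The three curvature inequalities at `τ = log |x|` give `Ric ≥ 0` at `x ≠ 0`, for every
metric which near `x` is the model metric of `(φ, η, J)` with `J` constant. -/
theorem ricci_model_nonneg {J : Matrix (Fin n) (Fin n) ℝ} (hJ : IsJ J) {φ η : ℝ → ℝ}
    (hφ : ContDiff ℝ ∞ φ) (hη : ContDiff ℝ ∞ η) {x : Rn n} (hx : x ≠ 0)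
    {G : Rn n → Matrix (Fin n) (Fin n) ℝ} (hG : G =ᶠ[𝓝 x] GG J (Fo φ) (Ko φ η))
    (h1 : 0 ≤ -(n - 1) * deriv (deriv φ) (Real.log ‖x‖) - deriv (deriv η) (Real.log ‖x‖) -
      deriv φ (Real.log ‖x‖) * deriv η (Real.log ‖x‖) - deriv η (Real.log ‖x‖) ^ 2)
    (h2 : 0 ≤ (n - 2) * (Real.exp (2 * η (Real.log ‖x‖)) - deriv φ (Real.log ‖x‖) ^ 2) -
      deriv (deriv φ) (Real.log ‖x‖) - (n - 1) * deriv φ (Real.log ‖x‖) *
      deriv η (Real.log ‖x‖) - deriv η (Real.log ‖x‖) ^ 2 - deriv (deriv η) (Real.log ‖x‖))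
    (h3 : 0 ≤ n - 2 * Real.exp (2 * η (Real.log ‖x‖)) - (n - 2) * deriv φ (Real.log ‖x‖) ^ 2 -
      deriv (deriv φ) (Real.log ‖x‖) - deriv φ (Real.log ‖x‖) * deriv η (Real.log ‖x‖))
    (v : Rn n) : 0 ≤ ∑ i, ∑ j, ricci G i j x * v i * v j := by
  have ht := tt_pos hx
  have dφ : Differentiable ℝ φ := hφ.differentiable (by simp)
  have dη : Differentiable ℝ η := hη.differentiable (by simp)
  have hφ' : ContDiff ℝ ∞ (deriv φ) := (contDiff_infty_iff_deriv.1 hφ).2
  have hη' : ContDiff ℝ ∞ (deriv η) := (contDiff_infty_iff_deriv.1 hη).2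
  have dφ' := (hφ'.differentiable (by simp) (Real.log (2 * tt x) / 2)).hasDerivAt
  have dη' := (hη'.differentiable (by simp) (Real.log (2 * tt x) / 2)).hasDerivAt
  have dη0 := (dη (Real.log (2 * tt x) / 2)).hasDerivAt
  have hne : ∀ᶠ y in 𝓝 x, y ≠ 0 := isOpen_ne.mem_nhds hx
  have hchr : ∀ᶠ y in 𝓝 x, ∀ k i j, christoffel G k i j y =
      chr J (b1 φ (tt y)) (b2 η (tt y)) (b3 φ η (tt y)) (b4 η (tt y)) k i j y := by
    filter_upwards [hG.eventuallyEq_nhds, hne] with y hy hy0 k i j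
    rw [christoffel_congr_at hy, christoffel_model hJ dφ dη hy0]
  rw [ric_quad hJ (b1 φ) (b2 η) (b3 φ η) (b4 η) x hchr
    (hasDerivAt_b1 ht dφ').differentiableAt
    (hasDerivAt_b2 ht dη0 dη').differentiableAt
    (hasDerivAt_b3 ht dφ' dη0 dη').differentiableAt
    (hasDerivAt_b4 ht dη0).differentiableAt v]
  have E3 := two_t_cAl n ht dφ' dη0
  have E1 := two_t_cBe n ht dφ' dη0 dη'
  have E2 := two_t_cGa n ht dφ' dη0 dη'
  simp only [log_tt] at E1 E2 E3
  rw [← E3] at h3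
  rw [← E1] at h1
  have h2' := mul_nonneg (Real.exp_pos (2 * η (Real.log ‖x‖))).le h2
  rw [← E2] at h2'
  have hb := bessel_sum hJ hx v
  set N := ∑ i, v i * v i
  set p := pp v x
  set r := rr J v x
  set t := tt x
  set al := cAl n (b1 φ) (b2 η) (b4 η) t
  set be := cBe n (b1 φ) (b2 η) (b4 η) t
  set ga := cGa n (b1 φ) (b2 η) (b3 φ η) (b4 η) t
  have h2t : 0 < 2 * t := by (clear * - ht; positivity)
  have k3 : 0 ≤ al := nonneg_of_mul_nonneg_right h3 h2t
  have k1 : 0 ≤ al + 2 * t * be := nonneg_of_mul_nonneg_right h1 h2t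
  have k2 : 0 ≤ al + 2 * t * ga := nonneg_of_mul_nonneg_right h2' h2t
  have m3 : 0 ≤ al * (2 * t * N - (p ^ 2 + r ^ 2)) := mul_nonneg k3 (by linarith only [hb])
  have m1 : 0 ≤ (al + 2 * t * be) * p ^ 2 := mul_nonneg k1 (sq_nonneg p)
  have m2 : 0 ≤ (al + 2 * t * ga) * r ^ 2 := mul_nonneg k2 (sq_nonneg r)
  have key : 0 ≤ 2 * t * (al * N + be * p ^ 2 + ga * r ^ 2) := by linarith only [m3, m1, m2]
  exact nonneg_of_mul_nonneg_right key h2t

end Vale.Agent.P225.B
end
end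

section

section

/-!
# P225, design B, part B2: gluing the cycles
-/

open Set Filter Topology
open scoped ContDiff

namespace Vale.Agent.P225.B2

/-- The starting times of the cycles. -/
noncomputable def tq (l : ℕ) (t0 : ℝ) : ℕ → ℝ
  | 0 => t0
  | j + 1 => T3 l (tq l t0 j)

section

variable {l : ℕ} {t0 : ℝ}

theorem tq_ge_one (ht0 : 1 ≤ t0) (j : ℕ) : 1 ≤ tq l t0 j := by
  induction j with
  | zero => exact ht0
  | succ j ih =>
    have := T3_gt (l := l) (t := tq l t0 j) (by linarith only [ih])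
    simp only [tq]
    linarith only [ih, this]

theorem tq_lt (ht0 : 1 ≤ t0) (j : ℕ) : tq l t0 j + 1 ≤ tq l t0 (j + 1) := by
  have h1 := tq_ge_one (l := l) ht0 j
  have h2 := T1_ge (l := l) (t := tq l t0 j) (by linarith only [h1])
  have h3 := T2_ge (l := l) (t := tq l t0 j) (by linarith only [h1])
  have h4 : 1 ≤ rr (tq l t0 j) := Real.one_le_rpow h1 (by norm_num)
  simp only [tq]
  unfold T3
  linarith only [h2, h3, h4]

theorem tq_strictMono (ht0 : 1 ≤ t0) : StrictMono (tq l t0) :=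
  strictMono_nat_of_lt_succ fun j => by have := tq_lt (l := l) ht0 j; linarith

theorem tq_ge_add (ht0 : 1 ≤ t0) (j : ℕ) : t0 + j ≤ tq l t0 j := by
  induction j with
  | zero => simp only [CharP.cast_eq_zero, add_zero, tq, Std.le_refl]
  | succ j ih =>
    have := tq_lt (l := l) ht0 j
    push_cast
    linarith only [ih, this]

theorem exists_lt_tq (ht0 : 1 ≤ t0) (x : ℝ) : ∃ j, x < tq l t0 (j + 1) := by
  obtain ⟨j, hj⟩ := exists_nat_gt x
  refine ⟨j, ?_⟩
  have := tq_ge_add (l := l) ht0 (j + 1)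
  push_cast at this
  linarith

open Classical in
/-- The index of the cycle containing `x` (`0` before the first cycle). -/
noncomputable def idx (l : ℕ) (t0 : ℝ) (x : ℝ) : ℕ :=
  if h : ∃ j, x < tq l t0 (j + 1) then Nat.find h else 0

theorem idx_spec (ht0 : 1 ≤ t0) (x : ℝ) : x < tq l t0 (idx l t0 x + 1) := by
  classical
  unfold idx
  rw [dif_pos (exists_lt_tq ht0 x)]
  exact Nat.find_spec (exists_lt_tq ht0 x)

theorem idx_eq (ht0 : 1 ≤ t0) {x : ℝ} {j : ℕ} (h1 : tq l t0 j ≤ x) (h2 : x < tq l t0 (j + 1)) :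
    idx l t0 x = j := by
  classical
  unfold idx
  rw [dif_pos (exists_lt_tq ht0 x)]
  refine (Nat.find_eq_iff _).2 ⟨h2, fun i hi => ?_⟩
  rw [not_lt]
  exact le_trans ((tq_strictMono ht0).monotone (by omega)) h1

theorem idx_eq_zero (ht0 : 1 ≤ t0) {x : ℝ} (h2 : x < tq l t0 1) : idx l t0 x = 0 := by
  classical
  unfold idx
  rw [dif_pos (exists_lt_tq ht0 x)]
  refine (Nat.find_eq_iff _).2 ⟨by simpa using h2, fun i hi => by omega⟩

theorem idx_ge (ht0 : 1 ≤ t0) {x : ℝ} (h : t0 ≤ x) : tq l t0 (idx l t0 x) ≤ x := by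
  classical
  rcases Nat.eq_zero_or_pos (idx l t0 x) with h0 | h0
  · rw [h0]; exact h
  · obtain ⟨i, hi⟩ : ∃ i, idx l t0 x = i + 1 := ⟨idx l t0 x - 1, by (clear * - h0; omega)⟩
    rw [hi]
    by_contra hlt
    rw [not_le] at hlt
    have : idx l t0 x ≤ i := by
      unfold idx
      rw [dif_pos (exists_lt_tq ht0 x)]
      exact Nat.find_min' _ hlt
    omega

/-- For `x` in the closed cycle `j` (or before, if `j = 0`), a family of functions that agree
near the times `tq (j+1)` is glued: near `x` the glued function is the `j`-th one. -/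
theorem glue_eventuallyEq {α : Type*} (ht0 : 1 ≤ t0) (f : ℕ → ℝ → α)
    (hf : ∀ j, ∀ᶠ y in 𝓝 (tq l t0 (j + 1)), f (j + 1) y = f j y) (j : ℕ) {x : ℝ}
    (hx : tq l t0 j ≤ x ∨ j = 0) (hx' : x ≤ tq l t0 (j + 1)) :
    ∀ᶠ y in 𝓝 x, f (idx l t0 y) y = f j y := by
  have hsm := tq_strictMono (l := l) ht0
  -- left side
  have key : ∀ j x, tq l t0 j < x → x < tq l t0 (j + 1) →
      ∀ᶠ y in 𝓝 x, f (idx l t0 y) y = f j y := by
    intro j x h1 h2
    filter_upwards [Ioo_mem_nhds h1 h2] with y hy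
    rw [idx_eq ht0 (le_of_lt hy.1) hy.2]
  have key0 : ∀ x, x < tq l t0 1 → ∀ᶠ y in 𝓝 x, f (idx l t0 y) y = f 0 y := by
    intro x h2
    filter_upwards [Iio_mem_nhds h2] with y hy
    rw [idx_eq_zero ht0 hy]
  -- at a junction
  have keyj : ∀ j, ∀ᶠ y in 𝓝 (tq l t0 (j + 1)), f (idx l t0 y) y = f j y ∧
      f (idx l t0 y) y = f (j + 1) y := by
    intro j
    have h2 : tq l t0 (j + 1) < tq l t0 (j + 2) := hsm (by omega)
    rcases j with _ | j
    · filter_upwards [hf 0, Iio_mem_nhds h2] with y hy hy2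
      rcases lt_or_ge y (tq l t0 1) with h | h
      · rw [idx_eq_zero ht0 h]
        exact ⟨rfl, hy.symm⟩
      · rw [idx_eq ht0 h hy2]
        exact ⟨hy, rfl⟩
    · have h1 : tq l t0 (j + 1) < tq l t0 (j + 1 + 1) := hsm (by omega)
      filter_upwards [hf (j + 1), Ioo_mem_nhds h1 h2] with y hy hy2
      rcases lt_or_ge y (tq l t0 (j + 1 + 1)) with h | h
      · rw [idx_eq ht0 (le_of_lt hy2.1) h]
        exact ⟨rfl, hy.symm⟩
      · rw [idx_eq ht0 h hy2.2]
        exact ⟨hy, rfl⟩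
  rcases lt_or_eq_of_le hx' with h' | rfl
  · rcases hx with h | rfl
    · rcases lt_or_eq_of_le h with h | rfl
      · exact key j x h h'
      · rcases j with _ | j
        · exact key0 _ h'
        · exact (keyj j).mono fun y hy => hy.2
    · exact key0 x h'
  · exact (keyj j).mono fun y hy => hy.1

end

end Vale.Agent.P225.B2
end
end

section

section

/-!
# P225, route B, B3-35 (B): signed permutations in a submonoid containing all exponentials
-/

open Finset

set_option linter.unusedSectionVars false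

namespace Vale.Agent.P225.B3

theorem exp_of_sq_zero {A : Type*} [Ring A] [Algebra ℝ A] [TopologicalSpace A]
    [IsTopologicalRing A] [T2Space A] {N : A} (h : N * N = 0) :
    NormedSpace.exp N = 1 + N := by
  have h2 : ∀ n ∉ Finset.range 2, ((n.factorial : ℝ)⁻¹) • N ^ n = 0 := by
    intro n hn
    rw [Finset.mem_range, not_lt] at hn
    obtain ⟨k, rfl⟩ := Nat.exists_eq_add_of_le hn
    rw [pow_add, pow_two, h, zero_mul, smul_zero]
  rw [congrFun (NormedSpace.exp_eq_tsum ℝ) N, tsum_eq_sum h2]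
  simp only [sum_range_succ, range_one, sum_singleton, Nat.factorial_zero, Nat.cast_one, inv_one, pow_zero, one_smul, Nat.factorial_one, pow_one]

section one

variable {ι : Type} [Fintype ι] [DecidableEq ι]

/-- The elementary operator `e_b ↦ e_a`. -/
noncomputable def EL (a b : ι) : (ι → ℝ) →L[ℝ] (ι → ℝ) :=
  (ContinuousLinearMap.proj (R := ℝ) b : (ι → ℝ) →L[ℝ] ℝ).smulRight (Pi.single a 1)

theorem EL_apply (a b : ι) (v : ι → ℝ) : EL a b v = v b • Pi.single a 1 := rfl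

theorem EL_single_self (a b : ι) : EL a b (Pi.single b 1) = Pi.single a 1 := by
  rw [EL_apply, Pi.single_eq_same, one_smul]

theorem EL_single_ne {a b c : ι} (h : c ≠ b) : EL a b (Pi.single c 1) = 0 := by
  rw [EL_apply, Pi.single_eq_of_ne (Ne.symm h), zero_smul]

theorem EL_sq {a b : ι} (h : a ≠ b) (r : ℝ) : (r • EL a b) * (r • EL a b) = 0 := by
  ext v i
  simp only [Algebra.mul_smul_comm, Algebra.smul_mul_assoc, smul_apply, mul_apply_eq_comp, EL_apply, map_smul, Pi.single_eq_of_ne (Ne.symm h), zero_smul, smul_zero, Pi.smul_apply, Pi.zero_apply, smul_eq_mul, mul_zero, zero_apply]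

/-- the signed swap -/
noncomputable def SW (a b : ι) : (ι → ℝ) →L[ℝ] (ι → ℝ) :=
  (1 + (1 : ℝ) • EL a b) * (1 + (-1 : ℝ) • EL b a) * (1 + (1 : ℝ) • EL a b)

theorem SW_single {a b : ι} (h : a ≠ b) (i : ι) :
    ∃ s : ℝ, |s| = 1 ∧ SW a b (Pi.single i 1) = s • Pi.single (Equiv.swap a b i) 1 := by
  by_cases hia : i = a
  · subst hia
    refine ⟨-1, by norm_num, ?_⟩
    simp [SW, EL_single_self, EL_single_ne h, Equiv.swap_apply_left]
  · by_cases hib : i = b
    · subst hib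
      refine ⟨1, by norm_num, ?_⟩
      simp [SW, EL_single_self, EL_single_ne h, EL_single_ne (Ne.symm h)]
    · refine ⟨1, by norm_num, ?_⟩
      simp only [SW, one_smul, mul_apply_eq_comp, add_apply, one_apply_eq_self, EL_single_ne hib, add_zero, smul_apply, EL_single_ne hia, smul_zero, Equiv.swap_apply_of_ne_of_ne hia hib]

end one

section main

variable {D : Type} [Fintype D] [DecidableEq D] {ι : D → Type} [∀ d, Fintype (ι d)]
  [∀ d, DecidableEq (ι d)]

/-- `π` is realised, with signs, by an element of `H`. -/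
def Real1 (H : Submonoid ((d : D) → (ι d → ℝ) →L[ℝ] (ι d → ℝ)))
    (π : ∀ d, Equiv.Perm (ι d)) : Prop :=
  ∃ T ∈ H, ∃ sg : ∀ d, ι d → ℝ, (∀ d i, |sg d i| = 1) ∧
    ∀ d i, T d (Pi.single i 1) = sg d i • Pi.single (π d i) 1

theorem Real1.one (H : Submonoid ((d : D) → (ι d → ℝ) →L[ℝ] (ι d → ℝ))) :
    Real1 H (fun _ => 1) :=
  ⟨1, H.one_mem, fun _ _ => 1, fun _ _ => by simp, fun d i => by simp only [Pi.one_apply, one_apply_eq_self, Equiv.Perm.coe_one, id_eq, one_smul]⟩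

theorem Real1.mul {H : Submonoid ((d : D) → (ι d → ℝ) →L[ℝ] (ι d → ℝ))}
    {π ρ : ∀ d, Equiv.Perm (ι d)} (h1 : Real1 H π) (h2 : Real1 H ρ) :
    Real1 H (fun d => π d * ρ d) := by
  obtain ⟨T, hT, s, hs, hT'⟩ := h1
  obtain ⟨U, hU, t, ht, hU'⟩ := h2
  refine ⟨T * U, H.mul_mem hT hU, fun d i => t d i * s d (ρ d i), fun d i => ?_,
    fun d i => ?_⟩
  · rw [abs_mul, hs, ht, one_mul]
  · rw [Pi.mul_apply, ContinuousLinearMap.mul_def, ContinuousLinearMap.comp_apply, hU', map_smul, hT', smul_smul,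
      Equiv.Perm.mul_apply]

theorem mem_one_add {H : Submonoid ((d : D) → (ι d → ℝ) →L[ℝ] (ι d → ℝ))}
    (hH : ∀ X, NormedSpace.exp X ∈ H) (d₀ : D) {N : (ι d₀ → ℝ) →L[ℝ] (ι d₀ → ℝ)}
    (hN : N * N = 0) :
    (1 + Pi.single d₀ N : (d : D) → (ι d → ℝ) →L[ℝ] (ι d → ℝ)) ∈ H := by
  have h : (Pi.single d₀ N * Pi.single d₀ N : (d : D) → (ι d → ℝ) →L[ℝ] (ι d → ℝ)) = 0 := by
    rw [← Pi.single_mul, hN, Pi.single_zero]
  rw [← exp_of_sq_zero h]
  exact hH _

theorem Real1.swap {H : Submonoid ((d : D) → (ι d → ℝ) →L[ℝ] (ι d → ℝ))}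
    (hH : ∀ X, NormedSpace.exp X ∈ H) (d₀ : D) {a b : ι d₀} (h : a ≠ b) :
    Real1 H (Pi.mulSingle d₀ (Equiv.swap a b)) := by
  classical
  choose s hs hs' using SW_single h
  refine ⟨(1 + Pi.single d₀ ((1 : ℝ) • EL a b)) * (1 + Pi.single d₀ ((-1 : ℝ) • EL b a)) *
      (1 + Pi.single d₀ ((1 : ℝ) • EL a b)), ?_, fun d => if hd : d = d₀ then
        fun i => s (hd ▸ i) else fun _ => 1, ?_, ?_⟩
  · exact H.mul_mem (H.mul_mem (mem_one_add hH d₀ (EL_sq h 1))
      (mem_one_add hH d₀ (EL_sq (Ne.symm h) (-1)))) (mem_one_add hH d₀ (EL_sq h 1))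
  · intro d i
    by_cases hd : d = d₀
    · subst hd; simpa using hs i
    · simp [hd]
  · intro d i
    by_cases hd : d = d₀
    · subst hd
      simpa only [one_smul, Pi.mul_apply, Pi.add_apply, Pi.one_apply, Pi.single_eq_same, mul_apply_eq_comp,     add_apply, one_apply_eq_self, smul_apply, map_add, smul_add, neg_smul, map_neg, ↓reduceDIte, Pi.mulSingle_eq_same,     SW] using hs' i
    · simp only [one_smul, Pi.mul_apply, Pi.add_apply, Pi.one_apply, ne_eq, hd, not_false_eq_true, Pi.single_eq_of_ne, add_zero, mul_one, one_apply_eq_self, ↓reduceDIte, Pi.mulSingle_eq_of_ne, Equiv.Perm.coe_one, id_eq]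

theorem Real1.single {H : Submonoid ((d : D) → (ι d → ℝ) →L[ℝ] (ι d → ℝ))}
    (hH : ∀ X, NormedSpace.exp X ∈ H) (d₀ : D) (σ : Equiv.Perm (ι d₀)) :
    Real1 H (Pi.mulSingle d₀ σ) := by
  induction σ using Equiv.Perm.swap_induction_on with
  | one =>
    rw [Pi.mulSingle_one]
    exact Real1.one H
  | swap_mul f x y hxy ih =>
    have := (Real1.swap hH d₀ hxy).mul ih
    convert this using 1
    exact Pi.mulSingle_mul (f := fun d => Equiv.Perm (ι d)) d₀ _ _

theorem Real1.all {H : Submonoid ((d : D) → (ι d → ℝ) →L[ℝ] (ι d → ℝ))}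
    (hH : ∀ X, NormedSpace.exp X ∈ H) (π : ∀ d, Equiv.Perm (ι d)) : Real1 H π := by
  classical
  have key : ∀ s : Finset D, ∀ π : ∀ d, Equiv.Perm (ι d), (∀ d ∉ s, π d = 1) → Real1 H π := by
    intro s
    induction s using Finset.induction_on with
    | empty =>
      intro π h
      have : π = fun _ => 1 := funext fun d => h d (by simp)
      rw [this]; exact Real1.one H
    | insert d₀ s hd ih =>
      intro π h
      have h1 := (Real1.single hH d₀ (π d₀)).mul (ih (Function.update π d₀ 1) (by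
        intro d hd'
        by_cases hdd : d = d₀
        · subst hdd; simp
        · rw [Function.update_of_ne hdd]
          exact h d (by simp [hdd, hd'])))
      have : (fun d => Pi.mulSingle (M := fun d => Equiv.Perm (ι d)) d₀ (π d₀) d *
          Function.update π d₀ 1 d) = π := by
        funext d
        by_cases hdd : d = d₀
        · subst hdd; simp
        · rw [Function.update_of_ne hdd, Pi.mulSingle_eq_of_ne hdd, one_mul]
      rwa [this] at h1
  exact key Finset.univ π (by simp only [mem_univ, not_true_eq_false, IsEmpty.forall_iff, implies_true])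

/-- Every family of permutations is realised, up to signs, in a submonoid containing all
exponentials. -/
theorem signed_perm (H : Submonoid ((d : D) → (ι d → ℝ) →L[ℝ] (ι d → ℝ)))
    (hH : ∀ X, NormedSpace.exp X ∈ H) (π : ∀ d, Equiv.Perm (ι d)) :
    ∃ T ∈ H, ∃ sg : ∀ d, ι d → ℝ, (∀ d i, |sg d i| = 1) ∧
      ∀ d i, T d (Pi.single i 1) = sg d i • Pi.single (π d i) 1 :=
  Real1.all hH π

end main

end Vale.Agent.P225.B3
end
end

section

section

/-!
P225, module B4 (counting part), second part: bounds for the counting functions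
`Nn d n = 2 ∑_{p<n} D_{p,d-p}` and `M2 d n = 2 ∑_{p<n} (d-2p)^2 D_{p,d-p}`.
-/

namespace Vale.Agent.P225.B4

open Finset

/-- number of states with `p < n` or `q < n`, `p + q = d` (for `2n ≤ d`). -/
def Nn (d n : ℕ) : ℕ := 2 * ∑ p ∈ range n, Dpq p (d - p)

/-- sum of the squares `(p-q)^2` over the same states. -/
def M2 (d n : ℕ) : ℕ := 2 * ∑ p ∈ range n, (d - 2 * p) ^ 2 * Dpq p (d - p)

/-- `T d n = ∑_{p<n} p (d-p) D_{p,d-p}` -/
def Tt (d n : ℕ) : ℕ := ∑ p ∈ range n, p * (d - p) * Dpq p (d - p)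

theorem Nn_pos {d n : ℕ} (hn : 1 ≤ n) : 0 < Nn d n := by
  unfold Nn
  have h : 0 < ∑ p ∈ range n, Dpq p (d - p) := by
    apply sum_pos (fun p _ => Dpq_pos _ _)
    exact ⟨0, by simp only [mem_range]; omega⟩
  omega

theorem M2_eq {d n : ℕ} (hn : 2 * n ≤ d) :
    (M2 d n : ℝ) = (d : ℝ) ^ 2 * Nn d n - 8 * Tt d n := by
  unfold M2 Nn Tt
  push_cast
  rw [mul_sum, mul_sum, mul_sum, mul_sum, ← sum_sub_distrib]
  refine sum_congr rfl fun p hp => ?_
  have hp' : p < n := mem_range.1 hp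
  rw [Nat.cast_sub (by omega : 2 * p ≤ d), Nat.cast_sub (by omega : p ≤ d)]
  push_cast
  ring

/-- the common scaling factor `20 (19!)^2` -/
noncomputable def cc : ℝ := 20 * (Nat.factorial 19 : ℝ) ^ 2

theorem cc_pos : 0 < cc := by
  unfold cc; positivity

theorem Dpq_lower' {d p : ℕ} (hp : 2 * p + 2 ≤ d) :
    (d : ℝ) * (((p : ℝ) + 1) * ((d : ℝ) - ((p : ℝ) + 1))) ^ 19 ≤ Dpq p (d - p) * cc := by
  have hd : (2 * (p : ℝ) + 2) ≤ d := by exact_mod_cast hp
  have hp0 : (0 : ℝ) ≤ p := Nat.cast_nonneg p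
  have f1 : (0 : ℝ) ≤ (p : ℝ) + 1 := by linarith only []
  have f2 : (0 : ℝ) ≤ (d : ℝ) - ((p : ℝ) + 1) := by linarith only [hd]
  have f3 : (d : ℝ) - ((p : ℝ) + 1) ≤ (d : ℝ) - p + 1 := by linarith only []
  have f4 : (0 : ℝ) ≤ (d : ℝ) - p + 1 := by linarith only [hd]
  have f5 : (d : ℝ) ≤ (p : ℝ) + (d - p) + 20 := by linarith only []
  have f6 : (0 : ℝ) ≤ (d : ℝ) := by linarith only []
  have h1 : (((p : ℝ) + 1) * ((d : ℝ) - ((p : ℝ) + 1))) ^ 19
      ≤ ((p : ℝ) + 1) ^ 19 * ((d : ℝ) - p + 1) ^ 19 := by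
    rw [← mul_pow]
    apply pow_le_pow_left₀
    · exact mul_nonneg f1 f2
    · exact mul_le_mul_of_nonneg_left f3 f1
  have h2 : (0 : ℝ) ≤ ((p : ℝ) + 1) ^ 19 * ((d : ℝ) - p + 1) ^ 19 :=
    mul_nonneg (pow_nonneg f1 _) (pow_nonneg f4 _)
  have h := Dpq_lower p (d - p)
  have h' : (((p + (d - p) + 20) * ((p + 1) ^ 19 * ((d - p) + 1) ^ 19) : ℕ) : ℝ)
      ≤ ((Dpq p (d - p) * 20 * (Nat.factorial 19) ^ 2 : ℕ) : ℝ) := by exact_mod_cast h
  push_cast [Nat.cast_sub (by (clear * - hp; omega) : p ≤ d)] at h'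
  unfold cc
  refine (mul_le_mul_of_nonneg_left h1 f6).trans
    ((mul_le_mul_of_nonneg_right f5 h2).trans (h'.trans (le_of_eq ?_)))
  rw [mul_assoc]

theorem Dpq_upper' {d p : ℕ} (hp : p ≤ d) :
    ((p * (d - p) * Dpq p (d - p) : ℕ) : ℝ) * cc
      ≤ ((d : ℝ) + 20) * (((p : ℝ) + 19) * ((d : ℝ) + 38 - ((p : ℝ) + 19))) ^ 20 := by
  have hd : (p : ℝ) ≤ d := by exact_mod_cast hp
  have hp0 : (0 : ℝ) ≤ p := Nat.cast_nonneg p
  have hq0 : (0 : ℝ) ≤ (d : ℝ) - p := by (clear * - hd; linarith)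
  have f1 : (p : ℝ) ≤ (p : ℝ) + 19 := by linarith only []
  have f2 : (d : ℝ) - p ≤ (d : ℝ) - p + 19 := by linarith only []
  have f3 : (0 : ℝ) ≤ (p : ℝ) + 19 := by linarith only []
  have f4 : (0 : ℝ) ≤ (d : ℝ) - p + 19 := by linarith only [hd]
  have f5 : (0 : ℝ) ≤ (p : ℝ) + (d - p) + 20 := by linarith only []
  have e2 : (d : ℝ) + 38 - ((p : ℝ) + 19) = (d : ℝ) - p + 19 := by ring
  have e3 : (p : ℝ) + (d - p) + 20 = (d : ℝ) + 20 := by ring
  have h := Dpq_upper p (d - p)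
  have h' : ((Dpq p (d - p) * 20 * (Nat.factorial 19) ^ 2 : ℕ) : ℝ)
      ≤ (((p + (d - p) + 20) * ((p + 19) ^ 19 * ((d - p) + 19) ^ 19) : ℕ) : ℝ) := by
    exact_mod_cast h
  push_cast [Nat.cast_sub hp] at h' ⊢
  unfold cc
  have e1 : (p : ℝ) * ((d : ℝ) - p) * (Dpq p (d - p) : ℝ) * (20 * (Nat.factorial 19 : ℝ) ^ 2)
      = ((p : ℝ) * ((d : ℝ) - p)) * ((Dpq p (d - p) : ℝ) * 20 * (Nat.factorial 19 : ℝ) ^ 2) := by
    ring
  rw [e1]
  have g1 := mul_le_mul_of_nonneg_left h' (mul_nonneg hp0 hq0)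
  have g2 : (p : ℝ) * ((d : ℝ) - p) ≤ ((p : ℝ) + 19) * ((d : ℝ) - p + 19) :=
    mul_le_mul f1 f2 hq0 f3
  have g3 : 0 ≤ ((p : ℝ) + (d - p) + 20) * (((p : ℝ) + 19) ^ 19 * ((d : ℝ) - p + 19) ^ 19) :=
    mul_nonneg f5 (mul_nonneg (pow_nonneg f3 _) (pow_nonneg f4 _))
  refine g1.trans ((mul_le_mul_of_nonneg_right g2 g3).trans (le_of_eq ?_))
  rw [e2, e3]
  generalize (p : ℝ) + 19 = A
  generalize (d : ℝ) - p + 19 = B
  rw [mul_pow]
  ring

theorem Nn_cc (d n : ℕ) :
    (Nn d n : ℝ) * cc = 2 * ∑ p ∈ range n, (Dpq p (d - p) : ℝ) * cc := by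
  unfold Nn
  push_cast
  rw [mul_assoc, sum_mul]

theorem Tt_cc (d n : ℕ) :
    (Tt d n : ℝ) * cc = ∑ p ∈ range n, ((p * (d - p) * Dpq p (d - p) : ℕ) : ℝ) * cc := by
  unfold Tt
  push_cast
  rw [sum_mul]

/-- lower bound for the counting function -/
theorem Nn_lower {d n : ℕ} (hd : 1 ≤ d) (hn : 2 * n ≤ d) {u : ℝ} (hu0 : 0 ≤ u)
    (hu1 : u ≤ 1) (hu : u * d - 1 ≤ n) :
    2 * ((d : ℝ) ^ 40 * G 19 u - (1 / 4) ^ 19 * (d : ℝ) ^ 39) ≤ (Nn d n : ℝ) * cc := by
  have hd0 : (0 : ℝ) < d := by exact_mod_cast hd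
  have hn0 : (0 : ℝ) ≤ n := Nat.cast_nonneg n
  have hnR : 2 * (n : ℝ) ≤ d := by exact_mod_cast hn
  rw [Nn_cc]
  have h1 : ∑ p ∈ range n, (d : ℝ) * (((p : ℝ) + 1) * ((d : ℝ) - ((p : ℝ) + 1))) ^ 19
      ≤ ∑ p ∈ range n, (Dpq p (d - p) : ℝ) * cc := by
    refine sum_le_sum fun p hp => Dpq_lower' ?_
    have := mem_range.1 hp
    (clear * - hn this; omega)
  rw [← mul_sum] at h1
  have h2 := sum_lower 19 (d : ℝ) n hnR hd0
  have h3 : (d : ℝ) * ((d : ℝ) ^ (2 * 19 + 1) * G 19 (n / d))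
      ≤ ∑ p ∈ range n, (Dpq p (d - p) : ℝ) * cc :=
    (mul_le_mul_of_nonneg_left h2 hd0.le).trans h1
  have hv0 : 0 ≤ (n : ℝ) / d := by (clear * - hd; positivity)
  have hv1 : (n : ℝ) / d ≤ 1 := by
    rw [div_le_one hd0]; linarith only [hnR]
  have h4 : G 19 u - (1 / d) * (1 / 4) ^ 19 ≤ G 19 (n / d) := by
    rcases le_total u ((n : ℝ) / d) with h | h
    · have := G_mono 19 hu0 h hv1
      have h5 : 0 ≤ (1 / (d : ℝ)) * (1 / 4) ^ 19 := by positivity
      linarith only [this, h5]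
    · have := G_lip 19 hv0 h hu1
      have h5 : u - (n : ℝ) / d ≤ 1 / d := by
        rw [sub_le_iff_le_add, ← add_div, le_div_iff₀ hd0]
        linarith only [hu]
      have h6 : (u - (n : ℝ) / d) * (1 / 4) ^ 19 ≤ (1 / d) * (1 / 4) ^ 19 :=
        mul_le_mul_of_nonneg_right h5 (by positivity)
      linarith only [this, h5]
  have h5 : (d : ℝ) ^ 40 * G 19 u - (1 / 4) ^ 19 * (d : ℝ) ^ 39
      ≤ (d : ℝ) * ((d : ℝ) ^ (2 * 19 + 1) * G 19 (n / d)) := by
    have : (d : ℝ) ^ 40 * (G 19 u - (1 / d) * (1 / 4) ^ 19)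
        ≤ (d : ℝ) ^ 40 * G 19 (n / d) := mul_le_mul_of_nonneg_left h4 (by positivity)
    have e1 : (d : ℝ) ^ 40 * (G 19 u - (1 / d) * (1 / 4) ^ 19)
        = (d : ℝ) ^ 40 * G 19 u - (1 / 4) ^ 19 * (d : ℝ) ^ 39 := by
      (clear * - hd; field_simp)
    have e2 : (d : ℝ) * ((d : ℝ) ^ (2 * 19 + 1) * G 19 (n / d)) = (d : ℝ) ^ 40 * G 19 (n / d) := by
      ring
    rw [e2, ← e1]
    exact this
  linarith only [h3, h5]

/-- upper bound for `T` -/
theorem Tt_upper {d n : ℕ} (hd : 1 ≤ d) (hn : 2 * n ≤ d) {u : ℝ} (hu0 : 0 ≤ u)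
    (hu1 : u ≤ 1) (hu : (n : ℝ) ≤ u * d) :
    (Tt d n : ℝ) * cc
      ≤ ((d : ℝ) + 38) ^ 42 * (G 20 u + (19 / d) * (1 / 4) ^ 20) := by
  have hd0 : (0 : ℝ) < d := by exact_mod_cast hd
  have hn0 : (0 : ℝ) ≤ n := Nat.cast_nonneg n
  have hnR : 2 * (n : ℝ) ≤ d := by exact_mod_cast hn
  rw [Tt_cc]
  have h1 : ∑ p ∈ range n, ((p * (d - p) * Dpq p (d - p) : ℕ) : ℝ) * cc
      ≤ ∑ p ∈ range n,
        ((d : ℝ) + 20) * (((p : ℝ) + 19) * ((d : ℝ) + 38 - ((p : ℝ) + 19))) ^ 20 := by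
    refine sum_le_sum fun p hp => Dpq_upper' ?_
    have := mem_range.1 hp
    (clear * - hd hn this; omega)
  rw [← mul_sum] at h1
  have hc : (0 : ℝ) < (d : ℝ) + 38 := by linarith only []
  have h2 := sum_upper 20 ((d : ℝ) + 38) n (by linarith only [hnR]) hc
  have f1 : (0 : ℝ) ≤ (d : ℝ) + 20 := by linarith only []
  have h3 := mul_le_mul_of_nonneg_left h2 f1
  refine h1.trans (h3.trans ?_)
  -- compare the values of `G`
  have hv0 : 0 ≤ ((n : ℝ) + 19) / ((d : ℝ) + 38) := by (clear * - hd; positivity)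
  have hv1 : ((n : ℝ) + 19) / ((d : ℝ) + 38) ≤ 1 := by
    rw [div_le_one hc]; linarith only [hnR]
  have hv2 : ((n : ℝ) + 19) / ((d : ℝ) + 38) ≤ u + 19 / d := by
    rw [div_le_iff₀ hc]
    have e : (u + 19 / (d : ℝ)) * ((d : ℝ) + 38) = u * d + 19 + (38 * u + 19 * 38 / d) := by
      field_simp
    rw [e]
    have : 0 ≤ 38 * u + 19 * 38 / (d : ℝ) := by (clear * - hu0 hd; positivity)
    linarith only [hu, this]
  have hG : G 20 (((n : ℝ) + 19) / ((d : ℝ) + 38)) ≤ G 20 u + (19 / d) * (1 / 4) ^ 20 := by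
    have h5 : 0 ≤ (19 / (d : ℝ)) * (1 / 4) ^ 20 := by positivity
    rcases le_total (((n : ℝ) + 19) / ((d : ℝ) + 38)) u with h | h
    · have := G_mono 20 hv0 h hu1
      linarith only [h5, this]
    · have := G_lip 20 hu0 h hv1
      have h6 : (((n : ℝ) + 19) / ((d : ℝ) + 38) - u) * (1 / 4) ^ 20
          ≤ (19 / d) * (1 / 4) ^ 20 :=
        mul_le_mul_of_nonneg_right (by linarith only [hv2]) (by (clear * -; positivity))
      linarith only [hv2, this]
  have hG0 : 0 ≤ G 20 (((n : ℝ) + 19) / ((d : ℝ) + 38)) := G_nonneg 20 hv0 hv1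
  have f2 : (d : ℝ) + 20 ≤ (d : ℝ) + 38 := by linarith only []
  generalize G 20 (((n : ℝ) + 19) / ((d : ℝ) + 38)) = g at hG hG0 ⊢
  generalize G 20 u + (19 / (d : ℝ)) * (1 / 4) ^ 20 = g' at hG ⊢
  generalize (d : ℝ) + 38 = c at *
  generalize (d : ℝ) + 20 = c' at *
  have k1 : (0 : ℝ) ≤ c ^ (2 * 20 + 1) := by positivity
  calc c' * (c ^ (2 * 20 + 1) * g) ≤ c * (c ^ (2 * 20 + 1) * g) :=
        mul_le_mul_of_nonneg_right f2 (mul_nonneg k1 hG0)
    _ ≤ c * (c ^ (2 * 20 + 1) * g') :=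
        mul_le_mul_of_nonneg_left (mul_le_mul_of_nonneg_left hG k1) hc.le
    _ = c ^ 42 * g' := by ring

theorem aux_scale {d ε : ℝ} (hd : 0 < d) (hε : 1 / d ≤ ε) (j : ℕ) :
    d ^ j ≤ d ^ (j + 1) * ε := by
  have h : d ^ (j + 1) * (1 / d) ≤ d ^ (j + 1) * ε :=
    mul_le_mul_of_nonneg_left hε (by positivity)
  have e : d ^ (j + 1) * (1 / d) = d ^ j := by
    rw [pow_succ]; field_simp
  rwa [e] at h

theorem aux_fac {d k r x b ε : ℝ} (hd : 0 < d) (hε : 1 / d ≤ ε) (hr : 0 < r) (hx : 0 ≤ x)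
    (hdr : d ≤ r * k) :
    d ^ 2 * (x / r ^ 2 + b - 1 - 40 * ε)
      ≤ x * (k * (k + 40)) + b * d ^ 2 - d ^ 2 - 40 * d := by
  have hkr : d / r ≤ k := by rw [div_le_iff₀ hr]; linarith only [hdr]
  have hkr2 : d ^ 2 / r ^ 2 ≤ k * (k + 40) := by
    rw [← div_pow]
    have : 0 ≤ d / r := by positivity
    linarith [mul_nonneg (sub_nonneg.2 hkr) (sub_nonneg.2 this), mul_nonneg (sub_nonneg.2 hkr) (sub_nonneg.2 hkr), this, hkr]
  have h1 : x * (d ^ 2 / r ^ 2) ≤ x * (k * (k + 40)) :=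
    mul_le_mul_of_nonneg_left hkr2 hx
  have h2 : d ≤ d ^ 2 * ε := by
    have := aux_scale hd hε 1
    simpa only [ge_iff_le, pow_one, Nat.reduceAdd] using this
  have e : d ^ 2 * (x / r ^ 2 + b - 1 - 40 * ε)
      = x * (d ^ 2 / r ^ 2) + b * d ^ 2 - d ^ 2 - 40 * (d ^ 2 * ε) := by ring
  rw [e]
  linarith only [h1, h2]

theorem aux_N {d g ε : ℝ} (hd : 0 < d) (hε : 1 / d ≤ ε) :
    2 * (d ^ 40 * (g - (1 / 4) ^ 19 * ε)) ≤ 2 * (d ^ 40 * g - (1 / 4) ^ 19 * d ^ 39) := by
  have h3 : (1 / 4 : ℝ) ^ 19 * d ^ 39 ≤ (1 / 4 : ℝ) ^ 19 * (d ^ 40 * ε) :=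
    mul_le_mul_of_nonneg_left (aux_scale hd hε 39) (by positivity)
  generalize (1 / 4 : ℝ) ^ 19 = q at *
  linarith

theorem aux_T {d g ε : ℝ} (hd : 0 < d) (hε : 1 / d ≤ ε) (hg : 0 ≤ g) :
    (d + 38) ^ 42 * (g + (19 / d) * (1 / 4) ^ 20)
      ≤ d ^ 42 * ((1 + 38 * ε) ^ 42 * (g + 19 * ε * (1 / 4) ^ 20)) := by
  have hε0 : 0 ≤ ε := le_trans (by positivity) hε
  have e1 : d + 38 ≤ d * (1 + 38 * ε) := by
    have : d * (1 / d) ≤ d * ε := mul_le_mul_of_nonneg_left hε hd.le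
    have e : d * (1 / d) = 1 := by (clear * - hd; field_simp)
    linarith
  have e2 : (d + 38) ^ 42 ≤ (d * (1 + 38 * ε)) ^ 42 :=
    pow_le_pow_left₀ (by linarith) e1 _
  have e3 : g + (19 / d) * (1 / 4) ^ 20 ≤ g + 19 * ε * (1 / 4) ^ 20 := by
    have : 19 / d = 19 * (1 / d) := by ring
    rw [this]
    have h5 : 19 * (1 / d) * (1 / 4) ^ 20 ≤ 19 * ε * (1 / 4) ^ 20 :=
      mul_le_mul_of_nonneg_right (by linarith only [hε]) (by positivity)
    linarith only [hε]
  have e4 : 0 ≤ g + (19 / d) * (1 / 4) ^ 20 := by positivity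
  rw [mul_pow] at e2
  calc (d + 38) ^ 42 * (g + (19 / d) * (1 / 4) ^ 20)
      ≤ (d ^ 42 * (1 + 38 * ε) ^ 42) * (g + (19 / d) * (1 / 4) ^ 20) :=
        mul_le_mul_of_nonneg_right e2 e4
    _ ≤ (d ^ 42 * (1 + 38 * ε) ^ 42) * (g + 19 * ε * (1 / 4) ^ 20) :=
        mul_le_mul_of_nonneg_left e3 (by positivity)
    _ = _ := by rw [mul_assoc]

theorem aux_final {d b A B C F N T : ℝ} (hd : 0 < d) (hb : 0 ≤ b) (hB : 0 ≤ B) (hC : 0 ≤ C)
    (hstar : 4 * b * A < C * B) (hF : d ^ 2 * C ≤ F) (hN : 2 * (d ^ 40 * B) ≤ N)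
    (hT : T ≤ d ^ 42 * A) : 8 * b * T < F * N := by
  have hFc : 0 ≤ F := le_trans (mul_nonneg (by positivity) hC) hF
  have hd42 : (0 : ℝ) < d ^ 42 := by positivity
  have s1 : 8 * b * T ≤ 2 * (d ^ 42 * (4 * b * A)) := by
    have := mul_le_mul_of_nonneg_left hT (by linarith only [hb] : 0 ≤ 8 * b)
    linarith
  have s2 : d ^ 42 * (4 * b * A) < d ^ 42 * (C * B) := mul_lt_mul_of_pos_left hstar hd42
  have s3 : (d ^ 2 * C) * (2 * (d ^ 40 * B)) ≤ F * N := by
    apply mul_le_mul hF hN _ hFc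
    (clear * - hd hB; positivity)
  have e5 : (d ^ 2 * C) * (2 * (d ^ 40 * B)) = 2 * (d ^ 42 * (C * B)) := by ring
  linarith

theorem aux_cc {c dd b N T D2 X F : ℝ} (hc : 0 < c) (hF : F = X + b * D2 - dd)
    (h : 8 * b * (T * c) < F * (N * c)) :
    dd * N - b * (D2 * N - 8 * T) < X * N := by
  have h' : (dd * N - b * (D2 * N - 8 * T)) * c < (X * N) * c := by
    rw [hF] at h
    linarith
  exact lt_of_mul_lt_mul_right h' hc.le

/-- The condition of the blueprint, from the numerical inequality `(★)`. -/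
theorem cond_of_star {d n k : ℕ} {u r x b ε : ℝ} (hd : 1 ≤ d) (hn : 2 * n ≤ d)
    (hu0 : 0 ≤ u) (hu1 : u ≤ 1) (hul : u * d - 1 ≤ n) (huu : (n : ℝ) ≤ u * d)
    (hx : 0 ≤ x) (hb : 0 ≤ b) (hr : 0 < r) (hdr : (d : ℝ) ≤ r * k) (hε : 1 / (d : ℝ) ≤ ε)
    (hfac : 0 ≤ x / r ^ 2 + b - 1 - 40 * ε)
    (hG19 : 0 ≤ G 19 u - (1 / 4) ^ 19 * ε)
    (hstar : 4 * b * ((1 + 38 * ε) ^ 42 * (G 20 u + 19 * ε * (1 / 4) ^ 20))
      < (x / r ^ 2 + b - 1 - 40 * ε) * (G 19 u - (1 / 4) ^ 19 * ε)) :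
    ((d : ℝ) * (d + 40)) * Nn d n - b * M2 d n < x * (k * (k + 40)) * Nn d n := by
  have hd0 : (0 : ℝ) < d := by exact_mod_cast hd
  rw [M2_eq hn]
  refine aux_cc (F := x * (k * (k + 40)) + b * (d : ℝ) ^ 2 - (d : ℝ) ^ 2 - 40 * d) cc_pos
    (by ring) ?_
  exact aux_final hd0 hb hG19 hfac hstar (aux_fac hd0 hε hr hx hdr)
    ((aux_N hd0 hε).trans (Nn_lower hd hn hu0 hu1 hul))
    ((Tt_upper hd hn hu0 hu1 huu).trans (aux_T hd0 hε (G_nonneg 20 hu0 hu1)))

/-- the trivial range of the condition -/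
theorem cond_trivial {d n k : ℕ} {x b : ℝ} (hn : 1 ≤ n) (hb : 0 ≤ b)
    (h : (d : ℝ) * (d + 40) < x * (k * (k + 40))) :
    ((d : ℝ) * (d + 40)) * Nn d n - b * M2 d n < x * (k * (k + 40)) * Nn d n := by
  have hN : (0 : ℝ) < Nn d n := by exact_mod_cast Nn_pos hn
  have h1 := mul_lt_mul_of_pos_right h hN
  have h2 : 0 ≤ b * M2 d n := mul_nonneg hb (Nat.cast_nonneg _)
  linarith only [h1, h2]

end Vale.Agent.P225.B4
end
end

section

section

set_option linter.all false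

section
open Filter Topology Matrix
open scoped ContDiff

namespace Vale.Agent.P225

variable {n : ℕ}

theorem det_updateRow_sum (M : Matrix (Fin n) (Fin n) ℝ) (i : Fin n) (w : Fin n → ℝ) :
    (M.updateRow i w).det = ∑ j, w j * M.adjugate j i := by
  rw [Matrix.det_eq_sum_mul_adjugate_row (M.updateRow i w) i]
  apply Finset.sum_congr rfl
  intro j _
  rw [Matrix.adjugate_apply, Matrix.adjugate_apply, Matrix.updateRow_self]
  congr 1
  rw [Matrix.updateRow_idem]

theorem hasDerivAt_det {M : ℝ → Matrix (Fin n) (Fin n) ℝ} {D : Matrix (Fin n) (Fin n) ℝ} {t : ℝ}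
    (h : ∀ i j, HasDerivAt (fun s => M s i j) (D i j) t) :
    HasDerivAt (fun s => (M s).det) (D * (M t).adjugate).trace t := by
  have h1 : HasDerivAt (fun s => ∑ σ : Equiv.Perm (Fin n),
      ((Equiv.Perm.sign σ : ℤ) : ℝ) * ∏ i, M s i (σ i))
      (∑ σ : Equiv.Perm (Fin n), ((Equiv.Perm.sign σ : ℤ) : ℝ) *
        ∑ i, (∏ k ∈ Finset.univ.erase i, M t k (σ k)) * D i (σ i)) t := by
    apply HasDerivAt.fun_sum
    intro σ _
    apply HasDerivAt.const_mul
    have := HasDerivAt.fun_finset_prod (u := Finset.univ) (f := fun i s => M s i (σ i))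
      (f' := fun i => D i (σ i)) (x := t) (fun i _ => h i (σ i))
    simpa only [smul_eq_mul] using this
  have h2 : (fun s => (M s).det) = fun s => ∑ σ : Equiv.Perm (Fin n),
      ((Equiv.Perm.sign σ : ℤ) : ℝ) * ∏ i, M s i (σ i) := by
    funext s
    rw [← Matrix.det_transpose, Matrix.det_apply']
    rfl
  rw [h2]
  convert h1 using 1
  have h3 : ∀ i, (D * (M t).adjugate) i i = ((M t).updateRow i (D i)).det := by
    intro i
    rw [det_updateRow_sum, Matrix.mul_apply]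
  unfold Matrix.trace
  simp only [Matrix.diag_apply, h3]
  rw [show (∑ σ : Equiv.Perm (Fin n), ((Equiv.Perm.sign σ : ℤ) : ℝ) *
        ∑ i, (∏ k ∈ Finset.univ.erase i, M t k (σ k)) * D i (σ i)) =
      ∑ i, ∑ σ : Equiv.Perm (Fin n), ((Equiv.Perm.sign σ : ℤ) : ℝ) *
        ((∏ k ∈ Finset.univ.erase i, M t k (σ k)) * D i (σ i)) by
    rw [Finset.sum_comm]; simp only [Finset.mul_sum]]
  apply Finset.sum_congr rfl
  intro i _
  rw [← Matrix.det_transpose, Matrix.det_apply']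
  apply Finset.sum_congr rfl
  intro σ _
  congr 1
  rw [← Finset.mul_prod_erase Finset.univ _ (Finset.mem_univ i), mul_comm]
  congr 1
  · apply Finset.prod_congr rfl
    intro k hk
    rw [Matrix.transpose_apply, Matrix.updateRow_ne (Finset.ne_of_mem_erase hk)]
  · rw [Matrix.transpose_apply, Matrix.updateRow_self]

end Vale.Agent.P225
end

section
open Filter Topology Matrix
open scoped ContDiff MatrixOrder

namespace Vale.Agent.P225

variable {n : ℕ}

theorem exists_factor {M : Matrix (Fin n) (Fin n) ℝ} (hM : M.PosDef) :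
    ∃ B : Matrix (Fin n) (Fin n) ℝ, M⁻¹ = Bᵀ * B ∧ B * M * Bᵀ = 1 := by
  obtain ⟨B, hB⟩ := CStarAlgebra.nonneg_iff_eq_star_mul_self.mp hM.inv.posSemidef.nonneg
  have hst : star B = Bᵀ := by
    rw [star_eq_conjTranspose, conjTranspose_eq_transpose_of_trivial]
  rw [hst] at hB
  refine ⟨B, hB, ?_⟩
  have hdet : IsUnit M.det := hM.det_pos.ne'.isUnit
  have h1 : M * (Bᵀ * B) = 1 := by rw [← hB, Matrix.mul_nonsing_inv _ hdet]
  have h2 : (M * Bᵀ) * B = 1 := by rw [Matrix.mul_assoc, h1]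
  have h3 : B * (M * Bᵀ) = 1 := mul_eq_one_comm.1 h2
  rw [Matrix.mul_assoc, h3]

theorem symm_dot {M : Matrix (Fin n) (Fin n) ℝ} (hM : Mᵀ = M) (v w : Fin n → ℝ) :
    v ⬝ᵥ M *ᵥ w = (M *ᵥ v) ⬝ᵥ w := by
  rw [Matrix.dotProduct_mulVec, ← Matrix.mulVec_transpose, hM]

theorem posDef_symm {M : Matrix (Fin n) (Fin n) ℝ} (hM : M.PosDef) : Mᵀ = M := by
  have := hM.isHermitian
  rwa [Matrix.IsHermitian, conjTranspose_eq_transpose_of_trivial] at this

/-- If `M ≤ κ` then `κ⁻¹ ≤ M⁻¹`. -/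
theorem inv_quad_ge {M : Matrix (Fin n) (Fin n) ℝ} (hM : M.PosDef) {κ : ℝ} (hκ : 0 < κ)
    (h : ∀ v : Fin n → ℝ, v ⬝ᵥ M *ᵥ v ≤ κ * (v ⬝ᵥ v)) (v : Fin n → ℝ) :
    κ⁻¹ * (v ⬝ᵥ v) ≤ v ⬝ᵥ M⁻¹ *ᵥ v := by
  have hsm : Mᵀ = M := posDef_symm hM
  have hdet : IsUnit M.det := hM.det_pos.ne'.isUnit
  set w : Fin n → ℝ := M⁻¹ *ᵥ v with hw
  have hMw : M *ᵥ w = v := by
    rw [hw, Matrix.mulVec_mulVec, Matrix.mul_nonsing_inv _ hdet, Matrix.one_mulVec]
  have h0 : 0 ≤ (w - κ⁻¹ • v) ⬝ᵥ M *ᵥ (w - κ⁻¹ • v) := by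
    have := hM.posSemidef.dotProduct_mulVec_nonneg (w - κ⁻¹ • v)
    simpa only [sub_dotProduct, smul_dotProduct, smul_eq_mul, sub_nonneg, ge_iff_le, star_trivial] using this
  have h1 : (w - κ⁻¹ • v) ⬝ᵥ M *ᵥ (w - κ⁻¹ • v) =
      v ⬝ᵥ w - 2 * κ⁻¹ * (v ⬝ᵥ v) + κ⁻¹ ^ 2 * (v ⬝ᵥ M *ᵥ v) := by
    rw [Matrix.mulVec_sub, Matrix.mulVec_smul, hMw, sub_dotProduct, dotProduct_sub, dotProduct_sub,
      smul_dotProduct, smul_dotProduct, dotProduct_smul, dotProduct_smul]
    have e1 : w ⬝ᵥ M *ᵥ v = v ⬝ᵥ v := by rw [symm_dot hsm, hMw]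
    have e2 : w ⬝ᵥ v = v ⬝ᵥ w := dotProduct_comm _ _
    rw [e1, e2]
    simp only [smul_eq_mul]
    ring
  have h2 := h v
  have h3 : κ⁻¹ ^ 2 * (v ⬝ᵥ M *ᵥ v) ≤ κ⁻¹ ^ 2 * (κ * (v ⬝ᵥ v)) :=
    mul_le_mul_of_nonneg_left h2 (by positivity)
  have h4 : κ⁻¹ ^ 2 * (κ * (v ⬝ᵥ v)) = κ⁻¹ * (v ⬝ᵥ v) := by
    (clear * - hκ; field_simp)
  rw [h1] at h0
  rw [h4] at h3
  linarith only [h0, h3]

end Vale.Agent.P225
end

section
open Filter Topology Matrix
open scoped ContDiff

namespace Vale.Agent.P225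

variable {n : ℕ} {X : Type*} [NormedAddCommGroup X] [NormedSpace ℝ X]

theorem contDiff_det {k : WithTop ℕ∞} {M : X → Matrix (Fin n) (Fin n) ℝ}
    (h : ∀ i j, ContDiff ℝ k (fun x => M x i j)) : ContDiff ℝ k (fun x => (M x).det) := by
  have h2 : (fun x => (M x).det) = fun x => ∑ σ : Equiv.Perm (Fin n),
      ((Equiv.Perm.sign σ : ℤ) : ℝ) * ∏ i, M x (σ i) i := by
    funext x
    rw [Matrix.det_apply']
  rw [h2]
  apply ContDiff.sum
  intro σ _
  apply contDiff_const.mul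
  apply contDiff_prod
  intro i _
  exact h _ _

theorem contDiff_adj {k : WithTop ℕ∞} {M : X → Matrix (Fin n) (Fin n) ℝ}
    (h : ∀ i j, ContDiff ℝ k (fun x => M x i j)) (i j : Fin n) :
    ContDiff ℝ k (fun x => (M x).adjugate i j) := by
  simp only [Matrix.adjugate_apply]
  apply contDiff_det
  intro a b
  by_cases ha : a = j
  · subst ha
    simp only [Matrix.updateRow_self]
    exact contDiff_const
  · simp only [Matrix.updateRow_ne ha]
    exact h a b

theorem contDiff_inv_entry {k : WithTop ℕ∞} {M : X → Matrix (Fin n) (Fin n) ℝ}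
    (h : ∀ i j, ContDiff ℝ k (fun x => M x i j)) (hM : ∀ x, (M x).PosDef) (i j : Fin n) :
    ContDiff ℝ k (fun x => (M x)⁻¹ i j) := by
  have h2 : (fun x => (M x)⁻¹ i j) = fun x => ((M x).det)⁻¹ * (M x).adjugate i j := by
    funext x
    rw [Matrix.inv_def, Matrix.smul_apply, Ring.inverse_eq_inv', smul_eq_mul]
  rw [h2]
  exact ((contDiff_det h).inv fun x => (hM x).det_pos.ne').mul (contDiff_adj h i j)

end Vale.Agent.P225
end

section
open Filter Topology Matrix
open scoped ContDiff MatrixOrder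

namespace Vale.Agent.P225

variable {N : ℕ}

theorem exists_gram {S : Matrix (Fin N) (Fin N) ℝ} (hS : S.PosSemidef) :
    ∃ R : Matrix (Fin N) (Fin N) ℝ, S = Rᵀ * R := by
  obtain ⟨B, hB⟩ := CStarAlgebra.nonneg_iff_eq_star_mul_self.mp hS.nonneg
  refine ⟨B, ?_⟩
  rw [hB, star_eq_conjTranspose, conjTranspose_eq_transpose_of_trivial]

theorem psd_of {S : Matrix (Fin N) (Fin N) ℝ} (hs : Sᵀ = S)
    (h : ∀ c : Fin N → ℝ, 0 ≤ c ⬝ᵥ S *ᵥ c) : S.PosSemidef := by
  apply Matrix.PosSemidef.of_dotProduct_mulVec_nonneg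
  · rw [Matrix.IsHermitian, conjTranspose_eq_transpose_of_trivial, hs]
  · intro x
    simpa only [star_trivial] using h x

theorem dot_RR (R : Matrix (Fin N) (Fin N) ℝ) (e : Fin N → ℝ) :
    e ⬝ᵥ (Rᵀ * R) *ᵥ e = (R *ᵥ e) ⬝ᵥ (R *ᵥ e) := by
  rw [← Matrix.mulVec_mulVec, Matrix.dotProduct_mulVec, Matrix.vecMul_transpose]

theorem quad_le_trace {S : Matrix (Fin N) (Fin N) ℝ} (hS : S.PosSemidef) {e : Fin N → ℝ}
    (he : e ⬝ᵥ e = 1) : e ⬝ᵥ S *ᵥ e ≤ S.trace := by
  obtain ⟨R, rfl⟩ := exists_gram hS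
  rw [dot_RR]
  have h1 : (Rᵀ * R).trace = ∑ i, ∑ j, R i j ^ 2 := by
    rw [Matrix.trace, Finset.sum_comm]
    apply Finset.sum_congr rfl
    intro j _
    rw [Matrix.diag_apply, Matrix.mul_apply]
    apply Finset.sum_congr rfl
    intro i _
    rw [Matrix.transpose_apply]
    ring
  rw [h1]
  unfold dotProduct
  apply Finset.sum_le_sum
  intro i _
  have h2 : (R *ᵥ e) i ^ 2 ≤ (∑ j, R i j ^ 2) * ∑ j, e j ^ 2 :=
    Finset.sum_mul_sq_le_sq_mul_sq Finset.univ (fun j => R i j) e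
  have h3 : ∑ j, e j ^ 2 = 1 := by
    rw [← he]
    unfold dotProduct
    apply Finset.sum_congr rfl
    intro j _
    ring
  rw [h3, mul_one] at h2
  linarith

theorem trace_mul_le {E F : Matrix (Fin N) (Fin N) ℝ} (hF : F.PosSemidef) {η : ℝ}
    (h : ∀ c : Fin N → ℝ, c ⬝ᵥ E *ᵥ c ≤ η * (c ⬝ᵥ c)) : (E * F).trace ≤ η * F.trace := by
  obtain ⟨R, rfl⟩ := exists_gram hF
  have key : ∀ M : Matrix (Fin N) (Fin N) ℝ, (M * (Rᵀ * R)).trace =
      ∑ i, (Rᵀ.col i) ⬝ᵥ M *ᵥ (Rᵀ.col i) := by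
    intro M
    rw [← Matrix.mul_assoc, Matrix.trace_mul_comm, ← Matrix.mul_assoc]
    unfold Matrix.trace
    apply Finset.sum_congr rfl
    intro i _
    simp only [Matrix.diag_apply]
    rw [Matrix.mul_assoc, Matrix.mul_apply]
    unfold dotProduct
    apply Finset.sum_congr rfl
    intro j _
    rw [Matrix.mul_apply]
    rfl
  have h1 := key 1
  rw [Matrix.one_mul] at h1
  rw [key, h1, Finset.mul_sum]
  apply Finset.sum_le_sum
  intro i _
  rw [Matrix.one_mulVec]
  exact h _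

/-- The pointwise algebraic inequality behind the monotonicity of the trace. -/
theorem trace_step {J F D Q P E1 : Matrix (Fin N) (Fin N) ℝ} (hJ : J.PosDef)
    (sF : Fᵀ = F) (sQ : Qᵀ = Q) (sP : Pᵀ = P) {d' η ν lam κ : ℝ}
    (hd' : 0 ≤ d') (hη : 0 ≤ η) (hν : 0 ≤ ν) (hκ : 0 ≤ κ)
    (h1 : ∀ c : Fin N → ℝ, 0 ≤ c ⬝ᵥ F *ᵥ c)
    (h1' : ∀ c : Fin N → ℝ, c ⬝ᵥ F *ᵥ c ≤ d' * (c ⬝ᵥ J *ᵥ c))
    (h2 : ∀ c : Fin N → ℝ, c ⬝ᵥ E1 *ᵥ c ≤ η * (c ⬝ᵥ J *ᵥ c))
    (h3 : D = (2 : ℝ) • Q + κ • F - P)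
    (h4 : ∀ c e : Fin N → ℝ, (c ⬝ᵥ F *ᵥ e) ^ 2 ≤ (c ⬝ᵥ Q *ᵥ c) * (e ⬝ᵥ J *ᵥ e))
    (h5 : ∀ c : Fin N → ℝ, c ⬝ᵥ P *ᵥ c ≤ ν * (c ⬝ᵥ J *ᵥ c))
    (h6 : ∃ c : Fin N → ℝ, c ≠ 0 ∧ lam * (c ⬝ᵥ J *ᵥ c) ≤ c ⬝ᵥ (D - Q) *ᵥ c) :
    lam - κ * d' - d' ^ 2 - N * ν - N * η * d' ≤
      (J⁻¹ * (D - κ • F)).trace - (J⁻¹ * ((2 : ℝ) • F + E1) * J⁻¹ * F).trace := by
  obtain ⟨B, hB1, hB2⟩ := exists_factor hJ
  have hdet : IsUnit J.det := hJ.det_pos.ne'.isUnit
  have tr1 : ∀ M : Matrix (Fin N) (Fin N) ℝ, (J⁻¹ * M).trace = (B * M * Bᵀ).trace := by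
    intro M
    rw [hB1, Matrix.mul_assoc, Matrix.trace_mul_comm]
  have tr2 : ∀ M M' : Matrix (Fin N) (Fin N) ℝ, (J⁻¹ * M * J⁻¹ * M').trace =
      ((B * M * Bᵀ) * (B * M' * Bᵀ)).trace := by
    intro M M'
    rw [hB1]
    have : Bᵀ * B * M * (Bᵀ * B) * M' = Bᵀ * (B * M * Bᵀ * B * M') := by
      simp only [Matrix.mul_assoc]
    rw [this, Matrix.trace_mul_comm]
    simp only [Matrix.mul_assoc]
  have qd : ∀ (M : Matrix (Fin N) (Fin N) ℝ) (c e : Fin N → ℝ),
      c ⬝ᵥ (B * M * Bᵀ) *ᵥ e = (Bᵀ *ᵥ c) ⬝ᵥ M *ᵥ (Bᵀ *ᵥ e) := by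
    intro M c e
    rw [← Matrix.mulVec_mulVec, ← Matrix.mulVec_mulVec, Matrix.dotProduct_mulVec,
      ← Matrix.mulVec_transpose]
  have qJ : ∀ c : Fin N → ℝ, (Bᵀ *ᵥ c) ⬝ᵥ J *ᵥ (Bᵀ *ᵥ c) = c ⬝ᵥ c := by
    intro c
    rw [← qd, hB2, Matrix.one_mulVec]
  set Fh := B * F * Bᵀ with hFh
  set Qh := B * Q * Bᵀ with hQh
  set Ph := B * P * Bᵀ with hPh
  set Dh := B * D * Bᵀ with hDh
  set Eh := B * E1 * Bᵀ with hEh
  have sFh : Fhᵀ = Fh := by
    rw [hFh, Matrix.transpose_mul, Matrix.transpose_mul, Matrix.transpose_transpose, sF,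
      Matrix.mul_assoc]
  have sQh : Qhᵀ = Qh := by
    rw [hQh, Matrix.transpose_mul, Matrix.transpose_mul, Matrix.transpose_transpose, sQ,
      Matrix.mul_assoc]
  have sPh : Phᵀ = Ph := by
    rw [hPh, Matrix.transpose_mul, Matrix.transpose_mul, Matrix.transpose_transpose, sP,
      Matrix.mul_assoc]
  have hF0 : ∀ c : Fin N → ℝ, 0 ≤ c ⬝ᵥ Fh *ᵥ c := fun c => by rw [qd]; exact h1 _
  have hF1 : ∀ c : Fin N → ℝ, c ⬝ᵥ Fh *ᵥ c ≤ d' * (c ⬝ᵥ c) := fun c => by
    rw [qd, ← qJ]; exact h1' _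
  have hE : ∀ c : Fin N → ℝ, c ⬝ᵥ Eh *ᵥ c ≤ η * (c ⬝ᵥ c) := fun c => by
    rw [qd, ← qJ]; exact h2 _
  have hP : ∀ c : Fin N → ℝ, c ⬝ᵥ Ph *ᵥ c ≤ ν * (c ⬝ᵥ c) := fun c => by
    rw [qd, ← qJ]; exact h5 _
  have hCS : ∀ c e : Fin N → ℝ, (c ⬝ᵥ Fh *ᵥ e) ^ 2 ≤ (c ⬝ᵥ Qh *ᵥ c) * (e ⬝ᵥ e) := fun c e => by
    rw [qd, qd, ← qJ e]; exact h4 _ _
  have hDh3 : Dh = (2 : ℝ) • Qh + κ • Fh - Ph := by
    rw [hDh, h3]
    simp only [Matrix.mul_sub, Matrix.mul_add, Matrix.mul_smul, Matrix.sub_mul, Matrix.add_mul, smul_mul]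
    rfl
  have nn : ∀ c : Fin N → ℝ, 0 ≤ c ⬝ᵥ c := fun c => by
    unfold dotProduct
    exact Finset.sum_nonneg fun i _ => mul_self_nonneg _
  have hsq : ∀ c : Fin N → ℝ, c ⬝ᵥ (Fh * Fh) *ᵥ c = (Fh *ᵥ c) ⬝ᵥ (Fh *ᵥ c) := by
    intro c
    rw [← Matrix.mulVec_mulVec, symm_dot sFh]
  -- `Q ≥ F²`
  have hQF : ∀ c : Fin N → ℝ, (Fh *ᵥ c) ⬝ᵥ (Fh *ᵥ c) ≤ c ⬝ᵥ Qh *ᵥ c := by
    intro c
    have a1 := hCS c (Fh *ᵥ c)
    rw [symm_dot sFh] at a1
    set t := (Fh *ᵥ c) ⬝ᵥ (Fh *ᵥ c) with ht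
    have a2 : 0 ≤ t := nn _
    rcases a2.eq_or_lt with h0 | h0
    · rw [← h0]
      have a3 := hCS c c
      by_contra hneg
      push Not at hneg
      by_cases hc : c ⬝ᵥ c = 0
      · have : c = 0 := dotProduct_self_eq_zero.1 hc
        rw [this] at hneg
        simp only [mulVec_zero, dotProduct_zero, lt_self_iff_false] at hneg
      · have h5 : 0 < c ⬝ᵥ c := lt_of_le_of_ne (nn c) (Ne.symm hc)
        nlinarith only [a3, hneg, h5]
    · by_contra hneg
      push Not at hneg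
      linarith only [mul_pos (sub_pos.2 h0) (sub_pos.2 hneg), a1]
  -- `F² ≤ d'²`
  have hFF : ∀ c : Fin N → ℝ, c ⬝ᵥ c = 1 → (Fh *ᵥ c) ⬝ᵥ (Fh *ᵥ c) ≤ d' ^ 2 := by
    intro c hc
    have hpsd : Fh.PosSemidef := psd_of sFh hF0
    obtain ⟨R, hR⟩ := exists_gram hpsd
    set t := (Fh *ᵥ c) ⬝ᵥ (Fh *ᵥ c) with ht
    have e1 : t = (R *ᵥ c) ⬝ᵥ (R *ᵥ (Fh *ᵥ c)) := by
      rw [ht]
      have : (Fh *ᵥ c) ⬝ᵥ (Fh *ᵥ c) = c ⬝ᵥ Fh *ᵥ (Fh *ᵥ c) := (symm_dot sFh _ _).symm
      rw [this]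
      nth_rewrite 1 [hR]
      rw [← Matrix.mulVec_mulVec, Matrix.dotProduct_mulVec, Matrix.vecMul_transpose]
    have e2 : t ^ 2 ≤ ((R *ᵥ c) ⬝ᵥ (R *ᵥ c)) *
        ((R *ᵥ (Fh *ᵥ c)) ⬝ᵥ (R *ᵥ (Fh *ᵥ c))) := by
      rw [e1]
      have h7 := Finset.sum_mul_sq_le_sq_mul_sq Finset.univ (R *ᵥ c) (R *ᵥ (Fh *ᵥ c))
      unfold dotProduct
      simpa only [sq] using h7
    rw [← dot_RR, ← dot_RR, ← hR] at e2
    have e3 : (Fh *ᵥ c) ⬝ᵥ Fh *ᵥ (Fh *ᵥ c) ≤ d' * t := hF1 _
    have e4 : c ⬝ᵥ Fh *ᵥ c ≤ d' := by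
      have := hF1 c
      rwa [hc, mul_one] at this
    have e5 : t ^ 2 ≤ d' * (d' * t) :=
      e2.trans (mul_le_mul e4 e3 (hF0 _) hd')
    have e6 : 0 ≤ t := nn _
    rcases e6.eq_or_lt with h0 | h0
    · rw [← h0]; (clear * -; positivity)
    · by_contra hneg
      push Not at hneg
      linarith only [mul_pos (sub_pos.2 hneg) (sub_pos.2 hneg), mul_nonneg (sq_nonneg (d' : ℝ)) (le_of_lt (sub_pos.2 hneg)), e5]
  -- the unit vector
  obtain ⟨c₀, hc₀, hc₀'⟩ := h6
  have hJc : 0 < c₀ ⬝ᵥ J *ᵥ c₀ := by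
    have := hJ.dotProduct_mulVec_pos hc₀
    simpa only [gt_iff_lt, star_trivial] using this
  set w : Fin N → ℝ := B *ᵥ (J *ᵥ c₀) with hw
  have hBw : Bᵀ *ᵥ w = c₀ := by
    rw [hw, Matrix.mulVec_mulVec, ← hB1, Matrix.mulVec_mulVec, Matrix.nonsing_inv_mul _ hdet,
      Matrix.one_mulVec]
  have hww : w ⬝ᵥ w = c₀ ⬝ᵥ J *ᵥ c₀ := by rw [← qJ, hBw]
  set t : ℝ := (√(w ⬝ᵥ w))⁻¹ with ht
  have hwpos : 0 < w ⬝ᵥ w := by rw [hww]; exact hJc
  have ht2 : t ^ 2 * (w ⬝ᵥ w) = 1 := by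
    rw [ht, inv_pow, Real.sq_sqrt hwpos.le, inv_mul_cancel₀ hwpos.ne']
  set e : Fin N → ℝ := t • w with he
  have hee : e ⬝ᵥ e = 1 := by
    rw [he, smul_dotProduct, dotProduct_smul, smul_eq_mul, smul_eq_mul, ← ht2]
    ring
  have hDQ : lam ≤ e ⬝ᵥ (Dh - Qh) *ᵥ e := by
    have a1 : Dh - Qh = B * (D - Q) * Bᵀ := by
      rw [Matrix.mul_sub, Matrix.sub_mul]
    rw [a1, he, Matrix.mulVec_smul, smul_dotProduct, dotProduct_smul, qd, hBw, smul_eq_mul,
      smul_eq_mul]
    have a2 := mul_le_mul_of_nonneg_left hc₀' (sq_nonneg t)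
    have a3 : t ^ 2 * (lam * (c₀ ⬝ᵥ J *ᵥ c₀)) = lam := by
      rw [← hww]
      calc t ^ 2 * (lam * (w ⬝ᵥ w)) = lam * (t ^ 2 * (w ⬝ᵥ w)) := by ring
        _ = lam := by rw [ht2, mul_one]
    rw [a3] at a2
    calc lam ≤ _ := a2
      _ = _ := by ring
  -- traces
  have hS : ((2 : ℝ) • (Qh - Fh * Fh)).PosSemidef := by
    apply psd_of
    · rw [Matrix.transpose_smul, Matrix.transpose_sub, sQh, Matrix.transpose_mul Fh Fh, sFh]
    · intro c
      rw [Matrix.smul_mulVec, Matrix.sub_mulVec, dotProduct_smul, dotProduct_sub, hsq, smul_eq_mul]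
      have := hQF c
      linarith only [this]
  have hT : (ν • (1 : Matrix (Fin N) (Fin N) ℝ) - Ph).PosSemidef := by
    apply psd_of
    · rw [Matrix.transpose_sub, Matrix.transpose_smul, Matrix.transpose_one, sPh]
    · intro c
      rw [Matrix.sub_mulVec, Matrix.smul_mulVec, Matrix.one_mulVec, dotProduct_sub,
        dotProduct_smul, smul_eq_mul]
      have := hP c
      linarith only [this]
  have b1 := quad_le_trace hS hee
  have b2 := quad_le_trace hT hee
  have b3 : (Eh * Fh).trace ≤ η * Fh.trace := trace_mul_le (psd_of sFh hF0) hE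
  have b4 : Fh.trace ≤ N * d' := by
    have hU : (d' • (1 : Matrix (Fin N) (Fin N) ℝ) - Fh).PosSemidef := by
      apply psd_of
      · rw [Matrix.transpose_sub, Matrix.transpose_smul, Matrix.transpose_one, sFh]
      · intro c
        rw [Matrix.sub_mulVec, Matrix.smul_mulVec, Matrix.one_mulVec, dotProduct_sub,
          dotProduct_smul, smul_eq_mul]
        have := hF1 c
        linarith only [this]
    have := hU.trace_nonneg
    rw [Matrix.trace_sub, Matrix.trace_smul, Matrix.trace_one, Fintype.card_fin,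
      smul_eq_mul] at this
    linarith only [this]
  have b5 : (Eh * Fh).trace ≤ N * η * d' := by
    have := mul_le_mul_of_nonneg_left b4 hη
    linarith only [b3, this]
  have goal1 : (J⁻¹ * (D - κ • F)).trace - (J⁻¹ * ((2 : ℝ) • F + E1) * J⁻¹ * F).trace =
      (Dh - κ • Fh - (2 : ℝ) • (Fh * Fh)).trace - (Eh * Fh).trace := by
    rw [tr1, tr2]
    have a1 : B * (D - κ • F) * Bᵀ = Dh - κ • Fh := by
      rw [Matrix.mul_sub, Matrix.sub_mul, Matrix.mul_smul, Matrix.smul_mul]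
    have a2 : B * ((2 : ℝ) • F + E1) * Bᵀ = (2 : ℝ) • Fh + Eh := by
      rw [Matrix.mul_add, Matrix.add_mul, Matrix.mul_smul, Matrix.smul_mul]
    rw [a1, a2, ← hFh, Matrix.add_mul, Matrix.smul_mul, Matrix.trace_add, Matrix.trace_sub
      (Dh - κ • Fh)]
    ring
  rw [goal1]
  have c1 : Dh - κ • Fh - (2 : ℝ) • (Fh * Fh) = (2 : ℝ) • (Qh - Fh * Fh) - Ph := by
    rw [hDh3, smul_sub]
    abel
  have c2 : (Dh - κ • Fh - (2 : ℝ) • (Fh * Fh)).trace =
      ((2 : ℝ) • (Qh - Fh * Fh)).trace + (ν • (1 : Matrix (Fin N) (Fin N) ℝ) - Ph).trace -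
        N * ν := by
    rw [c1, Matrix.trace_sub, Matrix.trace_sub (ν • 1), Matrix.trace_smul ν, Matrix.trace_one,
      Fintype.card_fin, smul_eq_mul]
    ring
  have c3 : e ⬝ᵥ ((2 : ℝ) • (Qh - Fh * Fh)) *ᵥ e +
      e ⬝ᵥ (ν • (1 : Matrix (Fin N) (Fin N) ℝ) - Ph) *ᵥ e =
      e ⬝ᵥ (Dh - Qh) *ᵥ e + e ⬝ᵥ Qh *ᵥ e - κ * (e ⬝ᵥ Fh *ᵥ e) -
        2 * ((Fh *ᵥ e) ⬝ᵥ (Fh *ᵥ e)) + ν := by
    rw [← hsq, hDh3]
    simp only [Matrix.smul_mulVec, Matrix.sub_mulVec, Matrix.add_mulVec, Matrix.one_mulVec,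
      dotProduct_smul, dotProduct_sub, dotProduct_add, smul_eq_mul, hee]
    ring
  have c4 := hQF e
  have c5 := hFF e hee
  have c6 : κ * (e ⬝ᵥ Fh *ᵥ e) ≤ κ * d' := by
    apply mul_le_mul_of_nonneg_left _ hκ
    have := hF1 e
    rwa [hee, mul_one] at this
  rw [c2]
  linarith only [c6, c5, c4, c3, b5, b2, b1, hDQ, hν]

end Vale.Agent.P225
end

section
open Filter Topology Matrix
open scoped ContDiff MatrixOrder

namespace Vale.Agent.P225

variable {N : ℕ}

theorem differentiableAt_inv_entry {M : ℝ → Matrix (Fin N) (Fin N) ℝ} {t : ℝ}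
    {D : Matrix (Fin N) (Fin N) ℝ} (hdet : (M t).det ≠ 0)
    (h : ∀ i j, HasDerivAt (fun s => M s i j) (D i j) t) (i j : Fin N) :
    DifferentiableAt ℝ (fun s => (M s)⁻¹ i j) t := by
  have h2 : (fun s => (M s)⁻¹ i j) = fun s => ((M s).det)⁻¹ * (M s).adjugate i j := by
    funext s
    rw [Matrix.inv_def, Matrix.smul_apply, Ring.inverse_eq_inv', smul_eq_mul]
  rw [h2]
  have hd := (hasDerivAt_det h).differentiableAt
  refine (hd.inv hdet).mul ?_
  simp only [Matrix.adjugate_apply]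
  have h3 : ∀ a b, HasDerivAt (fun s => ((M s).updateRow j (Pi.single i 1)) a b)
      ((D.updateRow j 0) a b) t := by
    intro a b
    by_cases ha : a = j
    · subst ha
      simp only [Matrix.updateRow_self]
      exact hasDerivAt_const t _
    · simp only [Matrix.updateRow_ne ha]
      exact h a b
  exact (hasDerivAt_det (M := fun s => (M s).updateRow j (Pi.single i 1)) h3).differentiableAt

theorem hasDerivAt_inv_entry' {M : ℝ → Matrix (Fin N) (Fin N) ℝ} {t : ℝ}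
    {D : Matrix (Fin N) (Fin N) ℝ} (hM : ∀ᶠ s in 𝓝 t, (M s).det ≠ 0)
    (h : ∀ i j, HasDerivAt (fun s => M s i j) (D i j) t) (i j : Fin N) :
    HasDerivAt (fun s => (M s)⁻¹ i j) ((-((M t)⁻¹ * D * (M t)⁻¹)) i j) t := by
  have hdet : (M t).det ≠ 0 := hM.self_of_nhds
  set D' : Matrix (Fin N) (Fin N) ℝ := Matrix.of fun i j => deriv (fun s => (M s)⁻¹ i j) t with hD'
  have h' : ∀ i j, HasDerivAt (fun s => (M s)⁻¹ i j) (D' i j) t := fun i j =>
    (differentiableAt_inv_entry hdet h i j).hasDerivAt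
  have h1 : D * (M t)⁻¹ + M t * D' = 0 := by
    ext i j
    have h2 : HasDerivAt (fun s => (M s * (M s)⁻¹) i j)
        (∑ k, (D i k * (M t)⁻¹ k j + M t i k * D' k j)) t := by
      have h3 : (fun s => (M s * (M s)⁻¹) i j) = fun s => ∑ k, M s i k * (M s)⁻¹ k j := by
        funext s; rw [Matrix.mul_apply]
      rw [h3]
      apply HasDerivAt.fun_sum
      intro k _
      exact (h i k).mul (h' k j)
    have h4 : (fun s => (M s * (M s)⁻¹) i j) =ᶠ[𝓝 t]
        fun _ => (1 : Matrix (Fin N) (Fin N) ℝ) i j := by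
      filter_upwards [hM] with s hs
      rw [Matrix.mul_nonsing_inv _ (isUnit_iff_ne_zero.2 hs)]
    have h5 := h2.unique ((hasDerivAt_const t _).congr_of_eventuallyEq h4)
    rw [Matrix.add_apply, Matrix.mul_apply, Matrix.mul_apply, ← Finset.sum_add_distrib, h5]
    rfl
  have h2 : M t * D' = -(D * (M t)⁻¹) := by
    rw [add_comm] at h1
    exact eq_neg_of_add_eq_zero_left h1
  have hNM : (M t)⁻¹ * M t = 1 := Matrix.nonsing_inv_mul _ (isUnit_iff_ne_zero.2 hdet)
  have h6 : D' = -((M t)⁻¹ * D * (M t)⁻¹) := by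
    calc D' = (M t)⁻¹ * (M t * D') := by rw [← Matrix.mul_assoc, hNM, Matrix.one_mul]
      _ = -((M t)⁻¹ * D * (M t)⁻¹) := by rw [h2, Matrix.mul_neg, Matrix.mul_assoc]
  rw [← h6]
  exact h' i j

/-- A family of frequency matrices cannot be bounded if at every radius one direction has a large
tangential energy. -/
theorem trace_contra {J F D Q P E1 : ℝ → Matrix (Fin N) (Fin N) ℝ} {r₀ : ℝ} (hr₀ : 0 ≤ r₀)
    (hJ : ∀ r, r₀ < r → (J r).PosDef)
    (sF : ∀ r, r₀ < r → (F r)ᵀ = F r) (sQ : ∀ r, r₀ < r → (Q r)ᵀ = Q r)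
    (sP : ∀ r, r₀ < r → (P r)ᵀ = P r) {d' η ν lam κ δ : ℝ}
    (hd' : 0 ≤ d') (hη : 0 ≤ η) (hν : 0 ≤ ν) (hκ : 0 ≤ κ)
    (dJ : ∀ r, r₀ < r → ∀ i j,
      HasDerivAt (fun s => J s i j) ((r⁻¹ • ((2 : ℝ) • F r + E1 r)) i j) r)
    (dF : ∀ r, r₀ < r → ∀ i j, HasDerivAt (fun s => F s i j) ((r⁻¹ • (D r - κ • F r)) i j) r)
    (h1 : ∀ r, r₀ < r → ∀ c : Fin N → ℝ, 0 ≤ c ⬝ᵥ F r *ᵥ c)
    (h1' : ∀ r, r₀ < r → ∀ c : Fin N → ℝ, c ⬝ᵥ F r *ᵥ c ≤ d' * (c ⬝ᵥ J r *ᵥ c))
    (h2 : ∀ r, r₀ < r → ∀ c : Fin N → ℝ, c ⬝ᵥ E1 r *ᵥ c ≤ η * (c ⬝ᵥ J r *ᵥ c))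
    (h3 : ∀ r, r₀ < r → D r = (2 : ℝ) • Q r + κ • F r - P r)
    (h4 : ∀ r, r₀ < r → ∀ c e : Fin N → ℝ,
      (c ⬝ᵥ F r *ᵥ e) ^ 2 ≤ (c ⬝ᵥ Q r *ᵥ c) * (e ⬝ᵥ J r *ᵥ e))
    (h5 : ∀ r, r₀ < r → ∀ c : Fin N → ℝ, c ⬝ᵥ P r *ᵥ c ≤ ν * (c ⬝ᵥ J r *ᵥ c))
    (h6 : ∀ r, r₀ < r → ∃ c : Fin N → ℝ, c ≠ 0 ∧
      lam * (c ⬝ᵥ J r *ᵥ c) ≤ c ⬝ᵥ (D r - Q r) *ᵥ c)
    (hδ : 0 < δ) (hlam : δ ≤ lam - κ * d' - d' ^ 2 - N * ν - N * η * d') : False := by
  set T : ℝ → ℝ := fun r => ((J r)⁻¹ * F r).trace with hT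
  set T' : ℝ → ℝ := fun r => r⁻¹ * (((J r)⁻¹ * (D r - κ • F r)).trace -
    ((J r)⁻¹ * ((2 : ℝ) • F r + E1 r) * (J r)⁻¹ * F r).trace) with hT'
  have hder : ∀ r, r₀ < r → HasDerivAt T (T' r) r := by
    intro r hr
    have hdet : ∀ᶠ s in 𝓝 r, (J s).det ≠ 0 := by
      filter_upwards [isOpen_Ioi.mem_nhds hr] with s hs
      exact (hJ s hs).det_pos.ne'
    have hi := hasDerivAt_inv_entry' hdet (dJ r hr)
    have e1 : T = fun s => ∑ i, ∑ j, (J s)⁻¹ i j * F s j i := by
      funext s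
      simp only [hT, Matrix.trace, Matrix.diag_apply, Matrix.mul_apply]
    have h7 : HasDerivAt T (∑ i, ∑ j, ((-((J r)⁻¹ * (r⁻¹ • ((2 : ℝ) • F r + E1 r)) * (J r)⁻¹)) i j *
        F r j i + (J r)⁻¹ i j * (r⁻¹ • (D r - κ • F r)) j i)) r := by
      rw [e1]
      apply HasDerivAt.fun_sum
      intro i _
      apply HasDerivAt.fun_sum
      intro j _
      exact (hi i j).mul (dF r hr j i)
    convert! h7 using 1
    have e2 : ∀ A B A' B' : Matrix (Fin N) (Fin N) ℝ,
        ∑ i, ∑ j, (A i j * B j i + A' i j * B' j i) = (A * B).trace + (A' * B').trace := by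
      intro A B A' B'
      simp only [Matrix.trace, Matrix.diag_apply, Matrix.mul_apply, Finset.sum_add_distrib]
    rw [e2]
    simp only [hT', Matrix.mul_smul, Matrix.smul_mul, Matrix.neg_mul, Matrix.trace_neg,
      Matrix.trace_smul, smul_eq_mul]
    ring
  have hr1 : r₀ < r₀ + 1 := by linarith only []
  have hpos : ∀ r, r₀ + 1 ≤ r → 0 < r := fun r hr => by linarith only [hr₀, hr]
  have hlow := fun (r : ℝ) (hr : r₀ + 1 ≤ r) => le_of_hasDeriv_nonneg (r₁ := r₀ + 1)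
    (f := fun t => T t - δ * Real.log t) (f' := fun t => T' t - δ * t⁻¹)
    (fun t ht => (hder t (by linarith only [ht])).sub ((Real.hasDerivAt_log (hpos t ht).ne').const_mul δ))
    (fun t ht => by
      have ht0 : r₀ < t := by linarith only [ht]
      have a1 := trace_step (hJ t ht0) (sF t ht0) (sQ t ht0) (sP t ht0) hd' hη hν hκ (h1 t ht0)
        (h1' t ht0) (h2 t ht0) (h3 t ht0) (h4 t ht0) (h5 t ht0) (h6 t ht0)
      have a2 : δ * t⁻¹ ≤ T' t := by
        rw [hT', mul_comm δ]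
        exact mul_le_mul_of_nonneg_left (hlam.trans a1) (inv_nonneg.2 (hpos t ht).le)
      linarith only [a2]) r hr
  -- bounds on the trace
  have hfac : ∀ r, r₀ < r → 0 ≤ T r ∧ T r ≤ N * d' := by
    intro r hr
    obtain ⟨B, hB1, hB2⟩ := exists_factor (hJ r hr)
    have tr1 : T r = (B * F r * Bᵀ).trace := by
      simp only [hT]
      rw [hB1, Matrix.mul_assoc, Matrix.trace_mul_comm]
    have qd : ∀ (M : Matrix (Fin N) (Fin N) ℝ) (c : Fin N → ℝ),
        c ⬝ᵥ (B * M * Bᵀ) *ᵥ c = (Bᵀ *ᵥ c) ⬝ᵥ M *ᵥ (Bᵀ *ᵥ c) := by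
      intro M c
      rw [← Matrix.mulVec_mulVec, ← Matrix.mulVec_mulVec, Matrix.dotProduct_mulVec,
        ← Matrix.mulVec_transpose]
    have sFh : (B * F r * Bᵀ)ᵀ = B * F r * Bᵀ := by
      rw [Matrix.transpose_mul, Matrix.transpose_mul, Matrix.transpose_transpose, sF r hr,
        Matrix.mul_assoc]
    have p1 : (B * F r * Bᵀ).PosSemidef := psd_of sFh fun c => by rw [qd]; exact h1 r hr _
    have p2 : (d' • (1 : Matrix (Fin N) (Fin N) ℝ) - B * F r * Bᵀ).PosSemidef := by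
      apply psd_of
      · rw [Matrix.transpose_sub, Matrix.transpose_smul, Matrix.transpose_one, sFh]
      · intro c
        rw [Matrix.sub_mulVec, Matrix.smul_mulVec, Matrix.one_mulVec, dotProduct_sub,
          dotProduct_smul, smul_eq_mul, qd]
        have a1 := h1' r hr (Bᵀ *ᵥ c)
        rw [← qd (J r), hB2, Matrix.one_mulVec] at a1
        linarith only [a1]
    have t1 := p1.trace_nonneg
    have t2 := p2.trace_nonneg
    rw [Matrix.trace_sub, Matrix.trace_smul, Matrix.trace_one, Fintype.card_fin,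
      smul_eq_mul] at t2
    rw [tr1]
    exact ⟨t1, by linarith only [t2]⟩
  have htend : Tendsto (fun t => δ * Real.log t) atTop atTop :=
    Real.tendsto_log_atTop.const_mul_atTop hδ
  obtain ⟨t, ht1, ht2⟩ := ((htend.eventually (eventually_gt_atTop
    (N * d' + δ * Real.log (r₀ + 1)))).and (eventually_ge_atTop (r₀ + 1))).exists
  have a1 := hlow t ht2
  have a2 := (hfac t (by linarith only [ht2])).2
  have a3 := (hfac (r₀ + 1) hr1).1
  linarith only [ht1, a1, a2, a3]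

end Vale.Agent.P225
end

section
open MeasureTheory Set Filter Topology Matrix
open scoped ContDiff

namespace Vale.Agent.P225

section quadforms

variable {N : ℕ}

/-- `q` is the quadratic form of the symmetric matrix `M`. -/
def IsQ (q : (Fin N → ℝ) → ℝ) (M : Matrix (Fin N) (Fin N) ℝ) : Prop :=
  Mᵀ = M ∧ ∀ c, q c = c ⬝ᵥ M *ᵥ c

noncomputable def pol (q : (Fin N → ℝ) → ℝ) : Matrix (Fin N) (Fin N) ℝ :=
  Matrix.of fun i j => (q (Pi.single i 1 + Pi.single j 1) - q (Pi.single i 1) -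
    q (Pi.single j 1)) / 2

theorem pol_symm (q : (Fin N → ℝ) → ℝ) : (pol q)ᵀ = pol q := by
  ext i j
  simp only [pol, transpose_apply, of_apply]
  rw [add_comm (Pi.single j 1) (Pi.single i 1)]
  ring

theorem basis_quad (M : Matrix (Fin N) (Fin N) ℝ) (i j : Fin N) :
    (Pi.single i 1 : Fin N → ℝ) ⬝ᵥ M *ᵥ (Pi.single j 1) = M i j := by
  simp only [mulVec_single, MulOpposite.op_one, one_smul, single_dotProduct, col_apply, one_mul]

theorem IsQ.eq_pol {q : (Fin N → ℝ) → ℝ} {M : Matrix (Fin N) (Fin N) ℝ} (h : IsQ q M) :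
    M = pol q := by
  ext i j
  simp only [pol, of_apply]
  rw [h.2, h.2, h.2, Matrix.mulVec_add, add_dotProduct, dotProduct_add, dotProduct_add,
    basis_quad, basis_quad, basis_quad, basis_quad]
  have : M j i = M i j := congrFun (congrFun h.1 i) j
  rw [this]
  ring

theorem quad_expand (M : Matrix (Fin N) (Fin N) ℝ) (c e : Fin N → ℝ) :
    c ⬝ᵥ M *ᵥ e = ∑ i, ∑ j, c i * M i j * e j := by
  unfold dotProduct Matrix.mulVec dotProduct
  apply Finset.sum_congr rfl
  intro i _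
  rw [Finset.mul_sum]
  apply Finset.sum_congr rfl
  intro j _
  ring

theorem isQ_deriv {q : ℝ → (Fin N → ℝ) → ℝ} {q' : (Fin N → ℝ) → ℝ}
    {M : ℝ → Matrix (Fin N) (Fin N) ℝ} {r₀ r : ℝ} (hr : r₀ < r)
    (h : ∀ s, r₀ < s → IsQ (q s) (M s))
    (hd : ∀ c, HasDerivAt (fun s => q s c) (q' c) r) :
    (∀ i j, HasDerivAt (fun s => M s i j) (pol q' i j) r) ∧ IsQ q' (pol q') := by
  have h1 : ∀ i j, HasDerivAt (fun s => M s i j) (pol q' i j) r := by
    intro i j
    have h2 : HasDerivAt (fun s => pol (q s) i j) (pol q' i j) r := by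
      simp only [pol, Matrix.of_apply]
      exact (((hd _).sub (hd _)).sub (hd _)).div_const 2
    apply h2.congr_of_eventuallyEq
    filter_upwards [isOpen_Ioi.mem_nhds hr] with s hs
    rw [(h s hs).eq_pol]
  refine ⟨h1, pol_symm q', fun c => ?_⟩
  have h3 : HasDerivAt (fun s => ∑ i, ∑ j, c i * M s i j * c j)
      (∑ i, ∑ j, c i * pol q' i j * c j) r := by
    apply HasDerivAt.fun_sum
    intro i _
    apply HasDerivAt.fun_sum
    intro j _
    exact ((h1 i j).const_mul (c i)).mul_const (c j)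
  have h4 : HasDerivAt (fun s => q s c) (∑ i, ∑ j, c i * pol q' i j * c j) r := by
    apply h3.congr_of_eventuallyEq
    filter_upwards [isOpen_Ioi.mem_nhds hr] with s hs
    rw [(h s hs).2 c, quad_expand]
  rw [quad_expand]
  exact (hd c).unique h4

end quadforms

namespace Cone

variable {n : ℕ} (K : Cone n)

/-- the combination of a family -/
noncomputable def cmb {N : ℕ} (u : Fin N → E n → ℝ) (c : Fin N → ℝ) (x : E n) : ℝ :=
  ∑ i, c i * u i x

theorem s_cmb {N : ℕ} {u : Fin N → E n → ℝ} (hsol : ∀ i, K.Sol (u i)) (c : Fin N → ℝ) (x : E n) :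
    K.s (cmb u c) x = ∑ i, c i * K.s (u i) x := by
  unfold s
  have h0 : gr (cmb u c) x = ∑ i, c i • gr (u i) x :=
    gr_sum c (fun i => (K.u_contDiff (hsol i)).differentiable (by simp) x)
  rw [h0, inner_sum]
  simp only [real_inner_smul_right]

theorem sph_bilin {N : ℕ} {f g : Fin N → E n → ℝ} (hf : ∀ i, ContinuousOn (f i) K.O)
    (hg : ∀ i, ContinuousOn (g i) K.O) {r : ℝ} (hr : K.R₀ < r) (c e : Fin N → ℝ) :
    sph (fun x => K.μ x * (∑ i, c i * f i x) * (∑ j, e j * g j x)) r =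
      c ⬝ᵥ (Matrix.of fun i j => sph (fun x => K.μ x * f i x * g j x) r) *ᵥ e := by
  have h1 : sph (fun x => K.μ x * (∑ i, c i * f i x) * (∑ j, e j * g j x)) r =
      sph (fun x => ∑ i, ∑ j, c i * (K.μ x * f i x * g j x) * e j) r := by
    apply sph_congr
    intro x _
    rw [mul_assoc, Finset.sum_mul_sum, Finset.mul_sum]
    apply Finset.sum_congr rfl
    intro i _
    rw [Finset.mul_sum]
    apply Finset.sum_congr rfl
    intro j _
    ring
  rw [h1, quad_expand]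
  have hint : ∀ i j, Integrable (fun θ : Metric.sphere (0 : E n) 1 =>
      c i * (K.μ (r • (θ : E n)) * f i (r • (θ : E n)) * g j (r • (θ : E n))) * e j) (sig n) :=
    fun i j => (((K.integrable_O ((K.mu_cont.mul (hf i)).mul (hg j)) hr).const_mul (c i)).mul_const
      (e j))
  unfold sph
  rw [integral_finsetSum _ fun i _ => integrable_finset_sum _ fun j _ => hint i j]
  apply Finset.sum_congr rfl
  intro i _
  rw [integral_finsetSum _ fun j _ => hint i j]
  apply Finset.sum_congr rfl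
  intro j _
  rw [integral_mul_const, integral_const_mul]
  rfl

/-- Green's symmetry. -/
theorem green_symm [NeZero n] (hn : 2 ≤ n) {w z : E n → ℝ} (hw : K.Sol w) (hz : K.Sol z) {r : ℝ}
    (hr : K.R₀ < r) :
    sph (fun x => K.μ x * w x * K.s z x) r = sph (fun x => K.μ x * z x * K.s w x) r := by
  have hr0 : 0 < r := by linarith only [hr, K.hR₀]
  have key : ∀ w z : E n → ℝ, K.Sol w → K.Sol z →
      flux (fun x => w x • K.A x (gr z x)) r = r ^ (n - 2) *
        sph (fun x => K.μ x * w x * K.s z x) r := by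
    intro w z _ _
    unfold flux
    have h3 : sph (fun x : E n => inner ℝ (w x • K.A x (gr z x)) x / ‖x‖) r =
        r⁻¹ * sph (fun x => K.μ x * w x * K.s z x) r := by
      rw [← sph_const_mul]
      apply sph_congr
      intro x hx
      rw [abs_of_pos hr0] at hx
      rw [real_inner_smul_left, K.inner_Agr z (by rw [hx]; exact hr), hx]
      (clear * - hr0; field_simp)
    rw [h3]
    have : r ^ (n - 1) = r ^ (n - 2) * r := by
      rw [← pow_succ]; congr 1; omega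
    rw [this]
    (clear * - hr0; field_simp)
  have h1 : flux (fun x => w x • K.A x (gr z x)) r = flux (fun x => z x • K.A x (gr w x)) r := by
    rw [flux_smul_eq hn (K.u_contDiff hw) (K.Agr_contDiff hz) hr0.le,
      flux_smul_eq hn (K.u_contDiff hz) (K.Agr_contDiff hw) hr0.le]
    congr 1
    funext s
    congr 2
    funext x
    rw [hz.eq x, hw.eq x, mul_zero, mul_zero, add_zero, add_zero, ← K.sym, real_inner_comm]
  rw [key w z hw hz, key z w hz hw] at h1
  exact mul_left_cancel₀ (by positivity) h1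

theorem sph_cs {f g : E n → ℝ} (hf : ContinuousOn f K.O) (hg : ContinuousOn g K.O) {r : ℝ}
    (hr : K.R₀ < r) : (sph (fun x => K.μ x * f x * g x) r) ^ 2 ≤
      sph (fun x => K.μ x * f x * f x) r * sph (fun x => K.μ x * g x * g x) r := by
  have hr0 : 0 < r := by linarith [K.hR₀]
  set α := sph (fun x => K.μ x * f x * f x) r
  set β := sph (fun x => K.μ x * f x * g x) r
  set γ := sph (fun x => K.μ x * g x * g x) r
  have c1 : ContinuousOn (fun x => K.μ x * f x * f x) K.O := (K.mu_cont.mul hf).mul hf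
  have c2 : ContinuousOn (fun x => K.μ x * f x * g x) K.O := (K.mu_cont.mul hf).mul hg
  have c3 : ContinuousOn (fun x => K.μ x * g x * g x) K.O := (K.mu_cont.mul hg).mul hg
  have hq : ∀ t : ℝ, 0 ≤ γ * (t * t) + (-2 * β) * t + α := by
    intro t
    have h1 : γ * (t * t) + (-2 * β) * t + α =
        sph (fun x => K.μ x * (t * g x - f x) ^ 2) r := by
      have e0 : ContinuousOn (fun x => (t * t) * (K.μ x * g x * g x) +
          (-2 * t) * (K.μ x * f x * g x)) K.O :=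
        (continuousOn_const.mul c3).add (continuousOn_const.mul c2)
      have e1 : sph (fun x => K.μ x * (t * g x - f x) ^ 2) r =
          sph (fun x => (t * t) * (K.μ x * g x * g x) +
            (-2 * t) * (K.μ x * f x * g x) + K.μ x * f x * f x) r := by
        apply sph_congr
        intro x _
        ring
      rw [e1, K.sph_addO e0 c1 hr, K.sph_addO (contOn_cmul _ c3)
        (contOn_cmul _ c2) hr, sph_const_mul, sph_const_mul]
      ring
    rw [h1]
    apply integral_nonneg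
    intro θ
    have : ‖r • (θ : E n)‖ = r := norm_smul_sphere hr0.le θ
    exact mul_nonneg (K.mu_pos (by rw [this]; exact hr)).le (sq_nonneg _)
  have hd := discrim_le_zero hq
  unfold discrim at hd
  linarith

end Cone

end Vale.Agent.P225
end

section
open MeasureTheory Set Filter Topology Matrix
open scoped ContDiff

namespace Vale.Agent.P225

namespace Cone

variable {n : ℕ} (K : Cone n)

noncomputable def Jm {N : ℕ} (u : Fin N → E n → ℝ) (r : ℝ) : Matrix (Fin N) (Fin N) ℝ :=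
  Matrix.of fun i j => sph (fun x => K.μ x * u i x * u j x) r

noncomputable def Fm {N : ℕ} (u : Fin N → E n → ℝ) (r : ℝ) : Matrix (Fin N) (Fin N) ℝ :=
  Matrix.of fun i j => sph (fun x => K.μ x * u i x * K.s (u j) x) r

noncomputable def Qm {N : ℕ} (u : Fin N → E n → ℝ) (r : ℝ) : Matrix (Fin N) (Fin N) ℝ :=
  Matrix.of fun i j => sph (fun x => K.μ x * K.s (u i) x * K.s (u j) x) r

/-- derivative form of the flux -/
noncomputable def F1q {N : ℕ} (u : Fin N → E n → ℝ) (r : ℝ) (c : Fin N → ℝ) : ℝ :=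
  r * sph (K.e (cmb u c)) r - ((n : ℝ) - 2) * r⁻¹ * (K.F (cmb u c) r / r ^ (n - 2))

noncomputable def E1m {N : ℕ} (u : Fin N → E n → ℝ) (r : ℝ) : Matrix (Fin N) (Fin N) ℝ :=
  r • pol (fun c => K.J1 (cmb u c) r) - (2 : ℝ) • K.Fm u r

noncomputable def Dm {N : ℕ} (u : Fin N → E n → ℝ) (r : ℝ) : Matrix (Fin N) (Fin N) ℝ :=
  r • pol (K.F1q u r) + ((n : ℝ) - 2) • K.Fm u r

noncomputable def Pm {N : ℕ} (u : Fin N → E n → ℝ) (r : ℝ) : Matrix (Fin N) (Fin N) ℝ :=
  (2 : ℝ) • K.Qm u r + ((n : ℝ) - 2) • K.Fm u r - K.Dm u r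

variable {N : ℕ} {u : Fin N → E n → ℝ}

theorem isQ_J (hsol : ∀ i, K.Sol (u i)) {r : ℝ} (hr : K.R₀ < r) :
    IsQ (fun c => K.J (cmb u c) r) (K.Jm u r) := by
  constructor
  · ext i j
    simp only [Jm, Matrix.transpose_apply, Matrix.of_apply]
    apply sph_congr
    intro x _
    ring
  · intro c
    have hc : ∀ i, ContinuousOn (u i) K.O := fun i =>
      (K.u_contDiff (hsol i)).continuous.continuousOn
    exact K.sph_bilin hc hc hr c c

theorem isQ_F [NeZero n] (hn : 2 ≤ n) (hsol : ∀ i, K.Sol (u i)) {r : ℝ} (hr : K.R₀ < r) :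
    IsQ (fun c => K.F (cmb u c) r / r ^ (n - 2)) (K.Fm u r) := by
  have hr0 : 0 < r := by linarith [K.hR₀]
  constructor
  · ext i j
    simp only [Fm, Matrix.transpose_apply, Matrix.of_apply]
    exact K.green_symm hn (hsol j) (hsol i) hr
  · intro c
    have hc : ∀ i, ContinuousOn (u i) K.O := fun i =>
      (K.u_contDiff (hsol i)).continuous.continuousOn
    have hs : ∀ i, ContinuousOn (K.s (u i)) K.O := fun i => K.s_cont (hsol i)
    have h1 := K.sph_bilin hc hs hr c c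
    have h2 : K.F (cmb u c) r / r ^ (n - 2) =
        sph (fun x => K.μ x * (∑ i, c i * u i x) * (∑ j, c j * K.s (u j) x)) r := by
      rw [K.F_eq hn _ hr]
      rw [mul_div_assoc, mul_div_cancel₀]
      · apply sph_congr
        intro x _
        rw [K.s_cmb hsol]
        rfl
      · positivity
    show K.F (cmb u c) r / r ^ (n - 2) = _
    rw [h2, h1]
    rfl

theorem isQ_Q (hsol : ∀ i, K.Sol (u i)) {r : ℝ} (hr : K.R₀ < r) :
    IsQ (fun c => sph (fun x => K.μ x * K.s (cmb u c) x * K.s (cmb u c) x) r) (K.Qm u r) := by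
  constructor
  · ext i j
    simp only [Qm, Matrix.transpose_apply, Matrix.of_apply]
    apply sph_congr
    intro x _
    ring
  · intro c
    have hs : ∀ i, ContinuousOn (K.s (u i)) K.O := fun i => K.s_cont (hsol i)
    have h1 := K.sph_bilin hs hs hr c c
    simp only [K.s_cmb hsol]
    exact h1

theorem dJm [NeZero n] (hsol : ∀ i, K.Sol (u i)) {r : ℝ} (hr : K.R₀ < r) (i j : Fin N) :
    HasDerivAt (fun s => K.Jm u s i j) ((r⁻¹ • ((2 : ℝ) • K.Fm u r + K.E1m u r)) i j) r := by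
  have hr0 : 0 < r := by linarith [K.hR₀]
  have h := (isQ_deriv (q := fun s c => K.J (cmb u c) s) (q' := fun c => K.J1 (cmb u c) r) hr
    (fun s hs => K.isQ_J hsol hs) (fun c => K.J_hasDerivAt (K.sol_sum hsol c) hr)).1 i j
  convert! h using 1
  have : (r⁻¹ • ((2 : ℝ) • K.Fm u r + K.E1m u r)) = pol (fun c => K.J1 (cmb u c) r) := by
    unfold E1m
    rw [add_sub_cancel, smul_smul, inv_mul_cancel₀ hr0.ne', one_smul]
  rw [this]

theorem F1q_hasDerivAt [NeZero n] (hn : 2 ≤ n) (hsol : ∀ i, K.Sol (u i)) {r : ℝ}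
    (hr : K.R₀ < r) (c : Fin N → ℝ) :
    HasDerivAt (fun s => K.F (cmb u c) s / s ^ (n - 2)) (K.F1q u r c) r := by
  have hr0 : 0 < r := by linarith only [hr, K.hR₀]
  have h1 := (K.F_hasDerivAt (K.sol_sum hsol c) hr0).div (hasDerivAt_pow (n - 2) r)
    (by positivity)
  convert! h1 using 1
  unfold F1q
  have e1 : r ^ (n - 1) = r ^ (n - 2) * r := by
    rw [← pow_succ]; congr 1; omega
  have e2 : ((n - 2 : ℕ) : ℝ) = (n : ℝ) - 2 := by
    rw [Nat.cast_sub hn]; norm_num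
  have hp : r ^ (n - 2) ≠ 0 := by positivity
  have e3 : ((n : ℝ) - 2) * r ^ (n - 2 - 1) = ((n : ℝ) - 2) * (r ^ (n - 2) * r⁻¹) := by
    rcases Nat.eq_or_lt_of_le hn with h2 | h2
    · have : (n : ℝ) - 2 = 0 := by rw [← h2]; norm_num
      rw [this, zero_mul, zero_mul]
    · congr 1
      have : r ^ (n - 2) = r ^ (n - 2 - 1) * r := by
        rw [← pow_succ]; congr 1; (clear * - h2; omega)
      rw [this]
      (clear * - hr0; field_simp)
  rw [e2, e3, e1]
  have : (cmb u c) = fun x => ∑ i, c i * u i x := rfl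
  rw [this]
  field_simp

theorem dFm [NeZero n] (hn : 2 ≤ n) (hsol : ∀ i, K.Sol (u i)) {r : ℝ} (hr : K.R₀ < r)
    (i j : Fin N) :
    HasDerivAt (fun s => K.Fm u s i j)
      ((r⁻¹ • (K.Dm u r - ((n : ℝ) - 2) • K.Fm u r)) i j) r := by
  have hr0 : 0 < r := by linarith only [hr, K.hR₀]
  have h := (isQ_deriv (q := fun s c => K.F (cmb u c) s / s ^ (n - 2)) (q' := K.F1q u r) hr
    (fun s hs => K.isQ_F hn hsol hs) (fun c => K.F1q_hasDerivAt hn hsol hr c)).1 i j
  convert! h using 1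
  have : (r⁻¹ • (K.Dm u r - ((n : ℝ) - 2) • K.Fm u r)) = pol (K.F1q u r) := by
    unfold Dm
    rw [add_sub_cancel_right, smul_smul, inv_mul_cancel₀ hr0.ne', one_smul]
  rw [this]

theorem Dm_form [NeZero n] (hn : 2 ≤ n) (hsol : ∀ i, K.Sol (u i)) {r : ℝ} (hr : K.R₀ < r)
    (c : Fin N → ℝ) : c ⬝ᵥ K.Dm u r *ᵥ c = r ^ 2 * sph (K.e (cmb u c)) r := by
  have hr0 : 0 < r := by linarith only [hr, K.hR₀]
  have h := (isQ_deriv (q := fun s c => K.F (cmb u c) s / s ^ (n - 2)) (q' := K.F1q u r) hr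
    (fun s hs => K.isQ_F hn hsol hs) (fun c => K.F1q_hasDerivAt hn hsol hr c)).2.2 c
  have h2 := (K.isQ_F hn hsol hr).2 c
  unfold Dm
  rw [Matrix.add_mulVec, Matrix.smul_mulVec, Matrix.smul_mulVec, dotProduct_add,
    dotProduct_smul, dotProduct_smul, ← h, ← h2]
  unfold F1q
  simp only [smul_eq_mul]
  field_simp
  ring

theorem Dm_symm (r : ℝ) [NeZero n] (hn : 2 ≤ n) (hsol : ∀ i, K.Sol (u i)) (hr : K.R₀ < r) :
    (K.Dm u r)ᵀ = K.Dm u r := by
  unfold Dm
  rw [Matrix.transpose_add, Matrix.transpose_smul, Matrix.transpose_smul, pol_symm,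
    (K.isQ_F hn hsol hr).1]

theorem Pm_form [NeZero n] (hn : 2 ≤ n) (hsol : ∀ i, K.Sol (u i)) {r : ℝ} (hr : K.R₀ < r)
    (c : Fin N → ℝ) : c ⬝ᵥ K.Pm u r *ᵥ c = K.P (cmb u c) r / r ^ (n - 2) := by
  have hr0 : 0 < r := by linarith only [hr, K.hR₀]
  have h1 := (K.isQ_Q hsol hr).2 c
  have h2 := (K.isQ_F hn hsol hr).2 c
  have h3 := K.Dm_form hn hsol hr c
  have h4 := K.identity hn (K.sol_sum hsol c) hr
  simp only at h1 h2
  unfold Pm
  rw [Matrix.sub_mulVec, Matrix.add_mulVec, Matrix.smul_mulVec, Matrix.smul_mulVec,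
    dotProduct_sub, dotProduct_add, dotProduct_smul, dotProduct_smul, ← h1, ← h2, h3]
  have e1 : r ^ (n - 1) = r ^ (n - 2) * r := by
    rw [← pow_succ]; congr 1; omega
  have hp : r ^ (n - 2) ≠ 0 := by positivity
  have h5 : K.P (cmb u c) r = 2 * K.Q (cmb u c) r + ((n : ℝ) - 2) * K.F (cmb u c) r -
      r * (r ^ (n - 1) * sph (K.e (cmb u c)) r) := by
    have : (cmb u c) = fun x => ∑ i, c i * u i x := rfl
    rw [this]
    linarith only [h4]
  rw [h5, e1]
  unfold Q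
  simp only [smul_eq_mul]
  (clear * - hp; field_simp)

theorem E1m_form [NeZero n] (hn : 2 ≤ n) (hsol : ∀ i, K.Sol (u i)) {r : ℝ} (hr : K.R₀ < r)
    (c : Fin N → ℝ) : c ⬝ᵥ K.E1m u r *ᵥ c ≤ K.C * r ^ (-K.ε) * K.J (cmb u c) r := by
  have hr0 : 0 < r := by linarith only [hr, K.hR₀]
  have h := (isQ_deriv (q := fun s c => K.J (cmb u c) s) (q' := fun c => K.J1 (cmb u c) r) hr
    (fun s hs => K.isQ_J hsol hs) (fun c => K.J_hasDerivAt (K.sol_sum hsol c) hr)).2.2 c
  have h2 := (K.isQ_F hn hsol hr).2 c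
  have h3 := (abs_le.1 (K.J1_est hn (K.sol_sum hsol c) hr)).2
  simp only at h h2
  unfold E1m
  rw [Matrix.sub_mulVec, Matrix.smul_mulVec, Matrix.smul_mulVec, dotProduct_sub,
    dotProduct_smul, dotProduct_smul, ← h, ← h2, smul_eq_mul, smul_eq_mul]
  have : (cmb u c) = fun x => ∑ i, c i * u i x := rfl
  rw [this]
  calc _ = r * K.J1 (fun x => ∑ i, c i * u i x) r -
      2 * K.F (fun x => ∑ i, c i * u i x) r / r ^ (n - 2) := by ring
    _ ≤ _ := h3

theorem Fm_cs [NeZero n] (hn : 2 ≤ n) (hsol : ∀ i, K.Sol (u i)) {r : ℝ} (hr : K.R₀ < r)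
    (c e : Fin N → ℝ) : (c ⬝ᵥ K.Fm u r *ᵥ e) ^ 2 ≤
      (c ⬝ᵥ K.Qm u r *ᵥ c) * (e ⬝ᵥ K.Jm u r *ᵥ e) := by
  have hc : ∀ i, ContinuousOn (u i) K.O := fun i =>
    (K.u_contDiff (hsol i)).continuous.continuousOn
  have hs : ∀ i, ContinuousOn (K.s (u i)) K.O := fun i => K.s_cont (hsol i)
  have h0 : c ⬝ᵥ K.Fm u r *ᵥ e = e ⬝ᵥ K.Fm u r *ᵥ c := by
    rw [symm_dot (K.isQ_F hn hsol hr).1, dotProduct_comm]
  have h1 := K.sph_bilin hc hs hr e c
  have h2 : e ⬝ᵥ K.Fm u r *ᵥ c = sph (fun x => K.μ x * cmb u e x * K.s (cmb u c) x) r := by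
    unfold Fm
    rw [← h1]
    apply sph_congr
    intro x _
    rw [K.s_cmb hsol]
    rfl
  have h3 := (K.isQ_Q hsol hr).2 c
  have h4 := (K.isQ_J hsol hr).2 e
  simp only at h3 h4
  rw [h0, h2, ← h3, ← h4, mul_comm]
  have hsole := K.sol_sum hsol e
  have hsolc := K.sol_sum hsol c
  exact K.sph_cs (f := cmb u e) (g := K.s (cmb u c))
    (K.u_contDiff hsole).continuous.continuousOn (K.s_cont hsolc) hr

end Cone

end Vale.Agent.P225
end

section
open MeasureTheory Set Metric Filter Topology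
open scoped ContDiff

namespace Vale.Agent.P225

namespace Cone

variable {n : ℕ} (K : Cone n)

theorem exp_bound {s σ η η' ε : ℝ} (hs0 : 0 < s) (hε : 0 < ε) (hσ : σ ≤ -Real.log s / 2)
    (h1 : η' ≤ η) (h2 : η ≤ ε / 3 * (-Real.log s)) :
    s * s ≤ Real.exp (-(3 / ε * η') - 2 * σ) := by
  rw [← Real.exp_log (mul_pos hs0 hs0), Real.exp_le_exp, Real.log_mul hs0.ne' hs0.ne']
  have q3 := mul_le_mul_of_nonneg_left (h1.trans h2) (by positivity : 0 ≤ 3 / ε)
  have q4 : 3 / ε * (ε / 3 * (-Real.log s)) = -Real.log s := by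
    field_simp
  linarith

end Cone

end Vale.Agent.P225
end

section
open MeasureTheory Set Filter Topology Matrix
open scoped ContDiff

namespace Vale.Agent.P225

theorem exists_dprime {κ d lam : ℝ} (h : κ * d + d ^ 2 < lam) :
    ∃ d' : ℝ, d < d' ∧ κ * d' + d' ^ 2 < lam := by
  have h1 : Tendsto (fun t : ℝ => κ * t + t ^ 2) (𝓝[>] d) (𝓝 (κ * d + d ^ 2)) := by
    have : Continuous fun t : ℝ => κ * t + t ^ 2 := by fun_prop
    exact (this.tendsto d).mono_left nhdsWithin_le_nhds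
  have h2 : ∀ᶠ t in 𝓝[>] d, κ * t + t ^ 2 < lam := h1.eventually (gt_mem_nhds h)
  have h3 : ∀ᶠ t in 𝓝[>] d, d < t := self_mem_nhdsWithin
  obtain ⟨t, ht⟩ := (h2.and h3).exists
  exact ⟨t, ht.2, ht.1⟩

/-- From normalized coefficient vectors to all vectors. -/
theorem le_of_norm_one {N : ℕ} {M M' : Matrix (Fin N) (Fin N) ℝ} {t : ℝ}
    (h : ∀ c : Fin N → ℝ, ‖c‖ = 1 → c ⬝ᵥ M *ᵥ c ≤ t * (c ⬝ᵥ M' *ᵥ c)) (c : Fin N → ℝ) :
    c ⬝ᵥ M *ᵥ c ≤ t * (c ⬝ᵥ M' *ᵥ c) := by
  by_cases hc : c = 0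
  · rw [hc]; simp only [mulVec_zero, dotProduct_zero, mul_zero, Std.le_refl]
  have hn : 0 < ‖c‖ := norm_pos_iff.2 hc
  set e : Fin N → ℝ := ‖c‖⁻¹ • c with he
  have he1 : ‖e‖ = 1 := by
    rw [he, norm_smul, norm_inv, norm_norm, inv_mul_cancel₀ hn.ne']
  have hce : c = ‖c‖ • e := by
    rw [he, smul_smul, mul_inv_cancel₀ hn.ne', one_smul]
  have h1 := h e he1
  rw [hce]
  simp only [Matrix.mulVec_smul, smul_dotProduct, dotProduct_smul, smul_eq_mul]
  have h2 := mul_le_mul_of_nonneg_left h1 (mul_self_nonneg ‖c‖)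
  linarith only [h2]

namespace Cone

variable {n : ℕ} (K : Cone n)

theorem exists_params2 {s : ℝ} (hs0 : 0 < s) (hs1 : s < 1) (Rs : ℝ) {η₀ : ℝ} (hη₀ : 0 < η₀) :
    ∃ σ R : ℝ, 0 < σ ∧ σ ≤ 1 / 4 ∧ σ ≤ -Real.log s / 2 ∧ Rs ≤ R ∧ K.C * R ^ (-K.ε) ≤ σ / 2 ∧
      K.C * R ^ (-K.ε) ≤ K.ε / 3 * (-Real.log s) ∧ K.C * R ^ (-K.ε) ≤ η₀ := by
  have hlogs : Real.log s < 0 := Real.log_neg hs0 hs1
  set σ : ℝ := min (1 / 4) (-Real.log s / 2) with hσ
  have hσ0 : 0 < σ := lt_min (by norm_num) (by linarith)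
  have hη : Tendsto (fun r : ℝ => K.C * r ^ (-K.ε)) atTop (𝓝 0) := by
    have := (tendsto_rpow_neg_atTop K.hε).const_mul K.C
    simpa only [mul_zero] using this
  set bb : ℝ := min (min (σ / 2) (K.ε / 3 * (-Real.log s))) η₀ with hbb
  have hbb0 : 0 < bb :=
    lt_min (lt_min (by linarith only [hσ0]) (mul_pos (by linarith only [K.hε]) (by linarith only [hlogs]))) hη₀
  have h1 : ∀ᶠ r : ℝ in atTop, K.C * r ^ (-K.ε) < bb := hη.eventually (gt_mem_nhds hbb0)
  obtain ⟨R, hR⟩ := (h1.and (eventually_ge_atTop Rs)).exists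
  exact ⟨σ, R, hσ0, min_le_left _ _, min_le_right _ _, hR.2,
    hR.1.le.trans ((min_le_left _ _).trans (min_le_left _ _)),
    hR.1.le.trans ((min_le_left _ _).trans (min_le_right _ _)), hR.1.le.trans (min_le_right _ _)⟩

/-- The dimension bound in terms of the spectrum of the cross-section. -/
theorem main2 [NeZero n] (hn : 3 ≤ n) {d : ℝ} (hd0 : 0 ≤ d) {N : ℕ} {u : Fin N → E n → ℝ}
    (hli : LinearIndependent ℝ u) (hsol : ∀ i, K.Sol (u i))
    (hgrow : ∀ i, ∃ C, ∀ x, |u i x| ≤ C * (1 + ‖x‖) ^ d) {a' Ra : ℝ} (ha' : 0 < a')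
    (hμ : ∀ x : E n, Ra ≤ ‖x‖ → K.μ x ≤ a') {lam : ℝ} (hlam : d * (d + n - 2) < lam)
    {Rl : ℝ} (hspec : ∀ r, Rl ≤ r → ∃ c : Fin N → ℝ, c ≠ 0 ∧ lam * K.J (cmb u c) r ≤
      r ^ 2 * sph (K.e (cmb u c)) r -
        sph (fun x => K.μ x * K.s (cmb u c) x * K.s (cmb u c) x) r) : False := by
  have hn2 : 2 ≤ n := by omega
  have hn3 : (3 : ℝ) ≤ n := by exact_mod_cast hn
  have hUsol : ∀ c, K.Sol (cmb u c) := fun c => K.sol_sum hsol c
  have huc : ∀ i, Continuous (u i) := fun i => (K.u_contDiff (hsol i)).continuous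
  have hgc : ∀ i, Continuous (gr (u i)) := fun i => (K.gr_contDiff (hsol i)).continuous
  set Su : E n → ℝ := fun x => ∑ i, |u i x| with hSu
  set Sg : E n → ℝ := fun x => ∑ i, ‖gr (u i) x‖ with hSg
  have hSuc : Continuous Su := continuous_finsetSum _ fun i _ => (huc i).abs
  have hSgc : Continuous Sg := continuous_finsetSum _ fun i _ => (hgc i).norm
  have hci : ∀ c : Fin N → ℝ, ‖c‖ = 1 → ∀ i, |c i| ≤ 1 := by
    intro c hc i
    rw [← hc]
    exact norm_le_pi_norm c i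
  have hSu_le : ∀ c : Fin N → ℝ, ‖c‖ = 1 → ∀ x, |cmb u c x| ≤ Su x := by
    intro c hc x
    refine (Finset.abs_sum_le_sum_abs _ _).trans (Finset.sum_le_sum fun i _ => ?_)
    rw [abs_mul]
    exact mul_le_of_le_one_left (abs_nonneg _) (hci c hc i)
  have hSg_le : ∀ c : Fin N → ℝ, ‖c‖ = 1 → ∀ x, ‖gr (cmb u c) x‖ ≤ Sg x := by
    intro c hc x
    have h0 : gr (cmb u c) x = ∑ i, c i • gr (u i) x :=
      gr_sum c (fun i => (K.u_contDiff (hsol i)).differentiable (by simp) x)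
    rw [h0]
    refine (norm_sum_le _ _).trans (Finset.sum_le_sum fun i _ => ?_)
    rw [norm_smul, Real.norm_eq_abs]
    exact mul_le_of_le_one_left (norm_nonneg _) (hci c hc i)
  have hSu0 : ∀ x, 0 ≤ Su x := fun x => Finset.sum_nonneg fun i _ => abs_nonneg _
  obtain ⟨k, hk⟩ := exists_radius hli
  set Rs : ℝ := max k (K.R₀ + 1) with hRs
  have hRs0 : K.R₀ < Rs := lt_of_lt_of_le (by linarith only []) (le_max_right _ _)
  have hne : ∀ c : Fin N → ℝ, ‖c‖ = 1 → ∃ x, ‖x‖ ≤ Rs ∧ cmb u c x ≠ 0 := by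
    intro c hc
    have hc0 : c ≠ 0 := by
      intro h; rw [h, norm_zero] at hc; exact zero_ne_one hc
    obtain ⟨x, hx1, hx2⟩ := hk c hc0
    exact ⟨x, hx1.trans (le_max_left _ _), hx2⟩
  obtain ⟨j₀, hj₀, hj₀le⟩ := K.exists_j0 hn2 hsol hRs0 hne
  set j₁ : ℝ := j₀ * Real.exp (-(1 / K.ε * (K.C * Rs ^ (-K.ε)))) with hj₁
  have hj₁0 : 0 < j₁ := mul_pos hj₀ (Real.exp_pos _)
  have hj₁le : ∀ c : Fin N → ℝ, ‖c‖ = 1 → ∀ r, Rs ≤ r → j₁ ≤ K.J (cmb u c) r := by
    intro c hc r hr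
    have h1 := K.J_lower hn2 (hUsol c) hRs0 (hne c hc) hr
    have h2 := mul_le_mul_of_nonneg_right (hj₀le c hc)
      (Real.exp_pos (-(1 / K.ε * (K.C * Rs ^ (-K.ε))))).le
    exact h2.trans h1
  -- parameters
  set κ : ℝ := (n : ℝ) - 2 with hκ
  have hκ0 : 0 ≤ κ := by linarith only [hn3]
  have hlam' : κ * d + d ^ 2 < lam := by
    have : κ * d + d ^ 2 = d * (d + n - 2) := by rw [hκ]; ring
    linarith only [hlam]
  obtain ⟨d', hdd', hd'lam⟩ := exists_dprime hlam'
  have hd'0 : 0 < d' := by linarith only [hd0, hdd']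
  set δ : ℝ := (lam - (κ * d' + d' ^ 2)) / 2 with hδ
  have hδ0 : 0 < δ := by linarith only [hd'lam, hδ]
  set ν : ℝ := δ / (2 * (N + 1)) with hν
  have hN0 : (0 : ℝ) ≤ N := Nat.cast_nonneg N
  have hν0 : 0 < ν := by (clear * - hd'lam; positivity)
  set η₀ : ℝ := min (ν / (2 * d')) (δ / (2 * (N + 1) * d')) with hη₀
  have hη₀0 : 0 < η₀ := lt_min (by (clear * - hd'lam hd'0; positivity)) (by (clear * - hd'lam hd'0; positivity))
  set s : ℝ := √((d + d') / (2 * d')) with hs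
  have hfrac0 : 0 < (d + d') / (2 * d') := by (clear * - hd0 hd'0; positivity)
  have hfrac1 : (d + d') / (2 * d') < 1 := by
    rw [div_lt_one (by (clear * - hd'0; positivity))]; linarith only [hdd']
  have hs0 : 0 < s := Real.sqrt_pos.2 hfrac0
  have hss : s * s = (d + d') / (2 * d') := Real.mul_self_sqrt hfrac0.le
  have hs1 : s < 1 := by nlinarith only [hss, hfrac1]
  obtain ⟨σ, R, hσ0, hσ1, hσ2, hR1, hR2, hR3, hR4⟩ := K.exists_params2 hs0 hs1 Rs hη₀0
  have hR0 : K.R₀ < R := lt_of_lt_of_le hRs0 hR1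
  have hRpos : 1 < R := by linarith only [hRs0, hR1, K.hR₀]
  have hηle : ∀ r, R ≤ r → K.C * r ^ (-K.ε) ≤ K.C * R ^ (-K.ε) := by
    intro r hr
    have : r ^ (-K.ε) ≤ R ^ (-K.ε) :=
      Real.rpow_le_rpow_of_nonpos (by linarith only [hRpos]) hr (by linarith only [K.hε])
    exact mul_le_mul_of_nonneg_left this K.hC
  obtain ⟨pR, hPR⟩ : ∃ pR : ℝ, ∀ c : Fin N → ℝ, ‖c‖ = 1 → K.P (cmb u c) R ≤ pR :=
    ⟨_, fun c hc => K.P_le hn (hUsol c) hR0 hSuc hSgc hSu0 (hSu_le c hc) (hSg_le c hc)⟩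
  obtain ⟨r₁, hr₁R, hr₁Ra, hr₁Rl, hr₁a, hr₁b⟩ : ∃ r₁ : ℝ, R ≤ r₁ ∧ Ra ≤ r₁ ∧ Rl ≤ r₁ ∧
      2 * |pR| ≤ σ * (d' * j₁) * r₁ ∧ 2 * |pR| ≤ ν * j₁ * r₁ := by
    have t1 : Tendsto (fun r : ℝ => σ * (d' * j₁) * r) atTop atTop :=
      tendsto_id.const_mul_atTop (by (clear * - hσ0 hd'0 hj₀; positivity))
    have t2 : Tendsto (fun r : ℝ => ν * j₁ * r) atTop atTop :=
      tendsto_id.const_mul_atTop (by (clear * - hd'lam hj₀; positivity))
    obtain ⟨r, hr⟩ := (((eventually_ge_atTop R).and ((eventually_ge_atTop Ra).and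
      (eventually_ge_atTop Rl))).and ((t1.eventually (eventually_ge_atTop (2 * |pR|))).and
        (t2.eventually (eventually_ge_atTop (2 * |pR|))))).exists
    exact ⟨r, hr.1.1, hr.1.2.1, hr.1.2.2, hr.2.1, hr.2.2⟩
  have hr₁0 : 0 < r₁ := by linarith only [hRpos, hr₁R]
  have hr₁O : K.R₀ < r₁ := lt_of_lt_of_le hR0 hr₁R
  choose D hD using hgrow
  have hD'0 : 0 ≤ ∑ i, |D i| := Finset.sum_nonneg fun i _ => abs_nonneg _
  have hwle : ∀ c : Fin N → ℝ, ‖c‖ = 1 → ∀ x, |cmb u c x| ≤ (∑ i, |D i|) * (1 + ‖x‖) ^ d := by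
    intro c hc x
    apply (hSu_le c hc x).trans
    rw [Finset.sum_mul]
    apply Finset.sum_le_sum
    intro i _
    apply (hD i x).trans
    apply mul_le_mul_of_nonneg_right (le_abs_self _)
    (clear * -; positivity)
  have hpow1 : ∀ r, r₁ ≤ r → r ≤ r ^ (n - 2) := by
    intro r hr
    have h1 : (1 : ℝ) ≤ r := by linarith only [hRpos, hr₁R, hr]
    calc r = r ^ 1 := (pow_one _).symm
      _ ≤ r ^ (n - 2) := pow_le_pow_right₀ h1 (by (clear * - hn; omega))
  -- the frequency bound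
  have hU : ∀ r, r₁ ≤ r → ∀ c : Fin N → ℝ, ‖c‖ = 1 →
      K.F (cmb u c) r ≤ d' * (r ^ (n - 2) * K.J (cmb u c) r) := by
    intro r hr c hc
    by_contra hcon
    push Not at hcon
    have hrpos : 0 < r := by linarith only [hRpos, hr₁R, hr]
    have hJpos : ∀ t, r ≤ t → 0 < K.J (cmb u c) t := fun t ht =>
      lt_of_lt_of_le hj₁0 (hj₁le c hc t (hR1.trans (hr₁R.trans (hr.trans ht))))
    have hJr := hJpos r le_rfl
    have hjr := hj₁le c hc r (hR1.trans (hr₁R.trans hr))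
    have hrn : 0 < r ^ (n - 2) := by (clear * - hrpos; positivity)
    have q0 : j₁ * r₁ ≤ r ^ (n - 2) * K.J (cmb u c) r := by
      calc j₁ * r₁ = r₁ * j₁ := mul_comm _ _
        _ ≤ r ^ (n - 2) * K.J (cmb u c) r :=
          mul_le_mul (hr.trans (hpow1 r hr)) hjr hj₁0.le (by (clear * - hrpos; positivity))
    have hF1 : d' * j₁ * r₁ ≤ K.F (cmb u c) r := by
      have := mul_le_mul_of_nonneg_left q0 hd'0.le
      linarith only [hcon, this]
    have hFpos : 0 < K.F (cmb u c) r := lt_of_lt_of_le (by (clear * - hd'0 hj₀ hr₁0; positivity)) hF1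
    have hP : K.P (cmb u c) r ≤ σ * K.F (cmb u c) r := by
      have h1 := K.P_upper hn2 (hUsol c) hR0 (hr₁R.trans hr)
      have h2 := hPR c hc
      have h5 := mul_le_mul_of_nonneg_right hR2 hFpos.le
      have h6 : pR ≤ σ / 2 * K.F (cmb u c) r := by
        have q1 := le_abs_self pR
        have q2 := mul_le_mul_of_nonneg_left hF1 hσ0.le
        linarith only [hr₁a, q1, q2]
      linarith only [h1, h2, h5, h6]
    have hexp := exp_bound hs0 K.hε hσ2 (hηle r (hr₁R.trans hr)) hR3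
    have hκle : d' * (s * s) ≤ K.F (cmb u c) r / (r ^ (n - 2) * K.J (cmb u c) r) *
        Real.exp (-(3 / K.ε * (K.C * r ^ (-K.ε))) - 2 * σ) := by
      have q1 : d' ≤ K.F (cmb u c) r / (r ^ (n - 2) * K.J (cmb u c) r) := by
        rw [le_div_iff₀ (by (clear * - hrpos hJr; positivity))]
        exact hcon.le
      exact mul_le_mul q1 hexp (by (clear * - hd0 hd'0; positivity)) (by (clear * - hFpos hrpos hJr; positivity))
    have hds : d < d' * (s * s) := by
      rw [hss]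
      have : d' * ((d + d') / (2 * d')) = (d + d') / 2 := by
        (clear * - hd'0 hd0; field_simp)
      rw [this]
      linarith only [hdd']
    exact K.contra hn (hUsol c) (lt_of_lt_of_le hr₁O hr) hJpos hFpos hσ0.le hσ1 hP
      (by have := hηle r (hr₁R.trans hr); linarith only [hσ1, hR2, this]) hκle hd0 hds hD'0 (hwle c hc) ha'
      (fun x hx => hμ x (hr₁Ra.trans (hr.trans hx)))
  -- apply the trace lemma
  have hO : ∀ r, r₁ < r → K.R₀ < r := fun r hr => hr₁O.trans hr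
  refine trace_contra (J := K.Jm u) (F := K.Fm u) (D := K.Dm u) (Q := K.Qm u) (P := K.Pm u)
    (E1 := K.E1m u) (r₀ := r₁) (d' := d') (η := η₀) (ν := ν) (lam := lam) (κ := κ) (δ := δ)
    hr₁0.le ?_ ?_ ?_ ?_ hd'0.le hη₀0.le hν0.le hκ0 ?_ ?_ ?_ ?_ ?_ ?_ ?_ ?_ ?_ hδ0 ?_
  · -- positive definite
    intro r hr
    have hq := K.isQ_J hsol (hO r hr)
    apply Matrix.PosDef.of_dotProduct_mulVec_pos
    · rw [Matrix.IsHermitian, conjTranspose_eq_transpose_of_trivial, hq.1]
    · intro c hc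
      have h1 : star c ⬝ᵥ K.Jm u r *ᵥ c = K.J (cmb u c) r := by
        simpa only [star_trivial] using (hq.2 c).symm
      rw [h1]
      obtain ⟨x, hx1, hx2⟩ := hk c hc
      refine K.J_pos hn2 (hUsol c) (hO r hr) ⟨x, ?_, hx2⟩
      have : (k : ℝ) ≤ Rs := le_max_left _ _
      linarith only [hR1, hr₁R, hr, hx1, this]
  · intro r hr; exact (K.isQ_F hn2 hsol (hO r hr)).1
  · intro r hr; exact (K.isQ_Q hsol (hO r hr)).1
  · intro r hr
    unfold Pm
    rw [Matrix.transpose_sub, Matrix.transpose_add, Matrix.transpose_smul, Matrix.transpose_smul,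
      (K.isQ_F hn2 hsol (hO r hr)).1, (K.isQ_Q hsol (hO r hr)).1,
      K.Dm_symm r hn2 hsol (hO r hr)]
  · intro r hr i j; exact K.dJm hsol (hO r hr) i j
  · intro r hr i j; exact K.dFm hn2 hsol (hO r hr) i j
  · intro r hr c
    have h := (K.isQ_F hn2 hsol (hO r hr)).2 c
    rw [← h]
    have hr0 : 0 < r := by linarith only [hRpos, hr₁R, hr]
    exact div_nonneg (K.F_nonneg hn2 (hUsol c) hr0.le) (by (clear * - hr0; positivity))
  · intro r hr
    apply le_of_norm_one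
    intro c hc
    have h := (K.isQ_F hn2 hsol (hO r hr)).2 c
    have h2 := (K.isQ_J hsol (hO r hr)).2 c
    rw [← h, ← h2]
    have hr0 : 0 < r := by linarith only [hRpos, hr₁R, hr]
    have h3 := hU r hr.le c hc
    rw [div_le_iff₀ (by (clear * - hr0; positivity))]
    calc K.F (cmb u c) r ≤ _ := h3
      _ = _ := by ring
  · intro r hr c
    have h2 := (K.isQ_J hsol (hO r hr)).2 c
    rw [← h2]
    refine (K.E1m_form hn2 hsol (hO r hr) c).trans ?_
    apply mul_le_mul_of_nonneg_right _ (K.J_nonneg _ (hO r hr))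
    exact (hηle r (hr₁R.trans hr.le)).trans hR4
  · intro r hr
    unfold Pm
    rw [sub_sub_cancel]
  · intro r hr c e; exact K.Fm_cs hn2 hsol (hO r hr) c e
  · intro r hr
    apply le_of_norm_one
    intro c hc
    have h2 := (K.isQ_J hsol (hO r hr)).2 c
    rw [K.Pm_form hn2 hsol (hO r hr) c, ← h2]
    have hr0 : 0 < r := by linarith only [hRpos, hr₁R, hr]
    have hrn : 0 < r ^ (n - 2) := by (clear * - hr0; positivity)
    have hjr := hj₁le c hc r (hR1.trans (hr₁R.trans hr.le))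
    have hJr : 0 < K.J (cmb u c) r := lt_of_lt_of_le hj₁0 hjr
    have h1 := K.P_upper hn2 (hUsol c) hR0 (hr₁R.trans hr.le)
    have h3 := hPR c hc
    have h4 := hU r hr.le c hc
    have q0 : j₁ * r₁ ≤ r ^ (n - 2) * K.J (cmb u c) r := by
      calc j₁ * r₁ = r₁ * j₁ := mul_comm _ _
        _ ≤ r ^ (n - 2) * K.J (cmb u c) r :=
          mul_le_mul (hr.le.trans (hpow1 r hr.le)) hjr hj₁0.le (by (clear * - hr0; positivity))
    have h5 : pR ≤ ν / 2 * (r ^ (n - 2) * K.J (cmb u c) r) := by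
      have q1 := le_abs_self pR
      have q2 := mul_le_mul_of_nonneg_left q0 hν0.le
      linarith only [hr₁b, q1, q2]
    have h6 : K.C * R ^ (-K.ε) * K.F (cmb u c) r ≤
        ν / 2 * (r ^ (n - 2) * K.J (cmb u c) r) := by
      have q1 : η₀ ≤ ν / (2 * d') := min_le_left _ _
      have hCR0 : 0 ≤ K.C * R ^ (-K.ε) := by
        have := K.hC
        (clear * - this hRpos; positivity)
      calc K.C * R ^ (-K.ε) * K.F (cmb u c) r ≤
          K.C * R ^ (-K.ε) * (d' * (r ^ (n - 2) * K.J (cmb u c) r)) :=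
            mul_le_mul_of_nonneg_left h4 hCR0
        _ ≤ ν / (2 * d') * (d' * (r ^ (n - 2) * K.J (cmb u c) r)) :=
            mul_le_mul_of_nonneg_right (hR4.trans q1) (by (clear * - hd'0 hr0 hJr; positivity))
        _ = ν / 2 * (r ^ (n - 2) * K.J (cmb u c) r) := by
            (clear * - hd'0 hJr hr0 hν0; field_simp)
    rw [div_le_iff₀ hrn]
    calc K.P (cmb u c) r ≤ ν / 2 * (r ^ (n - 2) * K.J (cmb u c) r) +
        ν / 2 * (r ^ (n - 2) * K.J (cmb u c) r) := by linarith only [h1, h3, h5, h6]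
      _ = _ := by ring
  · intro r hr
    obtain ⟨c, hc0, hc⟩ := hspec r (hr₁Rl.trans hr.le)
    refine ⟨c, hc0, ?_⟩
    have h2 := (K.isQ_J hsol (hO r hr)).2 c
    have h3 := (K.isQ_Q hsol (hO r hr)).2 c
    rw [Matrix.sub_mulVec, dotProduct_sub, K.Dm_form hn2 hsol (hO r hr) c, ← h2, ← h3]
    exact hc
  · have q1 : (N : ℝ) * ν ≤ δ / 2 := by
      rw [hν, mul_div_assoc', div_le_div_iff₀ (by (clear * -; positivity)) (by norm_num)]
      linarith only [hδ0]
    have q2 : (N : ℝ) * η₀ * d' ≤ δ / 2 := by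
      have q3 : η₀ ≤ δ / (2 * (N + 1) * d') := min_le_right _ _
      have q4 : (N : ℝ) * η₀ * d' ≤ N * (δ / (2 * (N + 1) * d')) * d' := by (clear * - q3 hd'0; gcongr)
      refine q4.trans ?_
      have q5 : (N : ℝ) * (δ / (2 * (N + 1) * d')) * d' = N / (N + 1) * (δ / 2) := by
        (clear * - hd'0 hδ0; field_simp)
      rw [q5]
      have q6 : (N : ℝ) / (N + 1) ≤ 1 := by
        rw [div_le_one (by (clear * -; positivity))]; linarith only []
      calc (N : ℝ) / (N + 1) * (δ / 2) ≤ 1 * (δ / 2) :=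
            mul_le_mul_of_nonneg_right q6 (by (clear * - hd'lam; positivity))
        _ = δ / 2 := one_mul _
    have q7 : lam - κ * d' - d' ^ 2 = 2 * δ := by rw [hδ]; ring
    linarith only [hδ, q1, q2]

end Cone

end Vale.Agent.P225
end
end
end

section

section

set_option linter.all false

section
open MeasureTheory Filter Topology
open scoped ContDiff

namespace Vale.Agent.P225

/-- A continuous Riemannian metric `h` on the unit sphere of `ℝⁿ`. It is given by the matrix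
`H θ` of `dr² + h` at the points `θ` of the unit sphere. -/
structure SphereMetric (n : ℕ) where
  H : Rn n → Matrix (Fin n) (Fin n) ℝ
  cont : ∀ i j, ContinuousOn (fun θ => H θ i j) (Metric.sphere 0 1)
  pos : ∀ θ, ‖θ‖ = 1 → (H θ).PosDef
  radial : ∀ θ, ‖θ‖ = 1 → ∀ i, ∑ j, H θ i j * θ j = θ i

namespace SphereMetric

variable {n : ℕ} (X : SphereMetric n)

/-- The quadratic form; for tangent vectors `v` of the sphere at `θ` it is `h_θ(v,v)`. -/
noncomputable def quad (θ v : Rn n) : ℝ := ∑ i, ∑ j, X.H θ i j * v i * v j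

/-- The density of the volume measure of `h` with respect to the surface measure. -/
noncomputable def dens (θ : Rn n) : ℝ := √(X.H θ).det

/-- The Euclidean tangential gradient of `f` at the point `θ` of the unit sphere. -/
noncomputable def tgrad {n : ℕ} (f : Rn n → ℝ) (θ : Rn n) (i : Fin n) : ℝ :=
  RMetric.pd i f θ - (∑ k, θ k * RMetric.pd k f θ) * θ i

/-- `∫ f²` over the sphere with respect to the volume measure of `h`. -/
noncomputable def mass (f : Rn n → ℝ) : ℝ :=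
  ∫ θ : Metric.sphere (0 : Rn n) 1, X.dens θ * f θ ^ 2 ∂(volume : Measure (Rn n)).toSphere

/-- `∫ |∇f|²` over the sphere with respect to `h`. -/
noncomputable def energy (f : Rn n → ℝ) : ℝ :=
  ∫ θ : Metric.sphere (0 : Rn n) 1,
    X.dens θ * ∑ i, ∑ j, (X.H θ)⁻¹ i j * tgrad f θ i * tgrad f θ j
      ∂(volume : Measure (Rn n)).toSphere

/-- Among the eigenvalues `0 = λ₀ < λ₁ ≤ λ₂ ≤ …` of the Laplacian of `h` we have `μ ≤ λ_N`:
every family of `N + 1` functions has a nontrivial combination with Rayleigh quotient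
at least `μ`. -/
def EigenvalueGE (N : ℕ) (μ : ℝ) : Prop :=
  ∀ f : Fin (N + 1) → Rn n → ℝ, (∀ i, ContDiff ℝ ∞ (f i)) →
    ∃ c : Fin (N + 1) → ℝ, c ≠ 0 ∧
      μ * X.mass (fun x => ∑ i, c i * f i x) ≤ X.energy (fun x => ∑ i, c i * f i x)

/-- The round sphere dominates `h`: up to an error `η`, there is a map `Φ` from the round sphere
to the sphere with the metric `h` which multiplies lengths by at most `τ` and the volume
by a number between `b` and `β`, where `β τ² ≤ b`. For `τ = 1` this says that `Φ`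
preserves the volume up to a constant factor and does not increase lengths. -/
def Dominated : Prop :=
  ∀ η > 0, ∃ (Φ : Rn n → Rn n) (τ b β : ℝ), 0 < b ∧ b ≤ β ∧ β * τ ^ 2 ≤ (1 + η) * b ∧
    ContDiffOn ℝ 1 Φ {x | x ≠ 0} ∧ (∀ x, ‖x‖ = 1 → ‖Φ x‖ = 1) ∧
    (∀ x v : Rn n, ‖x‖ = 1 → inner ℝ x v = 0 →
      X.quad (Φ x) (fderiv ℝ Φ x v) ≤ τ ^ 2 * ‖v‖ ^ 2) ∧
    ∀ φ : Rn n → ℝ, ContinuousOn φ (Metric.sphere 0 1) → (∀ x, ‖x‖ = 1 → 0 ≤ φ x) →
      b * ∫ θ : Metric.sphere (0 : Rn n) 1, φ (Φ θ) ∂(volume : Measure (Rn n)).toSphere ≤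
        ∫ θ : Metric.sphere (0 : Rn n) 1, φ θ * X.dens θ ∂(volume : Measure (Rn n)).toSphere ∧
      ∫ θ : Metric.sphere (0 : Rn n) 1, φ θ * X.dens θ ∂(volume : Measure (Rn n)).toSphere ≤
        β * ∫ θ : Metric.sphere (0 : Rn n) 1, φ (Φ θ) ∂(volume : Measure (Rn n)).toSphere

end SphereMetric

end Vale.Agent.P225
end

section
open MeasureTheory Set Filter Topology Matrix
open scoped ContDiff

namespace Vale.Agent.P225

namespace RMetric

variable {n : ℕ} (g : RMetric n)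

theorem dens_pos (x : E n) : 0 < g.dens x := Real.sqrt_pos.2 (g.pos x).det_pos

theorem det_contDiff : ContDiff ℝ ∞ (fun x => (g.G x).det) := contDiff_det g.smooth

theorem dens_contDiff : ContDiff ℝ ∞ g.dens :=
  g.det_contDiff.sqrt fun x => (g.pos x).det_pos.ne'

theorem inv_contDiff (i j : Fin n) : ContDiff ℝ ∞ (fun x => (g.G x)⁻¹ i j) :=
  contDiff_inv_entry g.smooth g.pos i j

/-- The coefficient of the divergence form of the Laplace operator. -/
noncomputable def Aop (x : E n) : E n →L[ℝ] E n :=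
  ∑ i, ∑ j, (g.dens x * (g.G x)⁻¹ i j) •
    ((EuclideanSpace.proj j : E n →L[ℝ] ℝ).smulRight (EuclideanSpace.single i (1 : ℝ)))

theorem Aop_contDiff : ContDiff ℝ ∞ g.Aop := by
  unfold Aop
  apply ContDiff.sum
  intro i _
  apply ContDiff.sum
  intro j _
  exact (g.dens_contDiff.mul (g.inv_contDiff i j)).smul contDiff_const

theorem Aop_apply (x v : E n) (i : Fin n) :
    (g.Aop x v) i = g.dens x * ∑ j, (g.G x)⁻¹ i j * v j := by
  unfold Aop
  simp only [_root_.sum_apply, _root_.smul_apply, ContinuousLinearMap.smulRight_apply, PiLp.proj_apply, WithLp.ofLp_sum, WithLp.ofLp_smul, PiLp.ofLp_single, Finset.sum_apply, Pi.smul_apply, Pi.single_apply, smul_eq_mul, mul_ite, mul_one, mul_zero, mul_assoc, Finset.sum_ite_irrel, Finset.sum_const_zero, Finset.sum_ite_eq, Finset.mem_univ, ↓reduceIte, Finset.mul_sum]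

theorem inner_eq_dot (v w : E n) : inner ℝ v w = (v : Fin n → ℝ) ⬝ᵥ (w : Fin n → ℝ) := by
  rw [PiLp.inner_apply]
  unfold dotProduct
  apply Finset.sum_congr rfl
  intro i _
  simp only [RCLike.inner_apply, Real.ringHom_apply, mul_comm]

theorem inner_Aop (x v w : E n) :
    inner ℝ (g.Aop x v) w = g.dens x * ((w : Fin n → ℝ) ⬝ᵥ (g.G x)⁻¹ *ᵥ (v : Fin n → ℝ)) := by
  rw [inner_eq_dot]
  unfold dotProduct Matrix.mulVec dotProduct
  rw [Finset.mul_sum]
  apply Finset.sum_congr rfl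
  intro i _
  rw [Aop_apply]
  ring

theorem quad_eq (x v : E n) :
    g.quad x v = (v : Fin n → ℝ) ⬝ᵥ (g.G x) *ᵥ (v : Fin n → ℝ) := by
  unfold quad dotProduct Matrix.mulVec dotProduct
  apply Finset.sum_congr rfl
  intro i _
  rw [Finset.mul_sum]
  apply Finset.sum_congr rfl
  intro j _
  ring

theorem Aop_symm (x v w : E n) : inner ℝ (g.Aop x v) w = inner ℝ v (g.Aop x w) := by
  rw [inner_Aop, real_inner_comm, inner_Aop, symm_dot (posDef_symm (g.pos x).inv),
    dotProduct_comm]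

theorem Aop_pos (x v : E n) (hv : v ≠ 0) : 0 < inner ℝ (g.Aop x v) v := by
  rw [inner_Aop]
  apply mul_pos (g.dens_pos x)
  have hv' : (v : Fin n → ℝ) ≠ 0 := by
    intro h
    apply hv
    ext i
    exact congrFun h i
  have := (g.pos x).inv.dotProduct_mulVec_pos hv'
  simpa only [gt_iff_lt, star_trivial] using this

/-- The Laplace equation in divergence form. -/
theorem lap_eq {u : E n → ℝ} (hu : ContDiff ℝ ∞ u) (x : E n) :
    g.lap u x = (g.dens x)⁻¹ * divg (fun y => g.Aop y (gr u y)) x := by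
  unfold lap divg
  congr 1
  apply Finset.sum_congr rfl
  intro i _
  have hd : ContDiff ℝ 1 (fun y => g.Aop y (gr u y)) :=
    (g.Aop_contDiff.of_le (by norm_cast)).clm_apply
      (contDiff_gr hu (by norm_cast))
  have h1 : (fderiv ℝ (fun y => g.Aop y (gr u y)) x (EuclideanSpace.single i 1)) i =
      fderiv ℝ (fun y => (g.Aop y (gr u y)) i) x (EuclideanSpace.single i 1) := by
    have h2 := ((EuclideanSpace.proj (𝕜 := ℝ) (i : Fin n)).hasFDerivAt.comp x
      ((hd.differentiable (by simp only [ne_eq, one_ne_zero, not_false_eq_true])) x).hasFDerivAt).fderiv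
    have h3 : (fun y => (g.Aop y (gr u y)) i) =
      (EuclideanSpace.proj (𝕜 := ℝ) (i : Fin n)) ∘ (fun y => g.Aop y (gr u y)) := rfl
    rw [h3, h2]
    rfl
  rw [h1]
  unfold pd
  congr 2
  funext y
  rw [Aop_apply]
  congr 1

end RMetric

end Vale.Agent.P225
end

section
open MeasureTheory Set Filter Topology Matrix
open scoped ContDiff

namespace Vale.Agent.P225

/-- If `A ≤ κ B` then `B⁻¹ ≤ κ A⁻¹`. -/
theorem inv_quad_le {n : ℕ} {A B : Matrix (Fin n) (Fin n) ℝ} (hA : A.PosDef) (hB : B.PosDef)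
    {κ : ℝ} (hκ : 0 < κ) (h : ∀ v : Fin n → ℝ, v ⬝ᵥ A *ᵥ v ≤ κ * (v ⬝ᵥ B *ᵥ v))
    (v : Fin n → ℝ) : v ⬝ᵥ B⁻¹ *ᵥ v ≤ κ * (v ⬝ᵥ A⁻¹ *ᵥ v) := by
  have hsA : Aᵀ = A := posDef_symm hA
  have hsB : Bᵀ = B := posDef_symm hB
  have hdA : IsUnit A.det := hA.det_pos.ne'.isUnit
  have hdB : IsUnit B.det := hB.det_pos.ne'.isUnit
  set w : Fin n → ℝ := B⁻¹ *ᵥ v with hw
  set z : Fin n → ℝ := A⁻¹ *ᵥ v with hz
  have hBw : B *ᵥ w = v := by
    rw [hw, Matrix.mulVec_mulVec, Matrix.mul_nonsing_inv _ hdB, Matrix.one_mulVec]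
  have hAz : A *ᵥ z = v := by
    rw [hz, Matrix.mulVec_mulVec, Matrix.mul_nonsing_inv _ hdA, Matrix.one_mulVec]
  -- `0 ≤ ⟨A (z - t w), z - t w⟩` with `t = κ⁻¹`
  have h0 : 0 ≤ (z - κ⁻¹ • w) ⬝ᵥ A *ᵥ (z - κ⁻¹ • w) := by
    have := hA.posSemidef.dotProduct_mulVec_nonneg (z - κ⁻¹ • w)
    simpa only [sub_dotProduct, smul_dotProduct, smul_eq_mul, sub_nonneg, ge_iff_le, star_trivial] using this
  have h1 : (z - κ⁻¹ • w) ⬝ᵥ A *ᵥ (z - κ⁻¹ • w) =
      v ⬝ᵥ z - 2 * κ⁻¹ * (v ⬝ᵥ w) + κ⁻¹ ^ 2 * (w ⬝ᵥ A *ᵥ w) := by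
    rw [Matrix.mulVec_sub, Matrix.mulVec_smul, hAz, sub_dotProduct, dotProduct_sub,
      dotProduct_sub, smul_dotProduct, smul_dotProduct, dotProduct_smul, dotProduct_smul]
    have e1 : z ⬝ᵥ A *ᵥ w = v ⬝ᵥ w := by rw [symm_dot hsA, hAz]
    have e2 : z ⬝ᵥ v = v ⬝ᵥ z := dotProduct_comm _ _
    have e3 : w ⬝ᵥ v = v ⬝ᵥ w := dotProduct_comm _ _
    rw [e1, e2, e3]
    simp only [smul_eq_mul]
    ring
  have h2 := h w
  rw [hBw, dotProduct_comm w v] at h2
  have h3 : κ⁻¹ ^ 2 * (w ⬝ᵥ A *ᵥ w) ≤ κ⁻¹ ^ 2 * (κ * (v ⬝ᵥ w)) :=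
    mul_le_mul_of_nonneg_left h2 (by positivity)
  have h4 : κ⁻¹ ^ 2 * (κ * (v ⬝ᵥ w)) = κ⁻¹ * (v ⬝ᵥ w) := by
    field_simp
  rw [h1] at h0
  rw [h4] at h3
  have h5 : κ⁻¹ * (v ⬝ᵥ w) ≤ v ⬝ᵥ z := by linarith only [h0, h3]
  rw [inv_mul_le_iff₀ hκ] at h5
  exact h5

namespace SphereMetric

variable {n : ℕ} (X : SphereMetric n)

theorem quad_eq (θ v : E n) :
    X.quad θ v = (v : Fin n → ℝ) ⬝ᵥ (X.H θ) *ᵥ (v : Fin n → ℝ) := by
  unfold quad dotProduct Matrix.mulVec dotProduct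
  apply Finset.sum_congr rfl
  intro i _
  rw [Finset.mul_sum]
  apply Finset.sum_congr rfl
  intro j _
  ring

theorem quad_contOn : ContinuousOn (fun p : E n × E n => X.quad p.1 p.2)
    (Metric.sphere (0 : E n) 1 ×ˢ univ) := by
  unfold quad
  apply continuousOn_finsetSum
  intro i _
  apply continuousOn_finsetSum
  intro j _
  have h1 : ContinuousOn (fun p : E n × E n => X.H p.1 i j)
      (Metric.sphere (0 : E n) 1 ×ˢ univ) :=
    (X.cont i j).comp continuousOn_fst fun p hp => hp.1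
  have h2 : Continuous fun p : E n × E n => p.2 i :=
    (EuclideanSpace.proj (𝕜 := ℝ) i).continuous.comp continuous_snd
  have h3 : Continuous fun p : E n × E n => p.2 j :=
    (EuclideanSpace.proj (𝕜 := ℝ) j).continuous.comp continuous_snd
  exact (h1.mul h2.continuousOn).mul h3.continuousOn

theorem quad_smul (θ v : E n) (t : ℝ) : X.quad θ (t • v) = t ^ 2 * X.quad θ v := by
  unfold quad
  rw [Finset.mul_sum]
  apply Finset.sum_congr rfl
  intro i _
  rw [Finset.mul_sum]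
  apply Finset.sum_congr rfl
  intro j _
  simp only [PiLp.smul_apply, smul_eq_mul]
  ring

theorem quad_pos {θ v : E n} (hθ : ‖θ‖ = 1) (hv : v ≠ 0) : 0 < X.quad θ v := by
  rw [quad_eq]
  have hv' : (v : Fin n → ℝ) ≠ 0 := by
    intro h
    apply hv
    ext i
    exact congrFun h i
  have := (X.pos θ hθ).dotProduct_mulVec_pos hv'
  simpa only [gt_iff_lt, star_trivial] using this

theorem exists_lower [NeZero n] :
    ∃ c : ℝ, 0 < c ∧ ∀ θ v : E n, ‖θ‖ = 1 → c * ‖v‖ ^ 2 ≤ X.quad θ v := by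
  have hK : IsCompact (Metric.sphere (0 : E n) 1 ×ˢ Metric.sphere (0 : E n) 1) :=
    (isCompact_sphere _ _).prod (isCompact_sphere _ _)
  have hne : (Metric.sphere (0 : E n) 1).Nonempty :=
    ⟨EuclideanSpace.single 0 1, by simp only [mem_sphere_iff_norm, sub_zero, PiLp.norm_single, norm_one]⟩
  obtain ⟨p, hp, hmin⟩ := hK.exists_isMinOn (hne.prod hne)
    (X.quad_contOn.mono (prod_mono_right (subset_univ _)))
  have hp1 : ‖p.1‖ = 1 := by simpa only [mem_sphere_iff_norm, sub_zero] using hp.1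
  have hp2 : ‖p.2‖ = 1 := by simpa only [mem_sphere_iff_norm, sub_zero] using hp.2
  have hp0 : p.2 ≠ 0 := by
    intro h; rw [h, norm_zero] at hp2; exact zero_ne_one hp2
  refine ⟨X.quad p.1 p.2, X.quad_pos hp1 hp0, fun θ v hθ => ?_⟩
  by_cases hv : v = 0
  · rw [hv]
    simp only [quad, norm_zero, ne_eq, OfNat.ofNat_ne_zero, not_false_eq_true, zero_pow, mul_zero, PiLp.zero_apply, Finset.sum_const_zero, Std.le_refl]
  · have hv0 : 0 < ‖v‖ := norm_pos_iff.2 hv
    have h1 : ‖(‖v‖⁻¹ • v)‖ = 1 := by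
      rw [norm_smul, norm_inv, norm_norm, inv_mul_cancel₀ hv0.ne']
    have h2 : X.quad p.1 p.2 ≤ X.quad θ (‖v‖⁻¹ • v) :=
      hmin (a := (θ, ‖v‖⁻¹ • v)) ⟨by simpa only [mem_sphere_iff_norm, sub_zero] using hθ, by simpa only [mem_sphere_iff_norm, sub_zero] using h1⟩
    rw [quad_smul] at h2
    have h3 := mul_le_mul_of_nonneg_right h2 (sq_nonneg ‖v‖)
    have h4 : ‖v‖⁻¹ ^ 2 * X.quad θ v * ‖v‖ ^ 2 = X.quad θ v := by
      (clear * - hv; field_simp)
    rw [h4] at h3
    exact h3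

theorem H_cont_sub (i j : Fin n) :
    Continuous fun θ : Metric.sphere (0 : E n) 1 => X.H (θ : E n) i j :=
  (X.cont i j).comp_continuous continuous_subtype_val fun θ => θ.2

theorem Hm_cont_sub : Continuous fun θ : Metric.sphere (0 : E n) 1 => X.H (θ : E n) :=
  continuous_pi fun i => continuous_pi fun j => X.H_cont_sub i j

theorem dens_cont_sub : Continuous fun θ : Metric.sphere (0 : E n) 1 => X.dens (θ : E n) :=
  Real.continuous_sqrt.comp X.Hm_cont_sub.matrix_det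

theorem det_pos {θ : E n} (hθ : ‖θ‖ = 1) : 0 < (X.H θ).det := (X.pos θ hθ).det_pos

theorem dens_pos {θ : E n} (hθ : ‖θ‖ = 1) : 0 < X.dens θ := Real.sqrt_pos.2 (X.det_pos hθ)

theorem inv_cont_sub (i j : Fin n) :
    Continuous fun θ : Metric.sphere (0 : E n) 1 => (X.H (θ : E n))⁻¹ i j := by
  have h2 : (fun θ : Metric.sphere (0 : E n) 1 => (X.H (θ : E n))⁻¹ i j) =
      fun θ : Metric.sphere (0 : E n) 1 =>
        ((X.H (θ : E n)).det)⁻¹ * (X.H (θ : E n)).adjugate i j := by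
    funext x
    rw [Matrix.inv_def, Matrix.smul_apply, Ring.inverse_eq_inv', smul_eq_mul]
  rw [h2]
  have h3 : Continuous fun θ : Metric.sphere (0 : E n) 1 => ((X.H (θ : E n)).det)⁻¹ :=
    X.Hm_cont_sub.matrix_det.inv₀ fun θ => (X.det_pos (norm_eq_of_mem_sphere θ)).ne'
  exact h3.mul (X.Hm_cont_sub.matrix_adjugate.matrix_elem i j)

theorem exists_det_lower [NeZero n] : ∃ c : ℝ, 0 < c ∧ ∀ θ : E n, ‖θ‖ = 1 → c ≤ (X.H θ).det := by
  have : Nonempty (Metric.sphere (0 : E n) 1) := ⟨⟨EuclideanSpace.single 0 1, by simp only [mem_sphere_iff_norm, sub_zero, PiLp.norm_single, norm_one]⟩⟩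
  obtain ⟨p, -, hp⟩ := isCompact_univ.exists_isMinOn univ_nonempty
    X.Hm_cont_sub.matrix_det.continuousOn
  refine ⟨_, X.det_pos (norm_eq_of_mem_sphere p), fun θ hθ => ?_⟩
  exact hp (a := ⟨θ, by simpa only [mem_sphere_iff_norm, sub_zero] using hθ⟩) (mem_univ _)

theorem exists_entry_bound : ∃ B : ℝ, ∀ θ : E n, ‖θ‖ = 1 → ∀ i j, |X.H θ i j| ≤ B := by
  have h1 : ∀ i j, ∃ B : ℝ, ∀ θ ∈ Metric.sphere (0 : E n) 1, ‖X.H θ i j‖ ≤ B := fun i j =>
    (isCompact_sphere (0 : E n) 1).exists_bound_of_continuousOn (X.cont i j)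
  choose B hB using h1
  refine ⟨∑ i, ∑ j, |B i j|, fun θ hθ i j => ?_⟩
  have h2 := hB i j θ (by simpa only [mem_sphere_iff_norm, sub_zero] using hθ)
  rw [Real.norm_eq_abs] at h2
  calc |X.H θ i j| ≤ B i j := h2
    _ ≤ |B i j| := le_abs_self _
    _ ≤ ∑ j, |B i j| := Finset.single_le_sum (f := fun j => |B i j|)
        (fun j _ => abs_nonneg _) (Finset.mem_univ j)
    _ ≤ ∑ i, ∑ j, |B i j| := Finset.single_le_sum (f := fun i => ∑ j, |B i j|)
        (fun i _ => Finset.sum_nonneg fun j _ => abs_nonneg _) (Finset.mem_univ i)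

end SphereMetric

theorem exists_R_of_eventually {n : ℕ} {p : E n → Prop}
    (h : ∀ᶠ x in Bornology.cobounded (E n), p x) : ∃ R : ℝ, 0 < R ∧ ∀ x, R ≤ ‖x‖ → p x := by
  rw [← comap_norm_atTop, eventually_comap, eventually_atTop] at h
  obtain ⟨R, hR⟩ := h
  exact ⟨max R 1, by positivity, fun x hx => hR ‖x‖ ((le_max_left _ _).trans hx) x rfl⟩

namespace RMetric

variable {n : ℕ} (g : RMetric n)

theorem close_entries (X : SphereMetric n)
    (h : ∀ i j, Tendsto (fun x => g.G x i j - X.H (‖x‖⁻¹ • x) i j)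
      (Bornology.cobounded (E n)) (𝓝 0)) {δ : ℝ} (hδ : 0 < δ) :
    ∃ R, 0 < R ∧ ∀ x : E n, R ≤ ‖x‖ → ∀ i j, |g.G x i j - X.H (‖x‖⁻¹ • x) i j| < δ := by
  apply exists_R_of_eventually
  rw [eventually_all]
  intro i
  rw [eventually_all]
  intro j
  have h1 := (h i j).abs
  rw [abs_zero] at h1
  exact h1.eventually (gt_mem_nhds hδ)

theorem norm_inv_smul {x : E n} (hx : 0 < ‖x‖) : ‖(‖x‖⁻¹ • x)‖ = 1 := by
  rw [norm_smul, norm_inv, norm_norm, inv_mul_cancel₀ hx.ne']

theorem close_det (X : SphereMetric n)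
    (h : ∀ i j, Tendsto (fun x => g.G x i j - X.H (‖x‖⁻¹ • x) i j)
      (Bornology.cobounded (E n)) (𝓝 0)) {δ : ℝ} (hδ : 0 < δ) :
    ∃ R, 0 < R ∧ ∀ x : E n, R ≤ ‖x‖ → |(g.G x).det - (X.H (‖x‖⁻¹ • x)).det| < δ := by
  obtain ⟨B, hB⟩ := X.exists_entry_bound
  have hK : IsCompact (Metric.closedBall (0 : Fin n → Fin n → ℝ) (|B| + 1)) :=
    isCompact_closedBall _ _
  have hdet : Continuous fun M : Fin n → Fin n → ℝ => (Matrix.of M).det := by
    apply Continuous.matrix_det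
    exact continuous_id
  have hu := hK.uniformContinuousOn_of_continuous hdet.continuousOn
  rw [Metric.uniformContinuousOn_iff] at hu
  obtain ⟨ρ, hρ, hu⟩ := hu δ hδ
  obtain ⟨R, hR0, hR⟩ := g.close_entries X h (δ := min (ρ / 2) 1) (lt_min (by linarith) one_pos)
  refine ⟨R, hR0, fun x hx => ?_⟩
  have hx0 : 0 < ‖x‖ := lt_of_lt_of_le hR0 hx
  have h1 := hR x hx
  have hBx := hB _ (norm_inv_smul hx0)
  have hHK : (fun i j => X.H (‖x‖⁻¹ • x) i j : Fin n → Fin n → ℝ) ∈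
      Metric.closedBall (0 : Fin n → Fin n → ℝ) (|B| + 1) := by
    rw [mem_closedBall_zero_iff, pi_norm_le_iff_of_nonneg (by (clear * -; positivity))]
    intro i
    rw [pi_norm_le_iff_of_nonneg (by positivity)]
    intro j
    rw [Real.norm_eq_abs]
    have := hBx i j
    linarith only [this, le_abs_self B]
  have hGK : (fun i j => g.G x i j : Fin n → Fin n → ℝ) ∈
      Metric.closedBall (0 : Fin n → Fin n → ℝ) (|B| + 1) := by
    rw [mem_closedBall_zero_iff, pi_norm_le_iff_of_nonneg (by (clear * -; positivity))]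
    intro i
    rw [pi_norm_le_iff_of_nonneg (by positivity)]
    intro j
    rw [Real.norm_eq_abs]
    have h2 := hBx i j
    have h3 := (h1 i j).trans_le (min_le_right _ _)
    have h4 : |g.G x i j| ≤ |g.G x i j - X.H (‖x‖⁻¹ • x) i j| + |X.H (‖x‖⁻¹ • x) i j| := by
      have := abs_add_le (g.G x i j - X.H (‖x‖⁻¹ • x) i j) (X.H (‖x‖⁻¹ • x) i j)
      rwa [sub_add_cancel] at this
    linarith only [h2, h3, h4, le_abs_self B]
  have hd : Dist.dist (fun i j => g.G x i j : Fin n → Fin n → ℝ)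
      (fun i j => X.H (‖x‖⁻¹ • x) i j : Fin n → Fin n → ℝ) < ρ := by
    rw [dist_pi_lt_iff hρ]
    intro i
    rw [dist_pi_lt_iff hρ]
    intro j
    rw [Real.dist_eq]
    have := (h1 i j).trans_le (min_le_left _ _)
    linarith only [hρ, this]
  have h5 := hu _ hGK _ hHK hd
  rw [Real.dist_eq] at h5
  exact h5

theorem close_dens [NeZero n] (X : SphereMetric n)
    (h : ∀ i j, Tendsto (fun x => g.G x i j - X.H (‖x‖⁻¹ • x) i j)
      (Bornology.cobounded (E n)) (𝓝 0)) {δ : ℝ} (hδ : 0 < δ) :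
    ∃ R, 0 < R ∧ ∀ x : E n, R ≤ ‖x‖ →
      |g.dens x - X.dens (‖x‖⁻¹ • x)| ≤ δ * X.dens (‖x‖⁻¹ • x) := by
  obtain ⟨c, hc, hcl⟩ := X.exists_det_lower
  obtain ⟨R, hR0, hR⟩ := g.close_det X h (δ := δ * c) (mul_pos hδ hc)
  refine ⟨R, hR0, fun x hx => ?_⟩
  have hx0 : 0 < ‖x‖ := lt_of_lt_of_le hR0 hx
  have hn1 := norm_inv_smul hx0
  have h1 := hR x hx
  have h2 := hcl _ hn1
  set b : ℝ := (X.H (‖x‖⁻¹ • x)).det with hb
  set a : ℝ := (g.G x).det with ha
  have ha0 : 0 < a := (g.pos x).det_pos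
  have hb0 : 0 < b := X.det_pos hn1
  have hsa : √a * √a = a := Real.mul_self_sqrt ha0.le
  have hsb : √b * √b = b := Real.mul_self_sqrt hb0.le
  have hsa0 : 0 < √a := Real.sqrt_pos.2 ha0
  have hsb0 : 0 < √b := Real.sqrt_pos.2 hb0
  have h3 : |√a - √b| * √b ≤ δ * √b * √b := by
    calc |√a - √b| * √b ≤ |√a - √b| * (√a + √b) := by
          apply mul_le_mul_of_nonneg_left _ (abs_nonneg _)
          linarith only [hsa0]
      _ = |(√a - √b) * (√a + √b)| := by
          rw [abs_mul, abs_of_pos (by linarith only [hsa0, hsb0] : 0 < √a + √b)]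
      _ = |a - b| := by
          congr 1
          linear_combination hsa - hsb
      _ ≤ δ * c := h1.le
      _ ≤ δ * b := mul_le_mul_of_nonneg_left h2 hδ.le
      _ = δ * √b * √b := by rw [mul_assoc, hsb]
  have h4 := le_of_mul_le_mul_right h3 hsb0
  exact h4

theorem close_quad [NeZero n] (X : SphereMetric n)
    (h : ∀ i j, Tendsto (fun x => g.G x i j - X.H (‖x‖⁻¹ • x) i j)
      (Bornology.cobounded (E n)) (𝓝 0)) {δ : ℝ} (hδ : 0 < δ) :
    ∃ R, 0 < R ∧ ∀ x : E n, R ≤ ‖x‖ → ∀ v : E n,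
      g.quad x v ≤ (1 + δ) * X.quad (‖x‖⁻¹ • x) v := by
  obtain ⟨c, hc, hcl⟩ := X.exists_lower
  have hn0 : (0 : ℝ) < n := by exact_mod_cast Nat.pos_of_ne_zero (NeZero.ne n)
  obtain ⟨R, hR0, hR⟩ := g.close_entries X h (δ := δ * c / n ^ 2)
    (div_pos (mul_pos hδ hc) (by (clear * - hn0; positivity)))
  refine ⟨R, hR0, fun x hx v => ?_⟩
  have hx0 : 0 < ‖x‖ := lt_of_lt_of_le hR0 hx
  have hn1 := norm_inv_smul hx0
  have h1 := hR x hx
  have h2 := hcl _ v hn1
  have hv : ∀ i, |v i| ≤ ‖v‖ := by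
    intro i
    have := PiLp.norm_apply_le v i
    simpa only [ge_iff_le, Real.norm_eq_abs] using this
  have h3 : g.quad x v - X.quad (‖x‖⁻¹ • x) v ≤ δ * c * ‖v‖ ^ 2 := by
    have e1 : g.quad x v - X.quad (‖x‖⁻¹ • x) v =
        ∑ i, ∑ j, (g.G x i j - X.H (‖x‖⁻¹ • x) i j) * v i * v j := by
      unfold quad SphereMetric.quad
      rw [← Finset.sum_sub_distrib]
      apply Finset.sum_congr rfl
      intro i _
      rw [← Finset.sum_sub_distrib]
      apply Finset.sum_congr rfl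
      intro j _
      ring
    rw [e1]
    calc ∑ i, ∑ j, (g.G x i j - X.H (‖x‖⁻¹ • x) i j) * v i * v j
        ≤ ∑ _i : Fin n, ∑ _j : Fin n, δ * c / n ^ 2 * ‖v‖ ^ 2 := by
          apply Finset.sum_le_sum
          intro i _
          apply Finset.sum_le_sum
          intro j _
          calc (g.G x i j - X.H (‖x‖⁻¹ • x) i j) * v i * v j
              ≤ |(g.G x i j - X.H (‖x‖⁻¹ • x) i j) * v i * v j| := le_abs_self _
            _ = |g.G x i j - X.H (‖x‖⁻¹ • x) i j| * (|v i| * |v j|) := by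
                rw [abs_mul, abs_mul, mul_assoc]
            _ ≤ δ * c / n ^ 2 * (‖v‖ * ‖v‖) := by
                have := (h1 i j).le
                gcongr
                · exact hv i
                · exact hv j
            _ = δ * c / n ^ 2 * ‖v‖ ^ 2 := by ring
      _ = δ * c * ‖v‖ ^ 2 := by
          rw [Finset.sum_const, Finset.sum_const, Finset.card_univ, Fintype.card_fin]
          simp only [nsmul_eq_mul]
          (clear * - hn0 hc hδ; field_simp)
  have h4 : δ * c * ‖v‖ ^ 2 ≤ δ * X.quad (‖x‖⁻¹ • x) v := by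
    rw [mul_assoc]
    exact mul_le_mul_of_nonneg_left h2 hδ.le
  linarith only [h3, h4]

end RMetric

end Vale.Agent.P225
end

section
open MeasureTheory Set Filter Topology Matrix
open scoped ContDiff

namespace Vale.Agent.P225

theorem gr_comp_smul {n : ℕ} {u : E n → ℝ} (r : ℝ) (x : E n)
    (hu : DifferentiableAt ℝ u (r • x)) : gr (fun y => u (r • y)) x = r • gr u (r • x) := by
  apply ext_inner_right ℝ
  intro v
  rw [inner_gr, inner_smul_left, inner_gr]
  have h1 : HasFDerivAt (fun y : E n => r • y) (r • ContinuousLinearMap.id ℝ (E n)) x :=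
    (hasFDerivAt_id x).const_smul r
  have h2 := (hu.hasFDerivAt.comp x h1).fderiv
  have h3 : (fun y => u (r • y)) = u ∘ (fun y => r • y) := rfl
  rw [h3, h2]
  simp

theorem Cone.e_split {n : ℕ} (K : Cone n) (u : E n → ℝ) {x : E n} (hx : K.R₀ < ‖x‖) :
    ‖x‖ ^ 2 * K.e u x - K.μ x * K.s u x * K.s u x =
      ‖x‖ ^ 2 * inner ℝ (K.A x (gr u x - (K.s u x / ‖x‖ ^ 2) • x))
        (gr u x - (K.s u x / ‖x‖ ^ 2) • x) := by
  have hx0 : 0 < ‖x‖ := by linarith [K.hR₀]
  have h1 : inner ℝ (K.A x (gr u x)) x = K.μ x * K.s u x := K.inner_Agr u hx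
  have h2 : inner ℝ (K.A x x) (gr u x) = K.μ x * K.s u x := by
    rw [K.sym, real_inner_comm, h1]
  have h3 : inner ℝ (K.A x x) x = K.μ x * ‖x‖ ^ 2 := by
    rw [K.hAx x hx, real_inner_smul_left, K.hZx x hx]
  rw [map_sub, map_smul, inner_sub_left, inner_sub_right, inner_sub_right,
    real_inner_smul_left, real_inner_smul_left, real_inner_smul_right, real_inner_smul_right,
    h1, h2, h3]
  unfold Cone.e
  field_simp
  ring

namespace SphereMetric

variable {n : ℕ} (X : SphereMetric n)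

theorem inv_self {θ : E n} (hθ : ‖θ‖ = 1) :
    (X.H θ)⁻¹ *ᵥ (θ : Fin n → ℝ) = (θ : Fin n → ℝ) := by
  have hdet : IsUnit (X.H θ).det := (X.det_pos hθ).ne'.isUnit
  have h1 : (X.H θ) *ᵥ (θ : Fin n → ℝ) = (θ : Fin n → ℝ) := by
    funext i
    exact X.radial θ hθ i
  conv_lhs => rw [← h1]
  rw [Matrix.mulVec_mulVec, Matrix.nonsing_inv_mul _ hdet, Matrix.one_mulVec]

/-- The tangential part. -/
noncomputable def tp {n : ℕ} (θ w : E n) : E n := w - inner ℝ θ w • θ

theorem tp_sub {θ w : E n} (hθ : ‖θ‖ = 1) (t : ℝ) : tp θ (w - t • θ) = tp θ w := by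
  unfold tp
  rw [inner_sub_right, real_inner_smul_right, real_inner_self_eq_norm_sq, hθ]
  module

theorem inv_tp_le {θ : E n} (hθ : ‖θ‖ = 1) (w : E n) :
    (tp θ w : Fin n → ℝ) ⬝ᵥ (X.H θ)⁻¹ *ᵥ (tp θ w : Fin n → ℝ) ≤
      (w : Fin n → ℝ) ⬝ᵥ (X.H θ)⁻¹ *ᵥ (w : Fin n → ℝ) := by
  set P : E n := tp θ w with hP
  set t : ℝ := inner ℝ θ w with ht
  have hw : w = P + t • θ := by
    rw [hP]; unfold tp; rw [← ht]; module
  have hPθ : (P : Fin n → ℝ) ⬝ᵥ (θ : Fin n → ℝ) = 0 := by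
    rw [← RMetric.inner_eq_dot, hP]
    unfold tp
    rw [inner_sub_left, real_inner_smul_left, real_inner_self_eq_norm_sq, hθ, real_inner_comm w θ,
      ]
    ring
  have hθθ : (θ : Fin n → ℝ) ⬝ᵥ (θ : Fin n → ℝ) = 1 := by
    rw [← RMetric.inner_eq_dot, real_inner_self_eq_norm_sq, hθ]
    norm_num
  have hs : ((X.H θ)⁻¹)ᵀ = (X.H θ)⁻¹ := posDef_symm (X.pos θ hθ).inv
  have hwf : (w : Fin n → ℝ) = (P : Fin n → ℝ) + t • (θ : Fin n → ℝ) := by
    conv_lhs => rw [hw]
    rfl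
  rw [hwf, Matrix.mulVec_add, Matrix.mulVec_smul, X.inv_self hθ, add_dotProduct, dotProduct_add,
    dotProduct_add, smul_dotProduct, smul_dotProduct, dotProduct_smul, dotProduct_smul, hPθ, hθθ]
  have h1 : (θ : Fin n → ℝ) ⬝ᵥ (X.H θ)⁻¹ *ᵥ (P : Fin n → ℝ) = 0 := by
    rw [symm_dot hs, X.inv_self hθ, dotProduct_comm, hPθ]
  rw [h1]
  simp only [smul_eq_mul, mul_zero, add_zero, zero_add, mul_one]
  nlinarith only []

theorem tgrad_eq (f : E n → ℝ) (θ : E n) (i : Fin n) : tgrad f θ i = (tp θ (gr f θ)) i := by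
  unfold tgrad tp
  rw [PiLp.sub_apply, PiLp.smul_apply, smul_eq_mul]
  have : ∑ k, θ k * RMetric.pd k f θ = inner ℝ θ (gr f θ) := by
    rw [RMetric.inner_eq_dot]
    rfl
  rw [this]
  rfl

theorem energy_integrand (f : E n → ℝ) (θ : E n) :
    ∑ i, ∑ j, (X.H θ)⁻¹ i j * tgrad f θ i * tgrad f θ j =
      (tp θ (gr f θ) : Fin n → ℝ) ⬝ᵥ (X.H θ)⁻¹ *ᵥ (tp θ (gr f θ) : Fin n → ℝ) := by
  unfold dotProduct Matrix.mulVec dotProduct
  apply Finset.sum_congr rfl
  intro i _
  rw [Finset.mul_sum]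
  apply Finset.sum_congr rfl
  intro j _
  rw [tgrad_eq, tgrad_eq]
  ring

theorem energy_integrand_cont {f : E n → ℝ} (hf : Continuous (gr f)) :
    Continuous fun θ : Metric.sphere (0 : E n) 1 =>
      (tp (θ : E n) (gr f (θ : E n)) : Fin n → ℝ) ⬝ᵥ
        (X.H (θ : E n))⁻¹ *ᵥ (tp (θ : E n) (gr f (θ : E n)) : Fin n → ℝ) := by
  have h1 : ∀ i, Continuous fun θ : Metric.sphere (0 : E n) 1 =>
      (tp (θ : E n) (gr f (θ : E n))) i := by
    intro i
    have h0 : Continuous fun θ : E n => inner ℝ θ (gr f θ) • θ :=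
      (continuous_id'.inner hf).fun_smul continuous_id'
    have h2 : Continuous fun θ : E n => tp θ (gr f θ) := hf.sub h0
    exact ((EuclideanSpace.proj (𝕜 := ℝ) i).continuous.comp h2).comp continuous_subtype_val
  unfold dotProduct Matrix.mulVec dotProduct
  apply continuous_finsetSum
  intro i _
  apply (h1 i).mul
  apply continuous_finsetSum
  intro j _
  exact (X.inv_cont_sub i j).mul (h1 j)

end SphereMetric

theorem spec_of_close {n : ℕ} [NeZero n] (K : Cone n) (X : SphereMetric n)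
    (hμ : ∀ δ > 0, ∃ R, ∀ x : E n, R ≤ ‖x‖ → K.μ x ≤ (1 + δ) * X.dens (‖x‖⁻¹ • x))
    (hA : ∀ δ > 0, ∃ R, ∀ x : E n, R ≤ ‖x‖ → ∀ w : E n,
      (1 - δ) * (X.dens (‖x‖⁻¹ • x) *
        ((w : Fin n → ℝ) ⬝ᵥ (X.H (‖x‖⁻¹ • x))⁻¹ *ᵥ (w : Fin n → ℝ))) ≤ inner ℝ (K.A x w) w)
    {N : ℕ} {m0 lam : ℝ} (hE : X.EigenvalueGE N m0) (hlam0 : 0 ≤ lam) (hlam : lam < m0)
    {u : Fin (N + 1) → E n → ℝ} (hsm : ∀ i, ContDiff ℝ ∞ (u i)) (hsol : ∀ i, K.Sol (u i)) :
    ∃ Rl, ∀ r, Rl ≤ r → ∃ c : Fin (N + 1) → ℝ, c ≠ 0 ∧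
      lam * K.J (Cone.cmb u c) r ≤ r ^ 2 * sph (K.e (Cone.cmb u c)) r -
        sph (fun x => K.μ x * K.s (Cone.cmb u c) x * K.s (Cone.cmb u c) x) r := by
  set δ : ℝ := (m0 - lam) / (m0 + lam) with hδ
  have hm0 : 0 < m0 := by linarith only [hlam0, hlam]
  have hδ0 : 0 < δ := div_pos (by linarith only [hlam]) (by linarith only [hlam0, hlam])
  have hδ1 : lam * (1 + δ) = m0 * (1 - δ) := by
    rw [hδ]; field_simp; ring
  have hδ2 : δ ≤ 1 := by rw [hδ, div_le_one (by linarith only [hlam0, hlam])]; linarith only [hlam0]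
  obtain ⟨R1, hR1⟩ := hμ δ hδ0
  obtain ⟨R2, hR2⟩ := hA δ hδ0
  refine ⟨max (K.R₀ + 1) (max R1 R2), fun r hr => ?_⟩
  have hr0 : K.R₀ < r := lt_of_lt_of_le (by linarith only []) ((le_max_left _ _).trans hr)
  have hr1 : R1 ≤ r := (le_max_left _ _).trans ((le_max_right _ _).trans hr)
  have hr2 : R2 ≤ r := (le_max_right _ _).trans ((le_max_right _ _).trans hr)
  have hrpos : 0 < r := by linarith only [hr0, K.hR₀]
  obtain ⟨c, hc0, hc⟩ := hE (fun i y => u i (r • y)) (fun i => (hsm i).comp (by fun_prop))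
  refine ⟨c, hc0, ?_⟩
  set U : E n → ℝ := Cone.cmb u c with hU
  have hUsm : ContDiff ℝ ∞ U := by
    rw [hU]; unfold Cone.cmb
    exact ContDiff.sum fun i _ => contDiff_const.mul (hsm i)
  have hUsol : K.Sol U := K.sol_sum hsol c
  set F : E n → ℝ := fun y => U (r • y) with hF
  have hFsm : ContDiff ℝ ∞ F := hUsm.comp (by fun_prop)
  have hc' : m0 * X.mass F ≤ X.energy F := hc
  have hθn : ∀ θ : Metric.sphere (0 : E n) 1, ‖(r • (θ : E n))‖ = r := fun θ =>
    norm_smul_sphere hrpos.le θ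
  have hθi : ∀ θ : Metric.sphere (0 : E n) 1, ‖(r • (θ : E n))‖⁻¹ • (r • (θ : E n)) = (θ : E n) := by
    intro θ
    rw [hθn, smul_smul, inv_mul_cancel₀ hrpos.ne', one_smul]
  have hgU : Continuous (gr U) := (contDiff_gr hUsm (l := 0) (by simp)).continuous
  have hgF : Continuous (gr F) := (contDiff_gr hFsm (l := 0) (by simp only [zero_add, WithTop.one_le_coe, le_top])).continuous
  -- the mass
  have hmass : K.J U r ≤ (1 + δ) * X.mass F := by
    unfold Cone.J SphereMetric.mass sph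
    rw [← integral_const_mul]
    apply integral_mono
    · exact K.integrable_O ((K.mu_cont.mul hUsm.continuous.continuousOn).mul
        hUsm.continuous.continuousOn) hr0
    · apply Integrable.const_mul
      apply integrable_sig
      exact X.dens_cont_sub.mul ((hFsm.continuous.comp continuous_subtype_val).pow 2)
    · intro θ
      beta_reduce
      have h1 := hR1 (r • (θ : E n)) (by rw [hθn]; exact hr1)
      rw [hθi] at h1
      calc K.μ (r • (θ : E n)) * U (r • (θ : E n)) * U (r • (θ : E n))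
          = K.μ (r • (θ : E n)) * F (θ : E n) ^ 2 := by
            rw [hF]; ring
        _ ≤ (1 + δ) * X.dens (θ : E n) * F (θ : E n) ^ 2 :=
            mul_le_mul_of_nonneg_right h1 (sq_nonneg _)
        _ = (1 + δ) * (X.dens (θ : E n) * F (θ : E n) ^ 2) := by ring
  -- the energy
  have henergy : (1 - δ) * X.energy F ≤ r ^ 2 * sph (K.e U) r -
      sph (fun x => K.μ x * K.s U x * K.s U x) r := by
    have i1 : ContinuousOn (fun x => r ^ 2 * K.e U x) K.O :=
      continuousOn_const.mul (K.e_cont hUsol).continuousOn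
    have i2 : ContinuousOn (fun x => K.μ x * K.s U x * K.s U x) K.O :=
      (K.mu_cont.mul (K.s_cont hUsol)).mul (K.s_cont hUsol)
    rw [← sph_const_mul, ← K.sph_subO i1 i2 hr0]
    unfold SphereMetric.energy sph
    rw [← integral_const_mul]
    apply integral_mono
    · apply Integrable.const_mul
      apply integrable_sig
      simp only [SphereMetric.energy_integrand]
      exact X.dens_cont_sub.mul (X.energy_integrand_cont hgF)
    · exact K.integrable_O (i1.sub i2) hr0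
    · intro θ
      beta_reduce
      have hθ1 : ‖(θ : E n)‖ = 1 := norm_eq_of_mem_sphere θ
      set x : E n := r • (θ : E n) with hx
      have hxn : ‖x‖ = r := hθn θ
      have hsplit := K.e_split U (x := x) (by rw [hxn]; exact hr0)
      rw [hxn] at hsplit
      rw [hsplit]
      set w : E n := gr U x - (K.s U x / r ^ 2) • x with hw
      have h2 := hR2 x (by rw [hxn]; exact hr2) w
      rw [hθi] at h2
      have h3 : SphereMetric.tp (θ : E n) (gr F (θ : E n)) = r • SphereMetric.tp (θ : E n) w := by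
        have e1 : gr F (θ : E n) = r • gr U x := by
          rw [hF, gr_comp_smul r (θ : E n) (hUsm.differentiable (by simp) _)]
        have e2 : SphereMetric.tp (θ : E n) w = SphereMetric.tp (θ : E n) (gr U x) := by
          rw [hw, hx, smul_smul]
          exact SphereMetric.tp_sub hθ1 _
        rw [e2, e1]
        unfold SphereMetric.tp
        rw [inner_smul_right]
        module
      have h4 := X.inv_tp_le hθ1 w
      have hd0 : 0 < X.dens (θ : E n) := X.dens_pos hθ1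
      rw [X.energy_integrand, h3]
      have e5 : ((r • SphereMetric.tp (θ : E n) w : E n) : Fin n → ℝ) =
          r • (SphereMetric.tp (θ : E n) w : Fin n → ℝ) := rfl
      rw [e5, Matrix.mulVec_smul, dotProduct_smul, smul_dotProduct]
      simp only [smul_eq_mul]
      set q : ℝ := (SphereMetric.tp (θ : E n) w : Fin n → ℝ) ⬝ᵥ (X.H (θ : E n))⁻¹ *ᵥ
        (SphereMetric.tp (θ : E n) w : Fin n → ℝ) with hq
      set q' : ℝ := (w : Fin n → ℝ) ⬝ᵥ (X.H (θ : E n))⁻¹ *ᵥ (w : Fin n → ℝ) with hq'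
      calc (1 - δ) * (X.dens (θ : E n) * (r * (r * q)))
          = r ^ 2 * ((1 - δ) * (X.dens (θ : E n) * q)) := by ring
        _ ≤ r ^ 2 * ((1 - δ) * (X.dens (θ : E n) * q')) := by
            have : 0 ≤ 1 - δ := by linarith only [hδ2]
            (clear * - h4 hd0 hδ2 hrpos; gcongr)
        _ ≤ r ^ 2 * inner ℝ (K.A x w) w := mul_le_mul_of_nonneg_left h2 (sq_nonneg r)
  calc lam * K.J U r ≤ lam * ((1 + δ) * X.mass F) := mul_le_mul_of_nonneg_left hmass hlam0
    _ = (1 - δ) * (m0 * X.mass F) := by rw [← mul_assoc, hδ1]; ring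
    _ ≤ (1 - δ) * X.energy F := mul_le_mul_of_nonneg_left hc' (by linarith only [hδ2])
    _ ≤ _ := henergy

end Vale.Agent.P225
end

section
open MeasureTheory Set Filter Topology Matrix
open scoped ContDiff

namespace Vale.Agent.P225

theorem gr_add' {n : ℕ} {u v : E n → ℝ} {x : E n} (hu : DifferentiableAt ℝ u x)
    (hv : DifferentiableAt ℝ v x) : gr (fun y => u y + v y) x = gr u x + gr v x := by
  apply ext_inner_right ℝ
  intro w
  rw [inner_add_left, inner_gr, inner_gr, inner_gr, fderiv_fun_add hu hv]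
  rfl

theorem gr_smul' {n : ℕ} {u : E n → ℝ} {x : E n} (c : ℝ) (hu : DifferentiableAt ℝ u x) :
    gr (fun y => c * u y) x = c • gr u x := by
  apply ext_inner_right ℝ
  intro w
  rw [inner_smul_left, inner_gr, inner_gr, fderiv_const_mul hu]
  rfl

namespace RMetric

variable {n : ℕ} (g : RMetric n)

theorem quad_le_sum (y v : E n) : g.quad y v ≤ (∑ i, ∑ j, |g.G y i j|) * ‖v‖ ^ 2 := by
  unfold quad
  rw [Finset.sum_mul]
  apply Finset.sum_le_sum
  intro i _
  rw [Finset.sum_mul]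
  apply Finset.sum_le_sum
  intro j _
  have h1 : |v i| ≤ ‖v‖ := by
    have := PiLp.norm_apply_le v i
    simpa only [ge_iff_le, Real.norm_eq_abs] using this
  have h2 : |v j| ≤ ‖v‖ := by
    have := PiLp.norm_apply_le v j
    simpa only [ge_iff_le, Real.norm_eq_abs] using this
  calc g.G y i j * v i * v j ≤ |g.G y i j * v i * v j| := le_abs_self _
    _ = |g.G y i j| * (|v i| * |v j|) := by rw [abs_mul, abs_mul, mul_assoc]
    _ ≤ |g.G y i j| * (‖v‖ * ‖v‖) := by (clear * - h1 h2; gcongr)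
    _ = |g.G y i j| * ‖v‖ ^ 2 := by ring

theorem length_nonneg (c : ℝ → E n) : 0 ≤ g.length c :=
  intervalIntegral.integral_nonneg (by norm_num) fun _ _ => Real.sqrt_nonneg _

theorem dist_nonneg' (x y : E n) : 0 ≤ g.dist x y := by
  apply Real.sInf_nonneg
  rintro L ⟨c, _, _, _, rfl⟩
  exact g.length_nonneg c

theorem dist_zero_le {K : ℝ} (hK : 0 ≤ K) (h : ∀ y v : E n, g.quad y v ≤ K ^ 2 * ‖v‖ ^ 2)
    (x : E n) : g.dist 0 x ≤ K * ‖x‖ := by
  have hray : ∀ t : ℝ, deriv (fun t : ℝ => t • x) t = x := by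
    intro t
    have := (hasDerivAt_id t).smul_const x
    simpa only [id_eq, one_smul] using this.deriv
  have h1 : g.dist 0 x ≤ g.length (fun t : ℝ => t • x) := by
    apply csInf_le
    · refine ⟨0, ?_⟩
      rintro L ⟨c, _, _, _, rfl⟩
      exact g.length_nonneg c
    · exact ⟨fun t : ℝ => t • x, by fun_prop, by simp, by simp, rfl⟩
  refine h1.trans ?_
  unfold length
  have hcont : Continuous fun t : ℝ => √(g.quad (t • x) x) := by
    apply Real.continuous_sqrt.comp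
    unfold quad
    apply continuous_finsetSum _ fun i _ => continuous_finsetSum _ fun j _ => ?_
    exact (((g.smooth i j).continuous.comp (by fun_prop)).mul continuous_const).mul
      continuous_const
  have h2 : ∫ t in (0 : ℝ)..1, √(g.quad (t • x) (deriv (fun t : ℝ => t • x) t)) ≤
      ∫ t in (0 : ℝ)..1, K * ‖x‖ := by
    simp only [hray]
    apply intervalIntegral.integral_mono_on (by norm_num)
    · exact hcont.intervalIntegrable _ _
    · exact intervalIntegrable_const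
    · intro t _
      apply Real.sqrt_le_iff.2
      refine ⟨by (clear * - hK; positivity), ?_⟩
      rw [mul_pow]
      exact h _ _
  refine h2.trans ?_
  simp only [intervalIntegral.integral_const_mul, intervalIntegral.integral_const, sub_zero, smul_eq_mul, one_mul, Std.le_refl]

/-- The harmonic functions of growth at most `d` form a vector space. -/
def harmSub (d : ℝ) : Submodule ℝ (E n → ℝ) where
  carrier := g.harm d
  zero_mem' := by
    refine ⟨contDiff_const, fun x => ?_, 0, fun x => by simp⟩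
    have h0 : ContDiff ℝ ∞ (0 : E n → ℝ) := contDiff_const
    rw [g.lap_eq h0]
    have h1 : (fun y => g.Aop y (gr (0 : E n → ℝ) y)) = fun _ => (0 : E n) := by
      funext y
      have : gr (0 : E n → ℝ) y = 0 := by
        apply ext_inner_right ℝ
        intro w
        rw [inner_gr]
        simp
      rw [this, map_zero]
    rw [h1]
    unfold divg
    simp
  add_mem' := by
    rintro u v ⟨hu1, hu2, Cu, hu3⟩ ⟨hv1, hv2, Cv, hv3⟩
    refine ⟨hu1.add hv1, fun x => ?_, Cu + Cv, fun x => ?_⟩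
    · have h0 : ContDiff ℝ ∞ (u + v) := hu1.add hv1
      rw [g.lap_eq h0]
      have h1 : (fun y => g.Aop y (gr (u + v) y)) =
          fun y => g.Aop y (gr u y) + g.Aop y (gr v y) := by
        funext y
        have : gr (u + v) y = gr u y + gr v y :=
          gr_add' (hu1.differentiable (by simp) y) (hv1.differentiable (by simp) y)
        rw [this, map_add]
      have hcd : ∀ w : E n → ℝ, ContDiff ℝ ∞ w →
          ContDiff ℝ 1 (fun y => g.Aop y (gr w y)) := fun w hw =>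
        (g.Aop_contDiff.of_le (by norm_cast)).clm_apply (contDiff_gr hw (by norm_cast))
      rw [h1, divg_add ((hcd u hu1).differentiable (by simp) x)
        ((hcd v hv1).differentiable (by simp) x), mul_add, ← g.lap_eq hu1, ← g.lap_eq hv1,
        hu2 x, hv2 x, add_zero]
    · calc |(u + v) x| = |u x + v x| := rfl
        _ ≤ |u x| + |v x| := abs_add_le _ _
        _ ≤ Cu * (1 + g.dist 0 x) ^ d + Cv * (1 + g.dist 0 x) ^ d := add_le_add (hu3 x) (hv3 x)
        _ = (Cu + Cv) * (1 + g.dist 0 x) ^ d := by ring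
  smul_mem' := by
    rintro c u ⟨hu1, hu2, Cu, hu3⟩
    have h0 : ContDiff ℝ ∞ (fun x => c * u x) := contDiff_const.mul hu1
    refine ⟨h0, fun x => ?_, |c| * Cu, fun x => ?_⟩
    · have hcu : (c • u) = fun x => c * u x := rfl
      rw [hcu, g.lap_eq h0]
      have h1 : (fun y => g.Aop y (gr (fun x => c * u x) y)) =
          fun y => c • g.Aop y (gr u y) := by
        funext y
        rw [gr_smul' c (hu1.differentiable (by simp) y), map_smul]
      have hcd : ContDiff ℝ 1 (fun y => g.Aop y (gr u y)) :=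
        (g.Aop_contDiff.of_le (by norm_cast)).clm_apply (contDiff_gr hu1 (by norm_cast))
      rw [h1, divg_const_smul c (hcd.differentiable (by simp) x)]
      have h2 := hu2 x
      rw [g.lap_eq hu1] at h2
      rw [mul_left_comm, h2, mul_zero]
    · calc |(c • u) x| = |c * u x| := rfl
        _ = |c| * |u x| := abs_mul _ _
        _ ≤ |c| * (Cu * (1 + g.dist 0 x) ^ d) := mul_le_mul_of_nonneg_left (hu3 x) (abs_nonneg c)
        _ = |c| * Cu * (1 + g.dist 0 x) ^ d := by ring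

/-- Growth with respect to the Riemannian distance gives growth in the Euclidean norm. -/
theorem growth_norm {K : ℝ} (hK : 1 ≤ K) (h : ∀ y v : E n, g.quad y v ≤ K ^ 2 * ‖v‖ ^ 2)
    {d : ℝ} (hd : 0 ≤ d) {u : E n → ℝ} {C : ℝ} (hu : ∀ x, |u x| ≤ C * (1 + g.dist 0 x) ^ d) :
    ∃ C', ∀ x, |u x| ≤ C' * (1 + ‖x‖) ^ d := by
  refine ⟨|C| * K ^ d, fun x => ?_⟩
  have h1 : 1 + g.dist 0 x ≤ K * (1 + ‖x‖) := by
    have := g.dist_zero_le (by linarith only [hK]) h x
    linarith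
  have h0 : 0 ≤ 1 + g.dist 0 x := by linarith only [g.dist_nonneg' 0 x]
  calc |u x| ≤ C * (1 + g.dist 0 x) ^ d := hu x
    _ ≤ |C| * (1 + g.dist 0 x) ^ d := by
        apply mul_le_mul_of_nonneg_right (le_abs_self C) (by (clear * - h0; positivity))
    _ ≤ |C| * (K * (1 + ‖x‖)) ^ d := by gcongr
    _ = |C| * K ^ d * (1 + ‖x‖) ^ d := by
        rw [Real.mul_rpow (by linarith only [hK]) (by (clear * -; positivity)), mul_assoc]

end RMetric

end Vale.Agent.P225
end

section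
open MeasureTheory Set Filter Topology Matrix
open scoped ContDiff

namespace Vale.Agent.P225

theorem SphereMetric.exists_dens_bound {n : ℕ} [NeZero n] (X : SphereMetric n) :
    ∃ B : ℝ, 0 < B ∧ ∀ θ : E n, ‖θ‖ = 1 → X.dens θ ≤ B := by
  have : Nonempty (Metric.sphere (0 : E n) 1) := ⟨⟨EuclideanSpace.single 0 1, by simp only [mem_sphere_iff_norm, sub_zero, PiLp.norm_single, norm_one]⟩⟩
  obtain ⟨p, -, hp⟩ := isCompact_univ.exists_isMaxOn univ_nonempty X.dens_cont_sub.continuousOn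
  refine ⟨_, X.dens_pos (norm_eq_of_mem_sphere p), fun θ hθ => ?_⟩
  exact hp (a := ⟨θ, by simpa only [mem_sphere_iff_norm, sub_zero] using hθ⟩) (mem_univ _)

theorem SphereMetric.exists_quad_bound {n : ℕ} (X : SphereMetric n) :
    ∃ B : ℝ, 0 < B ∧ ∀ θ : E n, ‖θ‖ = 1 → ∀ v, X.quad θ v ≤ B * ‖v‖ ^ 2 := by
  obtain ⟨B, hB⟩ := X.exists_entry_bound
  refine ⟨(n : ℝ) ^ 2 * |B| + 1, by positivity, fun θ hθ v => ?_⟩
  have hv : ∀ i, |v i| ≤ ‖v‖ := by
    intro i
    have := PiLp.norm_apply_le v i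
    simpa only [ge_iff_le, Real.norm_eq_abs] using this
  unfold SphereMetric.quad
  calc ∑ i, ∑ j, X.H θ i j * v i * v j
      ≤ ∑ _i : Fin n, ∑ _j : Fin n, |B| * ‖v‖ ^ 2 := by
        apply Finset.sum_le_sum
        intro i _
        apply Finset.sum_le_sum
        intro j _
        calc X.H θ i j * v i * v j ≤ |X.H θ i j * v i * v j| := le_abs_self _
          _ = |X.H θ i j| * (|v i| * |v j|) := by rw [abs_mul, abs_mul, mul_assoc]
          _ ≤ |B| * (‖v‖ * ‖v‖) := by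
              have := (hB θ hθ i j).trans (le_abs_self B)
              gcongr
              · exact hv i
              · exact hv j
          _ = |B| * ‖v‖ ^ 2 := by ring
    _ = (n : ℝ) ^ 2 * |B| * ‖v‖ ^ 2 := by
        rw [Finset.sum_const, Finset.sum_const, Finset.card_univ, Fintype.card_fin]
        simp only [nsmul_eq_mul]
        ring
    _ ≤ ((n : ℝ) ^ 2 * |B| + 1) * ‖v‖ ^ 2 := by
        apply mul_le_mul_of_nonneg_right _ (sq_nonneg _)
        linarith only []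

namespace RMetric

variable {n : ℕ} (g : RMetric n)

theorem exists_bound' {R B₀ : ℝ} (h : ∀ x : E n, R ≤ ‖x‖ → ∀ v, g.quad x v ≤ B₀ * ‖v‖ ^ 2) :
    ∃ K : ℝ, 1 ≤ K ∧ ∀ y v : E n, g.quad y v ≤ K ^ 2 * ‖v‖ ^ 2 := by
  have hc : Continuous fun y : E n => ∑ i, ∑ j, |g.G y i j| :=
    continuous_finsetSum _ fun i _ => continuous_finsetSum _ fun j _ =>
      (g.smooth i j).continuous.abs
  obtain ⟨B, hB⟩ := (isCompact_closedBall (0 : E n) R).exists_bound_of_continuousOn hc.continuousOn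
  set K : ℝ := max 1 (max B B₀) with hK
  have hK1 : 1 ≤ K := le_max_left _ _
  have hKB : B ≤ K := (le_max_left _ _).trans (le_max_right _ _)
  have hKB' : B₀ ≤ K := (le_max_right _ _).trans (le_max_right _ _)
  refine ⟨K, hK1, fun y v => ?_⟩
  have hsq : K ≤ K ^ 2 := by nlinarith only [hK1]
  rcases le_total R ‖y‖ with hy | hy
  · refine (h y hy v).trans (mul_le_mul_of_nonneg_right (by linarith only [hKB', hsq]) (by (clear * -; positivity)))
  · refine (g.quad_le_sum y v).trans (mul_le_mul_of_nonneg_right ?_ (by (clear * -; positivity)))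
    have h1 := hB y (by simpa only [Metric.mem_closedBall, dist_zero_right] using hy)
    rw [Real.norm_eq_abs] at h1
    linarith only [hKB, hsq, h1, le_abs_self (∑ i, ∑ j, |g.G y i j|)]

theorem dim_le_section (hn : 3 ≤ n) (X : SphereMetric n) (K : Cone n) (hK : K.A = g.Aop)
    (hμ : ∀ δ > 0, ∃ R, ∀ x : E n, R ≤ ‖x‖ → K.μ x ≤ (1 + δ) * X.dens (‖x‖⁻¹ • x))
    (hA : ∀ δ > 0, ∃ R, ∀ x : E n, R ≤ ‖x‖ → ∀ w : E n,
      (1 - δ) * (X.dens (‖x‖⁻¹ • x) *
        ((w : Fin n → ℝ) ⬝ᵥ (X.H (‖x‖⁻¹ • x))⁻¹ *ᵥ (w : Fin n → ℝ))) ≤ inner ℝ (K.A x w) w)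
    (hb : ∃ κ : ℝ, 1 ≤ κ ∧ ∀ y v : E n, g.quad y v ≤ κ ^ 2 * ‖v‖ ^ 2)
    {d : ℝ} (hd : 0 ≤ d) {N : ℕ} {m0 : ℝ} (hE : X.EigenvalueGE N m0)
    (hdm : d * (d + n - 2) < m0) : Module.rank ℝ (g.harmSub d) ≤ N := by
  have : NeZero n := ⟨by omega⟩
  have hn3 : (3 : ℝ) ≤ n := by exact_mod_cast hn
  obtain ⟨κ, hκ1, hκ⟩ := hb
  obtain ⟨B, hB0, hB⟩ := X.exists_dens_bound
  obtain ⟨R1, hR1⟩ := hμ 1 one_pos
  set lam : ℝ := (d * (d + n - 2) + m0) / 2 with hlam
  have hd0 : 0 ≤ d * (d + n - 2) := mul_nonneg hd (by linarith only [hd, hn3])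
  have hl0 : 0 ≤ lam := by rw [hlam]; linarith only [hdm, hd0]
  have hl1 : lam < m0 := by rw [hlam]; linarith only [hdm]
  have hl2 : d * (d + n - 2) < lam := by rw [hlam]; linarith only [hlam, hl1]
  apply rank_le
  intro s hs
  by_contra hcon
  push Not at hcon
  have hle : N + 1 ≤ s.card := hcon
  let e : Fin (N + 1) → s := fun i => s.equivFin.symm (Fin.castLE hle i)
  have he : Function.Injective e := s.equivFin.symm.injective.comp (Fin.castLE_injective hle)
  have hli : LinearIndependent ℝ (fun i : Fin (N + 1) => (((e i : s) : g.harmSub d) : E n → ℝ)) := by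
    have h4 : LinearIndependent ℝ (fun i : Fin (N + 1) => ((e i : s) : g.harmSub d)) :=
      hs.comp e he
    exact h4.map' (g.harmSub d).subtype (Submodule.ker_subtype _)
  have hmem : ∀ i : Fin (N + 1), (((e i : s) : g.harmSub d) : E n → ℝ) ∈ g.harm d := fun i =>
    ((e i : s) : g.harmSub d).2
  have hsol : ∀ i : Fin (N + 1), K.Sol (((e i : s) : g.harmSub d) : E n → ℝ) := by
    intro i
    obtain ⟨a1, a2, a3⟩ := hmem i
    refine ⟨a1.of_le (by norm_cast), fun x => ?_⟩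
    have h5 := a2 x
    rw [g.lap_eq a1, mul_eq_zero] at h5
    rw [hK]
    exact h5.resolve_left (inv_ne_zero (g.dens_pos x).ne')
  obtain ⟨Rl, hRl⟩ := spec_of_close K X hμ hA hE hl0 hl1 (fun i => (hmem i).1) hsol
  refine K.main2 hn hd hli hsol (fun i => ?_) (a' := 2 * B) (Ra := max R1 1) (by linarith only [hB0])
    (fun x hx => ?_) hl2 hRl
  · obtain ⟨a1, a2, C', a3⟩ := hmem i
    exact g.growth_norm hκ1 hκ hd a3
  · have hx1 : 1 ≤ ‖x‖ := (le_max_right _ _).trans hx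
    have h1 := hR1 x ((le_max_left _ _).trans hx)
    have h2 := hB _ (norm_inv_smul (x := x) (by linarith only [hx1]))
    linarith only [h1, h2]

/-- Consequences of the convergence of the metric to the metric of the cone. -/
theorem aop_close [NeZero n] (X : SphereMetric n)
    (h : ∀ i j, Tendsto (fun x => g.G x i j - X.H (‖x‖⁻¹ • x) i j)
      (Bornology.cobounded (E n)) (𝓝 0)) {δ : ℝ} (hδ : 0 < δ) :
    ∃ R, 0 < R ∧ ∀ x : E n, R ≤ ‖x‖ → ∀ w : E n,
      (1 - δ) * (X.dens (‖x‖⁻¹ • x) *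
        ((w : Fin n → ℝ) ⬝ᵥ (X.H (‖x‖⁻¹ • x))⁻¹ *ᵥ (w : Fin n → ℝ))) ≤
          inner ℝ (g.Aop x w) w := by
  set η : ℝ := min (δ / 2) 1 with hη
  have hη0 : 0 < η := lt_min (by linarith only [hδ]) one_pos
  have hη1 : η ≤ 1 := min_le_right _ _
  have hη2 : η ≤ δ / 2 := min_le_left _ _
  obtain ⟨R1, hR10, hR1⟩ := g.close_dens X h hη0
  obtain ⟨R2, hR20, hR2⟩ := g.close_quad X h hη0
  refine ⟨max R1 R2, lt_max_of_lt_left hR10, fun x hx w => ?_⟩
  have hx0 : 0 < ‖x‖ := lt_of_lt_of_le hR10 ((le_max_left _ _).trans hx)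
  have hn1 := norm_inv_smul hx0
  have h1 := hR1 x ((le_max_left _ _).trans hx)
  have h2 := hR2 x ((le_max_right _ _).trans hx)
  set θ : E n := ‖x‖⁻¹ • x with hθ
  have hd0 : 0 < X.dens θ := X.dens_pos hn1
  have h3 : (1 - η) * X.dens θ ≤ g.dens x := by
    have := (abs_le.1 h1).1
    linarith only [this]
  have h4 := inv_quad_le (g.pos x) (X.pos θ hn1) (κ := 1 + η) (by linarith only [hη0]) (fun v => by
    have h5 := h2 (WithLp.toLp 2 v)
    rw [quad_eq, X.quad_eq] at h5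
    exact h5) (w : Fin n → ℝ)
  rw [inner_Aop]
  set q : ℝ := (w : Fin n → ℝ) ⬝ᵥ (X.H θ)⁻¹ *ᵥ (w : Fin n → ℝ) with hq
  set p : ℝ := (w : Fin n → ℝ) ⬝ᵥ (g.G x)⁻¹ *ᵥ (w : Fin n → ℝ) with hp
  have hq0 : 0 ≤ q := by
    have := (X.pos θ hn1).inv.posSemidef.dotProduct_mulVec_nonneg (w : Fin n → ℝ)
    simpa only [ge_iff_le, star_trivial] using this
  have hp0 : 0 ≤ p := by
    have := (g.pos x).inv.posSemidef.dotProduct_mulVec_nonneg (w : Fin n → ℝ)
    simpa only [ge_iff_le, star_trivial] using this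
  have h6 : (1 - δ) * q ≤ (1 - η) * p := by
    have e1 : (1 - δ) * q ≤ (1 - η) * (1 - η) * q := by
      apply mul_le_mul_of_nonneg_right _ hq0
      linarith only [sq_nonneg η, hη2]
    have e2 : (1 - η) * (1 - η) * q ≤ (1 - η) * (1 - η) * ((1 + η) * p) := by
      apply mul_le_mul_of_nonneg_left h4
      nlinarith only []
    have e3 : (1 - η) * (1 - η) * ((1 + η) * p) ≤ (1 - η) * p := by
      have : (1 - η) * (1 + η) ≤ 1 := by nlinarith only [sq_nonneg η]
      calc (1 - η) * (1 - η) * ((1 + η) * p) = (1 - η) * (((1 - η) * (1 + η)) * p) := by ring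
        _ ≤ (1 - η) * (1 * p) := by
            apply mul_le_mul_of_nonneg_left _ (by linarith only [hη1])
            exact mul_le_mul_of_nonneg_right this hp0
        _ = (1 - η) * p := by ring
    linarith only [e1, e2, e3]
  calc (1 - δ) * (X.dens θ * q) = X.dens θ * ((1 - δ) * q) := by ring
    _ ≤ X.dens θ * ((1 - η) * p) := mul_le_mul_of_nonneg_left h6 hd0.le
    _ = (1 - η) * X.dens θ * p := by ring
    _ ≤ g.dens x * p := mul_le_mul_of_nonneg_right h3 hp0

end RMetric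

end Vale.Agent.P225
end

section
open MeasureTheory Set Metric Filter Topology MvPolynomial
open scoped ContDiff

namespace Vale.Agent.P225

/-- tangential product -/
noncomputable def tb {n : ℕ} (a b x : E n) : ℝ := inner ℝ a b - inner ℝ a x * inner ℝ b x

theorem tb_nonneg {n : ℕ} (a : E n) {x : E n} (hx : ‖x‖ = 1) : 0 ≤ tb a a x := by
  unfold tb
  have h1 := abs_real_inner_le_norm a x
  rw [hx, mul_one] at h1
  have h2 : inner ℝ a x * inner ℝ a x ≤ ‖a‖ ^ 2 := by
    rw [← sq, ← sq_abs]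
    exact pow_le_pow_left₀ (abs_nonneg _) h1 2
  rw [real_inner_self_eq_norm_sq]
  linarith only [h2]

theorem tb_cont {n : ℕ} {a b : E n → E n} (ha : Continuous a) (hb : Continuous b) :
    Continuous fun x => tb (a x) (b x) x :=
  (ha.inner hb).sub ((ha.inner continuous_id).mul (hb.inner continuous_id))

/-- Green's formula on the unit sphere. -/
theorem green_sphere {n : ℕ} [NeZero n] (hn : 2 ≤ n) {u : E n → ℝ} (hu : ContDiff ℝ 1 u) {l : ℕ}
    {h : MvPolynomial (Fin n) ℝ} (hh : Harm l h) :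
    sph (fun x => tb (gr u x) (pgrad h x) x) 1 =
      l * (l + n - 2) * sph (fun x => u x * pev h x) 1 := by
  have hgr : Continuous (gr u) := (contDiff_gr hu (l := 0) (by simp)).continuous
  have hpg : Continuous (pgrad h) := (pgrad_contDiff h (k := 0)).continuous
  have huc : Continuous u := hu.continuous
  have h1 := hasDerivAt_flux (le_refl (0 : ℝ)) (F := fun x => u x • pgrad h x)
    ((hu.smul (pgrad_contDiff h (k := 1))).contDiffOn) one_pos
  have h2 : sph (divg (fun x => u x • pgrad h x)) 1 =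
      sph (fun x => inner ℝ (gr u x) (pgrad h x)) 1 := by
    apply sph_congr
    intro x _
    rw [divg_smul (hu.differentiable (by simp) x)
      ((pgrad_contDiff h (k := 1)).differentiable (by simp) x), divg_pgrad, hh.2]
    simp [pev]
  have h3 : ∀ t : ℝ, 0 < t → flux (fun x => u x • pgrad h x) t =
      t ^ (n - 2) * (l * sph (fun x => u x * pev h x) t) := by
    intro t ht
    unfold flux
    have e1 : sph (fun x : E n => inner ℝ (u x • pgrad h x) x / ‖x‖) t =
        (t⁻¹ * l) * sph (fun x => u x * pev h x) t := by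
      rw [← sph_const_mul]
      apply sph_congr
      intro x hx
      rw [abs_of_pos ht] at hx
      rw [real_inner_smul_left, euler hh.1, hx]
      field_simp
    rw [e1]
    have : t ^ (n - 1) = t ^ (n - 2) * t := by
      rw [← pow_succ]; congr 1; omega
    rw [this]
    (clear * - ht; field_simp)
  have h4 := hasDerivAt_sph (le_refl (0 : ℝ)) (g := fun x => u x * pev h x)
    ((hu.mul (pev_contDiff h (k := 1))).contDiffOn) one_pos
  have h5 := (hasDerivAt_pow (n - 2) (1 : ℝ)).mul (h4.const_mul (l : ℝ))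
  have h6 : HasDerivAt (flux (fun x => u x • pgrad h x)) _ 1 := h5.congr_of_eventuallyEq (by
    filter_upwards [isOpen_Ioi.mem_nhds (show (0 : ℝ) < 1 from one_pos)] with t ht
    exact h3 t ht)
  have h7 := h1.unique h6
  rw [h2] at h7
  have h8 : sph (fun x => fderiv ℝ (fun x => u x * pev h x) x x) 1 =
      sph (fun x => inner ℝ (gr u x) x * pev h x) 1 + l * sph (fun x => u x * pev h x) 1 := by
    have k1 : Continuous fun x : E n => inner ℝ (gr u x) x * pev h x :=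
      (hgr.inner continuous_id).mul (pev_cont h)
    have k2 : Continuous fun x : E n => (l : ℝ) * (u x * pev h x) :=
      continuous_const.mul (huc.mul (pev_cont h))
    rw [← sph_const_mul, ← sph_add k1 k2]
    apply sph_congr
    intro x _
    rw [fderiv_fun_mul (hu.differentiable (by simp) x)
      ((pev_contDiff h (k := 1)).differentiable (by simp) x)]
    simp only [add_apply, smul_apply, smul_eq_mul]
    rw [← inner_gr, ← inner_gr, gr_pev, euler hh.1]
    ring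
  have h9 : sph (fun x => tb (gr u x) (pgrad h x) x) 1 =
      sph (fun x => inner ℝ (gr u x) (pgrad h x)) 1 +
        (-(l : ℝ)) * sph (fun x => inner ℝ (gr u x) x * pev h x) 1 := by
    have k1 : Continuous fun x : E n => inner ℝ (gr u x) (pgrad h x) := hgr.inner hpg
    have k2 : Continuous fun x : E n => (-(l : ℝ)) * (inner ℝ (gr u x) x * pev h x) :=
      continuous_const.mul ((hgr.inner continuous_id).mul (pev_cont h))
    rw [← sph_const_mul, ← sph_add k1 k2]
    apply sph_congr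
    intro x _
    unfold tb
    rw [euler hh.1]
    ring
  rw [h9]
  simp only [one_pow, one_mul, mul_one, inv_one] at h7
  rw [h7, h8]
  have hc : ((n - 2 : ℕ) : ℝ) = (n : ℝ) - 2 := by
    push_cast [Nat.cast_sub hn]
    ring
  rw [hc]
  ring

theorem poincare {n : ℕ} [NeZero n] (hn : 2 ≤ n) {u : E n → ℝ} (hu : ContDiff ℝ 1 u) (m : ℕ)
    (horth : ∀ l ≤ m, ∀ h : MvPolynomial (Fin n) ℝ, Harm l h →
      sph (fun x => u x * pev h x) 1 = 0) :
    ((m : ℝ) + 1) * (m + n - 1) * sph (fun x => u x * u x) 1 ≤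
      sph (fun x => tb (gr u x) (gr u x) x) 1 := by
  have hn2 : (2 : ℝ) ≤ n := by exact_mod_cast hn
  set lam : ℝ := ((m : ℝ) + 1) * (m + n - 1) with hlam
  have hm0 : (0 : ℝ) ≤ m := Nat.cast_nonneg m
  have hlam0 : 0 < lam := mul_pos (by linarith only []) (by linarith only [hn2])
  have hgr : Continuous (gr u) := (contDiff_gr hu (l := 0) (by simp)).continuous
  have huc : Continuous u := hu.continuous
  set M : ℝ := sph (n := n) (fun _ => 1) 1 with hM
  have hM0 : 0 ≤ M := sph_nonneg (fun _ => zero_le_one) 1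
  -- it suffices to prove it up to an error
  have key : ∀ ε : ℝ, 0 < ε → lam * sph (fun x => u x * u x) 1 ≤
      sph (fun x => tb (gr u x) (gr u x) x) 1 + lam * (ε ^ 2 * M) := by
    intro ε hε
    obtain ⟨p, hp⟩ := poly_dense (n := n) (f := fun θ => u (θ : E n)) (by fun_prop) hε
    obtain ⟨L, q, hqH, hh2⟩ := harm_decomp' hn p
    have happ : ∀ x : E n, ‖x‖ = 1 → |u x - ∑ l ∈ Finset.range L, pev (q l) x| ≤ ε := by
      intro x hx
      have h1 := hp ⟨x, by rw [mem_sphere_zero_iff_norm]; exact hx⟩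
      rw [hh2 _ hx] at h1
      exact h1
    set I : Finset ℕ := (Finset.range L).filter (fun l => m < l) with hI
    set J : Finset ℕ := (Finset.range L).filter (fun l => ¬ m < l) with hJ
    have hIJ : ∀ x : E n, ∑ l ∈ Finset.range L, pev (q l) x =
        ∑ l ∈ I, pev (q l) x + ∑ l ∈ J, pev (q l) x := by
      intro x
      rw [hI, hJ, Finset.sum_filter_add_sum_filter_not]
    set μ : ℕ → ℝ := fun l => (l : ℝ) * (l + n - 2) with hμ
    set v : MvPolynomial (Fin n) ℝ := ∑ l ∈ I, (lam / μ l) • q l with hv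
    set qq : MvPolynomial (Fin n) ℝ := ∑ l ∈ I, q l with hqq
    have hIpos : ∀ l ∈ I, lam ≤ μ l := by
      intro l hl
      have : m < l := (Finset.mem_filter.1 hl).2
      have : m + 1 ≤ l := this
      have h1 : (m : ℝ) + 1 ≤ l := by exact_mod_cast this
      rw [hlam, hμ]
      apply mul_le_mul h1 (by linarith only [h1]) (by linarith only [hn2]) (by linarith only [])
    have hqqev : ∀ x : E n, pev qq x = ∑ l ∈ I, pev (q l) x := by
      intro x; simp [hqq, pev]
    have hvev : ∀ x : E n, pev v x = ∑ l ∈ I, (lam / μ l) * pev (q l) x := by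
      intro x; simp only [pev, hv, map_sum, smul_eval]
    have hvgrad : ∀ x : E n, pgrad v x = ∑ l ∈ I, (lam / μ l) • pgrad (q l) x := by
      intro x
      ext i
      simp only [pgrad, pev, hv, map_sum, Derivation.map_smul, smul_eval, WithLp.ofLp_sum, WithLp.ofLp_smul, Finset.sum_apply, Pi.smul_apply, smul_eq_mul]
    have hG : ∀ w : E n → ℝ, ContDiff ℝ 1 w →
        sph (fun x => tb (gr w x) (pgrad v x) x) 1 = lam * sph (fun x => w x * pev qq x) 1 := by
      intro w hw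
      have hgw : Continuous (gr w) := (contDiff_gr hw (l := 0) (by simp)).continuous
      have e1 : (fun x : E n => tb (gr w x) (pgrad v x) x) =
          fun x => ∑ l ∈ I, (lam / μ l) * tb (gr w x) (pgrad (q l) x) x := by
        funext x
        unfold tb
        rw [hvgrad, inner_sum, sum_inner, Finset.mul_sum, ← Finset.sum_sub_distrib]
        apply Finset.sum_congr rfl
        intro l _
        rw [real_inner_smul_left, real_inner_smul_right]
        ring
      have e2 : (fun x : E n => w x * pev qq x) = fun x => ∑ l ∈ I, w x * pev (q l) x := by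
        funext x
        rw [hqqev, Finset.mul_sum]
      rw [e1, e2, sph_sum I (f := fun l x => (lam / μ l) * tb (gr w x) (pgrad (q l) x) x)
        (fun l _ => continuous_const.mul (tb_cont hgw (pgrad_contDiff (q l) (k := 0)).continuous)),
        sph_sum I (f := fun l x => w x * pev (q l) x)
        (fun l _ => hw.continuous.mul (pev_cont _)), Finset.mul_sum]
      apply Finset.sum_congr rfl
      intro l hl
      rw [sph_const_mul, green_sphere hn hw (hqH l)]
      have h1 := hIpos l hl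
      have h2 : μ l ≠ 0 := by linarith only [hlam0, h1]
      have h3 : (l : ℝ) * (l + n - 2) = μ l := rfl
      rw [h3]
      (clear * - h2 hlam0; field_simp)
    have G1 := hG u hu
    have G2 := hG (pev v) (pev_contDiff v (k := 1))
    rw [gr_pev] at G2
    -- nonnegativity of the energy of the difference
    have hpg : Continuous (pgrad v) := (pgrad_contDiff v (k := 0)).continuous
    have hpos : 0 ≤ sph (fun x => tb (gr u x - pgrad v x) (gr u x - pgrad v x) x) 1 := by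
      apply integral_nonneg
      intro θ
      exact tb_nonneg _ (norm_smul_sphere zero_le_one θ)
    have hexp1 : sph (fun x => tb (gr u x - pgrad v x) (gr u x - pgrad v x) x) 1 =
        sph (fun x => tb (gr u x) (gr u x) x) 1 +
          (-2) * sph (fun x => tb (gr u x) (pgrad v x) x) 1 +
          sph (fun x => tb (pgrad v x) (pgrad v x) x) 1 := by
      have k1 : Continuous fun x : E n => tb (gr u x) (gr u x) x := tb_cont hgr hgr
      have k2 : Continuous fun x : E n => (-2) * tb (gr u x) (pgrad v x) x :=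
        continuous_const.mul (tb_cont hgr hpg)
      have k3 : Continuous fun x : E n => tb (pgrad v x) (pgrad v x) x := tb_cont hpg hpg
      rw [← sph_const_mul, ← sph_add3 k1 k2 k3]
      congr 1
      funext x
      unfold tb
      rw [inner_sub_left, inner_sub_right, inner_sub_right, inner_sub_left,
        real_inner_comm (gr u x) (pgrad v x)]
      ring
    rw [hexp1, G1, G2] at hpos
    -- comparison of <v,q> and <q,q>
    have hvq : sph (fun x => pev v x * pev qq x) 1 ≤ sph (fun x => pev qq x * pev qq x) 1 := by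
      have e1 : sph (fun x => pev v x * pev qq x) 1 =
          ∑ l ∈ I, if l ∈ I then (lam / μ l) * sph (fun x => pev (q l) x * pev (q l) x) 1
            else 0 := by
        rw [← orth_expand hn I I (fun l => lam / μ l) q hqH 1]
        congr 1
        funext x
        rw [hvev, hqqev]
      have e2 : sph (fun x => pev qq x * pev qq x) 1 =
          ∑ l ∈ I, if l ∈ I then 1 * sph (fun x => pev (q l) x * pev (q l) x) 1 else 0 := by
        rw [← orth_expand hn I I (fun _ => 1) q hqH 1]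
        congr 1
        funext x
        rw [hqqev]
        simp only [one_mul]
      rw [e1, e2]
      apply Finset.sum_le_sum
      intro l hl
      rw [if_pos hl, if_pos hl]
      apply mul_le_mul_of_nonneg_right _ (sph_nonneg (fun x => mul_self_nonneg _) 1)
      have := hIpos l hl
      rw [div_le_one (by (clear * - hlam0 this; linarith))]
      exact this
    -- the low part
    have hlow1 : sph (fun x => u x * (∑ l ∈ J, pev (q l) x)) 1 = 0 := by
      have : (fun x : E n => u x * (∑ l ∈ J, pev (q l) x)) =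
          fun x => ∑ l ∈ J, u x * pev (q l) x := by
        funext x; rw [Finset.mul_sum]
      rw [this, sph_sum J (f := fun l x => u x * pev (q l) x) (fun l _ => huc.mul (pev_cont _))]
      apply Finset.sum_eq_zero
      intro l hl
      have : ¬ m < l := (Finset.mem_filter.1 hl).2
      exact horth l (by omega) _ (hqH l)
    have hlow2 : sph (fun x => pev qq x * (∑ l ∈ J, pev (q l) x)) 1 = 0 := by
      have e2 : sph (fun x => pev qq x * (∑ l ∈ J, pev (q l) x)) 1 =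
          ∑ l ∈ I, if l ∈ J then 1 * sph (fun x => pev (q l) x * pev (q l) x) 1 else 0 := by
        rw [← orth_expand hn I J (fun _ => 1) q hqH 1]
        congr 1
        funext x
        rw [hqqev]
        simp only [one_mul]
      rw [e2]
      apply Finset.sum_eq_zero
      intro l hl
      rw [if_neg]
      intro hl2
      exact (Finset.mem_filter.1 hl2).2 (Finset.mem_filter.1 hl).2
    have hJc : Continuous fun x : E n => ∑ l ∈ J, pev (q l) x :=
      continuous_finsetSum _ fun l _ => pev_cont _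
    have hqc : Continuous (pev qq) := pev_cont _
    have hdist : sph (fun x => (u x - pev qq x) * (u x - pev qq x)) 1 ≤ ε ^ 2 * M := by
      have e1 : sph (fun x => (u x - pev qq x - ∑ l ∈ J, pev (q l) x) *
          (u x - pev qq x - ∑ l ∈ J, pev (q l) x)) 1 =
          sph (fun x => (u x - pev qq x) * (u x - pev qq x)) 1 +
          (-2) * sph (fun x => u x * (∑ l ∈ J, pev (q l) x)) 1 +
          2 * sph (fun x => pev qq x * (∑ l ∈ J, pev (q l) x)) 1 +
          sph (fun x => (∑ l ∈ J, pev (q l) x) * (∑ l ∈ J, pev (q l) x)) 1 := by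
        have k1 : Continuous fun x : E n => (u x - pev qq x) * (u x - pev qq x) :=
          (huc.sub hqc).mul (huc.sub hqc)
        have k2 : Continuous fun x : E n => (-2) * (u x * (∑ l ∈ J, pev (q l) x)) :=
          continuous_const.mul (huc.mul hJc)
        have k3 : Continuous fun x : E n => 2 * (pev qq x * (∑ l ∈ J, pev (q l) x)) :=
          continuous_const.mul (hqc.mul hJc)
        have k4 : Continuous fun x : E n => (∑ l ∈ J, pev (q l) x) * (∑ l ∈ J, pev (q l) x) :=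
          hJc.mul hJc
        rw [← sph_const_mul, ← sph_const_mul, ← sph_add4 k1 k2 k3 k4]
        congr 1
        funext x
        ring
      have e2 : sph (fun x => (u x - pev qq x - ∑ l ∈ J, pev (q l) x) *
          (u x - pev qq x - ∑ l ∈ J, pev (q l) x)) 1 ≤ ε ^ 2 * M := by
        rw [hM, ← sph_const_mul]
        apply sph_mono
        · exact ((huc.sub hqc).sub hJc).mul ((huc.sub hqc).sub hJc)
        · exact continuous_const
        · intro x hx
          rw [abs_of_pos one_pos] at hx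
          have h1 := happ x hx
          rw [hIJ x, ← hqqev] at h1
          have h2 : u x - pev qq x - ∑ l ∈ J, pev (q l) x =
              u x - (pev qq x + ∑ l ∈ J, pev (q l) x) := by ring
          rw [h2, mul_one, ← sq, ← sq_abs]
          exact pow_le_pow_left₀ (abs_nonneg _) h1 2
      rw [e1, hlow1, hlow2] at e2
      have e3 : 0 ≤ sph (fun x => (∑ l ∈ J, pev (q l) x) * (∑ l ∈ J, pev (q l) x)) 1 :=
        sph_nonneg (fun x => mul_self_nonneg _) 1
      linarith only [e2, e3]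
    have hexp : sph (fun x => (u x - pev qq x) * (u x - pev qq x)) 1 =
        sph (fun x => u x * u x) 1 + (-2) * sph (fun x => u x * pev qq x) 1 +
          sph (fun x => pev qq x * pev qq x) 1 := by
      have k1 : Continuous fun x : E n => u x * u x := huc.mul huc
      have k2 : Continuous fun x : E n => (-2) * (u x * pev qq x) :=
        continuous_const.mul (huc.mul hqc)
      have k3 : Continuous fun x : E n => pev qq x * pev qq x := hqc.mul hqc
      rw [← sph_const_mul, ← sph_add3 k1 k2 k3]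
      congr 1
      funext x
      ring
    rw [hexp] at hdist
    have f1 := mul_le_mul_of_nonneg_left hdist hlam0.le
    have f2 := mul_le_mul_of_nonneg_left hvq hlam0.le
    linarith only [f2, f1, hpos]
  -- let ε tend to zero
  by_contra hcon
  push Not at hcon
  set A := lam * sph (fun x => u x * u x) 1 with hA
  set B := sph (fun x => tb (gr u x) (gr u x) x) 1 with hB
  set Cc := lam * M with hCc
  have hCc0 : 0 ≤ Cc := by (clear * - hlam0 hM0; positivity)
  have hδ : 0 < A - B := by linarith only [hcon]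
  set ε := min 1 ((A - B) / (2 * (Cc + 1))) with hε
  have hε0 : 0 < ε := lt_min one_pos (by (clear * - hcon hlam0 hM0; positivity))
  have h1 := key ε hε0
  have h2 : ε ^ 2 ≤ ε := by
    have : ε ≤ 1 := min_le_left _ _
    nlinarith only [hε0, this]
  have h3 : ε * (2 * (Cc + 1)) ≤ A - B := by
    have := min_le_right 1 ((A - B) / (2 * (Cc + 1)))
    rw [← hε] at this
    rwa [le_div_iff₀ (by (clear * - hlam0 hM0; positivity))] at this
  have h4 : lam * (ε ^ 2 * M) = ε ^ 2 * Cc := by rw [hCc]; ring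
  rw [h4] at h1
  linarith only [mul_nonneg (sub_nonneg.2 h2) (sub_nonneg.2 hCc0), mul_nonneg (le_of_lt (sub_pos.2 hε0)) (sub_nonneg.2 hCc0), mul_pos (sub_pos.2 hε0) (sub_pos.2 hε0), h2, h3, h1]

end Vale.Agent.P225
end

section
open MeasureTheory Set Filter Topology Matrix
open scoped ContDiff

namespace Vale.Agent.P225

/-- Cauchy-Schwarz for dual forms. -/
theorem dual_cs {n : ℕ} {A : Matrix (Fin n) (Fin n) ℝ} (hA : A.PosDef) (v w : Fin n → ℝ) :
    (v ⬝ᵥ w) ^ 2 ≤ (v ⬝ᵥ A⁻¹ *ᵥ v) * (w ⬝ᵥ A *ᵥ w) := by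
  have hsA : Aᵀ = A := posDef_symm hA
  have hdA : IsUnit A.det := hA.det_pos.ne'.isUnit
  set z : Fin n → ℝ := A⁻¹ *ᵥ v with hz
  have hAz : A *ᵥ z = v := by
    rw [hz, Matrix.mulVec_mulVec, Matrix.mul_nonsing_inv _ hdA, Matrix.one_mulVec]
  have hq : ∀ t : ℝ, 0 ≤ (w ⬝ᵥ A *ᵥ w) * (t * t) + (-2 * (v ⬝ᵥ w)) * t + v ⬝ᵥ z := by
    intro t
    have h0 : 0 ≤ (z - t • w) ⬝ᵥ A *ᵥ (z - t • w) := by
      have := hA.posSemidef.dotProduct_mulVec_nonneg (z - t • w)
      simpa only [sub_dotProduct, smul_dotProduct, smul_eq_mul, sub_nonneg, ge_iff_le, star_trivial] using this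
    have h1 : (z - t • w) ⬝ᵥ A *ᵥ (z - t • w) =
        (w ⬝ᵥ A *ᵥ w) * (t * t) + (-2 * (v ⬝ᵥ w)) * t + v ⬝ᵥ z := by
      rw [Matrix.mulVec_sub, Matrix.mulVec_smul, hAz, sub_dotProduct, dotProduct_sub,
        dotProduct_sub, smul_dotProduct, smul_dotProduct, dotProduct_smul, dotProduct_smul]
      have e1 : z ⬝ᵥ A *ᵥ w = v ⬝ᵥ w := by rw [symm_dot hsA, hAz]
      have e2 : z ⬝ᵥ v = v ⬝ᵥ z := dotProduct_comm _ _
      have e3 : w ⬝ᵥ v = v ⬝ᵥ w := dotProduct_comm _ _
      rw [e1, e2, e3]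
      simp only [smul_eq_mul]
      ring
    rw [← h1]
    exact h0
  have hd := discrim_le_zero hq
  unfold discrim at hd
  linarith

theorem sphere_tangent {n : ℕ} {Φ : E n → E n} (hΦ : ContDiffOn ℝ 1 Φ {x | x ≠ 0})
    (hs : ∀ x, ‖x‖ = 1 → ‖Φ x‖ = 1) {x v : E n} (hx : ‖x‖ = 1) (hv : inner ℝ x v = 0) :
    inner ℝ (Φ x) (fderiv ℝ Φ x v) = 0 := by
  have hx0 : x ≠ 0 := by
    intro h; rw [h, norm_zero] at hx; exact zero_ne_one hx
  have hO : IsOpen {x : E n | x ≠ 0} := isOpen_ne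
  have hd : DifferentiableAt ℝ Φ x :=
    (hΦ.differentiableOn (by simp)).differentiableAt (hO.mem_nhds hx0)
  have key : ∀ w : E n, ‖w‖ = 1 → inner ℝ x w = 0 → inner ℝ (Φ x) (fderiv ℝ Φ x w) = 0 := by
    intro w hw hxw
    have hγ : HasDerivAt (fun t : ℝ => Real.cos t • x + Real.sin t • w) w 0 := by
      have h1 := ((Real.hasDerivAt_cos 0).smul_const x).fun_add
        ((Real.hasDerivAt_sin 0).smul_const w)
      convert! h1 using 1
      simp
    have hγ0 : (fun t : ℝ => Real.cos t • x + Real.sin t • w) 0 = x := by simp only [Real.cos_zero, one_smul, Real.sin_zero, zero_smul, add_zero]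
    have hd' : DifferentiableAt ℝ Φ ((fun t : ℝ => Real.cos t • x + Real.sin t • w) 0) := by
      rw [hγ0]; exact hd
    have h2 := hd'.hasFDerivAt.comp_hasDerivAt (0 : ℝ) hγ
    rw [hγ0] at h2
    have h3 := h2.inner ℝ h2
    have h4 : (fun t : ℝ => inner ℝ ((Φ ∘ fun t : ℝ => Real.cos t • x + Real.sin t • w) t)
        ((Φ ∘ fun t : ℝ => Real.cos t • x + Real.sin t • w) t)) = fun _ => (1 : ℝ) := by
      funext t
      have hn : ‖Real.cos t • x + Real.sin t • w‖ = 1 := by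
        have e1 : ‖Real.cos t • x + Real.sin t • w‖ ^ 2 = 1 := by
          rw [← real_inner_self_eq_norm_sq, inner_add_left, inner_add_right, inner_add_right,
            real_inner_smul_left, real_inner_smul_left, real_inner_smul_left, real_inner_smul_left,
            real_inner_smul_right, real_inner_smul_right, real_inner_smul_right,
            real_inner_smul_right, real_inner_self_eq_norm_sq, real_inner_self_eq_norm_sq,
            real_inner_comm x w, hxw, hx, hw]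
          linear_combination Real.cos_sq_add_sin_sq t
        have h0 := norm_nonneg (Real.cos t • x + Real.sin t • w)
        nlinarith only [e1, h0]
      rw [real_inner_self_eq_norm_sq]
      simp only [Function.comp]
      rw [hs _ hn]
      norm_num
    rw [h4] at h3
    have h5 := h3.unique (hasDerivAt_const (0 : ℝ) (1 : ℝ))
    simp only [Function.comp, Real.cos_zero, one_smul, Real.sin_zero, zero_smul, add_zero] at h5
    have h6 : inner ℝ ((fderiv ℝ Φ x) w) (Φ x) = inner ℝ (Φ x) ((fderiv ℝ Φ x) w) :=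
      real_inner_comm _ _
    rw [h6] at h5
    linarith only [h5]
  by_cases hv0 : v = 0
  · rw [hv0, map_zero, inner_zero_right]
  · have hn : 0 < ‖v‖ := norm_pos_iff.2 hv0
    have h1 := key (‖v‖⁻¹ • v) (RMetric.norm_inv_smul hn) (by
      rw [real_inner_smul_right, hv, mul_zero])
    rw [map_smul, real_inner_smul_right] at h1
    exact (mul_eq_zero.1 h1).resolve_left (inv_ne_zero hn.ne')

namespace SphereMetric

variable {n : ℕ} (X : SphereMetric n)

theorem inv_nonneg {θ : E n} (hθ : ‖θ‖ = 1) (w : Fin n → ℝ) :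
    0 ≤ w ⬝ᵥ (X.H θ)⁻¹ *ᵥ w := by
  have := (X.pos θ hθ).inv.posSemidef.dotProduct_mulVec_nonneg w
  simpa only [ge_iff_le, star_trivial] using this

/-- The energy density. -/
noncomputable def ed (f : E n → ℝ) (θ : E n) : ℝ :=
  ∑ i, ∑ j, (X.H θ)⁻¹ i j * tgrad f θ i * tgrad f θ j

theorem ed_nonneg (f : E n → ℝ) {θ : E n} (hθ : ‖θ‖ = 1) : 0 ≤ X.ed f θ := by
  unfold ed
  rw [X.energy_integrand]
  exact X.inv_nonneg hθ _

theorem ed_cont {f : E n → ℝ} (hf : Continuous (gr f)) :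
    ContinuousOn (X.ed f) (Metric.sphere 0 1) := by
  rw [continuousOn_iff_continuous_domRestrict]
  have h := X.energy_integrand_cont hf
  have h2 : (Metric.sphere (0 : E n) 1).domRestrict (X.ed f) =
      fun θ : Metric.sphere (0 : E n) 1 =>
      (tp (θ : E n) (gr f (θ : E n)) : Fin n → ℝ) ⬝ᵥ
        (X.H (θ : E n))⁻¹ *ᵥ (tp (θ : E n) (gr f (θ : E n)) : Fin n → ℝ) := by
    funext θ
    exact X.energy_integrand f (θ : E n)
  rw [h2]
  exact h

/-- The pointwise estimate of the gradient of a composition. -/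
theorem grad_comp_le {Φ : E n → E n} (hΦ : ContDiffOn ℝ 1 Φ {x | x ≠ 0})
    (hs : ∀ x, ‖x‖ = 1 → ‖Φ x‖ = 1) {τ : ℝ}
    (hq : ∀ x v : E n, ‖x‖ = 1 → inner ℝ x v = 0 →
      X.quad (Φ x) (fderiv ℝ Φ x v) ≤ τ ^ 2 * ‖v‖ ^ 2)
    {f U : E n → ℝ} (hf : Differentiable ℝ f) {x : E n} (hx : ‖x‖ = 1)
    (hU : U =ᶠ[𝓝 x] fun y => f (Φ y)) :
    tb (gr U x) (gr U x) x ≤ τ ^ 2 * X.ed f (Φ x) := by
  have hx0 : x ≠ 0 := by
    intro h; rw [h, norm_zero] at hx; exact zero_ne_one hx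
  have hd : DifferentiableAt ℝ Φ x :=
    (hΦ.differentiableOn (by simp)).differentiableAt (isOpen_ne.mem_nhds hx0)
  set p : E n := tp x (gr U x) with hp
  have hpx : inner ℝ x p = 0 := by
    rw [hp]; unfold tp
    rw [inner_sub_right, real_inner_smul_right, real_inner_self_eq_norm_sq, hx]
    ring
  have hpp : inner ℝ (gr U x) p = ‖p‖ ^ 2 := by
    have h1 : gr U x = p + inner ℝ x (gr U x) • x := by
      rw [hp]; unfold tp; module
    rw [← real_inner_self_eq_norm_sq]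
    conv_lhs => rw [h1]
    rw [inner_add_left, real_inner_smul_left, hpx, mul_zero, add_zero]
  have htb : tb (gr U x) (gr U x) x = ‖p‖ ^ 2 := by
    rw [← hpp, hp]
    unfold tb tp
    rw [inner_sub_right, real_inner_smul_right, real_inner_comm x (gr U x)]
  set z : E n := fderiv ℝ Φ x p with hz
  have hyz : inner ℝ (Φ x) z = 0 := sphere_tangent hΦ hs hx hpx
  have h1 : inner ℝ (gr U x) p = inner ℝ (gr f (Φ x)) z := by
    rw [inner_gr, inner_gr, hU.fderiv_eq]
    have h2 := ((hf (Φ x)).hasFDerivAt.comp x hd.hasFDerivAt).fderiv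
    have h3 : (fun y => f (Φ y)) = f ∘ Φ := rfl
    rw [h3, h2]
    rfl
  have h2 : inner ℝ (gr f (Φ x)) z = inner ℝ (tp (Φ x) (gr f (Φ x))) z := by
    unfold tp
    rw [inner_sub_left, real_inner_smul_left, hyz, mul_zero, sub_zero]
  have hcs := dual_cs (X.pos (Φ x) (hs x hx)) (tp (Φ x) (gr f (Φ x)) : Fin n → ℝ)
    (z : Fin n → ℝ)
  rw [← RMetric.inner_eq_dot, ← h2, ← h1, hpp, ← X.quad_eq, ← X.energy_integrand] at hcs
  have h4 := hq x p hx hpx
  have h5 : 0 ≤ X.ed f (Φ x) := X.ed_nonneg f (hs x hx)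
  have h6 : (‖p‖ ^ 2) ^ 2 ≤ X.ed f (Φ x) * (τ ^ 2 * ‖p‖ ^ 2) :=
    hcs.trans (mul_le_mul_of_nonneg_left h4 h5)
  rw [htb]
  by_cases hp0 : ‖p‖ ^ 2 = 0
  · rw [hp0]; (clear * - h5; positivity)
  · have hp1 : 0 < ‖p‖ ^ 2 := lt_of_le_of_ne (sq_nonneg _) (Ne.symm hp0)
    have h7 : ‖p‖ ^ 2 * ‖p‖ ^ 2 ≤ (τ ^ 2 * X.ed f (Φ x)) * ‖p‖ ^ 2 := by nlinarith only [h6]
    exact le_of_mul_le_mul_right h7 hp1

theorem mass_nonneg (f : E n → ℝ) : 0 ≤ X.mass f := by
  apply integral_nonneg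
  intro θ
  exact mul_nonneg (Real.sqrt_nonneg _) (sq_nonneg _)

theorem EigenvalueGE.mono {X : SphereMetric n} {N : ℕ} {μ μ' : ℝ} (h : X.EigenvalueGE N μ')
    (hμ : μ ≤ μ') : X.EigenvalueGE N μ := by
  intro f hf
  obtain ⟨c, hc0, hc⟩ := h f hf
  exact ⟨c, hc0, (mul_le_mul_of_nonneg_right hμ (X.mass_nonneg _)).trans hc⟩

end SphereMetric

/-- A cutoff function. -/
noncomputable def cut {n : ℕ} (x : E n) : ℝ := Real.smoothTransition (4 * ‖x‖ ^ 2 - 1)

theorem cut_contDiff {n : ℕ} : ContDiff ℝ 1 (cut (n := n)) := by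
  unfold cut
  exact Real.smoothTransition.contDiff.comp
    ((contDiff_const.mul (contDiff_norm_sq ℝ)).sub contDiff_const)

theorem cut_zero {n : ℕ} {x : E n} (hx : ‖x‖ < 1 / 2) : cut x = 0 := by
  unfold cut
  apply Real.smoothTransition.zero_of_nonpos
  have := norm_nonneg x
  nlinarith only [hx, this]

theorem cut_one {n : ℕ} {x : E n} (hx : 3 / 4 < ‖x‖) : cut x = 1 := by
  unfold cut
  apply Real.smoothTransition.one_of_one_le
  nlinarith only [hx]

theorem cut_mul_contDiff {n : ℕ} {f : E n → ℝ} (hf : ContDiffOn ℝ 1 f {x | x ≠ 0}) :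
    ContDiff ℝ 1 (fun x => cut x * f x) := by
  rw [contDiff_iff_contDiffAt]
  intro x
  by_cases hx : x = 0
  · have h1 : (fun x => cut x * f x) =ᶠ[𝓝 x] fun _ => (0 : ℝ) := by
      have h2 : Metric.ball (0 : E n) (1 / 2) ∈ 𝓝 x := by
        rw [hx]; exact Metric.ball_mem_nhds _ (by (clear * -; norm_num))
      filter_upwards [h2] with y hy
      rw [cut_zero (by simpa only [one_div, Metric.mem_ball, dist_zero_right] using hy), zero_mul]
    exact contDiffAt_const.congr_of_eventuallyEq h1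
  · exact cut_contDiff.contDiffAt.mul (hf.contDiffAt (isOpen_ne.mem_nhds hx))

theorem SphereMetric.Dominated.eigenvalueGE {n : ℕ} (hn : 2 ≤ n) {X : SphereMetric n}
    (hX : X.Dominated) (k : ℕ) {μ : ℝ} (hμ : μ < ((k : ℝ) + 1) * (k + n - 1)) :
    X.EigenvalueGE (hdim n k) μ := by
  have : NeZero n := ⟨by omega⟩
  have hn2 : (2 : ℝ) ≤ n := by exact_mod_cast hn
  set Λ : ℝ := ((k : ℝ) + 1) * (k + n - 1) with hΛ
  have hk0 : (0 : ℝ) ≤ k := Nat.cast_nonneg k
  have hΛ0 : 0 < Λ := mul_pos (by linarith only []) (by linarith only [hn2])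
  -- we may assume that `μ` is positive
  apply SphereMetric.EigenvalueGE.mono (μ' := max μ (Λ / 2)) _ (le_max_left _ _)
  set m0 : ℝ := max μ (Λ / 2) with hm0
  have hm1 : 0 < m0 := lt_max_of_lt_right (by linarith only [hΛ0])
  have hm2 : m0 < Λ := max_lt hμ (by linarith only [hΛ0])
  set η : ℝ := Λ / m0 - 1 with hη
  have hη0 : 0 < η := by
    rw [hη, sub_pos, lt_div_iff₀ hm1, one_mul]; exact hm2
  have hη1 : m0 * (1 + η) = Λ := by
    rw [hη]; field_simp; ring
  obtain ⟨Φ, τ, b, β, hb0, hbβ, hβτ, hΦ, hs, hq, hmeas⟩ := hX η hη0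
  intro f hf
  have hO : IsOpen {x : E n | x ≠ 0} := isOpen_ne
  set F : Fin (hdim n k + 1) → E n → ℝ := fun i x => cut x * f i (Φ x) with hF
  have hfΦ : ∀ i, ContDiffOn ℝ 1 (fun x => f i (Φ x)) {x | x ≠ 0} := fun i =>
    ((hf i).of_le (by norm_cast)).comp_contDiffOn hΦ
  have hFc : ∀ i, ContDiff ℝ 1 (F i) := fun i => cut_mul_contDiff (hfΦ i)
  obtain ⟨c, hc0, hc⟩ := exists_kernel k (hdim n k + 1) (Nat.lt_succ_self _)
    (fun i => (hFc i).continuous) one_pos
  refine ⟨c, hc0, ?_⟩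
  set U : E n → ℝ := fun x => ∑ i, c i * F i x with hU
  set ff : E n → ℝ := fun x => ∑ i, c i * f i x with hff
  have hUc : ContDiff ℝ 1 U := ContDiff.sum fun i _ => contDiff_const.mul (hFc i)
  have hffc : ContDiff ℝ ∞ ff := ContDiff.sum fun i _ => contDiff_const.mul (hf i)
  have hgff : Continuous (gr ff) := (contDiff_gr hffc (l := 0) (by simp only [zero_add, WithTop.one_le_coe, le_top])).continuous
  have hgU : Continuous (gr U) := (contDiff_gr hUc (l := 0) (by simp)).continuous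
  have hUff : ∀ x : E n, 3 / 4 < ‖x‖ → U x = ff (Φ x) := by
    intro x hx
    rw [hU, hff]
    simp only [hF, cut_one hx, one_mul]
  have hUev : ∀ x : E n, ‖x‖ = 1 → U =ᶠ[𝓝 x] fun y => ff (Φ y) := by
    intro x hx
    filter_upwards [(isOpen_out (n := n) (3 / 4)).mem_nhds (by rw [mem_setOf_eq, hx]; (clear * -; norm_num))]
      with y hy
    exact hUff y hy
  have hP := poincare hn hUc k hc
  rw [← hΛ] at hP
  -- continuity of the map on the sphere
  have hΦc : Continuous fun θ : Metric.sphere (0 : E n) 1 => Φ (θ : E n) := by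
    apply hΦ.continuousOn.comp_continuous continuous_subtype_val
    intro θ
    have := norm_eq_of_mem_sphere θ
    intro h
    rw [h, norm_zero] at this
    exact zero_ne_one this
  have hΦm : ∀ θ : Metric.sphere (0 : E n) 1, Φ (θ : E n) ∈ Metric.sphere (0 : E n) 1 := by
    intro θ
    rw [mem_sphere_zero_iff_norm]
    exact hs _ (norm_eq_of_mem_sphere θ)
  set S2 : ℝ := ∫ θ : Metric.sphere (0 : E n) 1, X.ed ff (Φ (θ : E n)) ∂(sig n) with hS2
  have hS20 : 0 ≤ S2 := integral_nonneg fun θ => X.ed_nonneg ff (hs _ (norm_eq_of_mem_sphere θ))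
  -- the mass
  have hmass : X.mass ff ≤ β * sph (fun x => U x * U x) 1 := by
    have h1 := (hmeas (fun x => ff x ^ 2) (hffc.continuous.pow 2).continuousOn
      (fun x _ => sq_nonneg _)).2
    have h2 : X.mass ff = ∫ θ : Metric.sphere (0 : E n) 1, ff (θ : E n) ^ 2 * X.dens (θ : E n)
        ∂(volume : Measure (E n)).toSphere := by
      unfold SphereMetric.mass
      congr 1
      funext θ
      ring
    have h3 : sph (fun x => U x * U x) 1 = ∫ θ : Metric.sphere (0 : E n) 1,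
        ff (Φ (θ : E n)) ^ 2 ∂(volume : Measure (E n)).toSphere := by
      unfold sph
      congr 1
      funext θ
      beta_reduce
      rw [one_smul, hUff _ (by rw [norm_eq_of_mem_sphere]; norm_num)]
      ring
    rw [h2, h3]
    exact h1
  -- the energy
  have henergy : b * S2 ≤ X.energy ff := by
    have h1 := (hmeas (X.ed ff) (X.ed_cont hgff) (fun x hx => X.ed_nonneg ff hx)).1
    have h2 : X.energy ff = ∫ θ : Metric.sphere (0 : E n) 1,
        X.ed ff (θ : E n) * X.dens (θ : E n) ∂(volume : Measure (E n)).toSphere := by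
      unfold SphereMetric.energy
      congr 1
      funext θ
      rw [mul_comm]
      rfl
    rw [h2]
    exact h1
  have hcomp : sph (fun x => tb (gr U x) (gr U x) x) 1 ≤ τ ^ 2 * S2 := by
    rw [hS2, ← integral_const_mul]
    unfold sph
    apply integral_mono
    · exact integrable_sph (tb_cont hgU hgU) 1
    · apply integrable_sig
      exact continuous_const.mul ((X.ed_cont hgff).comp_continuous hΦc hΦm)
    · intro θ
      beta_reduce
      rw [one_smul]
      exact X.grad_comp_le hΦ hs hq (hffc.differentiable (by simp)) (norm_eq_of_mem_sphere θ)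
        (hUev _ (norm_eq_of_mem_sphere θ))
  have hβ0 : 0 < β := lt_of_lt_of_le hb0 hbβ
  have hη2 : 0 < 1 + η := by linarith only [hη0]
  have h1 : Λ * X.mass ff ≤ (1 + η) * X.energy ff := by
    calc Λ * X.mass ff ≤ Λ * (β * sph (fun x => U x * U x) 1) :=
          mul_le_mul_of_nonneg_left hmass hΛ0.le
      _ = β * (Λ * sph (fun x => U x * U x) 1) := by ring
      _ ≤ β * (τ ^ 2 * S2) := mul_le_mul_of_nonneg_left (hP.trans hcomp) hβ0.le
      _ = β * τ ^ 2 * S2 := by ring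
      _ ≤ (1 + η) * b * S2 := mul_le_mul_of_nonneg_right hβτ hS20
      _ = (1 + η) * (b * S2) := by ring
      _ ≤ (1 + η) * X.energy ff := mul_le_mul_of_nonneg_left henergy hη2.le
  rw [← hη1] at h1
  have h2 : (1 + η) * (m0 * X.mass ff) ≤ (1 + η) * X.energy ff := by
    calc (1 + η) * (m0 * X.mass ff) = m0 * (1 + η) * X.mass ff := by ring
      _ ≤ _ := h1
  exact le_of_mul_le_mul_left h2 hη2

end Vale.Agent.P225
end
end
end

section

section

set_option linter.all false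

section
open MeasureTheory Set Filter Topology Matrix Asymptotics Bornology
open scoped ContDiff

namespace Vale.Agent.P225

/-- `f` is asymptotic to `fc` in `C¹` with rate `ε`, and `fc` behaves like a homogeneous
function of degree zero. -/
structure AC {n : ℕ} (ε : ℝ) (f fc : E n → ℝ) : Prop where
  df : ∀ᶠ x in cobounded (E n), DifferentiableAt ℝ f x
  dfc : ∀ᶠ x in cobounded (E n), DifferentiableAt ℝ fc x
  b0 : fc =O[cobounded (E n)] fun _ => (1 : ℝ)
  b1 : (fun x => fderiv ℝ fc x) =O[cobounded (E n)] fun x => ‖x‖⁻¹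
  c0 : (fun x => f x - fc x) =O[cobounded (E n)] fun x => ‖x‖ ^ (-ε)
  c1 : (fun x => fderiv ℝ f x - fderiv ℝ fc x) =O[cobounded (E n)] fun x => ‖x‖⁻¹ * ‖x‖ ^ (-ε)
  rad : ∀ᶠ x in cobounded (E n), fderiv ℝ fc x x = 0

theorem ev_big {n : ℕ} (R : ℝ) : ∀ᶠ x in cobounded (E n), R ≤ ‖x‖ :=
  (tendsto_norm_cobounded_atTop (E := E n)).eventually (eventually_ge_atTop R)

theorem rpow_O_one {n : ℕ} {ε : ℝ} (hε : 0 ≤ ε) :
    (fun x : E n => ‖x‖ ^ (-ε)) =O[cobounded (E n)] fun _ => (1 : ℝ) := by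
  apply IsBigO.of_bound 1
  filter_upwards [ev_big (n := n) 1] with x hx
  rw [Real.norm_eq_abs, abs_of_nonneg (by positivity), one_mul, norm_one]
  exact Real.rpow_le_one_of_one_le_of_nonpos hx (by linarith only [hε])

namespace AC

variable {n : ℕ} {ε : ℝ} {f fc g gc : E n → ℝ}

theorem f0 (h : AC ε f fc) (hε : 0 ≤ ε) : f =O[cobounded (E n)] fun _ => (1 : ℝ) := by
  have h1 := (h.c0.trans (rpow_O_one hε)).add h.b0
  refine h1.congr_left fun x => ?_
  ring

theorem f1 (h : AC ε f fc) (hε : 0 ≤ ε) :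
    (fun x => fderiv ℝ f x) =O[cobounded (E n)] fun x => ‖x‖⁻¹ := by
  have h0 : (fun x : E n => ‖x‖⁻¹ * ‖x‖ ^ (-ε)) =O[cobounded (E n)] fun x => ‖x‖⁻¹ := by
    have := (isBigO_refl (fun x : E n => ‖x‖⁻¹) (cobounded (E n))).mul (rpow_O_one (n := n) hε)
    simpa only [mul_one] using this
  have h1 := (h.c1.trans h0).add h.b1
  refine h1.congr_left fun x => ?_
  abel

theorem const (ε : ℝ) (c : ℝ) : AC ε (fun _ : E n => c) (fun _ => c) where
  df := Eventually.of_forall fun x => differentiableAt_const c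
  dfc := Eventually.of_forall fun x => differentiableAt_const c
  b0 := isBigO_const_const c one_ne_zero _
  b1 := by
    simp only [fderiv_fun_const, Pi.zero_apply]
    exact isBigO_zero _ _
  c0 := by
    simp only [sub_self]
    exact isBigO_zero _ _
  c1 := by
    simp only [sub_self]
    exact isBigO_zero _ _
  rad := Eventually.of_forall fun x => by simp only [fderiv_fun_const, Pi.zero_apply, _root_.zero_apply]

theorem add (h : AC ε f fc) (k : AC ε g gc) : AC ε (fun x => f x + g x) (fun x => fc x + gc x) where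
  df := by filter_upwards [h.df, k.df] with x h1 h2 using h1.fun_add h2
  dfc := by filter_upwards [h.dfc, k.dfc] with x h1 h2 using h1.fun_add h2
  b0 := h.b0.add k.b0
  b1 := by
    refine (h.b1.add k.b1).congr' ?_ EventuallyEq.rfl
    filter_upwards [h.dfc, k.dfc] with x h1 h2
    rw [fderiv_fun_add h1 h2]
  c0 := by
    refine (h.c0.add k.c0).congr_left fun x => ?_
    ring
  c1 := by
    refine (h.c1.add k.c1).congr' ?_ EventuallyEq.rfl
    filter_upwards [h.df, k.df, h.dfc, k.dfc] with x h1 h2 h3 h4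
    rw [fderiv_fun_add h1 h2, fderiv_fun_add h3 h4]
    abel
  rad := by
    filter_upwards [h.dfc, k.dfc, h.rad, k.rad] with x h1 h2 h3 h4
    rw [fderiv_fun_add h1 h2, _root_.add_apply, h3, h4, add_zero]

theorem mul (h : AC ε f fc) (k : AC ε g gc) (hε : 0 ≤ ε) :
    AC ε (fun x => f x * g x) (fun x => fc x * gc x) where
  df := by filter_upwards [h.df, k.df] with x h1 h2 using h1.fun_mul h2
  dfc := by filter_upwards [h.dfc, k.dfc] with x h1 h2 using h1.fun_mul h2
  b0 := by simpa only [isBigO_one_iff, norm_mul, Real.norm_eq_abs, mul_one] using h.b0.mul k.b0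
  b1 := by
    have e1 : (fun x => fc x • fderiv ℝ gc x) =O[cobounded (E n)] fun x => ‖x‖⁻¹ := by
      simpa using h.b0.smul k.b1
    have e2 : (fun x => gc x • fderiv ℝ fc x) =O[cobounded (E n)] fun x => ‖x‖⁻¹ := by
      simpa only [smul_eq_mul, one_mul] using k.b0.smul h.b1
    refine (e1.add e2).congr' ?_ EventuallyEq.rfl
    filter_upwards [h.dfc, k.dfc] with x h1 h2
    rw [fderiv_fun_mul h1 h2]
  c0 := by
    have e1 : (fun x => (f x - fc x) * g x) =O[cobounded (E n)] fun x => ‖x‖ ^ (-ε) := by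
      simpa only [mul_one] using h.c0.mul (k.f0 hε)
    have e2 : (fun x => fc x * (g x - gc x)) =O[cobounded (E n)] fun x => ‖x‖ ^ (-ε) := by
      simpa only [one_mul] using h.b0.mul k.c0
    refine (e1.add e2).congr_left fun x => ?_
    ring
  c1 := by
    have e1 : (fun x => (f x - fc x) • fderiv ℝ g x) =O[cobounded (E n)]
        fun x => ‖x‖⁻¹ * ‖x‖ ^ (-ε) := by
      refine (h.c0.smul (k.f1 hε)).congr_right fun x => ?_
      rw [smul_eq_mul, mul_comm]
    have e2 : (fun x => fc x • (fderiv ℝ g x - fderiv ℝ gc x)) =O[cobounded (E n)]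
        fun x => ‖x‖⁻¹ * ‖x‖ ^ (-ε) := by
      simpa only [smul_eq_mul, one_mul] using h.b0.smul k.c1
    have e3 : (fun x => (g x - gc x) • fderiv ℝ f x) =O[cobounded (E n)]
        fun x => ‖x‖⁻¹ * ‖x‖ ^ (-ε) := by
      refine (k.c0.smul (h.f1 hε)).congr_right fun x => ?_
      rw [smul_eq_mul, mul_comm]
    have e4 : (fun x => gc x • (fderiv ℝ f x - fderiv ℝ fc x)) =O[cobounded (E n)]
        fun x => ‖x‖⁻¹ * ‖x‖ ^ (-ε) := by
      simpa only [smul_eq_mul, one_mul] using k.b0.smul h.c1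
    refine (((e1.add e2).add e3).add e4).congr' ?_ EventuallyEq.rfl
    filter_upwards [h.df, k.df, h.dfc, k.dfc] with x h1 h2 h3 h4
    rw [fderiv_fun_mul h1 h2, fderiv_fun_mul h3 h4]
    module
  rad := by
    filter_upwards [h.dfc, k.dfc, h.rad, k.rad] with x h1 h2 h3 h4
    rw [fderiv_fun_mul h1 h2, _root_.add_apply, _root_.smul_apply, _root_.smul_apply, h3, h4]
    simp

theorem congr (h : AC ε f fc) (hg : f =ᶠ[cobounded (E n)] g)
    (hg' : ∀ᶠ x in cobounded (E n), f =ᶠ[𝓝 x] g)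
    (hc : ∀ᶠ x in cobounded (E n), fc =ᶠ[𝓝 x] gc) : AC ε g gc where
  df := by
    filter_upwards [h.df, hg'] with x h1 h2 using h1.congr_of_eventuallyEq h2.symm
  dfc := by
    filter_upwards [h.dfc, hc] with x h1 h2 using h1.congr_of_eventuallyEq h2.symm
  b0 := h.b0.congr' (by filter_upwards [hc] with x h2 using h2.self_of_nhds) EventuallyEq.rfl
  b1 := h.b1.congr' (by filter_upwards [hc] with x h2 using h2.fderiv_eq) EventuallyEq.rfl
  c0 := h.c0.congr' (by
    filter_upwards [hc, hg] with x h2 h3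
    rw [h2.self_of_nhds, h3]) EventuallyEq.rfl
  c1 := h.c1.congr' (by
    filter_upwards [hc, hg'] with x h2 h3
    rw [h2.fderiv_eq, h3.fderiv_eq]) EventuallyEq.rfl
  rad := by
    filter_upwards [hc, h.rad] with x h2 h3
    rw [← h2.fderiv_eq, h3]

theorem sum {ι : Type*} (s : Finset ι) {F Fc : ι → E n → ℝ} (h : ∀ i, AC ε (F i) (Fc i)) :
    AC ε (fun x => ∑ i ∈ s, F i x) (fun x => ∑ i ∈ s, Fc i x) := by
  classical
  induction s using Finset.induction_on with
  | empty => simpa only [Finset.sum_empty] using const ε 0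
  | insert a s ha ih =>
    simp only [Finset.sum_insert ha]
    exact (h a).add ih

theorem prod {ι : Type*} (s : Finset ι) {F Fc : ι → E n → ℝ} (h : ∀ i, AC ε (F i) (Fc i))
    (hε : 0 ≤ ε) : AC ε (fun x => ∏ i ∈ s, F i x) (fun x => ∏ i ∈ s, Fc i x) := by
  classical
  induction s using Finset.induction_on with
  | empty => simpa using const ε 1
  | insert a s ha ih =>
    simp only [Finset.prod_insert ha]
    exact (h a).mul ih hε

theorem det {M Mc : E n → Matrix (Fin n) (Fin n) ℝ}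
    (h : ∀ i j, AC ε (fun x => M x i j) (fun x => Mc x i j)) (hε : 0 ≤ ε) :
    AC ε (fun x => (M x).det) (fun x => (Mc x).det) := by
  have h2 : ∀ M : E n → Matrix (Fin n) (Fin n) ℝ, (fun x => (M x).det) =
      fun x => ∑ σ : Equiv.Perm (Fin n),
      ((Equiv.Perm.sign σ : ℤ) : ℝ) * ∏ i, M x (σ i) i := by
    intro M
    funext x
    rw [Matrix.det_apply']
  rw [h2, h2]
  apply sum
  intro σ
  exact (const ε _).mul (prod _ (fun i => h _ _) hε) hε

theorem adj {M Mc : E n → Matrix (Fin n) (Fin n) ℝ}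
    (h : ∀ i j, AC ε (fun x => M x i j) (fun x => Mc x i j)) (hε : 0 ≤ ε) (i j : Fin n) :
    AC ε (fun x => (M x).adjugate i j) (fun x => (Mc x).adjugate i j) := by
  simp only [Matrix.adjugate_apply]
  apply det _ hε
  intro a b
  by_cases ha : a = j
  · subst ha
    simp only [Matrix.updateRow_self]
    exact const ε _
  · simp only [Matrix.updateRow_ne ha]
    exact h a b

theorem comp {φ : ℝ → ℝ} (hφ : ContDiffOn ℝ 2 φ (Ioi 0)) (h : AC ε f fc) (hε : 0 < ε) {c : ℝ}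
    (hc : 0 < c) (hfc : ∀ᶠ x in cobounded (E n), c ≤ fc x) :
    AC ε (fun x => φ (f x)) (fun x => φ (fc x)) := by
  obtain ⟨B, hB⟩ := h.b0.bound
  obtain ⟨B', hB'⟩ := (h.f0 hε.le).bound
  set I : Set ℝ := Icc (c / 2) (max B B') with hI
  have hIc : IsCompact I := isCompact_Icc
  have hIv : Convex ℝ I := convex_Icc _ _
  have hIs : I ⊆ Ioi 0 := fun t ht => lt_of_lt_of_le (by linarith only [hc]) ht.1
  have hfI' : ∀ᶠ x in cobounded (E n), fc x ∈ I := by
    filter_upwards [hB, hfc] with x h1 h2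
    simp only [norm_one, mul_one, Real.norm_eq_abs] at h1
    exact ⟨by linarith only [hc, h2], (le_abs_self _).trans (h1.trans (le_max_left _ _))⟩
  have hsmall : ∀ᶠ x in cobounded (E n), |f x - fc x| < c / 2 := by
    have h1 : Tendsto (fun x : E n => ‖x‖ ^ (-ε)) (cobounded (E n)) (𝓝 0) :=
      (tendsto_rpow_neg_atTop hε).comp tendsto_norm_cobounded_atTop
    have h2 := (h.c0.trans_tendsto h1).abs
    rw [abs_zero] at h2
    exact h2.eventually (gt_mem_nhds (by linarith only [hc]))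
  have hfI : ∀ᶠ x in cobounded (E n), f x ∈ I := by
    filter_upwards [hB', hfc, hsmall] with x h1 h2 h3
    simp only [norm_one, mul_one, Real.norm_eq_abs] at h1
    refine ⟨?_, (le_abs_self _).trans (h1.trans (le_max_right _ _))⟩
    have := (abs_lt.1 h3).1
    linarith only [h2, this]
  have hφ1 : ContDiffOn ℝ 1 φ I := (hφ.of_le (by norm_num)).mono hIs
  have hφ' : ContDiffOn ℝ 1 (deriv φ) (Ioi 0) := by
    have h2 : ContDiffOn ℝ (1 + 1) φ (Ioi 0) := by
      have : (1 + 1 : WithTop ℕ∞) = 2 := by norm_num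
      rw [this]; exact hφ
    exact ((contDiffOn_succ_iff_deriv_of_isOpen isOpen_Ioi).1 h2).2.2
  obtain ⟨L, hL⟩ := hφ1.exists_lipschitzOnWith (by simp) hIv hIc
  obtain ⟨L', hL'⟩ := (hφ'.mono hIs).exists_lipschitzOnWith (by simp) hIv hIc
  obtain ⟨D0, hD0⟩ := hIc.exists_bound_of_continuousOn hφ1.continuousOn
  obtain ⟨D1, hD1⟩ := hIc.exists_bound_of_continuousOn (hφ'.mono hIs).continuousOn
  have hdφ : ∀ t ∈ I, DifferentiableAt ℝ φ t := fun t ht =>
    (hφ.differentiableOn (by norm_num)).differentiableAt (isOpen_Ioi.mem_nhds (hIs ht))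
  have hfd : ∀ (u : E n → ℝ) (x : E n), DifferentiableAt ℝ u x → u x ∈ I →
      HasFDerivAt (fun y => φ (u y)) (deriv φ (u x) • fderiv ℝ u x) x := by
    intro u x hu hux
    exact (hdφ _ hux).hasDerivAt.comp_hasFDerivAt x hu.hasFDerivAt
  have o1 : (fun x => φ (fc x)) =O[cobounded (E n)] fun _ => (1 : ℝ) := by
    apply IsBigO.of_bound D0
    filter_upwards [hfI'] with x hx
    simpa only [Real.norm_eq_abs, norm_one, mul_one] using hD0 _ hx
  have o2 : (fun x => deriv φ (fc x)) =O[cobounded (E n)] fun _ => (1 : ℝ) := by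
    apply IsBigO.of_bound D1
    filter_upwards [hfI'] with x hx
    simpa only [Real.norm_eq_abs, norm_one, mul_one] using hD1 _ hx
  have o3 : (fun x => deriv φ (f x)) =O[cobounded (E n)] fun _ => (1 : ℝ) := by
    apply IsBigO.of_bound D1
    filter_upwards [hfI] with x hx
    simpa only [Real.norm_eq_abs, norm_one, mul_one] using hD1 _ hx
  have o4 : (fun x => φ (f x) - φ (fc x)) =O[cobounded (E n)] fun x => ‖x‖ ^ (-ε) := by
    refine IsBigO.trans (g := fun x => f x - fc x) ?_ h.c0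
    apply IsBigO.of_bound L
    filter_upwards [hfI, hfI'] with x hx hx'
    have := hL.dist_le_mul _ hx _ hx'
    rwa [Real.dist_eq, Real.dist_eq] at this
  have o5 : (fun x => deriv φ (f x) - deriv φ (fc x)) =O[cobounded (E n)]
      fun x => ‖x‖ ^ (-ε) := by
    refine IsBigO.trans (g := fun x => f x - fc x) ?_ h.c0
    apply IsBigO.of_bound L'
    filter_upwards [hfI, hfI'] with x hx hx'
    have := hL'.dist_le_mul _ hx _ hx'
    rwa [Real.dist_eq, Real.dist_eq] at this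
  refine ⟨?_, ?_, o1, ?_, o4, ?_, ?_⟩
  · filter_upwards [h.df, hfI] with x h1 h2 using (hfd f x h1 h2).differentiableAt
  · filter_upwards [h.dfc, hfI'] with x h1 h2 using (hfd fc x h1 h2).differentiableAt
  · have e1 : (fun x => deriv φ (fc x) • fderiv ℝ fc x) =O[cobounded (E n)] fun x => ‖x‖⁻¹ := by
      simpa only [smul_eq_mul, one_mul] using o2.smul h.b1
    refine e1.congr' ?_ EventuallyEq.rfl
    filter_upwards [h.dfc, hfI'] with x h1 h2
    rw [(hfd fc x h1 h2).fderiv]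
  · have e1 : (fun x => deriv φ (f x) • (fderiv ℝ f x - fderiv ℝ fc x)) =O[cobounded (E n)]
        fun x => ‖x‖⁻¹ * ‖x‖ ^ (-ε) := by
      simpa only [smul_eq_mul, one_mul] using o3.smul h.c1
    have e2 : (fun x => (deriv φ (f x) - deriv φ (fc x)) • fderiv ℝ fc x) =O[cobounded (E n)]
        fun x => ‖x‖⁻¹ * ‖x‖ ^ (-ε) := by
      refine (o5.smul h.b1).congr_right fun x => ?_
      rw [smul_eq_mul, mul_comm]
    refine (e1.add e2).congr' ?_ EventuallyEq.rfl
    filter_upwards [h.df, hfI, h.dfc, hfI'] with x h1 h2 h3 h4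
    rw [(hfd fc x h3 h4).fderiv, (hfd f x h1 h2).fderiv]
    module
  · filter_upwards [h.dfc, hfI', h.rad] with x h1 h2 h3
    rw [(hfd fc x h1 h2).fderiv, _root_.smul_apply, h3, smul_zero]

end AC

end Vale.Agent.P225
end

section
open MeasureTheory Set Filter Topology Matrix Asymptotics Bornology
open scoped ContDiff

namespace Vale.Agent.P225

variable {n : ℕ}

/-- The projection to the unit sphere. -/
noncomputable def nu (x : E n) : E n := ‖x‖⁻¹ • x

theorem nu_norm {x : E n} (hx : x ≠ 0) : ‖nu x‖ = 1 := by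
  unfold nu
  rw [norm_smul, norm_inv, norm_norm, inv_mul_cancel₀ (norm_ne_zero_iff.2 hx)]

theorem nu_smul {t : ℝ} (ht : 0 < t) (x : E n) : nu (t • x) = nu x := by
  unfold nu
  rw [norm_smul, Real.norm_eq_abs, abs_of_pos ht, smul_smul, mul_inv]
  congr 1
  field_simp

theorem nu_contDiffOn {k : WithTop ℕ∞} : ContDiffOn ℝ k (nu (n := n)) {x | x ≠ 0} := by
  intro x hx
  exact (((contDiffAt_norm ℝ hx).inv (norm_ne_zero_iff.2 hx)).smul
    contDiffAt_id).contDiffWithinAt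

theorem ev_ne_zero : ∀ᶠ x in cobounded (E n), x ≠ 0 := by
  filter_upwards [ev_big (n := n) 1] with x hx h
  rw [h, norm_zero] at hx
  linarith only [hx]

theorem ray_deriv {f : E n → ℝ} {x : E n} (hf : DifferentiableAt ℝ f x) :
    HasDerivAt (fun s : ℝ => f (s • x)) (fderiv ℝ f x x) 1 := by
  have h1 : HasDerivAt (fun s : ℝ => s • x) x 1 := by
    have := (hasDerivAt_id (1 : ℝ)).smul_const x
    simpa only [id_eq, one_smul] using this
  have hf' : DifferentiableAt ℝ f ((fun s : ℝ => s • x) 1) := by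
    simpa using hf
  have h := hf'.hasFDerivAt.comp_hasDerivAt (1 : ℝ) h1
  beta_reduce at h
  rw [one_smul] at h
  exact h

theorem homog_rad {f : E n → ℝ} (hh : ∀ x, ∀ t : ℝ, 0 < t → f (t • x) = f x) {x : E n}
    (hf : DifferentiableAt ℝ f x) : fderiv ℝ f x x = 0 := by
  have h1 := ray_deriv hf
  have h2 : (fun s : ℝ => f (s • x)) =ᶠ[𝓝 1] fun _ => f x := by
    filter_upwards [isOpen_Ioi.mem_nhds (show (0 : ℝ) < 1 from one_pos)] with s hs
    exact hh x s hs
  exact (h1.congr_of_eventuallyEq h2.symm).unique (hasDerivAt_const (1 : ℝ) (f x))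

theorem AC.of_homog {f : E n → ℝ} (ε : ℝ) (hf : ContDiffOn ℝ 1 f {x | x ≠ 0})
    (hh : ∀ x, ∀ t : ℝ, 0 < t → f (t • x) = f x) : AC ε f f := by
  have hO : IsOpen {x : E n | x ≠ 0} := isOpen_ne
  have hd : ∀ᶠ x in cobounded (E n), DifferentiableAt ℝ f x := by
    filter_upwards [ev_ne_zero] with x hx
    exact (hf.differentiableOn (by simp)).differentiableAt (hO.mem_nhds hx)
  have hsub : Metric.sphere (0 : E n) 1 ⊆ {x : E n | x ≠ 0} := by
    intro x hx h
    rw [h] at hx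
    simp only [mem_sphere_iff_norm, sub_self, norm_zero, zero_ne_one] at hx
  obtain ⟨B, hB⟩ := (isCompact_sphere (0 : E n) 1).exists_bound_of_continuousOn
    (hf.continuousOn.mono hsub)
  have hc : ContinuousOn (fderiv ℝ f) {x | x ≠ 0} := hf.continuousOn_fderiv_of_isOpen hO le_rfl
  obtain ⟨B', hB'⟩ := (isCompact_sphere (0 : E n) 1).exists_bound_of_continuousOn (hc.mono hsub)
  refine ⟨hd, hd, ?_, ?_, ?_, ?_, ?_⟩
  · apply IsBigO.of_bound B
    filter_upwards [ev_ne_zero] with x hx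
    have h1 : f x = f (nu x) := by
      rw [nu, hh x _ (inv_pos.2 (norm_pos_iff.2 hx))]
    rw [h1, norm_one, mul_one]
    exact hB _ (by rw [mem_sphere_zero_iff_norm]; exact nu_norm hx)
  · apply IsBigO.of_bound B'
    filter_upwards [ev_ne_zero] with x hx
    have hx0 : 0 < ‖x‖ := norm_pos_iff.2 hx
    have h1 : fderiv ℝ f x = ‖x‖⁻¹ • fderiv ℝ f (nu x) := by
      have h2 : (fun y => f (‖x‖⁻¹ • y)) = f := by
        funext y
        exact hh y _ (inv_pos.2 hx0)
      have h3 := fderiv_comp_smul (𝕜 := ℝ) (f := f) (x := x) ‖x‖⁻¹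
      rw [h2] at h3
      exact h3
    rw [h1, norm_smul, mul_comm]
    apply mul_le_mul_of_nonneg_right _ (norm_nonneg _)
    exact hB' _ (by rw [mem_sphere_zero_iff_norm]; exact nu_norm hx)
  · simp only [sub_self]
    exact isBigO_zero _ _
  · simp only [sub_self]
    exact isBigO_zero _ _
  · filter_upwards [hd] with x hx
    exact homog_rad hh hx

/-- From the hypothesis of the convergence to the class `AC`. -/
theorem AC.of_close {f fc : E n → ℝ} {ε : ℝ} (hfd : ∀ᶠ x in cobounded (E n), DifferentiableAt ℝ f x)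
    (hf : ContDiffOn ℝ 1 fc {x | x ≠ 0})
    (hh : ∀ x, ∀ t : ℝ, 0 < t → fc (t • x) = fc x)
    (h0 : (fun x => f x - fc x) =O[cobounded (E n)] fun x => ‖x‖ ^ (-ε))
    (h1 : (fun x => fderiv ℝ (fun y => f y - fc y) x) =O[cobounded (E n)]
      fun x => ‖x‖⁻¹ * ‖x‖ ^ (-ε)) : AC ε f fc := by
  have h := AC.of_homog ε hf hh
  refine ⟨hfd, h.dfc, h.b0, h.b1, h0, ?_, h.rad⟩
  refine h1.congr' ?_ EventuallyEq.rfl
  filter_upwards [hfd, h.dfc] with x h2 h3
  rw [fderiv_fun_sub h2 h3]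

theorem AC.norm_mul {f fc : E n → ℝ} {ε : ℝ} (h : AC ε f fc)
    (hz : ∀ᶠ x in cobounded (E n), fc =ᶠ[𝓝 x] fun _ => 0) :
    (fun x => ‖x‖ * f x) =O[cobounded (E n)] (fun x => ‖x‖ * ‖x‖ ^ (-ε)) ∧
    (fun x => fderiv ℝ (fun y => ‖y‖ * f y) x) =O[cobounded (E n)] fun x => ‖x‖ ^ (-ε) := by
  have h0 : f =O[cobounded (E n)] fun x => ‖x‖ ^ (-ε) := by
    refine h.c0.congr' ?_ EventuallyEq.rfl
    filter_upwards [hz] with x hx
    rw [hx.self_of_nhds, sub_zero]
  have h1 : (fun x => fderiv ℝ f x) =O[cobounded (E n)] fun x => ‖x‖⁻¹ * ‖x‖ ^ (-ε) := by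
    refine h.c1.congr' ?_ EventuallyEq.rfl
    filter_upwards [hz] with x hx
    rw [hx.fderiv_eq]
    simp only [fderiv_fun_const, Pi.zero_apply, sub_zero]
  refine ⟨(isBigO_refl _ _).mul h0, ?_⟩
  have e1 : (fun x : E n => ‖x‖ • fderiv ℝ f x) =O[cobounded (E n)] fun x => ‖x‖ ^ (-ε) := by
    refine ((isBigO_refl (fun x : E n => ‖x‖) (cobounded (E n))).smul h1).congr'
      EventuallyEq.rfl ?_
    filter_upwards [ev_ne_zero] with x hx
    have : ‖x‖ ≠ 0 := norm_ne_zero_iff.2 hx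
    rw [smul_eq_mul]
    field_simp
  have e2 : (fun x : E n => f x • fderiv ℝ (fun y : E n => ‖y‖) x) =O[cobounded (E n)]
      fun x => ‖x‖ ^ (-ε) := by
    have e3 : (fun x : E n => fderiv ℝ (fun y : E n => ‖y‖) x) =O[cobounded (E n)]
        fun _ => (1 : ℝ) := by
      apply IsBigO.of_bound 1
      apply Eventually.of_forall
      intro x
      rw [norm_one, mul_one]
      have := norm_fderiv_le_of_lipschitz ℝ (f := fun y : E n => ‖y‖) (x₀ := x)
        (C := 1) lipschitzWith_one_norm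
      simpa only [ge_iff_le, NNReal.coe_one] using this
    simpa using h0.smul e3
  refine (e1.add e2).congr' ?_ EventuallyEq.rfl
  filter_upwards [h.df, ev_ne_zero] with x hx hx0
  have hn : DifferentiableAt ℝ (fun y : E n => ‖y‖) x := differentiableAt_fun_id.norm ℝ hx0
  rw [fderiv_fun_mul hn hx]

/-- vector valued version -/
theorem bigO_vec {F : Fin n → E n → ℝ} {b : E n → ℝ}
    (h : ∀ i, (fun x => F i x) =O[cobounded (E n)] b) :
    (fun x => (∑ i, F i x • EuclideanSpace.single i (1 : ℝ) : E n)) =O[cobounded (E n)] b := by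
  apply IsBigO.fun_sum
  intro i _
  refine IsBigO.trans ?_ (h i)
  apply IsBigO.of_bound 1
  apply Eventually.of_forall
  intro x
  rw [norm_smul]
  simp only [Real.norm_eq_abs, PiLp.norm_single, norm_one, mul_one, one_mul, Std.le_refl]

theorem bigO_vec_fderiv {F : Fin n → E n → ℝ} {b : E n → ℝ}
    (hd : ∀ i, ∀ᶠ x in cobounded (E n), DifferentiableAt ℝ (F i) x)
    (h : ∀ i, (fun x => fderiv ℝ (F i) x) =O[cobounded (E n)] b) :
    (fun x => fderiv ℝ (fun y => (∑ i, F i y • EuclideanSpace.single i (1 : ℝ) : E n)) x)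
      =O[cobounded (E n)] b := by
  have h1 : (fun x => ∑ i, (fderiv ℝ (F i) x).smulRight (EuclideanSpace.single i (1 : ℝ) : E n))
      =O[cobounded (E n)] b := by
    apply IsBigO.fun_sum
    intro i _
    refine IsBigO.trans ?_ (h i)
    apply IsBigO.of_bound 1
    apply Eventually.of_forall
    intro x
    rw [ContinuousLinearMap.norm_smulRight_apply]
    simp only [PiLp.norm_single, norm_one, mul_one, one_mul, Std.le_refl]
  refine h1.congr' ?_ EventuallyEq.rfl
  filter_upwards [eventually_all.2 hd] with x hx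
  have h2 : HasFDerivAt (fun y => (∑ i, F i y • EuclideanSpace.single i (1 : ℝ) : E n))
      (∑ i, (fderiv ℝ (F i) x).smulRight (EuclideanSpace.single i (1 : ℝ) : E n)) x := by
    apply HasFDerivAt.fun_sum
    intro i _
    exact (hx i).hasFDerivAt.smul_const _
  rw [h2.fderiv]

end Vale.Agent.P225
end

section
open MeasureTheory Set Filter Topology Matrix Asymptotics Bornology
open scoped ContDiff

namespace Vale.Agent.P225

variable {n : ℕ}

theorem AC.inv_entry {ε c : ℝ} (hε : 0 < ε) (hc : 0 < c) {M Mc : E n → Matrix (Fin n) (Fin n) ℝ}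
    (h : ∀ i j, AC ε (fun x => M x i j) (fun x => Mc x i j))
    (hd : ∀ᶠ x in cobounded (E n), c ≤ (Mc x).det) (i j : Fin n) :
    AC ε (fun x => (M x)⁻¹ i j) (fun x => (Mc x)⁻¹ i j) := by
  have h1 : AC ε (fun x => ((M x).det)⁻¹) (fun x => ((Mc x).det)⁻¹) := by
    apply AC.comp (φ := fun t => t⁻¹) _ (AC.det h hε.le) hε hc hd
    exact (contDiffOn_inv ℝ).mono fun t ht => ne_of_gt ht
  have h2 := h1.mul (AC.adj h hε.le i j) hε.le
  have e : ∀ M : E n → Matrix (Fin n) (Fin n) ℝ, (fun x => (M x)⁻¹ i j) =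
      fun x => ((M x).det)⁻¹ * (M x).adjugate i j := by
    intro M
    funext x
    rw [Matrix.inv_def, Matrix.smul_apply, Ring.inverse_eq_inv', smul_eq_mul]
  rw [e, e]
  exact h2

theorem divg_abs_le (F : E n → E n) (x : E n) : |divg F x| ≤ n * ‖fderiv ℝ F x‖ := by
  unfold divg
  calc |∑ i, (fderiv ℝ F x (EuclideanSpace.single i 1)) i|
      ≤ ∑ i : Fin n, |(fderiv ℝ F x (EuclideanSpace.single i 1)) i| :=
        Finset.abs_sum_le_sum_abs _ _
    _ ≤ ∑ _i : Fin n, ‖fderiv ℝ F x‖ := by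
        apply Finset.sum_le_sum
        intro i _
        have h1 : ‖(fderiv ℝ F x (EuclideanSpace.single i 1)) i‖ ≤
            ‖fderiv ℝ F x (EuclideanSpace.single i 1)‖ := PiLp.norm_apply_le _ i
        rw [Real.norm_eq_abs] at h1
        have h2 := (fderiv ℝ F x).le_opNorm (EuclideanSpace.single i 1)
        rw [EuclideanSpace.norm_single, norm_one, mul_one] at h2
        exact h1.trans h2
    _ = n * ‖fderiv ℝ F x‖ := by simp only [Finset.sum_const, Finset.card_univ, Fintype.card_fin, nsmul_eq_mul]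

namespace SphereMetric

variable (X : SphereMetric n)

theorem H_radial {θ : E n} (hθ : ‖θ‖ = 1) (i : Fin n) : ∑ j, (X.H θ)⁻¹ i j * θ j = θ i :=
  congrFun (X.inv_self hθ) i

theorem exists_inv_lower : ∃ c : ℝ, 0 < c ∧ ∀ θ : E n, ‖θ‖ = 1 → ∀ w : E n,
    c * ‖w‖ ^ 2 ≤ (w : Fin n → ℝ) ⬝ᵥ (X.H θ)⁻¹ *ᵥ (w : Fin n → ℝ) := by
  obtain ⟨B, hB0, hB⟩ := X.exists_quad_bound
  refine ⟨B⁻¹, inv_pos.2 hB0, fun θ hθ w => ?_⟩
  have h := inv_quad_ge (X.pos θ hθ) hB0 (fun v => by
    have h1 := hB θ hθ (WithLp.toLp 2 v)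
    rw [X.quad_eq, ← real_inner_self_eq_norm_sq, RMetric.inner_eq_dot] at h1
    exact h1) (w : Fin n → ℝ)
  rw [← real_inner_self_eq_norm_sq, RMetric.inner_eq_dot]
  exact h

end SphereMetric

namespace RMetric

variable (g : RMetric n)

/-- the entries of the divergence form operator -/
noncomputable def ae (i j : Fin n) (x : E n) : ℝ := g.dens x * (g.G x)⁻¹ i j

theorem ae_contDiff (i j : Fin n) : ContDiff ℝ ∞ (g.ae i j) :=
  g.dens_contDiff.mul (g.inv_contDiff i j)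

/-- the radial coefficient -/
noncomputable def mu' (x : E n) : ℝ := inner ℝ (g.Aop x x) x / ‖x‖ ^ 2

theorem mu'_pos {x : E n} (hx : x ≠ 0) : 0 < g.mu' x := by
  have h1 := g.Aop_pos x x hx
  have h2 : 0 < ‖x‖ := norm_pos_iff.2 hx
  exact div_pos h1 (by positivity)

theorem mu'_contDiffOn {k : ℕ} : ContDiffOn ℝ k g.mu' {x | x ≠ 0} := by
  intro x hx
  have h2 : ‖x‖ ^ 2 ≠ 0 := pow_ne_zero 2 (norm_ne_zero_iff.2 hx)
  have hA : ContDiff ℝ k (fun x => g.Aop x x) :=
    (g.Aop_contDiff.of_le (by exact_mod_cast le_top)).clm_apply contDiff_id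
  have h3 : ContDiff ℝ k (fun x : E n => inner ℝ (g.Aop x x) x) := hA.inner ℝ contDiff_id
  exact (h3.contDiffAt.div (contDiff_norm_sq ℝ).contDiffAt h2).contDiffWithinAt

noncomputable def Z' (x : E n) : E n := (g.mu' x)⁻¹ • g.Aop x x

theorem Z'_contDiffOn {k : ℕ} : ContDiffOn ℝ k g.Z' {x | x ≠ 0} := by
  intro x hx
  have hA : ContDiff ℝ k (fun x => g.Aop x x) :=
    (g.Aop_contDiff.of_le (by exact_mod_cast le_top)).clm_apply contDiff_id
  exact ((g.mu'_contDiffOn x hx).inv (g.mu'_pos hx).ne').smul hA.contDiffAt.contDiffWithinAt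

theorem mu'_eq {x : E n} (hx : x ≠ 0) :
    g.mu' x = ∑ i, (∑ j, g.ae i j x * (nu x) j) * (nu x) i := by
  have h0 : ‖x‖ ≠ 0 := norm_ne_zero_iff.2 hx
  have h1 : ∀ i, (g.Aop x x) i = ∑ j, g.ae i j x * x j := by
    intro i
    rw [g.Aop_apply, Finset.mul_sum]
    apply Finset.sum_congr rfl
    intro j _
    unfold ae; ring
  have h2 : inner ℝ (g.Aop x x) x = ∑ i, (∑ j, g.ae i j x * x j) * x i := by
    rw [inner_eq_dot]
    unfold dotProduct
    apply Finset.sum_congr rfl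
    intro i _
    rw [h1]
  unfold mu'
  rw [h2, Finset.sum_div]
  apply Finset.sum_congr rfl
  intro i _
  unfold nu
  simp only [PiLp.smul_apply, smul_eq_mul]
  have h3 : ∑ j, g.ae i j x * (‖x‖⁻¹ * x j) = ‖x‖⁻¹ * ∑ j, g.ae i j x * x j := by
    rw [Finset.mul_sum]
    apply Finset.sum_congr rfl
    intro j _
    ring
  rw [h3]
  (clear * - h0; field_simp)

section build

variable {ε : ℝ} (hε : 0 < ε) (X : SphereMetric n)
  (hX : ∀ i j, ContDiff ℝ 1 (fun x => X.H x i j))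
  (h0 : ∀ i j, (fun x => g.G x i j - X.H (nu x) i j) =O[cobounded (E n)] fun x => ‖x‖ ^ (-ε))
  (h1 : ∀ i j, (fun x => fderiv ℝ (fun y => g.G y i j - X.H (nu y) i j) x) =O[cobounded (E n)]
    fun x => ‖x‖⁻¹ * ‖x‖ ^ (-ε))

include hX h0 h1 in
theorem AC_G (i j : Fin n) : AC ε (fun x => g.G x i j) (fun x => X.H (nu x) i j) := by
  apply AC.of_close _ _ _ (h0 i j) (h1 i j)
  · exact Eventually.of_forall fun x => (g.smooth i j).differentiable (by simp) x
  · exact (hX i j).comp_contDiffOn nu_contDiffOn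
  · intro x t ht
    rw [nu_smul ht]

theorem det_ev [NeZero n] : ∃ c : ℝ, 0 < c ∧
    ∀ᶠ x in cobounded (E n), c ≤ (X.H (nu x)).det := by
  obtain ⟨c, hc, hcl⟩ := X.exists_det_lower
  refine ⟨c, hc, ?_⟩
  filter_upwards [ev_ne_zero] with x hx
  exact hcl _ (nu_norm hx)

include hε hX h0 h1 in
theorem AC_ae [NeZero n] (i j : Fin n) :
    AC ε (g.ae i j) (fun x => X.dens (nu x) * (X.H (nu x))⁻¹ i j) := by
  obtain ⟨c, hc, hcl⟩ := det_ev X
  have hG := g.AC_G X hX h0 h1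
  have e1 : AC ε (fun x => √(g.G x).det) (fun x => √(X.H (nu x)).det) := by
    apply AC.comp (φ := fun t => √t) _ (AC.det hG hε.le) hε hc hcl
    exact contDiffOn_id.sqrt fun t ht => ne_of_gt ht
  exact e1.mul (AC.inv_entry hε hc hG hcl i j) hε.le

theorem AC_nu (ε : ℝ) (i : Fin n) : AC ε (fun x : E n => (nu x) i) (fun x => (nu x) i) := by
  apply AC.of_homog
  · exact (EuclideanSpace.proj (𝕜 := ℝ) i).contDiff.comp_contDiffOn nu_contDiffOn
  · intro x t ht
    rw [nu_smul ht]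

theorem muc_eq {x : E n} (hx : x ≠ 0) :
    ∑ i, (∑ j, X.dens (nu x) * (X.H (nu x))⁻¹ i j * (nu x) j) * (nu x) i = X.dens (nu x) := by
  have h1 : ∀ i, ∑ j, X.dens (nu x) * (X.H (nu x))⁻¹ i j * (nu x) j =
      X.dens (nu x) * (nu x) i := by
    intro i
    rw [← X.H_radial (nu_norm hx) i, Finset.mul_sum]
    apply Finset.sum_congr rfl
    intro j _
    ring
  simp only [h1]
  have h2 : ∑ i, (nu x) i * (nu x) i = 1 := by
    have h3 : inner ℝ (nu x) (nu x) = ∑ i, (nu x) i * (nu x) i := by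
      rw [inner_eq_dot]; rfl
    rw [← h3, real_inner_self_eq_norm_sq, nu_norm hx]
    norm_num
  calc ∑ i, X.dens (nu x) * (nu x) i * (nu x) i = X.dens (nu x) * ∑ i, (nu x) i * (nu x) i := by
        rw [Finset.mul_sum]
        apply Finset.sum_congr rfl
        intro i _
        ring
    _ = X.dens (nu x) := by rw [h2, mul_one]

theorem ev_nhds_ne_zero : ∀ᶠ x in cobounded (E n), ∀ᶠ y in 𝓝 x, y ≠ 0 := by
  filter_upwards [ev_ne_zero] with x hx
  exact isOpen_ne.mem_nhds hx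

include hε hX h0 h1 in
theorem AC_mu' [NeZero n] : AC ε g.mu' (fun x => X.dens (nu x)) := by
  have e1 : AC ε (fun x => ∑ i, (∑ j, g.ae i j x * (nu x) j) * (nu x) i)
      (fun x => ∑ i, (∑ j, X.dens (nu x) * (X.H (nu x))⁻¹ i j * (nu x) j) * (nu x) i) := by
    apply AC.sum
    intro i
    apply AC.mul _ (AC_nu ε i) hε.le
    apply AC.sum
    intro j
    exact (g.AC_ae hε X hX h0 h1 i j).mul (AC_nu ε j) hε.le
  apply e1.congr
  · filter_upwards [ev_ne_zero] with x hx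
    exact (g.mu'_eq hx).symm
  · filter_upwards [ev_nhds_ne_zero] with x hx
    filter_upwards [hx] with y hy
    exact (g.mu'_eq hy).symm
  · filter_upwards [ev_nhds_ne_zero] with x hx
    filter_upwards [hx] with y hy
    exact muc_eq X hy

theorem dens_ev [NeZero n] : ∃ c : ℝ, 0 < c ∧
    ∀ᶠ x in cobounded (E n), c ≤ X.dens (nu x) := by
  obtain ⟨c, hc, hcl⟩ := X.exists_det_lower
  refine ⟨√c, Real.sqrt_pos.2 hc, ?_⟩
  filter_upwards [ev_ne_zero] with x hx
  exact Real.sqrt_le_sqrt (hcl _ (nu_norm hx))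

/-- the deviation of the vector field from the radial one -/
noncomputable def wf (i : Fin n) (x : E n) : ℝ :=
  (g.mu' x)⁻¹ * (∑ j, g.ae i j x * (nu x) j) + (-1) * (nu x) i

include hε hX h0 h1 in
theorem AC_wf [NeZero n] (i : Fin n) : AC ε (g.wf i)
    (fun x => (X.dens (nu x))⁻¹ *
      (∑ j, X.dens (nu x) * (X.H (nu x))⁻¹ i j * (nu x) j) + (-1) * (nu x) i) := by
  obtain ⟨c, hc, hcl⟩ := dens_ev X
  have e1 : AC ε (fun x => (g.mu' x)⁻¹) (fun x => (X.dens (nu x))⁻¹) := by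
    apply AC.comp (φ := fun t => t⁻¹) _ (g.AC_mu' hε X hX h0 h1) hε hc hcl
    exact (contDiffOn_inv ℝ).mono fun t ht => ne_of_gt ht
  apply AC.add
  · apply AC.mul e1 _ hε.le
    apply AC.sum
    intro j
    exact (g.AC_ae hε X hX h0 h1 i j).mul (AC_nu ε j) hε.le
  · exact (AC.const ε (-1)).mul (AC_nu ε i) hε.le

theorem wfc_zero (i : Fin n) : ∀ᶠ x in cobounded (E n),
    (fun x => (X.dens (nu x))⁻¹ * (∑ j, X.dens (nu x) * (X.H (nu x))⁻¹ i j * (nu x) j) +
      (-1) * (nu x) i) =ᶠ[𝓝 x] fun _ => (0 : ℝ) := by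
  filter_upwards [ev_nhds_ne_zero] with x hx
  filter_upwards [hx] with y hy
  have h1 : ∑ j, X.dens (nu y) * (X.H (nu y))⁻¹ i j * (nu y) j =
      X.dens (nu y) * (nu y) i := by
    rw [← X.H_radial (nu_norm hy) i, Finset.mul_sum]
    apply Finset.sum_congr rfl
    intro j _
    ring
  have h2 : X.dens (nu y) ≠ 0 := (X.dens_pos (nu_norm hy)).ne'
  rw [h1]
  field_simp
  ring

noncomputable def wv (x : E n) : E n :=
  ∑ i, (‖x‖ * g.wf i x) • EuclideanSpace.single i (1 : ℝ)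

include hε hX h0 h1 in
theorem wv_O [NeZero n] : g.wv =O[cobounded (E n)] (fun x => ‖x‖ * ‖x‖ ^ (-ε)) ∧
    (fun x => fderiv ℝ g.wv x) =O[cobounded (E n)] fun x => ‖x‖ ^ (-ε) := by
  have e1 := fun i => (g.AC_wf hε X hX h0 h1 i).norm_mul (wfc_zero X i)
  constructor
  · exact bigO_vec fun i => (e1 i).1
  · apply bigO_vec_fderiv _ fun i => (e1 i).2
    intro i
    filter_upwards [(g.AC_wf hε X hX h0 h1 i).df, ev_ne_zero] with x h2 h3
    exact (differentiableAt_fun_id.norm ℝ h3).fun_mul h2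

theorem Z'_eq {x : E n} (hx : x ≠ 0) : g.Z' x = x + g.wv x := by
  have h0 : ‖x‖ ≠ 0 := norm_ne_zero_iff.2 hx
  ext i
  unfold Z' wv wf
  rw [PiLp.smul_apply, PiLp.add_apply, g.Aop_apply, smul_eq_mul]
  have h1 : (∑ k, (‖x‖ * ((g.mu' x)⁻¹ * (∑ j, g.ae k j x * (nu x) j) + (-1) * (nu x) k)) •
      (EuclideanSpace.single k (1 : ℝ) : E n)) i =
      ‖x‖ * ((g.mu' x)⁻¹ * (∑ j, g.ae i j x * (nu x) j) + (-1) * (nu x) i) := by
    simp only [neg_mul, one_mul, WithLp.ofLp_sum, WithLp.ofLp_smul, PiLp.ofLp_single, Finset.sum_apply, Pi.smul_apply, Pi.single_apply, smul_eq_mul, mul_ite, mul_one, mul_zero, Finset.sum_ite_eq, Finset.mem_univ, ↓reduceIte]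
  rw [h1]
  have h2 : ∑ j, g.ae i j x * (nu x) j = ‖x‖⁻¹ * (g.dens x * ∑ j, (g.G x)⁻¹ i j * x j) := by
    rw [Finset.mul_sum, Finset.mul_sum]
    apply Finset.sum_congr rfl
    intro j _
    unfold ae nu
    rw [PiLp.smul_apply, smul_eq_mul]
    ring
  rw [h2]
  have h3 : (nu x) i = ‖x‖⁻¹ * x i := by
    unfold nu
    rw [PiLp.smul_apply, smul_eq_mul]
  rw [h3]
  field_simp
  ring

include hε hX h0 h1 in
theorem Aop_O [NeZero n] : g.Aop =O[cobounded (E n)] (fun _ => (1 : ℝ)) ∧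
    (fun x => fderiv ℝ g.Aop x) =O[cobounded (E n)] (fun x => ‖x‖⁻¹) ∧
    (fun x => fderiv ℝ g.Aop x x) =O[cobounded (E n)] fun x => ‖x‖ ^ (-ε) := by
  set M : Fin n → Fin n → (E n →L[ℝ] E n) := fun i j =>
    (EuclideanSpace.proj j : E n →L[ℝ] ℝ).smulRight (EuclideanSpace.single i (1 : ℝ)) with hM
  have hae := g.AC_ae hε X hX h0 h1
  have hfd : ∀ x, fderiv ℝ g.Aop x = ∑ i, ∑ j, (fderiv ℝ (g.ae i j) x).smulRight (M i j) := by
    intro x
    have h2 : HasFDerivAt g.Aop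
        (∑ i, ∑ j, (fderiv ℝ (g.ae i j) x).smulRight (M i j)) x := by
      have h3 : g.Aop = fun x => ∑ i, ∑ j, g.ae i j x • M i j := rfl
      rw [h3]
      apply HasFDerivAt.fun_sum
      intro i _
      apply HasFDerivAt.fun_sum
      intro j _
      exact ((g.ae_contDiff i j).differentiable (by simp) x).hasFDerivAt.smul_const (M i j)
    exact h2.fderiv
  have hn1 : ∀ x, ‖fderiv ℝ g.Aop x‖ ≤ ∑ i, ∑ j, ‖M i j‖ * ‖fderiv ℝ (g.ae i j) x‖ := by
    intro x
    rw [hfd]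
    have k1 := norm_sum_le (E := E n →L[ℝ] E n →L[ℝ] E n) Finset.univ
      (fun i => ∑ j, (fderiv ℝ (g.ae i j) x).smulRight (M i j))
    refine k1.trans (Finset.sum_le_sum fun i _ => ?_)
    have k2 := norm_sum_le (E := E n →L[ℝ] E n →L[ℝ] E n) Finset.univ
      (fun j => (fderiv ℝ (g.ae i j) x).smulRight (M i j))
    refine k2.trans (Finset.sum_le_sum fun j _ => ?_)
    rw [ContinuousLinearMap.norm_smulRight_apply, mul_comm]
  refine ⟨?_, ?_, ?_⟩
  · have h3 : g.Aop = fun x => ∑ i, ∑ j, g.ae i j x • M i j := rfl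
    rw [h3]
    apply IsBigO.fun_sum
    intro i _
    apply IsBigO.fun_sum
    intro j _
    have := ((hae i j).f0 hε.le).smul (isBigO_const_const (M i j) (one_ne_zero (α := ℝ))
      (cobounded (E n)))
    simpa only [isBigO_one_iff, smul_eq_mul, mul_one] using this
  · have e0 : (fun x => ∑ i, ∑ j, ‖M i j‖ * ‖fderiv ℝ (g.ae i j) x‖)
        =O[cobounded (E n)] fun x => ‖x‖⁻¹ := by
      apply IsBigO.fun_sum
      intro i _
      apply IsBigO.fun_sum
      intro j _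
      exact ((hae i j).f1 hε.le).norm_left.const_mul_left _
    refine IsBigO.trans ?_ e0
    apply IsBigO.of_bound 1
    apply Eventually.of_forall
    intro x
    rw [one_mul, Real.norm_eq_abs]
    exact (hn1 x).trans (le_abs_self _)
  · simp only [hfd]
    have e1 : ∀ x, (∑ i, ∑ j, (fderiv ℝ (g.ae i j) x).smulRight (M i j)) x =
        ∑ i, ∑ j, (fderiv ℝ (g.ae i j) x x) • M i j := by
      intro x
      simp only [_root_.sum_apply, ContinuousLinearMap.smulRight_apply]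
    simp only [e1]
    apply IsBigO.fun_sum
    intro i _
    apply IsBigO.fun_sum
    intro j _
    have e2 : (fun x => fderiv ℝ (g.ae i j) x x) =O[cobounded (E n)] fun x => ‖x‖ ^ (-ε) := by
      have e3 := (hae i j).c1
      have e4 : (fun x => fderiv ℝ (g.ae i j) x x) =O[cobounded (E n)]
          fun x => ‖x‖ * ‖fderiv ℝ (g.ae i j) x -
            fderiv ℝ (fun x => X.dens (nu x) * (X.H (nu x))⁻¹ i j) x‖ := by
        apply IsBigO.of_bound 1
        filter_upwards [(hae i j).rad] with x hx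
        rw [one_mul, norm_mul, norm_norm, norm_norm, mul_comm]
        have e5 : fderiv ℝ (g.ae i j) x x = (fderiv ℝ (g.ae i j) x -
            fderiv ℝ (fun x => X.dens (nu x) * (X.H (nu x))⁻¹ i j) x) x := by
          rw [_root_.sub_apply, hx, sub_zero]
        rw [e5]
        exact ContinuousLinearMap.le_opNorm _ _
      refine e4.trans ?_
      refine ((isBigO_refl (fun x : E n => ‖x‖) (cobounded (E n))).mul e3.norm_left).congr'
        EventuallyEq.rfl ?_
      filter_upwards [ev_ne_zero] with x hx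
      have : ‖x‖ ≠ 0 := norm_ne_zero_iff.2 hx
      field_simp
    have := e2.smul (isBigO_const_const (M i j) (one_ne_zero (α := ℝ)) (cobounded (E n)))
    simpa only [smul_eq_mul, mul_one] using this

end build

end RMetric

end Vale.Agent.P225
end

section
open MeasureTheory Set Filter Topology Matrix Asymptotics Bornology
open scoped ContDiff

namespace Vale.Agent.P225

variable {n : ℕ}

namespace RMetric

variable (g : RMetric n)

theorem wv_diff {x : E n} (hx : x ≠ 0) : DifferentiableAt ℝ g.wv x := by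
  have h1 : DifferentiableAt ℝ g.Z' x :=
    ((g.Z'_contDiffOn (k := 1)).differentiableOn (by simp only [Nat.cast_one, ne_eq, one_ne_zero, not_false_eq_true])).differentiableAt
      (isOpen_ne.mem_nhds hx)
  have h2 : DifferentiableAt ℝ (fun y => g.Z' y - y) x := h1.fun_sub differentiableAt_fun_id
  apply h2.congr_of_eventuallyEq
  filter_upwards [isOpen_ne.mem_nhds hx] with y hy
  rw [g.Z'_eq hy]
  abel

theorem Z'_fderiv {x : E n} (hx : x ≠ 0) :
    fderiv ℝ g.Z' x = ContinuousLinearMap.id ℝ (E n) + fderiv ℝ g.wv x := by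
  have h1 : g.Z' =ᶠ[𝓝 x] fun y => y + g.wv y := by
    filter_upwards [isOpen_ne.mem_nhds hx] with y hy
    exact g.Z'_eq hy
  rw [h1.fderiv_eq, fderiv_fun_add differentiableAt_fun_id (g.wv_diff hx), fderiv_fun_id]

theorem Aop_self' {x : E n} (hx : x ≠ 0) : g.Aop x x = g.mu' x • g.Z' x := by
  unfold Z'
  rw [smul_smul, mul_inv_cancel₀ (g.mu'_pos hx).ne', one_smul]

theorem Z'_inner {x : E n} (hx : x ≠ 0) : inner ℝ (g.Z' x) x = ‖x‖ ^ 2 := by
  have h1 := g.mu'_pos hx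
  have h2 : ‖x‖ ≠ 0 := norm_ne_zero_iff.2 hx
  unfold Z'
  rw [real_inner_smul_left]
  have h3 : inner ℝ (g.Aop x x) x = g.mu' x * ‖x‖ ^ 2 := by
    unfold mu'
    field_simp
  rw [h3]
  (clear * - h1 h2; field_simp)

theorem exists_cone_ac [NeZero n] {ε : ℝ} (hε : 0 < ε) (hε' : ε ≤ 1 / 4) (X : SphereMetric n)
    (hX : ∀ i j, ContDiff ℝ 1 (fun x => X.H x i j))
    (h0 : ∀ i j, (fun x => g.G x i j - X.H (nu x) i j) =O[cobounded (E n)] fun x => ‖x‖ ^ (-ε))
    (h1 : ∀ i j, (fun x => fderiv ℝ (fun y => g.G y i j - X.H (nu y) i j) x) =O[cobounded (E n)]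
      fun x => ‖x‖⁻¹ * ‖x‖ ^ (-ε)) :
    ∃ K : Cone n, K.A = g.Aop ∧ K.μ = g.mu' := by
  obtain ⟨hA0, hA1, hA2⟩ := g.Aop_O hε X hX h0 h1
  obtain ⟨hW0, hW1⟩ := g.wv_O hε X hX h0 h1
  have hmu := g.AC_mu' hε X hX h0 h1
  have hpow : Tendsto (fun x : E n => ‖x‖ ^ (-ε)) (cobounded (E n)) (𝓝 0) :=
    (tendsto_rpow_neg_atTop hε).comp tendsto_norm_cobounded_atTop
  have hpn : ∀ x : E n, ‖‖x‖ ^ (-ε)‖ = ‖x‖ ^ (-ε) := fun x => by
    rw [Real.norm_eq_abs, abs_of_nonneg (by (clear * -; positivity))]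
  -- ellipticity
  obtain ⟨c, hc, hell⟩ : ∃ c : ℝ, 0 < c ∧ ∀ᶠ x in cobounded (E n), ∀ v : E n,
      c * ‖v‖ ^ 2 ≤ inner ℝ (g.Aop x v) v := by
    obtain ⟨R, hR0, hR⟩ := g.aop_close X (fun i j => (h0 i j).trans_tendsto hpow)
      (δ := 1 / 2) (by norm_num)
    obtain ⟨c1, hc1, hc1'⟩ := X.exists_det_lower
    obtain ⟨c2, hc2, hc2'⟩ := X.exists_inv_lower
    refine ⟨1 / 2 * (√c1 * c2), by (clear * - hc1 hc2; positivity), ?_⟩
    filter_upwards [ev_big R, ev_ne_zero] with x hx hx0 v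
    refine le_trans ?_ (hR x hx v)
    have e1 : √c1 ≤ X.dens (nu x) := Real.sqrt_le_sqrt (hc1' _ (nu_norm hx0))
    have e2 := hc2' _ (nu_norm hx0) v
    have e3 : √c1 * (c2 * ‖v‖ ^ 2) ≤ X.dens (nu x) *
        ((v : Fin n → ℝ) ⬝ᵥ (X.H (nu x))⁻¹ *ᵥ (v : Fin n → ℝ)) := by
      apply mul_le_mul e1 e2 (by (clear * - hc2; positivity)) (Real.sqrt_nonneg _)
    unfold nu at e3
    linarith only [e3]
  -- the error of the first identity
  have hrr : (fun x : E n => ‖x‖⁻¹ * (‖x‖ * ‖x‖ ^ (-ε))) =O[cobounded (E n)]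
      fun x => ‖x‖ ^ (-ε) := by
    apply IsBigO.of_bound 1
    filter_upwards [ev_ne_zero] with x hx
    have : ‖x‖ ≠ 0 := norm_ne_zero_iff.2 hx
    rw [← mul_assoc, inv_mul_cancel₀ this, one_mul, one_mul]
  have hE1 : (fun x => 2 * (‖fderiv ℝ g.wv x‖ * ‖g.Aop x‖) +
      n * (‖fderiv ℝ g.wv x‖ * ‖g.Aop x‖) + ‖fderiv ℝ g.Aop x x‖ +
      ‖fderiv ℝ g.Aop x‖ * ‖g.wv x‖) =O[cobounded (E n)] fun x => ‖x‖ ^ (-ε) := by
    have e1 : (fun x => ‖fderiv ℝ g.wv x‖ * ‖g.Aop x‖) =O[cobounded (E n)]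
        fun x => ‖x‖ ^ (-ε) := by
      simpa only [mul_one] using hW1.norm_left.mul hA0.norm_left
    have k1 : (fun x => ‖fderiv ℝ g.Aop x‖) =O[cobounded (E n)] fun x => ‖x‖⁻¹ := by
      obtain ⟨Ca, hCa⟩ := hA1.bound
      apply IsBigO.of_bound Ca
      filter_upwards [hCa] with x hx
      rw [Real.norm_eq_abs, abs_of_nonneg (ContinuousLinearMap.opNorm_nonneg _)]
      exact hx
    have e2 : (fun x => ‖fderiv ℝ g.Aop x‖ * ‖g.wv x‖) =O[cobounded (E n)]
        fun x => ‖x‖ ^ (-ε) := (k1.mul hW0.norm_left).trans hrr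
    exact (((e1.const_mul_left 2).add (e1.const_mul_left n)).add hA2.norm_left).add e2
  have hmu1 := hmu.f1 hε.le
  have hmu0 := hmu.f0 hε.le
  have hmur : (fun x => fderiv ℝ g.mu' x x) =O[cobounded (E n)] fun x => ‖x‖ ^ (-ε) := by
    have e4 : (fun x => fderiv ℝ g.mu' x x) =O[cobounded (E n)]
        fun x => ‖x‖ * ‖fderiv ℝ g.mu' x - fderiv ℝ (fun x => X.dens (nu x)) x‖ := by
      apply IsBigO.of_bound 1
      filter_upwards [hmu.rad] with x hx
      rw [one_mul, norm_mul, norm_norm, norm_norm, mul_comm]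
      have e5 : fderiv ℝ g.mu' x x = (fderiv ℝ g.mu' x -
          fderiv ℝ (fun x => X.dens (nu x)) x) x := by
        rw [_root_.sub_apply, hx, sub_zero]
      rw [e5]
      exact ContinuousLinearMap.le_opNorm _ _
    refine e4.trans ?_
    refine ((isBigO_refl (fun x : E n => ‖x‖) (cobounded (E n))).mul hmu.c1.norm_left).congr'
      EventuallyEq.rfl ?_
    filter_upwards [ev_ne_zero] with x hx
    have : ‖x‖ ≠ 0 := norm_ne_zero_iff.2 hx
    field_simp
  have hE2 : (fun x => ‖fderiv ℝ g.mu' x x‖ + ‖fderiv ℝ g.mu' x‖ * ‖g.wv x‖ +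
      n * (‖g.mu' x‖ * ‖fderiv ℝ g.wv x‖)) =O[cobounded (E n)] fun x => ‖x‖ ^ (-ε) := by
    have e2 : (fun x => ‖fderiv ℝ g.mu' x‖ * ‖g.wv x‖) =O[cobounded (E n)]
        fun x => ‖x‖ ^ (-ε) := (hmu1.norm_left.mul hW0.norm_left).trans hrr
    have e3 : (fun x => ‖g.mu' x‖ * ‖fderiv ℝ g.wv x‖) =O[cobounded (E n)]
        fun x => ‖x‖ ^ (-ε) := by
      simpa only [Real.norm_eq_abs, one_mul] using hmu0.norm_left.mul hW1.norm_left
    exact (hmur.norm_left.add e2).add (e3.const_mul_left n)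
  obtain ⟨C1, hC1⟩ := hE1.bound
  obtain ⟨C2, hC2⟩ := hE2.bound
  obtain ⟨R, hR0, hR⟩ := exists_R_of_eventually (hell.and (hC1.and hC2))
  set C : ℝ := (|C1| + |C2|) / c with hC
  have hC0 : 0 ≤ C := by (clear * - hc; positivity)
  have hne : ∀ x : E n, max R 1 < ‖x‖ → x ≠ 0 := by
    intro x hx h
    rw [h, norm_zero] at hx
    linarith only [hx, le_max_right R 1]
  have hbig : ∀ x : E n, max R 1 < ‖x‖ → R ≤ ‖x‖ := fun x hx => (le_max_left R 1).trans hx.le
  have hsub : {x : E n | max R 1 < ‖x‖} ⊆ {x | x ≠ 0} := fun x hx => hne x hx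
  refine ⟨{
    A := g.Aop
    hA := g.Aop_contDiff.of_le (by norm_cast)
    sym := g.Aop_symm
    pos := g.Aop_pos
    R₀ := max R 1
    hR₀ := le_max_right _ _
    Z := g.Z'
    hZ := (g.Z'_contDiffOn (k := 1)).mono hsub
    μ := g.mu'
    hμ := (g.mu'_contDiffOn (k := 1)).mono hsub
    hAx := fun x hx => g.Aop_self' (hne x hx)
    hZx := fun x hx => g.Z'_inner (hne x hx)
    ε := ε
    C := C
    hε := hε
    hε' := hε'
    hC := hC0
    b1 := ?_
    b2 := ?_ }, rfl, rfl⟩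
  · intro x hx v
    obtain ⟨h2, h3, h4⟩ := hR x (hbig x hx)
    have hx0 := hne x hx
    have h5 := h2 v
    rw [hpn] at h3
    have h6 := (Real.le_norm_self _).trans h3
    have hZd : divg g.Z' x = n + divg g.wv x := by
      have e1 : divg g.Z' x = divg (fun y => y + g.wv y) x := by
        unfold divg
        rw [g.Z'_fderiv hx0, fderiv_fun_add differentiableAt_fun_id (g.wv_diff hx0), fderiv_fun_id]
      rw [e1, divg_add differentiableAt_fun_id (g.wv_diff hx0), divg_id]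
    have key : 2 * inner ℝ (fderiv ℝ g.Z' x (g.Aop x v)) v -
        inner ℝ (g.Aop x v) v * divg g.Z' x - inner ℝ ((fderiv ℝ g.Aop x (g.Z' x)) v) v -
          (2 - (n : ℝ)) * inner ℝ (g.Aop x v) v =
        2 * inner ℝ (fderiv ℝ g.wv x (g.Aop x v)) v - inner ℝ (g.Aop x v) v * divg g.wv x -
          inner ℝ ((fderiv ℝ g.Aop x x) v) v - inner ℝ ((fderiv ℝ g.Aop x (g.wv x)) v) v := by
      rw [hZd, g.Z'_fderiv hx0, g.Z'_eq hx0, map_add]
      simp only [_root_.add_apply, ContinuousLinearMap.coe_id', id_eq, inner_add_left]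
      ring
    rw [key]
    have hv0 : 0 ≤ ‖v‖ := norm_nonneg v
    have t1 : |inner ℝ (fderiv ℝ g.wv x (g.Aop x v)) v| ≤
        (‖fderiv ℝ g.wv x‖ * ‖g.Aop x‖) * ‖v‖ ^ 2 := by
      calc |inner ℝ (fderiv ℝ g.wv x (g.Aop x v)) v|
          ≤ ‖fderiv ℝ g.wv x (g.Aop x v)‖ * ‖v‖ := abs_real_inner_le_norm _ _
        _ ≤ (‖fderiv ℝ g.wv x‖ * (‖g.Aop x‖ * ‖v‖)) * ‖v‖ := by
            apply mul_le_mul_of_nonneg_right _ hv0
            exact ((fderiv ℝ g.wv x).le_opNorm _).trans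
              (mul_le_mul_of_nonneg_left ((g.Aop x).le_opNorm v) (norm_nonneg _))
        _ = _ := by ring
    have t2 : |inner ℝ (g.Aop x v) v * divg g.wv x| ≤
        n * (‖fderiv ℝ g.wv x‖ * ‖g.Aop x‖) * ‖v‖ ^ 2 := by
      rw [abs_mul]
      calc |inner ℝ (g.Aop x v) v| * |divg g.wv x|
          ≤ ((‖g.Aop x‖ * ‖v‖) * ‖v‖) * (n * ‖fderiv ℝ g.wv x‖) := by
            apply mul_le_mul _ (divg_abs_le _ _) (abs_nonneg _) (by (clear * -; positivity))
            exact (abs_real_inner_le_norm _ _).trans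
              (mul_le_mul_of_nonneg_right ((g.Aop x).le_opNorm v) hv0)
        _ = _ := by ring
    have t3 : |inner ℝ ((fderiv ℝ g.Aop x x) v) v| ≤ ‖fderiv ℝ g.Aop x x‖ * ‖v‖ ^ 2 := by
      calc |inner ℝ ((fderiv ℝ g.Aop x x) v) v| ≤ ‖(fderiv ℝ g.Aop x x) v‖ * ‖v‖ :=
            abs_real_inner_le_norm _ _
        _ ≤ (‖fderiv ℝ g.Aop x x‖ * ‖v‖) * ‖v‖ :=
            mul_le_mul_of_nonneg_right ((fderiv ℝ g.Aop x x).le_opNorm v) hv0
        _ = _ := by ring
    have t4 : |inner ℝ ((fderiv ℝ g.Aop x (g.wv x)) v) v| ≤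
        (‖fderiv ℝ g.Aop x‖ * ‖g.wv x‖) * ‖v‖ ^ 2 := by
      calc |inner ℝ ((fderiv ℝ g.Aop x (g.wv x)) v) v|
          ≤ ‖(fderiv ℝ g.Aop x (g.wv x)) v‖ * ‖v‖ := abs_real_inner_le_norm _ _
        _ ≤ (‖fderiv ℝ g.Aop x (g.wv x)‖ * ‖v‖) * ‖v‖ :=
            mul_le_mul_of_nonneg_right ((fderiv ℝ g.Aop x (g.wv x)).le_opNorm v) hv0
        _ ≤ ((‖fderiv ℝ g.Aop x‖ * ‖g.wv x‖) * ‖v‖) * ‖v‖ := by
            apply mul_le_mul_of_nonneg_right _ hv0
            apply mul_le_mul_of_nonneg_right _ hv0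
            exact (fderiv ℝ g.Aop x).le_opNorm _
        _ = _ := by ring
    have t5 := abs_sub (2 * inner ℝ (fderiv ℝ g.wv x (g.Aop x v)) v -
      inner ℝ (g.Aop x v) v * divg g.wv x - inner ℝ ((fderiv ℝ g.Aop x x) v) v)
      (inner ℝ ((fderiv ℝ g.Aop x (g.wv x)) v) v)
    have t6 := abs_sub (2 * inner ℝ (fderiv ℝ g.wv x (g.Aop x v)) v -
      inner ℝ (g.Aop x v) v * divg g.wv x) (inner ℝ ((fderiv ℝ g.Aop x x) v) v)
    have t7 := abs_sub (2 * inner ℝ (fderiv ℝ g.wv x (g.Aop x v)) v)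
      (inner ℝ (g.Aop x v) v * divg g.wv x)
    rw [abs_mul (2 : ℝ), abs_of_pos (by norm_num : (0 : ℝ) < 2)] at t7
    have t8 := mul_le_mul_of_nonneg_right h6 (sq_nonneg ‖v‖)
    have t9 : C1 * ‖x‖ ^ (-ε) * ‖v‖ ^ 2 ≤ C * ‖x‖ ^ (-ε) * inner ℝ (g.Aop x v) v := by
      have hp : 0 ≤ ‖x‖ ^ (-ε) := by positivity
      calc C1 * ‖x‖ ^ (-ε) * ‖v‖ ^ 2 ≤ (|C1| + |C2|) * ‖x‖ ^ (-ε) * ‖v‖ ^ 2 := by
            gcongr
            linarith only [le_abs_self C1, abs_nonneg C2]
        _ = C * ‖x‖ ^ (-ε) * (c * ‖v‖ ^ 2) := by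
            rw [hC]; (clear * - hc hx0; field_simp)
        _ ≤ C * ‖x‖ ^ (-ε) * inner ℝ (g.Aop x v) v :=
            mul_le_mul_of_nonneg_left h5 (mul_nonneg hC0 hp)
    linarith only [t1, t2, t3, t4, t5, t6, t7, t8, t9]
  · intro x hx
    obtain ⟨h2, h3, h4⟩ := hR x (hbig x hx)
    have hx0 := hne x hx
    have hxn : 0 < ‖x‖ := norm_pos_iff.2 hx0
    rw [hpn] at h4
    have h6 := (Real.le_norm_self _).trans h4
    have hμc : c ≤ g.mu' x := by
      have h7 := h2 x
      unfold mu'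
      rw [le_div_iff₀ (by positivity)]
      exact h7
    have hdμ : DifferentiableAt ℝ g.mu' x :=
      ((g.mu'_contDiffOn (k := 1)).differentiableOn (by simp)).differentiableAt
        (isOpen_ne.mem_nhds hx0)
    have e1 : divg (fun y => g.Aop y y - g.mu' y • y) x =
        inner ℝ (gr g.mu' x) (g.wv x) + g.mu' x * divg g.wv x := by
      have hev : (fun y => g.Aop y y - g.mu' y • y) =ᶠ[𝓝 x] fun y => g.mu' y • g.wv y := by
        filter_upwards [isOpen_ne.mem_nhds hx0] with y hy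
        rw [g.Aop_self' hy, g.Z'_eq hy, smul_add]
        abel
      rw [← divg_smul hdμ (g.wv_diff hx0)]
      unfold divg
      rw [hev.fderiv_eq]
    rw [e1, inner_gr]
    have t1 : |fderiv ℝ g.mu' x (g.wv x)| ≤ ‖fderiv ℝ g.mu' x‖ * ‖g.wv x‖ := by
      have := (fderiv ℝ g.mu' x).le_opNorm (g.wv x)
      rwa [Real.norm_eq_abs] at this
    have t2 : |g.mu' x * divg g.wv x| ≤ n * (‖g.mu' x‖ * ‖fderiv ℝ g.wv x‖) := by
      rw [abs_mul, Real.norm_eq_abs]
      calc |g.mu' x| * |divg g.wv x| ≤ |g.mu' x| * (n * ‖fderiv ℝ g.wv x‖) :=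
            mul_le_mul_of_nonneg_left (divg_abs_le _ _) (abs_nonneg _)
        _ = _ := by ring
    have t3 := abs_add_le (fderiv ℝ g.mu' x x)
      (fderiv ℝ g.mu' x (g.wv x) + g.mu' x * divg g.wv x)
    have t4 := abs_add_le (fderiv ℝ g.mu' x (g.wv x)) (g.mu' x * divg g.wv x)
    rw [← Real.norm_eq_abs (fderiv ℝ g.mu' x x)] at t3
    have t9 : C2 * ‖x‖ ^ (-ε) ≤ C * ‖x‖ ^ (-ε) * g.mu' x := by
      have hp : 0 ≤ ‖x‖ ^ (-ε) := by positivity
      calc C2 * ‖x‖ ^ (-ε) ≤ (|C1| + |C2|) * ‖x‖ ^ (-ε) := by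
            gcongr
            linarith only [le_abs_self C2, abs_nonneg C1]
        _ = C * ‖x‖ ^ (-ε) * c := by
            rw [hC]; (clear * - hc hx0; field_simp)
        _ ≤ C * ‖x‖ ^ (-ε) * g.mu' x :=
            mul_le_mul_of_nonneg_left hμc (mul_nonneg hC0 hp)
    linarith only [h6, t1, t2, t3, t4, t9]

end RMetric

end Vale.Agent.P225
end

section
open MeasureTheory Set Metric Filter Topology
open scoped ContDiff

namespace Vale.Agent.P225

variable {n : ℕ}

theorem sphInt_eq [NeZero n] {f : E n → ℝ}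
    (hf : Continuous fun θ : sphere (0 : E n) 1 => f (θ : E n)) :
    sphInt f = ∫ θ : sphere (0 : E n) 1, f (θ : E n) ∂(sig n) := by
  have hn0 : (n : ℝ) ≠ 0 := by exact_mod_cast NeZero.ne n
  set h : E n → ℝ := fun x => f (nu x) with hh
  set S : Set (E n) := ball 0 1 \ {0} with hS
  have hSm : MeasurableSet S := measurableSet_ball.diff (measurableSet_singleton 0)
  set c : ℝ := ∫ θ : sphere (0 : E n) 1, f (θ : E n) ∂(sig n) with hc
  -- transfer to Euclidean space
  have h1 : ∫ x in {x : Fin n → ℝ | ∑ i, x i ^ 2 < 1},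
      f (‖WithLp.toLp 2 x‖⁻¹ • WithLp.toLp 2 x) = ∫ y in ball (0 : E n) 1, h y := by
    have e1 : {x : Fin n → ℝ | ∑ i, x i ^ 2 < 1} =
        (WithLp.toLp 2 : (Fin n → ℝ) → E n) ⁻¹' (ball (0 : E n) 1) := by
      ext x
      simp only [mem_setOf_eq, mem_preimage, mem_ball_zero_iff]
      have e2 : ‖(WithLp.toLp 2 x : E n)‖ ^ 2 = ∑ i, x i ^ 2 := by
        rw [EuclideanSpace.norm_sq_eq]
        apply Finset.sum_congr rfl
        intro i _
        rw [Real.norm_eq_abs, sq_abs]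
      rw [← e2]
      have := norm_nonneg (WithLp.toLp 2 x : E n)
      constructor
      · intro h; nlinarith only [h]
      · intro h; nlinarith only [h, this]
    rw [e1]
    have hmp := PiLp.volume_preserving_toLp (Fin n)
    have he : MeasurableEmbedding (WithLp.toLp 2 : (Fin n → ℝ) → E n) :=
      (MeasurableEquiv.toLp 2 (Fin n → ℝ)).measurableEmbedding
    exact hmp.setIntegral_preimage_emb he h (ball (0 : E n) 1)
  have h2 : ∫ y in ball (0 : E n) 1, h y = ∫ y in S, h y := by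
    apply setIntegral_congr_set
    have h0 : (volume : Measure (E n)) {0} = 0 := measure_singleton 0
    exact (diff_null_ae_eq_self h0).symm
  have h3 : ∫ y in S, h y = ∫ y, S.indicator h y := (integral_indicator hSm).symm
  have hcont : ContinuousOn h {x : E n | x ≠ 0} := by
    have h4 : ContinuousOn f (sphere (0 : E n) 1) := by
      rw [continuousOn_iff_continuous_domRestrict]
      exact hf
    apply h4.comp (nu_contDiffOn (k := 0)).continuousOn
    intro x hx
    rw [mem_sphere_zero_iff_norm]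
    exact nu_norm hx
  have hSsub : S ⊆ {x : E n | x ≠ 0} := fun x hx => hx.2
  have hint : Integrable (S.indicator h) := by
    rw [integrable_indicator_iff hSm]
    obtain ⟨B, hB⟩ := (isCompact_sphere (0 : E n) 1).exists_bound_of_continuousOn (f := f) (by
      rw [continuousOn_iff_continuous_domRestrict]
      exact hf)
    have k1 : (volume : Measure (E n)) S < ⊤ :=
      (measure_mono diff_subset).trans_lt measure_ball_lt_top
    have k2 : AEStronglyMeasurable h ((volume : Measure (E n)).restrict S) :=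
      (hcont.mono hSsub).aestronglyMeasurable hSm
    have k3 : ∀ᵐ x ∂((volume : Measure (E n)).restrict S), ‖h x‖ ≤ B := by
      filter_upwards [ae_restrict_mem hSm] with x hx
      exact hB _ (by rw [mem_sphere_zero_iff_norm]; exact nu_norm (hSsub hx))
    exact IntegrableOn.of_bound k1 k2 B k3
  have h5 := integral_polar _ hint
  have h6 : ∀ r : ℝ, 0 < r → sph (S.indicator h) r = if r < 1 then c else 0 := by
    intro r hr
    unfold sph
    split_ifs with hr1
    · rw [hc]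
      congr 1
      funext θ
      have hn : ‖r • (θ : E n)‖ = r := norm_smul_sphere hr.le θ
      have hmem : r • (θ : E n) ∈ S := by
        refine ⟨by rw [mem_ball_zero_iff, hn]; exact hr1, ?_⟩
        intro h0
        rw [mem_singleton_iff] at h0
        rw [h0, norm_zero] at hn
        linarith only [hr, hn]
      rw [indicator_of_mem hmem, hh]
      beta_reduce
      rw [nu_smul hr]
      unfold nu
      rw [norm_eq_of_mem_sphere, inv_one, one_smul]
    · have : ∀ θ : sphere (0 : E n) 1, S.indicator h (r • (θ : E n)) = 0 := by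
        intro θ
        apply indicator_of_notMem
        intro h0
        have hn : ‖r • (θ : E n)‖ = r := norm_smul_sphere hr.le θ
        have h7 := h0.1
        rw [mem_ball_zero_iff, hn] at h7
        exact hr1 h7
      simp only [this, integral_zero]
  have h7 : ∫ r in Ioi (0 : ℝ), r ^ (n - 1) * sph (S.indicator h) r =
      ∫ r in Ioi (0 : ℝ), (Iio (1 : ℝ)).indicator (fun r => r ^ (n - 1) * c) r := by
    apply setIntegral_congr_fun measurableSet_Ioi
    intro r hr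
    beta_reduce
    rw [h6 r hr]
    by_cases hr1 : r < 1
    · rw [if_pos hr1, indicator_of_mem (show r ∈ Iio (1 : ℝ) from hr1)]
    · rw [if_neg hr1, mul_zero, indicator_of_notMem (show r ∉ Iio (1 : ℝ) from hr1)]
  have h8 : ∫ r in Ioi (0 : ℝ), (Iio (1 : ℝ)).indicator (fun r => r ^ (n - 1) * c) r = c / n := by
    rw [setIntegral_indicator measurableSet_Iio]
    have e1 : Ioi (0 : ℝ) ∩ Iio 1 = Ioo 0 1 := Ioi_inter_Iio
    rw [e1, ← integral_Ioc_eq_integral_Ioo, ← intervalIntegral.integral_of_le zero_le_one,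
      intervalIntegral.integral_mul_const, integral_pow]
    have e2 : ((n - 1 : ℕ) : ℝ) + 1 = n := by
      have : 1 ≤ n := Nat.one_le_iff_ne_zero.2 (NeZero.ne n)
      push_cast [Nat.cast_sub this]
      ring
    have e3 : n - 1 + 1 ≠ 0 := by omega
    rw [e2, one_pow, zero_pow e3, sub_zero]
    ring
  unfold sphInt
  rw [h1, h2, h3, h5, h7, h8]
  (clear * - hn0; field_simp)

end Vale.Agent.P225
end

section
open MeasureTheory Set Filter Topology Matrix Asymptotics Bornology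
open scoped ContDiff

namespace Vale.Agent.P225

variable {n : ℕ}

theorem dimLE_of_rank {g : RMetric n} {d : ℝ} {N : ℕ}
    (h : Module.rank ℝ (g.harmSub d) ≤ N) : DimLE (g.harm d) N := by
  intro f hf
  have h1 : ¬ LinearIndependent ℝ (fun i => (⟨f i, hf i⟩ : g.harmSub d)) := by
    intro hli
    have h2 := hli.cardinal_le_rank
    rw [Cardinal.mk_fin] at h2
    have h3 := h2.trans h
    have h4 : N + 1 ≤ N := by exact_mod_cast h3
    omega
  rw [Fintype.not_linearIndependent_iff] at h1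
  obtain ⟨c, hc, i, hi⟩ := h1
  refine ⟨c, fun h0 => hi (by rw [h0]; rfl), fun x => ?_⟩
  have h2 := congrArg (fun z : g.harmSub d => (z : E n → ℝ) x) hc
  simpa only [AddSubmonoidClass.coe_finsetSum, SetLike.val_smul, Finset.sum_apply, Pi.smul_apply, smul_eq_mul,     ZeroMemClass.coe_zero, Pi.zero_apply] using h2

namespace Section

variable (X : Section n)

/-- forget the smoothness -/
def toSM : SphereMetric n where
  H := X.H
  cont i j := (X.diff i j).continuous.continuousOn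
  pos := X.pos
  radial := X.radial

theorem mass_eq [NeZero n] {f : E n → ℝ} (hf : Continuous f) : X.mass f = X.toSM.mass f := by
  unfold mass
  rw [sphInt_eq]
  · rfl
  · exact X.toSM.dens_cont_sub.mul ((hf.comp continuous_subtype_val).pow 2)

theorem energy_eq [NeZero n] {f : E n → ℝ} (hf : ContDiff ℝ 1 f) :
    X.energy f = X.toSM.energy f := by
  have hg : Continuous (gr f) := (contDiff_gr hf (l := 0) (by simp)).continuous
  unfold energy
  rw [sphInt_eq]
  · rfl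
  · have h2 : (fun θ : Metric.sphere (0 : E n) 1 => X.dens (θ : E n) *
        qf (X.H (θ : E n))⁻¹ (tgrad f (θ : E n))) =
      fun θ : Metric.sphere (0 : E n) 1 => X.toSM.dens (θ : E n) *
        ((SphereMetric.tp (θ : E n) (gr f (θ : E n)) : Fin n → ℝ) ⬝ᵥ
        (X.toSM.H (θ : E n))⁻¹ *ᵥ (SphereMetric.tp (θ : E n) (gr f (θ : E n)) : Fin n → ℝ)) := by
      funext θ
      rw [← X.toSM.energy_integrand]
      rfl
    rw [h2]
    exact X.toSM.dens_cont_sub.mul (X.toSM.energy_integrand_cont hg)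

theorem toSM_eigenvalue [NeZero n] {N : ℕ} {μ : ℝ} (h : X.EigenvalueGE N μ) :
    X.toSM.EigenvalueGE N μ := by
  intro f hf
  obtain ⟨c, hc0, hc⟩ := h f fun i => (hf i).of_le (by norm_cast)
  refine ⟨c, hc0, ?_⟩
  have h1 : ContDiff ℝ 1 (fun x => ∑ i, c i * f i x) :=
    ContDiff.sum fun i _ => contDiff_const.mul ((hf i).of_le (by norm_cast))
  rw [X.mass_eq h1.continuous, X.energy_eq h1] at hc
  exact hc

theorem cut_nonneg (x : E n) : 0 ≤ cut x := Real.smoothTransition.nonneg _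

theorem cut_nu_cont {φ : E n → ℝ} (hφ : ContinuousOn φ (Metric.sphere 0 1)) :
    Continuous fun x => cut x * φ (nu x) := by
  rw [continuous_iff_continuousAt]
  intro x
  by_cases hx : x = 0
  · have h1 : (fun x => cut x * φ (nu x)) =ᶠ[𝓝 x] fun _ => (0 : ℝ) := by
      have h2 : Metric.ball (0 : E n) (1 / 2) ∈ 𝓝 x := by
        rw [hx]; exact Metric.ball_mem_nhds _ (by norm_num)
      filter_upwards [h2] with y hy
      rw [cut_zero (by simpa only [one_div, Metric.mem_ball, dist_zero_right] using hy), zero_mul]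
    exact continuousAt_const.congr h1.symm
  · have h3 : ContinuousOn (fun x => φ (nu x)) {x : E n | x ≠ 0} := by
      apply hφ.comp (nu_contDiffOn (k := 0)).continuousOn
      intro y hy
      rw [mem_sphere_zero_iff_norm]
      exact nu_norm hy
    exact cut_contDiff.continuous.continuousAt.mul (h3.continuousAt (isOpen_ne.mem_nhds hx))

theorem toSM_dominated [NeZero n] (h : X.Dominated) : X.toSM.Dominated := by
  intro η hη
  obtain ⟨Φ, τ, b, β, hb, hbβ, hβτ, hΦ, hs, hm⟩ := h η hη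
  have hΦc : ContDiff ℝ 1 Φ := by
    rw [contDiff_euclidean]
    exact hΦ
  refine ⟨Φ, τ, b, β, hb, hbβ, hβτ, hΦc.contDiffOn, fun x hx => (hs x hx).1, ?_, ?_⟩
  · intro x v hx hxv
    have h1 := (hs x hx).2 (v : Fin n → ℝ) (by
      have h2 : inner ℝ x v = ∑ i, v i * x i := by
        rw [real_inner_comm, RMetric.inner_eq_dot]; rfl
      rw [← h2, hxv])
    have h3 : ∀ k, (fderiv ℝ Φ x v) k = ∑ i, v i * RMetric.pd i (fun y => Φ y k) x := by
      intro k
      have h4 : fderiv ℝ (fun y => Φ y k) x v = (fderiv ℝ Φ x v) k := by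
        have h5 := ((EuclideanSpace.proj (𝕜 := ℝ) k).hasFDerivAt.comp x
          ((hΦc.differentiable (by simp)) x).hasFDerivAt).fderiv
        have h6 : (fun y => Φ y k) = (EuclideanSpace.proj (𝕜 := ℝ) k) ∘ Φ := rfl
        rw [h6, h5]
        rfl
      rw [← h4, clm_apply_eq_sum]
      rfl
    have h7 : X.toSM.quad (Φ x) (fderiv ℝ Φ x v) =
        qf (X.H (Φ x)) (fun k => ∑ i, v i * RMetric.pd i (fun y => Φ y k) x) := by
      unfold SphereMetric.quad qf
      simp only [h3]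
      rfl
    rw [h7]
    have h8 : ‖v‖ ^ 2 = ∑ i, v i ^ 2 := by
      rw [EuclideanSpace.norm_sq_eq]
      apply Finset.sum_congr rfl
      intro i _
      rw [Real.norm_eq_abs, sq_abs]
    rw [h8]
    exact h1
  · intro φ hφ hφ0
    obtain ⟨h1, h2⟩ := hm (fun x => cut x * φ (nu x)) (cut_nu_cont hφ) (fun x => by
      by_cases hx : x = 0
      · rw [hx, cut_zero (by simp only [norm_zero, one_div, inv_pos, Nat.ofNat_pos]), zero_mul]
      · exact mul_nonneg (cut_nonneg x) (hφ0 _ (nu_norm hx)))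
    have h3 : ∀ θ : E n, ‖θ‖ = 1 → cut θ * φ (nu θ) = φ θ := by
      intro θ hθ
      rw [cut_one (by rw [hθ]; (clear * -; norm_num))]
      unfold nu
      rw [hθ, inv_one, one_smul, one_mul]
    have hcc := cut_nu_cont hφ
    have hcΦ : Continuous fun θ : Metric.sphere (0 : E n) 1 =>
        cut (Φ (θ : E n)) * φ (nu (Φ (θ : E n))) :=
      (hcc.comp hΦc.continuous).comp continuous_subtype_val
    have hcd : Continuous fun θ : Metric.sphere (0 : E n) 1 =>
        cut (θ : E n) * φ (nu (θ : E n)) * X.dens (θ : E n) :=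
      (hcc.comp continuous_subtype_val).mul X.toSM.dens_cont_sub
    have e1 : sphInt (fun x => cut (Φ x) * φ (nu (Φ x))) =
        ∫ θ : Metric.sphere (0 : E n) 1, φ (Φ θ) ∂(volume : Measure (E n)).toSphere := by
      rw [sphInt_eq hcΦ]
      congr 1
      funext θ
      exact h3 _ (hs _ (norm_eq_of_mem_sphere θ)).1
    have e2 : sphInt (fun x => cut x * φ (nu x) * X.dens x) =
        ∫ θ : Metric.sphere (0 : E n) 1, φ θ * X.toSM.dens θ
          ∂(volume : Measure (E n)).toSphere := by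
      rw [sphInt_eq hcd]
      congr 1
      funext θ
      beta_reduce
      rw [h3 _ (norm_eq_of_mem_sphere θ)]
      rfl
    rw [e1, e2] at h1 h2
    exact ⟨h1, h2⟩

end Section

theorem clm_norm_le (L : E n →L[ℝ] ℝ) {b : ℝ} (hb : 0 ≤ b)
    (h : ∀ k, |L (EuclideanSpace.single k 1)| ≤ b) : ‖L‖ ≤ n * b := by
  apply ContinuousLinearMap.opNorm_le_bound _ (by positivity)
  intro v
  rw [clm_apply_eq_sum L v, Real.norm_eq_abs]
  calc |∑ i, v i • L (EuclideanSpace.single i 1)|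
      ≤ ∑ i, |v i • L (EuclideanSpace.single i 1)| := Finset.abs_sum_le_sum_abs _ _
    _ ≤ ∑ _i : Fin n, b * ‖v‖ := by
        apply Finset.sum_le_sum
        intro i _
        rw [smul_eq_mul, abs_mul, mul_comm b]
        apply mul_le_mul _ (h i) (abs_nonneg _) (norm_nonneg _)
        have := PiLp.norm_apply_le v i
        simpa only [ge_iff_le, Real.norm_eq_abs] using this
    _ = n * b * ‖v‖ := by simp only [Finset.sum_const, Finset.card_univ, Fintype.card_fin, nsmul_eq_mul, mul_assoc]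

theorem dim_le_flag (hn : 3 ≤ n) (g : RMetric n) (X : Section n) (hg : AsymptoticTo g X)
    {d : ℝ} (hd : 0 ≤ d) {N : ℕ} {m0 : ℝ} (hE : X.toSM.EigenvalueGE N m0)
    (hdm : d * (d + n - 2) < m0) : Module.rank ℝ (g.harmSub d) ≤ N := by
  have : NeZero n := ⟨by omega⟩
  obtain ⟨R, C, ε₀, hε₀, hC⟩ := hg
  set ε : ℝ := min ε₀ (1 / 4) with hε
  have hε0 : 0 < ε := lt_min hε₀ (by norm_num)
  have hε1 : ε ≤ 1 / 4 := min_le_right _ _
  have hexp : ∀ x : E n, 1 ≤ ‖x‖ → ‖x‖ ^ (-ε₀) ≤ ‖x‖ ^ (-ε) := fun x hx =>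
    Real.rpow_le_rpow_of_exponent_le hx (by
      have := min_le_left ε₀ (1 / 4)
      linarith only [this])
  have h0 : ∀ i j, (fun x => g.G x i j - X.toSM.H (nu x) i j) =O[cobounded (E n)]
      fun x => ‖x‖ ^ (-ε) := by
    intro i j
    apply IsBigO.of_bound |C|
    filter_upwards [ev_big R, ev_big 1] with x hx hx1
    have h1 := (hC x hx i j).1
    rw [Real.norm_eq_abs, Real.norm_eq_abs, abs_of_nonneg (a := ‖x‖ ^ (-ε)) (by (clear * - hx1; positivity))]
    calc |g.G x i j - X.toSM.H (nu x) i j| ≤ C * ‖x‖ ^ (-ε₀) := h1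
      _ ≤ |C| * ‖x‖ ^ (-ε₀) := mul_le_mul_of_nonneg_right (le_abs_self C) (by (clear * - hx1; positivity))
      _ ≤ |C| * ‖x‖ ^ (-ε) := mul_le_mul_of_nonneg_left (hexp x hx1) (abs_nonneg _)
  have h1 : ∀ i j, (fun x => fderiv ℝ (fun y => g.G y i j - X.toSM.H (nu y) i j) x)
      =O[cobounded (E n)] fun x => ‖x‖⁻¹ * ‖x‖ ^ (-ε) := by
    intro i j
    apply IsBigO.of_bound (n * |C|)
    filter_upwards [ev_big R, ev_big 1] with x hx hx1
    have hx0 : 0 < ‖x‖ := by linarith only [hx1]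
    have h2 := (hC x hx i j).2
    have h3 : ∀ k, |fderiv ℝ (dev g X i j) x (EuclideanSpace.single k 1)| ≤
        |C| * (‖x‖⁻¹ * ‖x‖ ^ (-ε)) := by
      intro k
      have h4 := h2 k
      have h5 : ‖x‖ * |fderiv ℝ (dev g X i j) x (EuclideanSpace.single k 1)| ≤
          |C| * ‖x‖ ^ (-ε) := by
        calc ‖x‖ * |fderiv ℝ (dev g X i j) x (EuclideanSpace.single k 1)|
            ≤ C * ‖x‖ ^ (-ε₀) := h4
          _ ≤ |C| * ‖x‖ ^ (-ε₀) := mul_le_mul_of_nonneg_right (le_abs_self C) (by (clear * - hx1; positivity))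
          _ ≤ |C| * ‖x‖ ^ (-ε) := mul_le_mul_of_nonneg_left (hexp x hx1) (abs_nonneg _)
      calc |fderiv ℝ (dev g X i j) x (EuclideanSpace.single k 1)|
          = ‖x‖⁻¹ * (‖x‖ * |fderiv ℝ (dev g X i j) x (EuclideanSpace.single k 1)|) := by
            (clear * - hx1; field_simp)
        _ ≤ ‖x‖⁻¹ * (|C| * ‖x‖ ^ (-ε)) := mul_le_mul_of_nonneg_left h5 (by positivity)
        _ = |C| * (‖x‖⁻¹ * ‖x‖ ^ (-ε)) := by ring
    have h6 := clm_norm_le (fderiv ℝ (dev g X i j) x) (by (clear * - hx1; positivity)) h3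
    have h7 : ‖‖x‖⁻¹ * ‖x‖ ^ (-ε)‖ = ‖x‖⁻¹ * ‖x‖ ^ (-ε) := by
      rw [Real.norm_eq_abs, abs_of_nonneg (by positivity)]
    rw [h7, mul_assoc]
    exact h6
  have hX : ∀ i j, ContDiff ℝ 1 (fun x => X.toSM.H x i j) := X.diff
  have hpow : Tendsto (fun x : E n => ‖x‖ ^ (-ε)) (cobounded (E n)) (𝓝 0) :=
    (tendsto_rpow_neg_atTop hε0).comp tendsto_norm_cobounded_atTop
  have ht : ∀ i j, Tendsto (fun x => g.G x i j - X.toSM.H (‖x‖⁻¹ • x) i j)
      (Bornology.cobounded (E n)) (𝓝 0) := fun i j => (h0 i j).trans_tendsto hpow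
  obtain ⟨K, hK, hKμ⟩ := g.exists_cone_ac hε0 hε1 X.toSM hX h0 h1
  apply g.dim_le_section hn X.toSM K hK _ _ _ hd hE hdm
  · intro δ hδ
    have hmu := g.AC_mu' hε0 X.toSM hX h0 h1
    obtain ⟨c, hc, hcl⟩ := RMetric.dens_ev X.toSM
    have h2 := (hmu.c0.trans_tendsto hpow)
    have h3 := h2.eventually (gt_mem_nhds (mul_pos hδ hc))
    obtain ⟨R', hR'0, hR'⟩ := exists_R_of_eventually (h3.and hcl)
    refine ⟨R', fun x hx => ?_⟩
    obtain ⟨h4, h5⟩ := hR' x hx
    rw [hKμ]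
    have h6 : δ * c ≤ δ * X.toSM.dens (nu x) := mul_le_mul_of_nonneg_left h5 hδ.le
    have h7 : g.mu' x ≤ (1 + δ) * X.toSM.dens (nu x) := by linarith only [h4, h6]
    exact h7
  · intro δ hδ
    obtain ⟨R', hR'0, hR'⟩ := g.aop_close X.toSM ht hδ
    exact ⟨R', fun x hx w => by rw [hK]; exact hR' x hx w⟩
  · obtain ⟨R', hR'0, hR'⟩ := g.close_quad X.toSM ht one_pos
    obtain ⟨B, hB0, hB⟩ := X.toSM.exists_quad_bound
    apply g.exists_bound' (R := R') (B₀ := 2 * B)
    intro x hx v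
    have hx0 : 0 < ‖x‖ := lt_of_lt_of_le hR'0 hx
    have h1 := hR' x hx v
    have h2 := hB _ (RMetric.norm_inv_smul hx0) v
    linarith only [h1, h2]

theorem flag (hn : 3 ≤ n) (g : RMetric n) (X : Section n) (hg : AsymptoticTo g X) :
    (∀ (d μ : ℝ) (N : ℕ), 0 ≤ d → X.EigenvalueGE N μ → d * (d + n - 2) < μ →
      DimLE (g.harm d) N) ∧
    (X.Dominated → ∀ k : ℕ, 1 ≤ k → ∀ d : ℝ, 0 ≤ d → d < (k : ℝ) + 1 →
      DimLE (g.harm d) ((n + k - 1).choose k + (n + k - 2).choose (k - 1))) := by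
  have hn3 : (3 : ℝ) ≤ n := by exact_mod_cast hn
  have : NeZero n := ⟨by omega⟩
  refine ⟨fun d μ N hd hE hdm =>
    dimLE_of_rank (dim_le_flag hn g X hg hd (X.toSM_eigenvalue hE) hdm),
    fun hX k hk d hd hdk => dimLE_of_rank ?_⟩
  have h1 : d * (d + n - 2) < ((k : ℝ) + 1) * (k + n - 1) :=
    mul_lt_mul'' hdk (by linarith only [hdk]) hd (by linarith only [hn3, hd])
  obtain ⟨μ, hμ1, hμ2⟩ := exists_between h1
  have h := dim_le_flag hn g X hg hd
    ((X.toSM_dominated hX).eigenvalueGE (by omega) k hμ2) hμ1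
  have hk0 : k ≠ 0 := by omega
  simpa only [hdim, if_neg hk0] using h

end Vale.Agent.P225
end
end
end

section

section

/-!
P225, design B, modules D3, D4: from the vector form `pulse_vec` to the operator form
`pulse_phase`.
-/

open Set Filter Topology
open scoped ContDiff

namespace Vale.Agent.P225.B2

/-- The vector form of the pulse phase. -/
def PulseVecStmt (V : Type*) [NormedAddCommGroup V] [NormedSpace ℝ V]
    (m : ℕ) (Pinf s : ℝ) {l : ℕ} (M : Fin l → V →L[ℝ] V) (R om : ℝ) : Prop :=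
  ∃ ε : ℝ, 0 < ε ∧ ∃ K : ℝ, ∀ r : ℝ, 1 / ε ≤ r → ∀ t : ℝ, ∀ Ψ : ℝ → ℝ, Continuous Ψ →
    ∀ ε1 : ℝ, 0 ≤ ε1 → ε1 ≤ ε → ε1 ^ 2 * r ≤ ε →
    (∀ x ∈ Icc t (t + l * r), |Ψ x - Pinf| ≤ ε1) →
    ∃ g : ℝ, 0 < g ∧ g ≤ Real.exp (K * r) ∧
      (∀ c : Fin l → ℝ, ‖c‖ ≤ R → ∀ w w1 : ℝ → V,
        Sol (fun x => 2 * m * Ψ x + deriv (ep r t c) x) (Qp (s * (s + 2 * m * Pinf)) M r t c)
          (Icc t (t + l * r)) w w1 →
        ‖w1 t - s • w t‖ ≤ ε * ‖w1 t + (s + 2 * m * Pinf) • w t‖ →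
        ‖(w1 (t + l * r) + (s + 2 * m * Pinf) • w (t + l * r))
            - g • wordMap (1 / (2 * s + 2 * m * Pinf)) M c (w1 t + (s + 2 * m * Pinf) • w t)‖
          ≤ om * g * ‖w1 t + (s + 2 * m * Pinf) • w t‖ ∧
        ‖w1 (t + l * r) - s • w (t + l * r)‖ ≤ om * g * ‖w1 t + (s + 2 * m * Pinf) • w t‖) ∧
      (∀ c c' : Fin l → ℝ, ‖c‖ ≤ R → ‖c'‖ ≤ R → ∀ w w1 w' w1' : ℝ → V,
        Sol (fun x => 2 * m * Ψ x + deriv (ep r t c) x) (Qp (s * (s + 2 * m * Pinf)) M r t c)
          (Icc t (t + l * r)) w w1 →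
        Sol (fun x => 2 * m * Ψ x + deriv (ep r t c') x) (Qp (s * (s + 2 * m * Pinf)) M r t c')
          (Icc t (t + l * r)) w' w1' →
        w t = w' t → w1 t = w1' t →
        ‖w1 t - s • w t‖ ≤ ε * ‖w1 t + (s + 2 * m * Pinf) • w t‖ →
        ‖((w1 (t + l * r) + (s + 2 * m * Pinf) • w (t + l * r))
            - g • wordMap (1 / (2 * s + 2 * m * Pinf)) M c (w1 t + (s + 2 * m * Pinf) • w t))
          - ((w1' (t + l * r) + (s + 2 * m * Pinf) • w' (t + l * r))
            - g • wordMap (1 / (2 * s + 2 * m * Pinf)) M c' (w1 t + (s + 2 * m * Pinf) • w t))‖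
          ≤ om * g * ‖c - c'‖ * ‖w1 t + (s + 2 * m * Pinf) • w t‖ ∧
        ‖(w1 (t + l * r) - s • w (t + l * r)) - (w1' (t + l * r) - s • w' (t + l * r))‖
          ≤ om * g * ‖c - c'‖ * ‖w1 t + (s + 2 * m * Pinf) • w t‖)

theorem continuous_Qp {V : Type*} [NormedAddCommGroup V] [NormedSpace ℝ V] {l : ℕ} (C0 : ℝ)
    (M : Fin l → V →L[ℝ] V) (r t : ℝ) (c : Fin l → ℝ) : Continuous (Qp C0 M r t c) := by
  unfold Qp
  have hb : Continuous beta := beta_contDiff.continuous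
  have hc : Continuous chi := chi_contDiff.continuous
  refine continuous_const.sub (continuous_finsetSum _ fun i _ => ?_)
  exact (hb.comp (continuous_const.mul (hc.comp (by fun_prop)))).smul continuous_const

theorem continuous_pp {l : ℕ} (m : ℕ) (r t : ℝ) {Ψ : ℝ → ℝ} (hΨ : Continuous Ψ) (c : Fin l → ℝ) :
    Continuous (fun x => 2 * m * Ψ x + deriv (ep r t c) x) := by
  have h := (ep_contDiff r t c).continuous_deriv (by simp only [WithTop.one_le_coe, le_top])
  (clear * - hΨ h; continuity)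

/-- D3+D4, from the vector form. -/
theorem pulse_phase_of {V : Type*} [NormedAddCommGroup V] [NormedSpace ℝ V]
    [FiniteDimensional ℝ V]
    (m : ℕ) (Pinf : ℝ) (hP : 0 < Pinf) (s : ℝ) (hs : 0 < s) {l : ℕ}
    (M : Fin l → V →L[ℝ] V) (R : ℝ) (om : ℝ) (hom : 0 < om)
    (hvec : PulseVecStmt V m Pinf s M R om) :
    ∃ ε : ℝ, 0 < ε ∧ ∃ K : ℝ, ∀ r : ℝ, 1 / ε ≤ r → ∀ t : ℝ, ∀ Ψ : ℝ → ℝ, Continuous Ψ →
      ∀ ε1 : ℝ, 0 ≤ ε1 → ε1 ≤ ε → ε1 ^ 2 * r ≤ ε →
      (∀ x ∈ Icc t (t + l * r), |Ψ x - Pinf| ≤ ε1) → ∀ Zin : V →L[ℝ] V, ‖Zin‖ ≤ ε →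
      ∃ g : ℝ, 0 < g ∧ g ≤ Real.exp (K * r) ∧
      ∃ A B : (Fin l → ℝ) → V →L[ℝ] V,
        (∀ c, ‖c‖ ≤ R → ∀ w w1 : ℝ → V,
          Sol (fun x => 2 * m * Ψ x + deriv (ep r t c) x) (Qp (s * (s + 2 * m * Pinf)) M r t c)
            (Icc t (t + l * r)) w w1 →
          w1 t - s • w t = Zin (w1 t + (s + 2 * m * Pinf) • w t) →
          w1 (t + l * r) + (s + 2 * m * Pinf) • w (t + l * r)
              = g • A c (w1 t + (s + 2 * m * Pinf) • w t) ∧
            w1 (t + l * r) - s • w (t + l * r) = g • B c (w1 t + (s + 2 * m * Pinf) • w t)) ∧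
        (∀ c, ‖c‖ ≤ R → ‖A c - wordMap (1 / (2 * s + 2 * m * Pinf)) M c‖ ≤ om ∧ ‖B c‖ ≤ om) ∧
        (∀ c c', ‖c‖ ≤ R → ‖c'‖ ≤ R →
          ‖(A c - wordMap (1 / (2 * s + 2 * m * Pinf)) M c)
              - (A c' - wordMap (1 / (2 * s + 2 * m * Pinf)) M c')‖ ≤ om * ‖c - c'‖ ∧
            ‖B c - B c'‖ ≤ om * ‖c - c'‖) := by
  obtain ⟨ε, hε, K, hK⟩ := hvec
  refine ⟨ε, hε, K, fun r hr t Ψ hΨ ε1 h0 h1 h2 hb Zin hZin => ?_⟩
  obtain ⟨g, hg, hgK, hsize, hlip⟩ := hK r hr t Ψ hΨ ε1 h0 h1 h2 hb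
  refine ⟨g, hg, hgK, ?_⟩
  have hr0 : 0 < r := lt_of_lt_of_le (by (clear * - hε; positivity)) hr
  have : CompleteSpace V := FiniteDimensional.complete ℝ V
  set T := t + l * r with hT
  have htT : t ≤ T := by rw [hT]; nlinarith only [hr0]
  set kap := 1 / (2 * s + 2 * m * Pinf) with hkap
  set ss := s + 2 * m * Pinf with hss
  have hden : 0 < 2 * s + 2 * m * Pinf := by (clear * - hs hP; positivity)
  have hk : kap * (s + ss) = 1 := by
    rw [hkap, hss]; field_simp; ring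
  choose W W1 hW using fun c : Fin l → ℝ => sol_transfer (V := V)
    (continuous_pp m r t hΨ c) (continuous_Qp (s * ss) M r t c) t
  -- initial data
  let init : V →ₗ[ℝ] V × V :=
    { toFun := fun v => (kap • (v - Zin v), Zin v + (s * kap) • (v - Zin v))
      map_add' := fun v v' => by
        simp only [map_add, Prod.mk_add_mk, Prod.mk.injEq]
        constructor <;> module
      map_smul' := fun a v => by
        simp only [map_smul, RingHom.id_apply, Prod.smul_mk, Prod.mk.injEq]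
        constructor <;> module }
  have hi1 : ∀ v, (init v).2 + ss • (init v).1 = v := by
    intro v
    change (Zin v + (s * kap) • (v - Zin v)) + ss • (kap • (v - Zin v)) = v
    have : (s * kap) • (v - Zin v) + ss • (kap • (v - Zin v)) = (kap * (s + ss)) • (v - Zin v) := by
      module
    rw [add_assoc, this, hk, one_smul]; abel
  have hi2 : ∀ v, (init v).2 - s • (init v).1 = Zin v := by
    intro v
    change (Zin v + (s * kap) • (v - Zin v)) - s • (kap • (v - Zin v)) = Zin v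
    module
  let A : (Fin l → ℝ) → V →L[ℝ] V := fun c =>
    LinearMap.toContinuousLinearMap (g⁻¹ • ((W1 c T + ss • W c T) ∘ₗ init))
  let B : (Fin l → ℝ) → V →L[ℝ] V := fun c =>
    LinearMap.toContinuousLinearMap (g⁻¹ • ((W1 c T - s • W c T) ∘ₗ init))
  have hA : ∀ c v, A c v = g⁻¹ • (W1 c T (init v) + ss • W c T (init v)) := fun c v => rfl
  have hB : ∀ c v, B c v = g⁻¹ • (W1 c T (init v) - s • W c T (init v)) := fun c v => rfl
  have hgA : ∀ c v, W1 c T (init v) + ss • W c T (init v) = g • A c v := by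
    intro c v; rw [hA, smul_inv_smul₀ hg.ne']
  have hgB : ∀ c v, W1 c T (init v) - s • W c T (init v) = g • B c v := by
    intro c v; rw [hB, smul_inv_smul₀ hg.ne']
  have hsol : ∀ c v, Sol (fun x => 2 * m * Ψ x + deriv (ep r t c) x) (Qp (s * ss) M r t c)
      (Icc t T) (fun x => W c x (init v)) (fun x => W1 c x (init v)) :=
    fun c v => (hW c (init v)).1.mono (subset_univ _)
  have hv0 : ∀ c v, W1 c t (init v) + ss • W c t (init v) = v := by
    intro c v
    rw [(hW c (init v)).2.1, (hW c (init v)).2.2, hi1]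
  have hz0 : ∀ c v, W1 c t (init v) - s • W c t (init v) = Zin v := by
    intro c v
    rw [(hW c (init v)).2.1, (hW c (init v)).2.2, hi2]
  have hmem : ∀ c v, ‖W1 c t (init v) - s • W c t (init v)‖
      ≤ ε * ‖W1 c t (init v) + ss • W c t (init v)‖ := by
    intro c v
    rw [hv0, hz0]
    exact Zin.le_of_opNorm_le hZin v
  refine ⟨A, B, ?_, ?_, ?_⟩
  · intro c hc w w1 hw hz
    set v := w1 t + ss • w t with hv
    have hw0 : w t = (init v).1 := by
      change w t = kap • (v - Zin v)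
      rw [← hz, hv]
      have : w1 t + ss • w t - (w1 t - s • w t) = (s + ss) • w t := by module
      rw [this, smul_smul, hk, one_smul]
    have hw10 : w1 t = (init v).2 := by
      have h3 := hi2 v
      rw [← hz, ← hw0] at h3
      have h4 := congrArg (fun y => y + s • w t) h3
      simpa only [sub_add_cancel] using h4.symm
    have hu := sol_unique_Icc (continuous_pp m r t hΨ c) (continuous_Qp (s * ss) M r t c) hw
      (hsol c v) (left_mem_Icc.2 htT) (by rw [hw0]; exact ((hW c (init v)).2.1).symm)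
      (by rw [hw10]; exact ((hW c (init v)).2.2).symm) T (right_mem_Icc.2 htT)
    rw [hu.1, hu.2]
    exact ⟨hgA c v, hgB c v⟩
  · intro c hc
    constructor
    · refine ContinuousLinearMap.opNorm_le_bound _ hom.le fun v => ?_
      have h3 := (hsize c hc _ _ (hsol c v) (hmem c v)).1
      simp only [hv0] at h3
      rw [hgA, ← smul_sub, norm_smul, Real.norm_eq_abs, abs_of_pos hg] at h3
      have h4 : g * ‖A c v - wordMap kap M c v‖ ≤ g * (om * ‖v‖) := by
        calc _ ≤ _ := h3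
          _ = _ := by ring
      exact le_of_mul_le_mul_left h4 hg
    · refine ContinuousLinearMap.opNorm_le_bound _ hom.le fun v => ?_
      have h3 := (hsize c hc _ _ (hsol c v) (hmem c v)).2
      simp only [hv0] at h3
      rw [hgB, norm_smul, Real.norm_eq_abs, abs_of_pos hg] at h3
      have h4 : g * ‖B c v‖ ≤ g * (om * ‖v‖) := by
        calc _ ≤ _ := h3
          _ = _ := by ring
      exact le_of_mul_le_mul_left h4 hg
  · intro c c' hc hc'
    have hst : ∀ v, W c t (init v) = W c' t (init v) ∧ W1 c t (init v) = W1 c' t (init v) := by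
      intro v
      rw [(hW c (init v)).2.1, (hW c (init v)).2.2, (hW c' (init v)).2.1, (hW c' (init v)).2.2]
      exact ⟨rfl, rfl⟩
    have h0' : 0 ≤ om * ‖c - c'‖ := by positivity
    constructor
    · refine ContinuousLinearMap.opNorm_le_bound _ h0' fun v => ?_
      have h3 := (hlip c c' hc hc' _ _ _ _ (hsol c v) (hsol c' v) (hst v).1 (hst v).2
        (hmem c v)).1
      simp only [hv0] at h3
      rw [hgA, hgA, ← smul_sub, ← smul_sub, ← smul_sub, norm_smul, Real.norm_eq_abs,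
        abs_of_pos hg] at h3
      have h4 : g * ‖(A c v - wordMap kap M c v) - (A c' v - wordMap kap M c' v)‖
          ≤ g * (om * ‖c - c'‖ * ‖v‖) := by
        calc _ ≤ _ := h3
          _ = _ := by ring
      exact le_of_mul_le_mul_left h4 hg
    · refine ContinuousLinearMap.opNorm_le_bound _ h0' fun v => ?_
      have h3 := (hlip c c' hc hc' _ _ _ _ (hsol c v) (hsol c' v) (hst v).1 (hst v).2
        (hmem c v)).2
      simp only [hv0] at h3
      rw [hgB, hgB, ← smul_sub, norm_smul, Real.norm_eq_abs, abs_of_pos hg] at h3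
      have h4 : g * ‖B c v - B c' v‖ ≤ g * (om * ‖c - c'‖ * ‖v‖) := by
        calc _ ≤ _ := h3
          _ = _ := by ring
      exact le_of_mul_le_mul_left h4 hg

end Vale.Agent.P225.B2
end
end

section

section

/-! # P225, route B: the solutions `u` from coefficient vectors (module G8, final form) -/

open Filter Topology Matrix MvPolynomial
open scoped ContDiff

namespace Vale.Agent.P225.B

variable {n : ℕ} {ι : Type*} [Fintype ι]

/-- The function `u(x) = |x|^{-d} ∑ j, w_j(ln |x|) p_j(x)`. -/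
noncomputable def usol (d : ℕ) (p : ι → MvPolynomial (Fin n) ℝ) (w : ℝ → ι → ℝ) (x : Rn n) : ℝ :=
  (‖x‖ ^ d)⁻¹ * ∑ j, w (Real.log ‖x‖) j * MvPolynomial.eval x.ofLp (p j)

theorem usol_eq_uf (d : ℕ) (p : ι → MvPolynomial (Fin n) ℝ) (w : ℝ → ι → ℝ) :
    usol d p w = uf d (fun τ => ∑ j, w τ j • p j) := by
  funext x
  rw [usol, uf, map_sum]
  congr 1
  refine Finset.sum_congr rfl fun j _ => ?_
  rw [MvPolynomial.smul_eval]

theorem homog_sum {d : ℕ} {p : ι → MvPolynomial (Fin n) ℝ} (hp : ∀ j, (p j).IsHomogeneous d)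
    (v : ι → ℝ) : (∑ j, v j • p j).IsHomogeneous d := by
  refine MvPolynomial.IsHomogeneous.sum _ _ _ fun j _ => ?_
  rw [MvPolynomial.smul_eq_C_mul]
  simpa using (MvPolynomial.isHomogeneous_C (Fin n) (v j)).mul (hp j)

theorem wpoly_init {d : ℕ} (p : ι → MvPolynomial (Fin n) ℝ) {w : ℝ → ι → ℝ} {v : ι → ℝ}
    (h0 : ∀ τ ≤ 0, w τ = Real.exp (d * τ) • v) :
    ∀ τ ≤ 0, (∑ j, w τ j • p j) = Real.exp (d * τ) • ∑ j, v j • p j := by
  intro τ hτ
  rw [h0 τ hτ, Finset.smul_sum]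
  refine Finset.sum_congr rfl fun j _ => ?_
  rw [Pi.smul_apply, smul_smul, smul_eq_mul]

theorem usol_of_norm_le {d : ℕ} {p : ι → MvPolynomial (Fin n) ℝ} {w : ℝ → ι → ℝ} {v : ι → ℝ}
    (hp : ∀ j, (p j).IsHomogeneous d) (h0 : ∀ τ ≤ 0, w τ = Real.exp (d * τ) • v) {x : Rn n}
    (hx : ‖x‖ ≤ 1) : usol d p w x = ∑ j, v j * MvPolynomial.eval x.ofLp (p j) := by
  rw [usol_eq_uf, uf_of_norm_le (homog_sum hp v) (wpoly_init p h0) hx, map_sum]
  refine Finset.sum_congr rfl fun j _ => ?_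
  rw [MvPolynomial.smul_eval]

theorem usol_contDiff {d : ℕ} {p : ι → MvPolynomial (Fin n) ℝ} {w : ℝ → ι → ℝ} {v : ι → ℝ}
    (hp : ∀ j, (p j).IsHomogeneous d) (hw : ContDiff ℝ ∞ w)
    (h0 : ∀ τ ≤ 0, w τ = Real.exp (d * τ) • v) : ContDiff ℝ ∞ (usol d p w) := by
  rw [usol_eq_uf]
  refine uf_contDiff (P := ∑ j, v j • p j) ?_ (fun τ => homog_sum hp _) (homog_sum hp v)
    (wpoly_init p h0)
  intro m
  simp only [MvPolynomial.coeff_sum, MvPolynomial.coeff_smul, smul_eq_mul]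
  refine ContDiff.sum fun j _ => ?_
  exact (contDiff_pi.1 hw j).mul contDiff_const

end Vale.Agent.P225.B
end
end
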