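import Vale.Agent.P225.MathlibUsed
import Vale.Agent.P225.Bdl.B4
import Vale.Agent.P225.Bdl.B2
import Vale.Agent.P225.Bdl.B1
import Vale.Agent.P225.YDefs
import Vale.Agent.P225.Defs
import Vale.Agent.P225.Bdl.B3

set_option linter.all false

section

section

/-! # P225, design B, D0: curvature inequalities on one cycle -/

open Set Filter Topology
open scoped ContDiff

namespace Vale.Agent.P225.B2

namespace CurvProof

theorem asym (l : ℕ) (a c1 C K m P : ℝ) (hc1 : 0 < c1) (hP : P < 1) :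
    ∃ tst : ℝ, 1 ≤ tst ∧ ∀ t, tst ≤ t → 1 ≤ rr t ∧ 4 * K * (rr t)⁻¹ ≤ 1 ∧
      C * (rr t)⁻¹ + 6 * m * (a * t ^ (-(1 / 2) : ℝ)) ≤ c1 ∧ a * t ^ (-(1 / 2) : ℝ) ≤ 1 ∧
      P + a * t ^ (-(1 / 2) : ℝ) ≤ 1 ∧ T3 l t ≤ 2 * t := by
  have h1 : Tendsto rr atTop atTop := tendsto_rpow_atTop (by (clear * -; norm_num))
  have h2 : Tendsto (fun t => (rr t)⁻¹) atTop (𝓝 0) := tendsto_inv_atTop_zero.comp h1
  have h3 : Tendsto (fun t : ℝ => t ^ (-(1 / 2) : ℝ)) atTop (𝓝 0) :=
    tendsto_rpow_neg_atTop (by norm_num)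
  have e1 : ∀ᶠ t in atTop, 1 ≤ rr t := h1.eventually_ge_atTop 1
  have e2 : ∀ᶠ t in atTop, 4 * K * (rr t)⁻¹ < 1 := by
    have := h2.const_mul (4 * K)
    rw [mul_zero] at this
    exact this.eventually (gt_mem_nhds one_pos)
  have e3 : ∀ᶠ t in atTop, C * (rr t)⁻¹ + 6 * m * (a * t ^ (-(1 / 2) : ℝ)) < c1 := by
    have := (h2.const_mul C).add ((h3.const_mul a).const_mul (6 * m))
    rw [mul_zero, mul_zero, mul_zero, add_zero] at this
    exact this.eventually (gt_mem_nhds hc1)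
  have e4 : ∀ᶠ t : ℝ in atTop, a * t ^ (-(1 / 2) : ℝ) < 1 := by
    have := h3.const_mul a
    rw [mul_zero] at this
    exact this.eventually (gt_mem_nhds one_pos)
  have e5 : ∀ᶠ t : ℝ in atTop, P + a * t ^ (-(1 / 2) : ℝ) < 1 := by
    have := (h3.const_mul a).const_add P
    rw [mul_zero, add_zero] at this
    exact this.eventually (gt_mem_nhds hP)
  have e6 : ∀ᶠ t : ℝ in atTop, (l + 3) * t ^ (-(1 / 4) : ℝ) + t ^ (-(1 / 8) : ℝ) < 1 := by
    have k1 : Tendsto (fun t : ℝ => t ^ (-(1 / 4) : ℝ)) atTop (𝓝 0) :=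
      tendsto_rpow_neg_atTop (by norm_num)
    have k2 : Tendsto (fun t : ℝ => t ^ (-(1 / 8) : ℝ)) atTop (𝓝 0) :=
      tendsto_rpow_neg_atTop (by norm_num)
    have := (k1.const_mul ((l : ℝ) + 3)).add k2
    rw [mul_zero, add_zero] at this
    exact this.eventually (gt_mem_nhds one_pos)
  have e7 : ∀ᶠ t : ℝ in atTop, 1 ≤ t := eventually_ge_atTop 1
  obtain ⟨T, hT⟩ := eventually_atTop.1
    (e1.and (e2.and (e3.and (e4.and (e5.and (e6.and e7))))))
  refine ⟨max 1 T, le_max_left _ _, fun t ht => ?_⟩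
  obtain ⟨a1, a2, a3, a4, a5, a6, a7⟩ := hT t ((le_max_right _ _).trans ht)
  refine ⟨a1, a2.le, a3.le, a4.le, a5.le, ?_⟩
  have ht0 : 0 < t := by linarith only [a7]
  have hr : rr t = t * t ^ (-(1 / 4) : ℝ) := by
    unfold rr
    rw [← Real.rpow_one_add' ht0.le (by norm_num)]
    norm_num
  have hL : LL t = t * t ^ (-(1 / 8) : ℝ) := by
    unfold LL
    rw [← Real.rpow_one_add' ht0.le (by norm_num)]
    norm_num
  unfold T3 T2 T1
  rw [hr, hL]
  have := mul_le_mul_of_nonneg_left a6.le ht0.le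
  linarith only [this]

theorem psi_lower {a t x : ℝ} (ha : 0 < a) (ht : 1 ≤ t) (hx0 : t ≤ x) (hx1 : x ≤ 2 * t) :
    a / 6 * ((rr t)⁻¹ * (rr t)⁻¹) ≤ a * (1 / 2 * x ^ (-(1 / 2) - 1 : ℝ)) := by
  have ht0 : 0 < t := by linarith
  have hx : 0 < x := by linarith only [ht, hx0]
  have h1 : (rr t)⁻¹ * (rr t)⁻¹ = t ^ (-(3 / 2) : ℝ) := by
    unfold rr
    rw [← Real.rpow_neg ht0.le, ← Real.rpow_add ht0]
    norm_num
  have h2 : (2 * t) ^ (-(3 / 2) : ℝ) ≤ x ^ (-(3 / 2) : ℝ) :=
    Real.rpow_le_rpow_of_nonpos hx hx1 (by norm_num)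
  have h3 : (1 / 3 : ℝ) ≤ 2 ^ (-(3 / 2) : ℝ) := by
    rw [Real.rpow_neg (by norm_num), one_div]
    apply inv_anti₀ (by positivity)
    have h4 : ((2 : ℝ) ^ (3 / 2 : ℝ)) ^ 2 = 8 := by
      rw [← Real.rpow_natCast, ← Real.rpow_mul (by norm_num)]
      norm_num
    by_contra hcon
    push Not at hcon
    nlinarith only [h4, hcon]
  rw [Real.mul_rpow (by norm_num) ht0.le] at h2
  have h5 : (-(1 / 2) - 1 : ℝ) = -(3 / 2) := by norm_num
  rw [h1, h5]
  have h6 : 0 ≤ t ^ (-(3 / 2) : ℝ) := Real.rpow_nonneg ht0.le _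
  have h7 : 1 / 3 * t ^ (-(3 / 2) : ℝ) ≤ x ^ (-(3 / 2) : ℝ) :=
    (mul_le_mul_of_nonneg_right h3 h6).trans h2
  nlinarith only [ha, h7]

end CurvProof

open CurvProof

/-- D0. -/
theorem curv_cycle_proof {D : Type} [Fintype D] {ι : D → Type} [∀ d, Fintype (ι d)]
    [∀ d, DecidableEq (ι d)] {𝒥 : Type} (P : Dat D ι 𝒥) (l : ℕ) (R : ℝ) :
    ∃ a : ℝ, 0 < a ∧ ∃ tst : ℝ, 1 ≤ tst ∧ ∀ t : ℝ, tst ≤ t → ∀ c : Fin l → ℝ, ‖c‖ ≤ R →
      ∀ Ψ : ℝ → ℝ, ∀ x ∈ Icc t (T3 l t),
        (∀ᶠ y in 𝓝 x, Ψ y = P.Pinf + a * y ^ (-(1 / 2) : ℝ)) →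
        Curv P.m (sigC P.m Ψ P.eta0 l t) (etaC P.eta0 t c) x ∧
          P.sig0 ≤ sigC P.m Ψ P.eta0 l t x ∧ sigC P.m Ψ P.eta0 l t x ≤ 1 := by
  obtain ⟨B, hB1, hB⟩ := exists_bound
  have hm : (1 : ℝ) ≤ P.m := by exact_mod_cast P.hm
  obtain ⟨c1, hc10, hc1, hc2⟩ := static_margin P.hm P.hP0 P.hP1 P.strict
  set K : ℝ := l * (|R| * B) + 4 * (P.eta0 * B ^ 2) + 1 with hKdef
  have hB0 : 0 ≤ B := by linarith only [hB1]
  have he0 := P.heta0
  have hK1 : l * (|R| * B) ≤ K := by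
    have : 0 ≤ 4 * (P.eta0 * B ^ 2) := by (clear * - he0 hB1; positivity)
    linarith only [this]
  have hK2 : 2 * (P.eta0 * B) ≤ K := by
    have : 0 ≤ (l : ℝ) * (|R| * B) := by (clear * - hB1; positivity)
    have h2 : P.eta0 * B ≤ P.eta0 * B ^ 2 := by
      apply mul_le_mul_of_nonneg_left _ he0
      (by_contra nlg; linarith only [nlg, mul_pos (sub_pos.2 (not_le.1 nlg)) (sub_pos.2 (not_le.1 nlg)), mul_nonneg (sq_nonneg (B : ℝ)) (sub_nonneg.2 hB1), mul_nonneg (sq_nonneg (B : ℝ)) (le_of_lt (sub_pos.2 (not_le.1 nlg)))])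
    have h3 : 0 ≤ P.eta0 * B := by (clear * - he0 hB1; positivity)
    linarith only [this, h2, h3]
  have hK3 : 4 * (P.eta0 * B ^ 2) ≤ K := by
    have : 0 ≤ (l : ℝ) * (|R| * B) := by (clear * - hB1; positivity)
    linarith only [this]
  have hK0 : 0 ≤ K := by
    have : 0 ≤ 2 * (P.eta0 * B) := by (clear * - he0 hB1; positivity)
    linarith only [hK2, this]
  set a : ℝ := 6 * (2 * K + K ^ 2 + 1) * Real.exp P.eta0 with hadef
  have hexp : 0 < Real.exp P.eta0 := Real.exp_pos _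
  have ha : 0 < a := by (clear * - hB1 he0; positivity)
  obtain ⟨tst, ht1, htst⟩ := asym l a (2 * c1)
    (4 * P.m * K + 8 * K + (2 * P.m + 1) * K + 2 * K + K ^ 2) K P.m P.Pinf (by linarith only [hc10]) P.hP1
  refine ⟨a, ha, tst, ht1, fun t ht c hc Ψ x hx hΨ => ?_⟩
  obtain ⟨hr1, hKy, hsm, he1, hPe, hT3⟩ := htst t ht
  have ht1' : 1 ≤ t := ht1.trans ht
  have ht0 : 0 < t := by linarith only [ht1, ht]
  have hx0 : 0 < x := by linarith only [ht1, ht, hx.1]
  have hx1 : x ≤ 2 * t := hx.2.trans hT3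
  have hr0 : 0 < rr t := by linarith only [hr1]
  set y := (rr t)⁻¹ with hy
  have hy0 : 0 ≤ y := (inv_pos.2 hr0).le
  have hy1 : y ≤ 1 := inv_le_one_of_one_le₀ hr1
  set e := a * t ^ (-(1 / 2) : ℝ) with hedef
  set psi := a * (1 / 2 * x ^ (-(1 / 2) - 1 : ℝ)) with hpsidef
  have hpsi1 := psi_lower ha ht1' hx.1 hx1
  rw [← hpsidef, ← hy] at hpsi1
  have hΨx : Ψ x = P.Pinf + a * x ^ (-(1 / 2) : ℝ) := hΨ.self_of_nhds
  have hΨd : HasDerivAt Ψ (-psi) x := by
    have h1 : HasDerivAt (fun z : ℝ => P.Pinf + a * z ^ (-(1 / 2) : ℝ))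
        (a * (-(1 / 2) * x ^ (-(1 / 2) - 1 : ℝ))) x :=
      ((Real.hasDerivAt_rpow_const (Or.inl hx0.ne')).const_mul a).const_add _
    have h2 := h1.congr_of_eventuallyEq hΨ
    have h3 : a * (-(1 / 2) * x ^ (-(1 / 2) - 1 : ℝ)) = -psi := by
      rw [hpsidef]
      ring
    rw [h3] at h2
    exact h2
  have hxp : x ^ (-(1 / 2) : ℝ) ≤ t ^ (-(1 / 2) : ℝ) :=
    Real.rpow_le_rpow_of_nonpos ht0 hx.1 (by norm_num)
  have hxp0 : 0 ≤ x ^ (-(1 / 2) : ℝ) := Real.rpow_nonneg hx0.le _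
  have hPsi0 : P.Pinf ≤ Ψ x := by
    rw [hΨx]
    have := mul_nonneg ha.le hxp0
    linarith only [this]
  have hPsi1 : Ψ x ≤ P.Pinf + e := by
    rw [hΨx, hedef]
    have := mul_le_mul_of_nonneg_left hxp ha.le
    linarith only [this]
  have hPsi2 : Ψ x ≤ 1 := by linarith only [hPe, hPsi1]
  have hcR : ‖c‖ ≤ |R| := hc.trans (le_abs_self R)
  obtain ⟨p0, p1, p2⟩ := ep_bounds hB1 hB hr1 (abs_nonneg R) t c hcR x
  obtain ⟨q00, q01, q1, q2⟩ := eh_bounds hB1 hB he0 (l := l) hr1 x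
  rw [← hy] at p0 p1 p2 q1 q2
  have hyy0 : 0 ≤ y * y := mul_nonneg hy0 hy0
  have p0' : |ep (rr t) t c x| ≤ K * y := p0.trans (mul_le_mul_of_nonneg_right hK1 hy0)
  have p1' : |ep1 (rr t) t c x| ≤ K * (y * y) := p1.trans (mul_le_mul_of_nonneg_right hK1 hyy0)
  have p2' : |ep2 (rr t) t c x| ≤ K * (y * y) := p2.trans (mul_le_mul_of_nonneg_right hK1 hyy0)
  have q1' : |eh1 P.eta0 l t x| ≤ K * y := q1.trans (mul_le_mul_of_nonneg_right hK2 hy0)
  have q2' : |eh2 P.eta0 l t x| ≤ K * (y * y) := q2.trans (mul_le_mul_of_nonneg_right hK3 hyy0)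
  set E := Real.exp (-(eh P.eta0 l t x / (2 * P.m + 1))) with hE
  have hq : (0 : ℝ) < 2 * P.m + 1 := by positivity
  have hE0 : 0 < E := Real.exp_pos _
  have hE1 : E ≤ 1 := by
    rw [hE, Real.exp_le_one_iff]
    have := div_nonneg q00 hq.le
    linarith only [this]
  have hE2 : Real.exp (-P.eta0) ≤ E := by
    apply Real.exp_le_exp.2
    have h1 : eh P.eta0 l t x / (2 * P.m + 1) ≤ eh P.eta0 l t x := by
      apply div_le_self q00
      linarith only []
    linarith only [q01, h1]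
  have hE3 : Real.exp (-(P.eta0 / (2 * P.m + 1))) ≤ E := by
    apply Real.exp_le_exp.2
    have : eh P.eta0 l t x / (2 * P.m + 1) ≤ P.eta0 / (2 * P.m + 1) := by (clear * - q01 hm; gcongr)
    linarith only [this]
  have hK20 : 0 ≤ 2 * K + K ^ 2 := by (clear * - hB1 he0; positivity)
  -- the bound on psi * E
  have hpsiE : (2 * K + K ^ 2) * (y * y) ≤ psi * E := by
    have h1 : a / 6 * (y * y) * Real.exp (-P.eta0) ≤ psi * E := by
      apply mul_le_mul hpsi1 hE2 (Real.exp_pos _).le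
      exact le_trans (by (clear * - hB1 he0 hr1; positivity)) hpsi1
    have h2 : a / 6 * (y * y) * Real.exp (-P.eta0) = (2 * K + K ^ 2 + 1) * (y * y) := by
      rw [hadef, Real.exp_neg]
      (clear * - hK0; field_simp)
    rw [h2] at h1
    linarith only [hyy0, h1]
  have hpsi0 : 0 ≤ psi := le_trans (by (clear * - hB1 he0 hr1; positivity)) hpsi1
  have hpsi : (2 * K + K ^ 2) * (y * y) ≤ psi := by
    have : psi * E ≤ psi * 1 := mul_le_mul_of_nonneg_left hE1 hpsi0
    (clear * - hpsiE this; linarith)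
  -- derivative of sigma
  have hsd : HasDerivAt (sigC P.m Ψ P.eta0 l t)
      (-psi * E + Ψ x * (E * (-(eh1 P.eta0 l t x / (2 * P.m + 1))))) x := by
    have h1 : HasDerivAt (fun z => Real.exp (-(eh P.eta0 l t z / (2 * P.m + 1))))
        (E * (-(eh1 P.eta0 l t x / (2 * P.m + 1)))) x :=
      (((eh_hasDeriv P.eta0 l t x).div_const _).neg).exp
    exact hΨd.mul h1
  have hsv : sigC P.m Ψ P.eta0 l t x = Ψ x * E := rfl
  refine ⟨?_, ?_, ?_⟩
  · unfold Curv
    rw [hsd.deriv, etaC_deriv, etaC_deriv2, hsv]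
    have hev : etaC P.eta0 t c x = ep (rr t) t c x + eh P.eta0 l t x := rfl
    rw [hev]
    rcases le_total x (T1 l t) with hcase | hcase
    · obtain ⟨z0, z1, z2⟩ := CurvProof.eh_left (eta0 := P.eta0) hr0 hcase
      have hE' : E = 1 := by
        rw [hE, z0]
        simp only [zero_div, neg_zero, Real.exp_zero]
      rw [z0, z1, z2, hE']
      have h := point_pulse hm hK0 hy0 hy1 he1 P.hP0 P.hP1 hPsi0 hPsi1 hPsi2 p0' p1' p2' hpsi hKy
        hc1 hsm
      simpa only [mul_one, zero_div, neg_zero, mul_zero, add_zero, mul_neg, neg_neg, sub_nonneg,     sub_neg_eq_add] using h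
    · obtain ⟨z0, z1, z2⟩ := CurvProof.ep_right (c := c) hr0 (show t + l * rr t ≤ x from hcase)
      rw [z0, z1, z2]
      have h := point_travel hm hK0 hy0 hy1 he1 P.hP0 P.hP1 hPsi0 hPsi1 hPsi2 q00 q1' q2' hE0 hE1
        hpsiE (hc2 _ q00 q01) hsm
      simpa only [neg_mul, mul_neg, zero_add, sub_nonneg] using h
  · rw [hsv]
    unfold Dat.sig0
    exact mul_le_mul hPsi0 hE3 (Real.exp_pos _).le (P.hP0.le.trans hPsi0)
  · rw [hsv]
    have : Ψ x * E ≤ 1 * 1 := mul_le_mul hPsi2 hE1 hE0.le zero_le_one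
    linarith only [this]

end Vale.Agent.P225.B2
end
end

section

section

/-!
# Ricci form of `GG J F K`, positivity criterion, and locality
-/

open Filter Topology
open scoped ContDiff

namespace Vale.Agent.P225

open RMetric

namespace B

variable {n : ℕ}

/-! ### Locality -/

theorem lap_congr {g g' : RMetric n} {u u' : Rn n → ℝ} {x : Rn n}
    (h : g.G =ᶠ[𝓝 x] g'.G) (hu : u =ᶠ[𝓝 x] u') : g.lap u x = g'.lap u' x := by
  unfold RMetric.lap RMetric.dens
  have e : ∀ i, pd i (fun y => √(g.G y).det * ∑ j, (g.G y)⁻¹ i j * pd j u y) x =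
      pd i (fun y => √(g'.G y).det * ∑ j, (g'.G y)⁻¹ i j * pd j u' y) x := by
    intro i
    apply pd_congr
    filter_upwards [h, eventually_eventually_nhds.2 hu] with y hy hy2
    have e2 : ∀ j, pd j u y = pd j u' y := fun j => pd_congr hy2
    simp only [hy, e2]
  rw [h.self_of_nhds, Finset.sum_congr rfl (fun i _ => e i)]

/-! ### The Ricci form of the model metric -/

end B

end Vale.Agent.P225
end
end

section

section

/-!
# P225, design B, part B2: D9 (the core)
-/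

open Set Filter Topology
open scoped ContDiff

namespace Vale.Agent.P225.B2.Core

theorem sroot_pos (m : ℕ) (P C : ℝ) (hC : 0 < C) : 0 < sroot m P C := by
  unfold sroot
  have h1 : (m : ℝ) * P < √((m * P) ^ 2 + C) := by
    apply Real.lt_sqrt_of_sq_lt
    (clear * - hC; linarith)
  linarith

theorem sroot_eq (m : ℕ) (P C : ℝ) (hC : 0 ≤ C) :
    sroot m P C * (sroot m P C + 2 * m * P) = C := by
  unfold sroot
  have h1 : √((m * P) ^ 2 + C) ^ 2 = (m * P) ^ 2 + C := Real.sq_sqrt (by (clear * - hC; positivity))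
  linear_combination h1

theorem Th_zero {x : ℝ} (hx : x ≤ 1 / 4) : Th x = 0 := by
  unfold Th
  apply Real.smoothTransition.zero_of_nonpos
  linarith

theorem Th_one {x : ℝ} (hx : 3 / 4 ≤ x) : Th x = 1 := by
  unfold Th
  apply Real.smoothTransition.one_of_one_le
  linarith

theorem Th_cont : Continuous Th := by
  unfold Th
  (clear * -; fun_prop)

theorem PsiG_low {Pinf a t0 x : ℝ} (ht0 : 0 < t0) (hx : x ≤ 5 / 16 * t0) :
    PsiG Pinf a t0 x = 1 := by
  unfold PsiG
  have : 4 * x / t0 - 1 ≤ 1 / 4 := by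
    rw [sub_le_iff_le_add, div_le_iff₀ ht0]
    linarith only [hx]
  rw [Th_zero this]
  ring

theorem PsiG_high {Pinf a t0 x : ℝ} (ht0 : 0 < t0) (hx : 7 / 16 * t0 ≤ x) :
    PsiG Pinf a t0 x = Pinf + a * x ^ (-(1 / 2) : ℝ) := by
  unfold PsiG
  have : 3 / 4 ≤ 4 * x / t0 - 1 := by
    rw [le_sub_iff_add_le, le_div_iff₀ ht0]
    linarith
  rw [Th_one this]
  ring

theorem PsiG_cont {Pinf a t0 : ℝ} (ht0 : 0 < t0) : Continuous (PsiG Pinf a t0) := by
  rw [continuous_iff_continuousAt]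
  intro x
  rcases lt_or_ge x (5 / 16 * t0) with hx | hx
  · have h1 : PsiG Pinf a t0 =ᶠ[𝓝 x] fun _ => 1 := by
      filter_upwards [Iio_mem_nhds hx] with y hy
      exact PsiG_low ht0 (le_of_lt hy)
    exact h1.continuousAt
  · have hx0 : x ≠ 0 := by
      have : 0 < 5 / 16 * t0 := by positivity
      exact (this.trans_le hx).ne'
    unfold PsiG
    have h1 : ContinuousAt (fun x : ℝ => x ^ (-(1 / 2) : ℝ)) x :=
      Real.continuousAt_rpow_const x _ (Or.inl hx0)
    have h2 : ContinuousAt (fun x : ℝ => Th (4 * x / t0 - 1)) x :=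
      (Th_cont.comp (by fun_prop)).continuousAt
    exact continuousAt_const.sub
      (((continuousAt_const.sub (continuousAt_const.mul h1))).mul h2)

/-- D9: on the core the solution is a scalar multiple of the initial vector and the growing mode
dominates at time `t0`. -/
theorem core (m : ℕ) (hm : 1 ≤ m) (Pinf a : ℝ) (h0 : 0 < Pinf) (h1 : Pinf < 1) (ha : 0 < a)
    (dg : ℕ) (hd : 1 ≤ dg) (ε0 : ℝ) (hε : 0 < ε0) :
    ∃ tst : ℝ, 1 ≤ tst ∧ ∀ t0 : ℝ, tst ≤ t0 → ∀ f f1 : ℝ → ℝ,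
      (∀ x ∈ Icc 0 t0, HasDerivAt f (f1 x) x) →
      (∀ x ∈ Icc 0 t0, HasDerivAt f1 ((dg : ℝ) * (dg + 2 * m) * f x
        - 2 * m * PsiG Pinf a t0 x * f1 x) x) →
      f 0 = 1 → f1 0 = dg →
      (∀ x ∈ Icc 0 t0, 1 ≤ f x ∧ 0 < f1 x) ∧
      |f1 t0 - sroot m Pinf ((dg : ℝ) * (dg + 2 * m)) * f t0|
        ≤ ε0 * (f1 t0 + (sroot m Pinf ((dg : ℝ) * (dg + 2 * m)) + 2 * m * Pinf) * f t0) := by
  have hdg : (1 : ℝ) ≤ dg := by exact_mod_cast hd
  have hC : 0 < (dg : ℝ) * (dg + 2 * m) := by positivity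
  set C := (dg : ℝ) * (dg + 2 * m) with hCdef
  have hs : 0 < sroot m Pinf C := sroot_pos m Pinf C hC
  have hsC : sroot m Pinf C * (sroot m Pinf C + 2 * m * Pinf) = C := sroot_eq m Pinf C hC.le
  set s := sroot m Pinf C with hsdef
  have hss : 0 < s + 2 * m * Pinf := by positivity
  set ss := s + 2 * m * Pinf with hssdef
  -- the limit
  have hlim : Tendsto (fun t0 : ℝ => Real.exp (-((s + ss) * (t0 - t0 / 2))) * (1 + s / ss)
      + (2 * m * (a * (t0 / 2) ^ (-(1 / 2) : ℝ))) * (1 + 1 / ss) * (2 + s / ss) / (s + ss))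
      atTop (𝓝 0) := by
    have e1 : Tendsto (fun t0 : ℝ => Real.exp (-((s + ss) * (t0 - t0 / 2)))) atTop (𝓝 0) := by
      refine Real.tendsto_exp_neg_atTop_nhds_zero.comp ?_
      have : (fun t0 : ℝ => (s + ss) * (t0 - t0 / 2)) = fun t0 : ℝ => ((s + ss) / 2) * t0 := by
        funext t; ring
      rw [this]
      exact tendsto_id.const_mul_atTop (by (clear * - hs hm h0; positivity))
    have e2 : Tendsto (fun t0 : ℝ => (t0 / 2) ^ (-(1 / 2) : ℝ)) atTop (𝓝 0) := by
      refine (tendsto_rpow_neg_atTop (y := 1 / 2) (by norm_num)).comp ?_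
      exact tendsto_id.atTop_div_const (by norm_num)
    have e3 := ((e1.mul_const (1 + s / ss)).add
      (((((e2.const_mul a).const_mul (2 * (m : ℝ))).mul_const (1 + 1 / ss)).mul_const
        (2 + s / ss)).div_const (s + ss)))
    simpa only [one_div, zero_mul, mul_zero, zero_div, add_zero] using e3
  obtain ⟨T, hT⟩ := Filter.eventually_atTop.1 (hlim.eventually (gt_mem_nhds hε))
  refine ⟨max T 1, le_max_right _ _, fun t0 ht0 f f1 hf hf1 hf0 hf10 => ?_⟩
  have ht0T : T ≤ t0 := (le_max_left _ _).trans ht0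
  have ht01 : 1 ≤ t0 := (le_max_right _ _).trans ht0
  have ht0p : 0 < t0 := by linarith only [ht01]
  have hcont : Continuous (fun x => 2 * m * PsiG Pinf a t0 x) :=
    continuous_const.mul (PsiG_cont ht0p)
  have hsol : B.IsSol (fun x => 2 * m * PsiG Pinf a t0 x) (fun _ => C) f f1 0 t0 :=
    ⟨hf, fun t ht => hf1 t ht⟩
  have hpos := hsol.pos hcont (fun _ _ => hC.le) (by rw [hf0]; exact one_pos)
    (by rw [hf10]; (clear * - hd; positivity))
  have hstrict : ∀ x ∈ Icc 0 t0, 0 < f1 x := by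
    intro x hx
    have hE : ∀ t, HasDerivAt (fun t => Real.exp (∫ u in (0:ℝ)..t, 2 * m * PsiG Pinf a t0 u))
        (Real.exp (∫ u in (0:ℝ)..t, 2 * m * PsiG Pinf a t0 u) * (2 * m * PsiG Pinf a t0 t)) t :=
      fun t => (B.IsSol.prim hcont 0 t).exp
    have hdd : ∀ t ∈ Icc 0 t0, HasDerivAt
        (fun t => Real.exp (∫ u in (0:ℝ)..t, 2 * m * PsiG Pinf a t0 u) * f1 t)
        (Real.exp (∫ u in (0:ℝ)..t, 2 * m * PsiG Pinf a t0 u) * (C * f t)) t := by
      intro t ht
      exact ((hE t).mul (hf1 t ht)).congr_deriv (by ring)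
    have hmono : MonotoneOn
        (fun t => Real.exp (∫ u in (0:ℝ)..t, 2 * m * PsiG Pinf a t0 u) * f1 t) (Icc 0 t0) := by
      refine monotoneOn_of_deriv_nonneg (convex_Icc 0 t0)
        (fun t ht => (hdd t ht).continuousAt.continuousWithinAt)
        (fun t ht => (hdd t (interior_subset ht)).differentiableAt.differentiableWithinAt)
        fun t ht => ?_
      rw [(hdd t (interior_subset ht)).deriv]
      have h3 := (hpos t (interior_subset ht)).1
      rw [hf0] at h3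
      have : 0 ≤ f t := by linarith only [h3]
      (clear * - hd hm h3; positivity)
    have h2 := hmono (left_mem_Icc.mpr ht0p.le) hx hx.1
    simp only [intervalIntegral.integral_same, Real.exp_zero, one_mul, hf10] at h2
    have h3 : 0 < Real.exp (∫ u in (0:ℝ)..x, 2 * m * PsiG Pinf a t0 u) * f1 x := by linarith only [hdg, h2]
    exact (pos_iff_pos_of_mul_pos h3).1 (Real.exp_pos _)
  refine ⟨fun x hx => ⟨by simpa only [hf0] using (hpos x hx).1, hstrict x hx⟩, ?_⟩
  have hhalf : t0 / 2 ≤ t0 := by linarith only [ht01]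
  have hsol2 : B.IsSol (fun x => 2 * m * PsiG Pinf a t0 x) (fun _ => C) f f1 (t0 / 2) t0 :=
    hsol.mono (by (clear * - ht01; positivity)) le_rfl
  have hin : ∀ t ∈ Icc (t0 / 2) t0, t ∈ Icc 0 t0 := fun t ht =>
    ⟨le_trans (by positivity) ht.1, ht.2⟩
  have hfin := hsol2.ratio_le (s := s) (ss := ss)
    (ε := 2 * m * (a * (t0 / 2) ^ (-(1 / 2) : ℝ))) hs hss hhalf
    (fun t ht => by
      have h3 := (hpos t (hin t ht)).1
      rw [hf0] at h3
      linarith only [h3])
    (fun t ht => (hpos t (hin t ht)).2)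
    (fun t ht => by
      rw [hsC, sub_self, abs_zero]
      (clear * - hm ha ht01; positivity))
    (fun t ht => by
      have htp : 0 < t := lt_of_lt_of_le (by (clear * - ht01; positivity)) ht.1
      have h3 : PsiG Pinf a t0 t = Pinf + a * t ^ (-(1 / 2) : ℝ) :=
        PsiG_high ht0p (by linarith only [htp, ht.1])
      have h4 : 2 * (m : ℝ) * PsiG Pinf a t0 t - (ss - s) = 2 * m * (a * t ^ (-(1 / 2) : ℝ)) := by
        rw [h3, hssdef]; ring
      have h5 : 0 ≤ t ^ (-(1 / 2) : ℝ) := Real.rpow_nonneg htp.le _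
      rw [h4, abs_of_nonneg (by (clear * - hm ha htp; positivity))]
      have h6 : t ^ (-(1 / 2) : ℝ) ≤ (t0 / 2) ^ (-(1 / 2) : ℝ) :=
        Real.rpow_le_rpow_of_nonpos (by (clear * - ht01; positivity)) ht.1 (by norm_num)
      (clear * - h6 ha hm; gcongr))
  refine hfin.trans (mul_le_mul_of_nonneg_right (hT t0 ht0T).le ?_)
  have h3 := (hpos t0 (right_mem_Icc.mpr ht0p.le))
  rw [hf0] at h3
  have : 0 ≤ f t0 := by linarith only [h3]
  have := h3.2
  (clear a ha hd ε0 hε hdg hC hCdef hsdef hsC hss hssdef hlim T hT ht0 hf hf1 hf0 hf10 ht0T ht01 ht0p hcont hsol hpos hstrict hhalf hsol2 hin hfin; positivity)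

end Vale.Agent.P225.B2.Core
end
end

section

section

/-! # P225, design B, D10b: growth over the cycles -/

open Set Filter Topology
open scoped ContDiff

namespace Vale.Agent.P225.B2

namespace Growth

/-- a continuous function vanishing off `[1/4, 3/4]` is bounded -/
theorem bdd_of_support {f : ℝ → ℝ} (hf : Continuous f) (h1 : ∀ x < 1 / 4, f x = 0)
    (h2 : ∀ x > 3 / 4, f x = 0) : ∃ C : ℝ, 0 ≤ C ∧ ∀ x, |f x| ≤ C := by
  obtain ⟨C, hC⟩ := (isCompact_Icc (a := (1 / 4 : ℝ)) (b := 3 / 4)).exists_bound_of_continuousOn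
    hf.continuousOn
  refine ⟨max C 0, le_max_right _ _, fun x => ?_⟩
  rcases lt_or_ge x (1 / 4) with h | h
  · rw [h1 x h, abs_zero]
    exact le_max_right _ _
  rcases lt_or_ge (3 / 4) x with h' | h'
  · rw [h2 x h', abs_zero]
    exact le_max_right _ _
  · exact (hC x ⟨h, h'⟩).trans (le_max_left _ _)

theorem chi_bdd : ∃ C : ℝ, 0 ≤ C ∧ ∀ x, |chi x| ≤ C :=
  bdd_of_support chi_contDiff.continuous (fun _ hx => chi_left hx.le) (fun _ hx => chi_right hx.le)

theorem dchi_bdd : ∃ C : ℝ, 0 ≤ C ∧ ∀ x, |deriv chi x| ≤ C := by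
  refine bdd_of_support (chi_contDiff.continuous_deriv (by simp only [WithTop.one_le_coe, le_top])) (fun x hx => ?_) (fun x hx => ?_)
  · have : chi =ᶠ[𝓝 x] fun _ => 0 := by
      filter_upwards [Iio_mem_nhds hx] with y hy using chi_left (le_of_lt hy)
    rw [this.deriv_eq]
    simp only [deriv_const']
  · have : chi =ᶠ[𝓝 x] fun _ => 0 := by
      filter_upwards [Ioi_mem_nhds hx] with y hy using chi_right (le_of_lt hy)
    rw [this.deriv_eq]
    simp only [deriv_const']

theorem Th_hasDerivAt (x : ℝ) : HasDerivAt Th (chi x) x :=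
  ((Th_contDiff (n := 1)).differentiable (by simp) x).hasDerivAt

theorem chi_hasDerivAt (x : ℝ) : HasDerivAt chi (deriv chi x) x :=
  ((chi_contDiff.differentiable (by simp)) x).hasDerivAt

/-- the derivative of the cycle profile is bounded -/
theorem deriv_etaC_bdd (eta0 : ℝ) (l : ℕ) (R : ℝ) (hR : 0 ≤ R) :
    ∃ C : ℝ, 0 ≤ C ∧ ∀ t : ℝ, 1 ≤ t → ∀ c : Fin l → ℝ, ‖c‖ ≤ R → ∀ x,
      |deriv (etaC eta0 t c) x| ≤ C := by
  obtain ⟨C0, hC0, h0⟩ := chi_bdd
  obtain ⟨C1, hC1, h1⟩ := dchi_bdd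
  refine ⟨l * (R * C1) + 2 * (|eta0| * C0), by (clear * - hR hC1 hC0; positivity), ?_⟩
  intro t ht c hc x
  have hr : 1 ≤ rr t := Real.one_le_rpow ht (by norm_num)
  have hr0 : 0 < rr t := by linarith
  have hrinv : (rr t)⁻¹ ≤ 1 := inv_le_one_of_one_le₀ hr
  have hrinv0 : 0 ≤ (rr t)⁻¹ := inv_nonneg.mpr hr0.le
  have d1 : HasDerivAt (ep (rr t) t c)
      (∑ i : Fin l, (rr t)⁻¹ * c i * (deriv chi ((x - t) / rr t - (i : ℝ)) * (1 / rr t))) x := by
    unfold ep
    have := HasDerivAt.fun_sum (u := Finset.univ)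
      (A := fun (i : Fin l) x => (rr t)⁻¹ * c i * chi ((x - t) / rr t - (i : ℝ)))
      (A' := fun i => (rr t)⁻¹ * c i * (deriv chi ((x - t) / rr t - (i : ℝ)) * (1 / rr t)))
      (x := x) (fun i _ => ?_)
    · exact this
    · have h2 : HasDerivAt (fun x : ℝ => (x - t) / rr t - (i : ℝ)) (1 / rr t) x :=
        (((hasDerivAt_id x).sub_const t).div_const _).sub_const _
      exact ((chi_hasDerivAt _).comp x h2).const_mul _
  have d2 : HasDerivAt (eh eta0 l t)
      (eta0 * (chi ((x - T1 l t) / rr t) * (1 / rr t)) * Th ((T2 l t - x) / rr t)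
        + eta0 * Th ((x - T1 l t) / rr t) * (chi ((T2 l t - x) / rr t) * (-1 / rr t))) x := by
    unfold eh
    have h2 : HasDerivAt (fun x : ℝ => (x - T1 l t) / rr t) (1 / rr t) x :=
      ((hasDerivAt_id x).sub_const _).div_const _
    have h3 : HasDerivAt (fun x : ℝ => (T2 l t - x) / rr t) (-1 / rr t) x := by
      have := ((hasDerivAt_id x).const_sub (T2 l t)).div_const (rr t)
      exact this
    exact (((Th_hasDerivAt _).comp x h2).const_mul eta0).mul ((Th_hasDerivAt _).comp x h3)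
  have d3 : HasDerivAt (etaC eta0 t c) _ x := d1.add d2
  rw [d3.deriv]
  refine (abs_add_le _ _).trans (add_le_add ?_ ?_)
  · calc |∑ i : Fin l, (rr t)⁻¹ * c i * (deriv chi ((x - t) / rr t - (i : ℝ)) * (1 / rr t))|
        ≤ ∑ i : Fin l, |(rr t)⁻¹ * c i * (deriv chi ((x - t) / rr t - (i : ℝ)) * (1 / rr t))| :=
          Finset.abs_sum_le_sum_abs _ _
      _ ≤ ∑ _i : Fin l, R * C1 := by
          refine Finset.sum_le_sum fun i _ => ?_
          rw [abs_mul, abs_mul, abs_mul, abs_of_nonneg hrinv0, one_div, abs_of_nonneg hrinv0]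
          have e1 : |c i| ≤ R := (norm_le_pi_norm c i).trans hc
          have e2 := h1 ((x - t) / rr t - (i : ℝ))
          calc (rr t)⁻¹ * |c i| * (|deriv chi ((x - t) / rr t - (i : ℝ))| * (rr t)⁻¹)
              ≤ 1 * R * (C1 * 1) := by (clear * - hrinv e1 e2 hr hC1 hR; gcongr)
            _ = R * C1 := by ring
      _ = l * (R * C1) := by simp only [Finset.sum_const, Finset.card_univ, Fintype.card_fin, nsmul_eq_mul]
  · have e1 := h0 ((x - T1 l t) / rr t)
    have e2 := h0 ((T2 l t - x) / rr t)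
    have e3 : |Th ((T2 l t - x) / rr t)| ≤ 1 := by
      rw [abs_of_nonneg (Th_nonneg _)]; exact Th_le_one _
    have e4 : |Th ((x - T1 l t) / rr t)| ≤ 1 := by
      rw [abs_of_nonneg (Th_nonneg _)]; exact Th_le_one _
    have e5 : |1 / rr t| ≤ 1 := by
      rw [one_div, abs_of_nonneg hrinv0]; exact hrinv
    have e6 : |-1 / rr t| ≤ 1 := by
      rw [neg_div, abs_neg]; exact e5
    calc |eta0 * (chi ((x - T1 l t) / rr t) * (1 / rr t)) * Th ((T2 l t - x) / rr t)
        + eta0 * Th ((x - T1 l t) / rr t) * (chi ((T2 l t - x) / rr t) * (-1 / rr t))|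
        ≤ |eta0| * (|chi ((x - T1 l t) / rr t)| * |1 / rr t|) * |Th ((T2 l t - x) / rr t)|
          + |eta0| * |Th ((x - T1 l t) / rr t)| * (|chi ((T2 l t - x) / rr t)| * |-1 / rr t|) := by
          refine (abs_add_le _ _).trans ?_
          simp only [abs_mul, le_refl]
      _ ≤ |eta0| * (C0 * 1) * 1 + |eta0| * 1 * (C0 * 1) := by (clear * - e1 e5 hr hC0 e3 e4 e2 e6; gcongr)
      _ = 2 * (|eta0| * C0) := by ring

theorem abs_beta_le (y : ℝ) : |beta y| ≤ 1 + Real.exp (2 * |y|) := by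
  unfold beta
  have h1 : Real.exp (-2 * y) ≤ Real.exp (2 * |y|) := by
    apply Real.exp_le_exp.mpr
    have := neg_abs_le y
    linarith
  have h2 := Real.exp_pos (-2 * y)
  rw [abs_le]
  constructor <;> linarith

variable {D : Type} [Fintype D] {ι : D → Type} [∀ d, Fintype (ι d)] [∀ d, DecidableEq (ι d)]
  {𝒥 : Type}

/-- the coefficients of a cycle are bounded -/
theorem coef_bdd (P : Dat D ι 𝒥) {l : ℕ} (word : Fin l → 𝒥) (R : ℝ) (hR : 0 ≤ R) (d : D) :
    ∃ C : ℝ, 0 ≤ C ∧ ∀ t : ℝ, 1 ≤ t → ∀ c : Fin l → ℝ, ‖c‖ ≤ R → ∀ Ψ : ℝ → ℝ, ∀ x,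
      0 ≤ Ψ x → Ψ x ≤ 1 → |P.pC Ψ t c x| ≤ C ∧ ‖P.QC word t c d x‖ ≤ C := by
  obtain ⟨C0, hC0, h0⟩ := chi_bdd
  obtain ⟨C1, hC1, h1⟩ := deriv_etaC_bdd P.eta0 l R hR
  set C2 := |P.C d| + ∑ i : Fin l, (1 + Real.exp (2 * (R * C0))) * ‖P.M (word i) d‖
    + (1 + Real.exp (2 * P.eta0)) * ‖P.M P.J0 d‖ with hC2
  have hC20 : 0 ≤ C2 := by positivity
  refine ⟨2 * P.m + C1 + C2, by (clear * - hC1; positivity), ?_⟩
  intro t ht c hc Ψ x hΨ0 hΨ1
  have hr : 1 ≤ rr t := Real.one_le_rpow ht (by norm_num)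
  have hr0 : 0 < rr t := by linarith only [hr]
  have hrinv : (rr t)⁻¹ ≤ 1 := inv_le_one_of_one_le₀ hr
  have hrinv0 : 0 ≤ (rr t)⁻¹ := inv_nonneg.mpr hr0.le
  constructor
  · have e1 : |sigC P.m Ψ P.eta0 l t x| ≤ 1 := by
      unfold sigC
      rw [abs_of_nonneg (by (clear * - hΨ0; positivity))]
      have e2 : Real.exp (-(eh P.eta0 l t x / (2 * P.m + 1))) ≤ 1 := by
        apply Real.exp_le_one_iff.mpr
        have := eh_nonneg P.heta0 l t x
        have : 0 ≤ eh P.eta0 l t x / (2 * P.m + 1) := by (clear * - this; positivity)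
        linarith only [this]
      calc Ψ x * Real.exp (-(eh P.eta0 l t x / (2 * P.m + 1))) ≤ 1 * 1 := by
            (clear * - hΨ1 e2; gcongr)
        _ = 1 := one_mul 1
    unfold Dat.pC
    refine (abs_add_le _ _).trans ?_
    have e3 := h1 t ht c hc x
    have e4 : |2 * (P.m : ℝ) * sigC P.m Ψ P.eta0 l t x| ≤ 2 * P.m := by
      rw [abs_mul, abs_of_nonneg (by (clear * -; positivity) : (0 : ℝ) ≤ 2 * P.m)]
      exact mul_le_of_le_one_right (by positivity) e1
    linarith only [hC20, e3, e4]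
  · unfold Dat.QC Qp
    have e1 : ‖P.C d • (1 : (ι d → ℝ) →L[ℝ] (ι d → ℝ))‖ ≤ |P.C d| := by
      rw [norm_smul, Real.norm_eq_abs]
      exact mul_le_of_le_one_right (abs_nonneg _) ContinuousLinearMap.norm_id_le
    have e2 : ‖∑ i : Fin l, beta ((rr t)⁻¹ * c i * chi ((x - t) / rr t - (i : ℝ)))
        • P.M (word i) d‖ ≤ ∑ i : Fin l, (1 + Real.exp (2 * (R * C0))) * ‖P.M (word i) d‖ := by
      refine (norm_sum_le _ _).trans (Finset.sum_le_sum fun i _ => ?_)
      rw [norm_smul, Real.norm_eq_abs]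
      refine mul_le_mul_of_nonneg_right ?_ (norm_nonneg _)
      refine (abs_beta_le _).trans ?_
      have e3 : |(rr t)⁻¹ * c i * chi ((x - t) / rr t - (i : ℝ))| ≤ R * C0 := by
        rw [abs_mul, abs_mul, abs_of_nonneg hrinv0]
        have f1 : |c i| ≤ R := (norm_le_pi_norm c i).trans hc
        have f2 := h0 ((x - t) / rr t - (i : ℝ))
        calc (rr t)⁻¹ * |c i| * |chi ((x - t) / rr t - (i : ℝ))| ≤ 1 * R * C0 := by (clear * - hrinv f1 f2 hR; gcongr)
          _ = R * C0 := by ring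
      have e4 : Real.exp (2 * |(rr t)⁻¹ * c i * chi ((x - t) / rr t - (i : ℝ))|)
          ≤ Real.exp (2 * (R * C0)) := Real.exp_le_exp.mpr (by linarith only [e3])
      linarith only [e4]
    have e5 : ‖beta (eh P.eta0 l t x) • P.M P.J0 d‖
        ≤ (1 + Real.exp (2 * P.eta0)) * ‖P.M P.J0 d‖ := by
      rw [norm_smul, Real.norm_eq_abs]
      refine mul_le_mul_of_nonneg_right ?_ (norm_nonneg _)
      refine (abs_beta_le _).trans ?_
      have f1 := eh_nonneg P.heta0 l t x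
      have f2 := eh_le P.heta0 l t x
      rw [abs_of_nonneg f1]
      have e4 : Real.exp (2 * eh P.eta0 l t x) ≤ Real.exp (2 * P.eta0) :=
        Real.exp_le_exp.mpr (by linarith only [f2])
      linarith only [e4]
    have e6 := (norm_sub_le (P.C d • (1 : (ι d → ℝ) →L[ℝ] (ι d → ℝ))
      - ∑ i : Fin l, beta ((rr t)⁻¹ * c i * chi ((x - t) / rr t - (i : ℝ))) • P.M (word i) d)
      (beta (eh P.eta0 l t x) • P.M P.J0 d))
    have e7 := (norm_sub_le (P.C d • (1 : (ι d → ℝ) →L[ℝ] (ι d → ℝ)))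
      (∑ i : Fin l, beta ((rr t)⁻¹ * c i * chi ((x - t) / rr t - (i : ℝ))) • P.M (word i) d))
    have e8 : (0 : ℝ) ≤ 2 * P.m := by (clear * -; positivity)
    linarith only [hC1, e1, e2, e5, e6, e7]

/-- crude growth bound -/
theorem crude {V : Type*} [NormedAddCommGroup V] [NormedSpace ℝ V] {p : ℝ → ℝ}
    {Q : ℝ → V →L[ℝ] V} {a b K : ℝ} {w w1 : ℝ → V} (hK : 0 ≤ K)
    (h : ∀ x ∈ Icc a b, |p x| ≤ K ∧ ‖Q x‖ ≤ K) (hs : Sol p Q (Icc a b) w w1) {x : ℝ}
    (hx : x ∈ Icc a b) :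
    ‖w x‖ ≤ (‖w a‖ + ‖w1 a‖) * Real.exp ((1 + 2 * K) * (x - a)) := by
  have hb : ∀ t ∈ Icc a b, ‖B.sysCoef p Q t‖ ≤ 1 + 2 * K := by
    intro t ht
    refine ContinuousLinearMap.opNorm_le_bound _ (by (clear * - hK; positivity)) fun y => ?_
    rw [B.sysCoef_apply, Prod.norm_def]
    have h1 : ‖y.1‖ ≤ ‖y‖ := norm_fst_le y
    have h2 : ‖y.2‖ ≤ ‖y‖ := norm_snd_le y
    have h0 := norm_nonneg y
    refine max_le ?_ ?_
    · linarith only [mul_nonneg (sub_nonneg.2 hK) (sub_nonneg.2 h0), h2]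
    · calc ‖Q t y.1 - p t • y.2‖ ≤ ‖Q t y.1‖ + ‖p t • y.2‖ := norm_sub_le _ _
        _ ≤ K * ‖y‖ + K * ‖y‖ := by
            refine add_le_add ?_ ?_
            · exact ((Q t).le_of_opNorm_le (h t ht).2 _).trans
                (mul_le_mul_of_nonneg_left h1 hK)
            · rw [norm_smul, Real.norm_eq_abs]
              exact mul_le_mul (h t ht).1 h2 (norm_nonneg _) hK
        _ ≤ (1 + 2 * K) * ‖y‖ := by linarith
  have := B.lin_bound (a := B.sysCoef p Q) (x := fun t => (w t, w1 t))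
    (fun t ht => (hs.d0 t ht).prodMk (hs.d1 t ht)) hb hx
  have h1 : ‖w x‖ ≤ ‖(w x, w1 x)‖ := norm_fst_le (w x, w1 x)
  have h2 : ‖(w a, w1 a)‖ ≤ ‖w a‖ + ‖w1 a‖ := by
    rw [Prod.norm_def]
    exact max_le (le_add_of_nonneg_right (norm_nonneg _)) (le_add_of_nonneg_left (norm_nonneg _))
  exact h1.trans (this.trans (mul_le_mul_of_nonneg_right h2 (Real.exp_pos _).le))

/-- the multiplier after `j` cycles -/
noncomputable def mult {P : Dat D ι 𝒥} (Q : Ctl P) (Λ : ℕ → (d : D) → ι d → ℝ) (d : D) (i : ι d)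
    (ρ : ℝ) : ℕ → ℝ
  | 0 => ρ
  | j + 1 => Λ j d ((Q.pi d)^[j + 1] i) * (mult Q Λ d i ρ j * Q.sg d ((Q.pi d)^[j] i))

theorem mem_iter {P : Dat D ι 𝒥} (Q : Ctl P) {d : D} {i : ι d} (hi : i ∈ Q.Sset d) (j : ℕ) :
    (Q.pi d)^[j] i ∈ Q.Sset d := by
  induction j with
  | zero => exact hi
  | succ j ih =>
    rw [Function.iterate_succ_apply']
    exact Q.hpi d _ ih

theorem track {P : Dat D ι 𝒥} (Q : Ctl P) {t0 : ℝ} {Ψ : ℝ → ℝ} {K : ℝ}
    {Z : ℕ → (d : D) → (ι d → ℝ) →L[ℝ] (ι d → ℝ)} {c : ℕ → Fin Q.l → ℝ}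
    {Λ : ℕ → (d : D) → ι d → ℝ}
    (hOK : ∀ j, CycleOK P Q Ψ (tq Q.l t0 j) K (Z j) (c j) (Z (j + 1)) (Λ j))
    {d : D} {i : ι d} (hi : i ∈ Q.Sset d) {w w1 : ℝ → ι d → ℝ}
    (hw : ∀ j, Sol (P.pC Ψ (tq Q.l t0 j) (c j)) (P.QC Q.word (tq Q.l t0 j) (c j) d)
      (Icc (tq Q.l t0 j) (tq Q.l t0 (j + 1))) w w1)
    {ρ : ℝ} (hv : w1 t0 + P.ss d • w t0 = ρ • Pi.single i 1)
    (hz : w1 t0 - P.s d • w t0 = Z 0 d (w1 t0 + P.ss d • w t0)) (j : ℕ) :
    w1 (tq Q.l t0 j) + P.ss d • w (tq Q.l t0 j)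
        = mult Q Λ d i ρ j • Pi.single ((Q.pi d)^[j] i) 1 ∧
      w1 (tq Q.l t0 j) - P.s d • w (tq Q.l t0 j)
        = Z j d (w1 (tq Q.l t0 j) + P.ss d • w (tq Q.l t0 j)) := by
  induction j with
  | zero => exact ⟨hv, hz⟩
  | succ j ih =>
    obtain ⟨ih1, ih2⟩ := ih
    obtain ⟨h1, h2⟩ := (hOK j).2 d w w1 (hw j) ih2
    refine ⟨?_, h2⟩
    have h3 : P.ctrl Q.word (Q.c0, Q.lam0) d (w1 (tq Q.l t0 j) + P.ss d • w (tq Q.l t0 j))
        = (mult Q Λ d i ρ j * Q.sg d ((Q.pi d)^[j] i))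
          • Pi.single ((Q.pi d)^[j + 1] i) 1 := by
      rw [ih1, map_smul, Q.hT d _ (mem_iter Q hi j), Function.iterate_succ_apply', smul_smul]
    funext i'
    have h4 := h1 i'
    rw [h3] at h4
    show (w1 (T3 Q.l (tq Q.l t0 j)) + P.ss d • w (T3 Q.l (tq Q.l t0 j))) i' = _
    rw [h4]
    simp only [Pi.smul_apply, smul_eq_mul, mult]
    by_cases hii : i' = (Q.pi d)^[j + 1] i
    · subst hii
      simp only [Function.iterate_succ, Function.comp_apply, Pi.single_eq_same, mul_one]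
    · rw [Pi.single_eq_of_ne hii]
      ring

end Growth

open Growth in
/-- D10b: growth of a tracked solution over the cycles. -/
theorem growth_cycles {D : Type} [Fintype D] {ι : D → Type} [∀ d, Fintype (ι d)]
    [∀ d, DecidableEq (ι d)] {𝒥 : Type} (P : Dat D ι 𝒥) (Q : Ctl P) {t0 : ℝ} (ht0 : 1 ≤ t0)
    (Ψ : ℝ → ℝ) (hΨ : ∀ x, t0 ≤ x → P.Pinf ≤ Ψ x ∧ Ψ x ≤ 1) (K : ℝ) (hK : 0 ≤ K)
    (Z : ℕ → (d : D) → (ι d → ℝ) →L[ℝ] (ι d → ℝ)) (c : ℕ → Fin Q.l → ℝ)
    (Λ : ℕ → (d : D) → ι d → ℝ) (hZ : ∀ j d, ‖Z j d‖ ≤ 1 / 2) (hc : ∀ j, ‖c j - Q.c0‖ ≤ 1)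
    (hOK : ∀ j, CycleOK P Q Ψ (tq Q.l t0 j) K (Z j) (c j) (Z (j + 1)) (Λ j))
    (φ σ : ℝ → ℝ) (hφ : ∀ x, HasDerivAt φ (σ x) x) (hσ : ∀ x, P.sig0 ≤ σ x) (d : D)
    (i : ι d) (hi : i ∈ Q.Sset d) (w w1 : ℝ → ι d → ℝ)
    (hw : ∀ j, Sol (P.pC Ψ (tq Q.l t0 j) (c j)) (P.QC Q.word (tq Q.l t0 j) (c j) d)
      (Icc (tq Q.l t0 j) (tq Q.l t0 (j + 1))) w w1)
    (ρ : ℝ) (hv : w1 t0 + P.ss d • w t0 = ρ • Pi.single i 1)
    (hz : w1 t0 - P.s d • w t0 = Z 0 d (w1 t0 + P.ss d • w t0)) :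
    ∃ K' : ℝ, ∀ x, t0 ≤ x → ‖w x‖ ≤ K' * Real.exp (Q.k * φ x) := by
  classical
  set t := tq Q.l t0 with ht
  have ht1 : ∀ j, 1 ≤ t j := tq_ge_one ht0
  have ht0j : ∀ j, t0 ≤ t j := fun j => by
    have := tq_ge_add (l := Q.l) ht0 j
    have hj : (0 : ℝ) ≤ j := by (clear * -; positivity)
    linarith only [this]
  have hsig0 : 0 < P.sig0 := by
    unfold Dat.sig0
    have := P.hP0
    (clear * - this; positivity)
  -- exponents
  have hdeg : (1 : ℝ) ≤ P.deg d := by exact_mod_cast P.hdeg d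
  have hCpos : 0 < P.C d := by
    unfold Dat.C
    have : (0 : ℝ) ≤ P.m := by (clear * -; positivity)
    (clear * - hdeg; positivity)
  have hs : 0 < P.s d := Core.sroot_pos _ _ _ hCpos
  have hss : 0 ≤ P.ss d := by
    unfold Dat.ss
    have := P.hP0
    (clear * - hs this; positivity)
  have hsum : 0 < P.s d + P.ss d := by linarith only [hs, hss]
  set κ := (P.s d + P.ss d)⁻¹ with hκ
  have hκ0 : 0 < κ := inv_pos.mpr hsum
  -- tracking
  set r := mult Q Λ d i ρ with hr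
  have htr := track Q hOK hi hw hv hz
  set pj : ℕ → ι d := fun j => (Q.pi d)^[j] i with hpj
  set Rj : ℕ → ℝ := fun j => ∑ n ∈ Finset.range j, (P.S d (pj (n + 1)) * LL (t n) + K * rr (t n))
    with hRj
  have hrle : ∀ j, |r j| ≤ |ρ| * Real.exp (Rj j) := by
    intro j
    induction j with
    | zero => simp only [hr, mult, hRj, Finset.range_zero, Finset.sum_empty, Real.exp_zero, mul_one, Std.le_refl]
    | succ j ih =>
      have h1 : r (j + 1) = Λ j d (pj (j + 1)) * (r j * Q.sg d (pj j)) := rfl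
      have h2 := (hOK j).1 d (pj (j + 1))
      have h3 : Rj (j + 1) = (P.S d (pj (j + 1)) * LL (t j) + K * rr (t j)) + Rj j := by
        rw [hRj]
        simp only
        rw [Finset.sum_range_succ, add_comm]
      rw [h1, abs_mul, abs_mul, Q.hsg, mul_one, abs_of_pos h2.1, h3, Real.exp_add]
      calc Λ j d (pj (j + 1)) * |r j|
          ≤ Real.exp (P.S d (pj (j + 1)) * LL (t j) + K * rr (t j)) * (|ρ| * Real.exp (Rj j)) :=
            mul_le_mul h2.2 ih (abs_nonneg _) (Real.exp_pos _).le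
        _ = _ := by ring
  -- coefficients
  obtain ⟨C, hC0, hC⟩ := coef_bdd P Q.word (‖Q.c0‖ + 1) (by (clear * -; positivity)) d
  have hcle : ∀ j, ‖c j‖ ≤ ‖Q.c0‖ + 1 := fun j => by
    calc ‖c j‖ = ‖Q.c0 + (c j - Q.c0)‖ := by rw [add_sub_cancel]
      _ ≤ ‖Q.c0‖ + ‖c j - Q.c0‖ := norm_add_le _ _
      _ ≤ ‖Q.c0‖ + 1 := by linarith only [hc j]
  -- size at the junctions
  set M0 := (3 / 2) * κ + (1 + P.ss d * ((3 / 2) * κ)) with hM0
  have hM00 : 0 ≤ M0 := by (clear * - hs hss; positivity)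
  have hsize : ∀ j, ‖w (t j)‖ + ‖w1 (t j)‖ ≤ M0 * |r j| := by
    intro j
    obtain ⟨h1, h2⟩ := htr j
    set v := w1 (t j) + P.ss d • w (t j) with hvdef
    have hvn : ‖v‖ ≤ |r j| := by
      rw [h1, norm_smul, Real.norm_eq_abs]
      refine mul_le_of_le_one_right (abs_nonneg _) ?_
      rw [pi_norm_le_iff_of_nonneg zero_le_one]
      intro k
      by_cases hk : k = pj j
      · subst hk
        simp [hpj]
      · rw [Pi.single_eq_of_ne hk]
        simp only [norm_zero, zero_le_one]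
    have hzn : ‖Z j d v‖ ≤ 1 / 2 * |r j| :=
      ((Z j d).le_of_opNorm_le (hZ j d) v).trans (mul_le_mul_of_nonneg_left hvn (by norm_num))
    have hweq : w (t j) = κ • (v - Z j d v) := by
      rw [← h2, hvdef]
      have : w1 (t j) + P.ss d • w (t j) - (w1 (t j) - P.s d • w (t j))
          = (P.s d + P.ss d) • w (t j) := by
        rw [add_smul]
        abel
      rw [this, smul_smul, hκ, inv_mul_cancel₀ hsum.ne', one_smul]
    have hwn : ‖w (t j)‖ ≤ (3 / 2) * κ * |r j| := by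
      rw [hweq, norm_smul, Real.norm_eq_abs, abs_of_pos hκ0]
      calc κ * ‖v - Z j d v‖ ≤ κ * (|r j| + 1 / 2 * |r j|) :=
            mul_le_mul_of_nonneg_left ((norm_sub_le _ _).trans (add_le_add hvn hzn)) hκ0.le
        _ = (3 / 2) * κ * |r j| := by ring
    have hw1n : ‖w1 (t j)‖ ≤ (1 + P.ss d * ((3 / 2) * κ)) * |r j| := by
      have : w1 (t j) = v - P.ss d • w (t j) := by rw [hvdef]; abel
      rw [this]
      refine (norm_sub_le _ _).trans ?_
      rw [norm_smul, Real.norm_eq_abs, abs_of_nonneg hss]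
      have := mul_le_mul_of_nonneg_left hwn hss
      linarith only [hvn, this]
    rw [hM0]
    linarith only [hwn, hw1n]
  -- period
  obtain ⟨N, hN, hper, hneg⟩ := Q.havg d i hi
  have hpjper : ∀ j, pj (j + N) = pj j := fun j => by
    simp only [hpj]
    rw [Function.iterate_add_apply, hper]
  have hsumneg : ∑ j ∈ Finset.range N, (P.S d (pj (j + 1)) - Q.k * P.sig0) < 0 := by
    have h1 := D8.per_sum (N := N) (fun j => P.S d (pj j) - Q.k * P.sig0)
      (fun j => by simp only [hpjper]) 1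
    have h2 : ∑ j ∈ Finset.range N, (P.S d (pj (j + 1)) - Q.k * P.sig0)
        = ∑ j ∈ Finset.range N, (P.S d (pj (1 + j)) - Q.k * P.sig0) := by
      refine Finset.sum_congr rfl fun j _ => ?_
      rw [add_comm 1 j]
    rw [h2, h1]
    exact hneg
  -- phi
  have hφmono : Monotone φ := monotone_of_deriv_nonneg (fun x => (hφ x).differentiableAt)
    (fun x => by rw [(hφ x).deriv]; exact hsig0.le.trans (hσ x))
  have hφinc : ∀ x y, x ≤ y → P.sig0 * (y - x) ≤ φ y - φ x := by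
    intro x y hxy
    have hd : ∀ x, HasDerivAt (fun x => φ x - P.sig0 * x) (σ x - P.sig0 * 1) x :=
      fun x => (hφ x).sub ((hasDerivAt_id x).const_mul P.sig0)
    have hm : Monotone (fun x => φ x - P.sig0 * x) := by
      refine monotone_of_deriv_nonneg (fun x => (hd x).differentiableAt) fun x => ?_
      rw [(hd x).deriv]
      linarith only [hσ x]
    have := hm hxy
    simp only at this
    linarith only [this]
  set K1 := 1 + 2 * C with hK1
  have hK10 : 0 ≤ K1 := by (clear * - hC0; positivity)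
  have key := D8.growth_bound (c1 := (Q.l : ℝ) + 3) (t := t) (N := N) hN
    (fun j => P.S d (pj (j + 1)) - Q.k * P.sig0)
    (fun j => by
      show P.S d (pj (j + N + 1)) - _ = _
      rw [show j + N + 1 = (j + 1) + N by ring, hpjper])
    hsumneg (by (clear * -; positivity)) (ht1 0)
    (fun j => by
      show T3 Q.l (tq Q.l t0 j) = _
      rw [T3_eq]
      rfl)
    Q.hk φ (hφmono.monotoneOn _) Rj K
    (fun j => by
      have h1 : Rj (j + 1) = Rj j + (P.S d (pj (j + 1)) * LL (t j) + K * rr (t j)) := by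
        rw [hRj]
        simp only
        rw [Finset.sum_range_succ]
      have h2 := hφinc (t j) (t (j + 1)) ((tq_strictMono ht0).monotone (Nat.le_succ j))
      have h3 : LL (t j) ≤ t (j + 1) - t j := by
        have e : t (j + 1) = T3 Q.l (t j) := rfl
        rw [e, T3_eq]
        have : 0 ≤ ((Q.l : ℝ) + 3) * rr (t j) := by
          have := rr_pos (lt_of_lt_of_le one_pos (ht1 j))
          (clear * - this; positivity)
        linarith only [this]
      have h4 : P.sig0 * LL (t j) ≤ φ (t (j + 1)) - φ (t j) :=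
        (mul_le_mul_of_nonneg_left h3 hsig0.le).trans h2
      have h5 := mul_le_mul_of_nonneg_left h4 Q.hk
      have h6 : 0 ≤ K * (t j ^ (-(1 / 2) : ℝ) * t j ^ (7 / 8 : ℝ)) := by
        have := lt_of_lt_of_le one_pos (ht1 j)
        (clear * - hK this; positivity)
      have h7 : LL (t j) = t j ^ (7 / 8 : ℝ) := rfl
      have h8 : rr (t j) = t j ^ (3 / 4 : ℝ) := rfl
      rw [h1, h7, h8]
      rw [h7] at h5
      linarith only [h5, h6])
    (fun x => ‖w x‖) (K1 + M0 * |ρ|)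
    (fun j x hx => by
      have h1 := crude (K := C) hC0 (fun y hy => hC (t j) (ht1 j) (c j) (hcle j) Ψ y
        (P.hP0.le.trans (hΨ y ((ht0j j).trans hy.1)).1) (hΨ y ((ht0j j).trans hy.1)).2)
        (hw j) hx
      refine h1.trans ?_
      have h2 : (‖w (tq Q.l t0 j)‖ + ‖w1 (tq Q.l t0 j)‖) ≤ M0 * (|ρ| * Real.exp (Rj j)) :=
        (hsize j).trans (mul_le_mul_of_nonneg_left (hrle j) hM00)
      have h3 : M0 * |ρ| ≤ Real.exp (M0 * |ρ|) := by linarith only [Real.add_one_le_exp (M0 * |ρ|)]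
      have h4 : 0 ≤ x - t j := sub_nonneg.mpr hx.1
      have h5 : 0 ≤ M0 * |ρ| := by (clear * - hs hss; positivity)
      calc (‖w (tq Q.l t0 j)‖ + ‖w1 (tq Q.l t0 j)‖) * Real.exp (K1 * (x - t j))
          ≤ (M0 * (|ρ| * Real.exp (Rj j))) * Real.exp (K1 * (x - t j)) :=
            mul_le_mul_of_nonneg_right h2 (Real.exp_pos _).le
        _ = (M0 * |ρ|) * (Real.exp (Rj j) * Real.exp (K1 * (x - t j))) := by ring
        _ ≤ Real.exp (M0 * |ρ|) * (Real.exp (Rj j) * Real.exp (K1 * (x - t j))) :=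
            mul_le_mul_of_nonneg_right h3 (by positivity)
        _ = Real.exp (M0 * |ρ| + (Rj j + K1 * (x - t j))) := by
            rw [Real.exp_add, Real.exp_add]
        _ ≤ Real.exp ((K1 + M0 * |ρ|) * (1 + (x - t j)) + Rj j) := by
            apply Real.exp_le_exp.mpr
            linarith only [mul_nonneg (sub_nonneg.2 h5) (sub_nonneg.2 h4), hC0])
  obtain ⟨C3, hC3⟩ := key
  exact ⟨C3, fun x hx => hC3 x hx⟩

end Vale.Agent.P225.B2
end
end

section

section

set_option linter.all false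

/-!
# P225, route B: nonnegative Ricci curvature of the global metric
-/

open Filter Topology
open scoped ContDiff

namespace Vale.Agent.P225.B

open RMetric

variable {n : ℕ}

theorem isJ_of_matrix {J : Matrix (Fin n) (Fin n) ℝ} (h : J.transpose = -J) (h2 : J * J = -1) :
    IsJ J where
  skew i j := by
    have := congrFun (congrFun h j) i
    simpa using this
  sq i j := by
    have := congrFun (congrFun h2 i) j
    rw [Matrix.mul_apply] at this
    rw [this, Matrix.neg_apply, Matrix.one_apply]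

theorem christoffel_of_const {G : Rn n → Matrix (Fin n) (Fin n) ℝ}
    {M : Matrix (Fin n) (Fin n) ℝ} {x : Rn n} (h : G =ᶠ[𝓝 x] fun _ => M) (k i j : Fin n) :
    christoffel G k i j x = 0 := by
  rw [christoffel_congr_at h]
  unfold christoffel
  simp only [one_div, pd_const, add_zero, sub_self, mul_zero, Finset.sum_const_zero]

theorem ricci_of_const {G : Rn n → Matrix (Fin n) (Fin n) ℝ}
    {M : Matrix (Fin n) (Fin n) ℝ} {x : Rn n} (h : G =ᶠ[𝓝 x] fun _ => M) (i j : Fin n) :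
    ricci G i j x = 0 := by
  have h1 : ∀ k i j, christoffel G k i j =ᶠ[𝓝 x] fun _ => 0 := by
    intro k i j
    filter_upwards [h.eventuallyEq_nhds] with y hy
    exact christoffel_of_const hy k i j
  have h2 : ∀ l k i j, pd l (christoffel G k i j) x = 0 := by
    intro l k i j
    rw [pd_congr (h1 k i j), pd_const]
  have h3 : ∀ k i j, christoffel G k i j x = 0 := fun k i j => (h1 k i j).self_of_nhds
  unfold ricci
  simp only [h2, sub_self, h3, mul_zero, Finset.sum_const_zero, add_zero]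

namespace BData

variable (D : BData n)

theorem isJ (τ : ℝ) : IsJ (D.J τ) := isJ_of_matrix (D.J_skew τ) (D.J_sq τ)

/-- Near every nonzero point the metric is the model metric. -/
theorem gmat_GG {x : Rn n} (hx : x ≠ 0) :
    D.gmat =ᶠ[𝓝 x] GG (D.J (Real.log ‖x‖)) (Fo D.φ) (Ko D.φ D.η) := by
  filter_upwards [D.gmat_model hx] with y hy
  rw [hy, ← tt_eq]
  rfl

theorem gmat_one : D.gmat =ᶠ[𝓝 0] fun _ => 1 := by
  filter_upwards [Metric.ball_mem_nhds (0 : Rn n) one_pos] with y hy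
  rw [mem_ball_zero_iff] at hy
  exact D.gmat_of_norm_le hy.le

/-- The curvature conditions imply `Ric ≥ 0` everywhere. -/
theorem ricciNonneg
    (h1 : ∀ τ, 0 ≤ -(n - 1) * deriv (deriv D.φ) τ - deriv (deriv D.η) τ -
      deriv D.φ τ * deriv D.η τ - deriv D.η τ ^ 2)
    (h2 : ∀ τ, 0 ≤ (n - 2) * (Real.exp (2 * D.η τ) - deriv D.φ τ ^ 2) -
      deriv (deriv D.φ) τ - (n - 1) * deriv D.φ τ * deriv D.η τ - deriv D.η τ ^ 2 -
      deriv (deriv D.η) τ)
    (h3 : ∀ τ, 0 ≤ n - 2 * Real.exp (2 * D.η τ) - (n - 2) * deriv D.φ τ ^ 2 -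
      deriv (deriv D.φ) τ - deriv D.φ τ * deriv D.η τ) :
    RicciNonneg D.met := by
  intro x v
  by_cases hx : x = 0
  · subst hx
    simp only [met_G, ricci_of_const D.gmat_one]
    simp only [zero_mul, Finset.sum_const_zero, Std.le_refl]
  · exact ricci_model_nonneg (D.isJ (Real.log ‖x‖)) D.φ_smooth D.η_smooth hx (D.gmat_GG hx)
      (h1 _) (h2 _) (h3 _) v

end BData

end Vale.Agent.P225.B
end
end

section

section

/-!
# P225, design B, part B2: the complex structure as a function of time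
-/

open Set Filter Topology
open scoped ContDiff

namespace Vale.Agent.P225.B2

/-- The label `J` on one cycle starting at `t`. -/
noncomputable def JC {𝒥 : Type} {l : ℕ} (J0 : 𝒥) (word : Fin l → 𝒥) (t x : ℝ) : 𝒥 :=
  if T1 l t ≤ x then J0
  else if h : ⌊(x - t) / rr t⌋₊ < l then word ⟨⌊(x - t) / rr t⌋₊, h⟩ else J0

theorem chi_slot {u : ℝ} {i0 i : ℕ} (h1 : (i0 : ℝ) ≤ u) (h2 : u < i0 + 1) (hi : i ≠ i0) :
    chi (u - i) = 0 := by
  rcases lt_or_gt_of_ne hi with h | h
  · apply chi_right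
    have : (i : ℝ) + 1 ≤ i0 := by exact_mod_cast h
    linarith only [h1, this]
  · apply chi_left
    have : (i0 : ℝ) + 1 ≤ i := by exact_mod_cast h
    linarith only [h2, this]

variable {D : Type} [Fintype D] {ι : D → Type} [∀ d, Fintype (ι d)] [∀ d, DecidableEq (ι d)]
  {𝒥 : Type} (P : Dat D ι 𝒥)

theorem beta_JC {l : ℕ} (word : Fin l → 𝒥) {t : ℝ} (ht : 0 < t) (c : Fin l → ℝ) (d : D) (x : ℝ) :
    P.QC word t c d x =
      P.C d • (1 : (ι d → ℝ) →L[ℝ] (ι d → ℝ)) -
        beta (etaC P.eta0 t c x) • P.M (JC P.J0 word t x) d := by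
  have hr := rr_pos ht
  unfold Dat.QC Qp
  rcases le_or_gt (T1 l t) x with h | h
  · -- travel
    have h0 : ∀ i : Fin l, chi ((x - t) / rr t - (i : ℝ)) = 0 := by
      intro i
      apply chi_right
      have h1 : (l : ℝ) ≤ (x - t) / rr t := by
        rw [le_div_iff₀ hr]
        unfold T1 at h
        linarith only [h]
      have h2 : (i : ℝ) + 1 ≤ l := by exact_mod_cast i.2
      linarith only [h1, h2]
    have he : ep (rr t) t c x = 0 := by
      unfold ep
      exact Finset.sum_eq_zero fun i _ => by rw [h0 i, mul_zero]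
    unfold JC etaC
    rw [if_pos h, he, zero_add]
    simp only [h0, mul_zero, beta_zero, zero_smul, Finset.sum_const_zero, sub_zero]
  · have hh : eh P.eta0 l t x = 0 := eh_left ht (by linarith only [hr, h])
    rw [hh, beta_zero, zero_smul, sub_zero]
    unfold etaC
    rw [hh, add_zero]
    rcases lt_or_ge x t with hx | hx
    · have h0 : ∀ i : Fin l, chi ((x - t) / rr t - (i : ℝ)) = 0 := by
        intro i
        apply chi_left
        have h1 : (x - t) / rr t ≤ 0 := by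
          rw [div_le_iff₀ hr]
          linarith
        have h2 : (0 : ℝ) ≤ (i : ℝ) := by (clear * -; positivity)
        linarith only [h1]
      have he : ep (rr t) t c x = 0 := by
        unfold ep
        exact Finset.sum_eq_zero fun i _ => by rw [h0 i, mul_zero]
      rw [he, beta_zero, zero_smul]
      simp only [h0, mul_zero, beta_zero, zero_smul, Finset.sum_const_zero, sub_zero]
    · have hu0 : 0 ≤ (x - t) / rr t := div_nonneg (by linarith) hr.le
      have hul : (x - t) / rr t < l := by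
        rw [div_lt_iff₀ hr]
        unfold T1 at h
        linarith only [h]
      have hfl : ⌊(x - t) / rr t⌋₊ < l := (Nat.floor_lt hu0).2 hul
      set i0 : Fin l := ⟨⌊(x - t) / rr t⌋₊, hfl⟩ with hi0
      have hne : ∀ i : Fin l, i ≠ i0 → chi ((x - t) / rr t - (i : ℝ)) = 0 := by
        intro i hi
        refine chi_slot (Nat.floor_le hu0) (Nat.lt_floor_add_one _) ?_
        intro h'
        exact hi (Fin.ext h')
      have he : ep (rr t) t c x = (rr t)⁻¹ * c i0 * chi ((x - t) / rr t - (i0 : ℝ)) := by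
        unfold ep
        rw [Finset.sum_eq_single i0]
        · intro i _ hi
          rw [hne i hi, mul_zero]
        · intro h'
          exact absurd (Finset.mem_univ _) h'
      have hJ : JC P.J0 word t x = word i0 := by
        unfold JC
        rw [if_neg (not_le.2 h), dif_pos hfl]
      rw [he, hJ, Finset.sum_eq_single i0]
      · intro i _ hi
        rw [hne i hi, mul_zero, beta_zero, zero_smul]
      · intro h'
        exact absurd (Finset.mem_univ _) h'

theorem JC_const {l : ℕ} (J0 : 𝒥) (word : Fin l → 𝒥) (eta0 : ℝ) {t : ℝ} (ht : 0 < t)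
    (c : Fin l → ℝ) (x : ℝ) :
    (∀ᶠ y in 𝓝 x, JC J0 word t y = JC J0 word t x) ∨ (∀ᶠ y in 𝓝 x, etaC eta0 t c y = 0) := by
  have hr := rr_pos ht
  rcases lt_trichotomy x (T1 l t) with h | h | h
  · rcases lt_or_ge x (t + rr t / 4) with h1 | h1
    · right
      filter_upwards [Iio_mem_nhds h1] with y hy using etaC_left ht c (le_of_lt hy)
    · have hu0 : 0 < (x - t) / rr t := div_pos (by linarith only [hr, h1]) hr
      have hul : (x - t) / rr t < l := by
        rw [div_lt_iff₀ hr]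
        unfold T1 at h
        linarith only [h]
      have hcont : ContinuousAt (fun y : ℝ => (y - t) / rr t) x :=
        ((continuous_id.sub continuous_const).div_const (rr t)).continuousAt
      rcases eq_or_lt_of_le (Nat.floor_le hu0.le) with h2 | h2
      · right
        -- `u` is an integer
        have h3 : (1 : ℝ) ≤ (x - t) / rr t := by
          rw [← h2] at hu0 ⊢
          exact_mod_cast hu0
        have h4 : ∀ᶠ y in 𝓝 x, (y - t) / rr t ∈ Ioo ((⌊(x - t) / rr t⌋₊ : ℝ) - 1 / 4)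
            ((⌊(x - t) / rr t⌋₊ : ℝ) + 1 / 4) :=
          hcont.eventually (Ioo_mem_nhds (by rw [h2]; linarith only []) (by rw [h2]; linarith only []))
        filter_upwards [h4, Iio_mem_nhds h] with y hy hy2
        unfold etaC
        rw [eh_left ht (by linarith only [hr, mem_Iio.1 hy2]), add_zero]
        unfold ep
        refine Finset.sum_eq_zero fun i _ => ?_
        have : chi ((y - t) / rr t - (i : ℝ)) = 0 := by
          rcases lt_or_ge (i : ℕ) ⌊(x - t) / rr t⌋₊ with h' | h'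
          · apply chi_right
            have : (i : ℝ) + 1 ≤ (⌊(x - t) / rr t⌋₊ : ℝ) := by exact_mod_cast h'
            linarith only [this, hy.1]
          · apply chi_left
            have : (⌊(x - t) / rr t⌋₊ : ℝ) ≤ (i : ℝ) := by exact_mod_cast h'
            linarith only [this, hy.2]
        rw [this, mul_zero]
      · left
        have h4 : ∀ᶠ y in 𝓝 x, (y - t) / rr t ∈ Ioo ((⌊(x - t) / rr t⌋₊ : ℝ))
            ((⌊(x - t) / rr t⌋₊ : ℝ) + 1) :=
          hcont.eventually (Ioo_mem_nhds h2 (Nat.lt_floor_add_one _))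
        filter_upwards [h4, Iio_mem_nhds h] with y hy hy2
        have hfl : ⌊(y - t) / rr t⌋₊ = ⌊(x - t) / rr t⌋₊ := by
          refine (Nat.floor_eq_iff (le_trans (Nat.cast_nonneg _) hy.1.le)).2 ⟨hy.1.le, hy.2⟩
        unfold JC
        rw [if_neg (not_le.2 h), if_neg (not_le.2 (mem_Iio.1 hy2))]
        simp only [hfl]
  · right
    have h1 : T1 l t - rr t / 4 < x := by linarith only [hr, h]
    have h2 : x < T1 l t + rr t / 4 := by linarith only [hr, h]
    filter_upwards [Ioo_mem_nhds h1 h2] with y hy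
    unfold etaC
    rw [eh_left ht hy.2.le, add_zero]
    refine ep_right hr c ?_
    have := hy.1
    unfold T1 at this
    linarith only [this]
  · left
    filter_upwards [Ioi_mem_nhds h] with y hy
    unfold JC
    rw [if_pos h.le, if_pos (le_of_lt hy)]

end Vale.Agent.P225.B2
end
end

section

section

/-!
P225, module B4 (counting part), final part: an explicit `k = 10^10`, an explicit top degree
`D`, explicit thresholds, and the two output statements `B4_numbers` and `B4_states`.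
-/

namespace Vale.Agent.P225.B4

open Finset

/-! ### Rational version of the integrals and the explicit table -/

/-- rational value of `G j u` -/
def GQ (j : ℕ) (u : ℚ) : ℚ :=
  ∑ i ∈ range (j + 1), (-1 : ℚ) ^ i * (j.choose i) * u ^ (j + i + 1) / ((j + i + 1 : ℕ) : ℚ)

theorem GQ_cast (j : ℕ) (u : ℚ) : ((GQ j u : ℚ) : ℝ) = G j (u : ℝ) := by
  rw [G_eq, GQ]
  push_cast
  rfl

/-- `x = σ₀² = 399/400` -/
def xQ : ℚ := 399 / 400

/-- `b₀ = 1 - 1/h₀²` -/
def bQ : ℚ := 4999 / 104999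

/-- `ε = 10⁻⁹` -/
def eQ : ℚ := 1 / 10 ^ 9

/-- the numerical condition for the threshold `u = a/100`, valid up to `r = R/10^5` -/
def starQ (a R : ℕ) : Prop :=
  0 ≤ xQ / ((R : ℚ) / 10 ^ 5) ^ 2 + bQ - 1 - 40 * eQ ∧
  0 ≤ GQ 19 ((a : ℚ) / 100) - (1 / 4) ^ 19 * eQ ∧
  4 * bQ * ((1 + 38 * eQ) ^ 42 * (GQ 20 ((a : ℚ) / 100) + 19 * eQ * (1 / 4) ^ 20))
    < (xQ / ((R : ℚ) / 10 ^ 5) ^ 2 + bQ - 1 - 40 * eQ)
      * (GQ 19 ((a : ℚ) / 100) - (1 / 4) ^ 19 * eQ)

instance (a R : ℕ) : Decidable (starQ a R) := by unfold starQ; infer_instance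

/-- the table: pairs `(100 u, 10^5 r)` -/
def tab : List (ℕ × ℕ) :=
  [(50, 99932), (48, 99947), (47, 99956), (46, 99966), (45, 99978), (44, 99991),
   (43, 100005), (42, 100022), (41, 100039), (40, 100059), (39, 100080), (38, 100103),
   (37, 100127), (35, 100181), (33, 100242), (30, 100346)]

theorem tab_star : ∀ e ∈ tab, starQ e.1 e.2 := by
  unfold tab
  (clear * -; decide +kernel)

theorem tab_range : ∀ e ∈ tab, 30 ≤ e.1 ∧ e.1 ≤ 50 ∧ 0 < e.2 := by
  unfold tab
  (clear * -; decide +kernel)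

/-- the threshold of degree `d` -/
def aOf : List (ℕ × ℕ) → ℕ → ℕ
  | [], _ => 0
  | e :: l, d => if d ≤ e.2 * 10 ^ 5 then e.1 else aOf l d

/-- last breakpoint -/
def lastB : List (ℕ × ℕ) → ℕ → ℕ
  | [], c => c
  | e :: l, _ => lastB l (e.2 * 10 ^ 5)

/-- increasing breakpoints -/
def chainB : List (ℕ × ℕ) → ℕ → Prop
  | [], _ => True
  | e :: l, c => c ≤ e.2 * 10 ^ 5 ∧ chainB l (e.2 * 10 ^ 5)

/-- the main sum of the table -/
def mainSum : List (ℕ × ℕ) → ℕ → ℚ
  | [], _ => 0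
  | e :: l, c => GQ 19 ((e.1 : ℚ) / 100) * ((((e.2 * 10 ^ 5 : ℕ) : ℚ) ^ 41 - (c : ℚ) ^ 41) / 41)
      + mainSum l (e.2 * 10 ^ 5)

theorem tab_chain : chainB tab 1 := by
  simp only [tab, chainB, Nat.reducePow, Nat.reduceMul, Nat.one_le_ofNat, Nat.reduceLeDiff, and_self]

/-- `k = 10^10` -/
def kk : ℕ := 10 ^ 10

/-- `D = 100346 * 10^5` -/
def DD : ℕ := 100346 * 10 ^ 5

theorem tab_last : lastB tab 1 = DD := rfl

theorem le_lastB : ∀ (l : List (ℕ × ℕ)) (c : ℕ), chainB l c → c ≤ lastB l c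
  | [], _, _ => le_rfl
  | _ :: l, _, h => h.1.trans (le_lastB l _ h.2)

/-- For `d ≤ lastB`, the threshold comes from an entry of the table. -/
theorem aOf_spec : ∀ (l : List (ℕ × ℕ)) (c d : ℕ), l ≠ [] → d ≤ lastB l c →
    ∃ e ∈ l, aOf l d = e.1 ∧ d ≤ e.2 * 10 ^ 5
  | [], _, _, h, _ => absurd rfl h
  | e :: l, c, d, _, hd => by
      by_cases h1 : d ≤ e.2 * 10 ^ 5
      · exact ⟨e, by simp, by rw [aOf, if_pos h1], h1⟩
      · by_cases hl : l = []
        · subst hl
          simp only [lastB] at hd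
          exact absurd hd h1
        · obtain ⟨e', he', h2, h3⟩ := aOf_spec l (e.2 * 10 ^ 5) d hl hd
          exact ⟨e', by simp [he'], by rw [aOf, if_neg h1, h2], h3⟩

theorem aOf_first {e : ℕ × ℕ} {l : List (ℕ × ℕ)} {d : ℕ} (h : d ≤ e.2 * 10 ^ 5) :
    aOf (e :: l) d = e.1 := by rw [aOf, if_pos h]

theorem aOf_next {e : ℕ × ℕ} {l : List (ℕ × ℕ)} {d : ℕ} (h : e.2 * 10 ^ 5 < d) :
    aOf (e :: l) d = aOf l d := by rw [aOf, if_neg (not_le.2 h)]

/-! ### Power sums -/

theorem pow_diff (d : ℝ) (hd : 0 ≤ d) : ((d + 1) ^ 41 - d ^ 41) / 41 ≤ (d + 1) ^ 40 := by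
  have h0 : (0 : ℝ) < d + 1 := by linarith only [hd]
  have h := one_add_mul_le_pow (a := -(1 / (d + 1))) (by
    have : 1 / (d + 1) ≤ 1 := by rw [div_le_one h0]; linarith only [hd]
    linarith only [this]) 41
  have e1 : 1 + -(1 / (d + 1)) = d / (d + 1) := by field_simp; ring
  rw [e1, div_pow] at h
  rw [le_div_iff₀ (by positivity)] at h
  have e2 : (1 + ((41 : ℕ) : ℝ) * -(1 / (d + 1))) * (d + 1) ^ 41
      = (d + 1) ^ 41 - 41 * (d + 1) ^ 40 := by
    push_cast
    field_simp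
    ring
  rw [e2] at h
  generalize (d + 1) ^ 40 = A at *
  generalize (d + 1) ^ 41 = B at *
  generalize d ^ 41 = C at *
  linarith only [h]

theorem pow_sum (a : ℕ) : ∀ b : ℕ, a ≤ b →
    (((b : ℝ) ^ 41 - (a : ℝ) ^ 41) / 41) ≤ ∑ d ∈ Ioc a b, (d : ℝ) ^ 40 := by
  intro b hab
  induction b, hab using Nat.le_induction with
  | base => simp only [sub_self, zero_div, Std.le_refl, Ioc_eq_empty_of_le, sum_empty]
  | succ b hab ih =>
    rw [← Finset.insert_Ioc_right_eq_Ioc_add_one hab, sum_insert (by simp only [mem_Ioc, Order.lt_add_one_iff, add_le_iff_nonpos_right, nonpos_iff_eq_zero, one_ne_zero, and_false, not_false_eq_true])]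
    have := pow_diff (b : ℝ) (Nat.cast_nonneg b)
    push_cast
    generalize ((b : ℝ) + 1) ^ 40 = A at *
    generalize ((b : ℝ) + 1) ^ 41 = B at *
    generalize (b : ℝ) ^ 41 = C at *
    linarith only [ih, this]

theorem mainSum_le : ∀ (l : List (ℕ × ℕ)) (c : ℕ), chainB l c → (∀ e ∈ l, e.1 ≤ 100) →
    ((mainSum l c : ℚ) : ℝ)
      ≤ ∑ d ∈ Ioc c (lastB l c), (d : ℝ) ^ 40 * G 19 (((aOf l d : ℕ) : ℝ) / 100)
  | [], c, _, _ => by simp only [mainSum, Rat.cast_zero, lastB, Std.le_refl, Ioc_eq_empty_of_le, sum_empty]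
  | e :: l, c, hch, hle => by
      have ih := mainSum_le l (e.2 * 10 ^ 5) hch.2 (fun e' he' => hle e' (by simp [he']))
      have hlast := le_lastB l (e.2 * 10 ^ 5) hch.2
      have hsplit : Ioc c (lastB l (e.2 * 10 ^ 5))
          = Ioc c (e.2 * 10 ^ 5) ∪ Ioc (e.2 * 10 ^ 5) (lastB l (e.2 * 10 ^ 5)) := by
        rw [Ioc_union_Ioc_eq_Ioc hch.1 hlast]
      have hdisj : Disjoint (Ioc c (e.2 * 10 ^ 5))
          (Ioc (e.2 * 10 ^ 5) (lastB l (e.2 * 10 ^ 5))) := by
        rw [Finset.disjoint_left]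
        intro d h1 h2
        have := (mem_Ioc.1 h1).2
        have := (mem_Ioc.1 h2).1
        omega
      have h1 : ∑ d ∈ Ioc c (e.2 * 10 ^ 5),
            (d : ℝ) ^ 40 * G 19 (((aOf (e :: l) d : ℕ) : ℝ) / 100)
          = (∑ d ∈ Ioc c (e.2 * 10 ^ 5), (d : ℝ) ^ 40) * G 19 ((e.1 : ℝ) / 100) := by
        rw [sum_mul]
        refine sum_congr rfl fun d hd => ?_
        rw [aOf_first (mem_Ioc.1 hd).2]
      have h2 : ∑ d ∈ Ioc (e.2 * 10 ^ 5) (lastB l (e.2 * 10 ^ 5)),
            (d : ℝ) ^ 40 * G 19 (((aOf (e :: l) d : ℕ) : ℝ) / 100)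
          = ∑ d ∈ Ioc (e.2 * 10 ^ 5) (lastB l (e.2 * 10 ^ 5)),
            (d : ℝ) ^ 40 * G 19 (((aOf l d : ℕ) : ℝ) / 100) := by
        refine sum_congr rfl fun d hd => ?_
        rw [aOf_next (mem_Ioc.1 hd).1]
      have h3 : lastB (e :: l) c = lastB l (e.2 * 10 ^ 5) := rfl
      rw [h3, hsplit, sum_union hdisj, h1, h2]
      have hG : 0 ≤ G 19 ((e.1 : ℝ) / 100) := by
        apply G_nonneg
        · (clear * -; positivity)
        · rw [div_le_one (by norm_num)]
          exact_mod_cast hle e (by simp)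
      have h4 := mul_le_mul_of_nonneg_right (pow_sum c (e.2 * 10 ^ 5) hch.1) hG
      have h5 : ((mainSum (e :: l) c : ℚ) : ℝ)
          = (((e.2 * 10 ^ 5 : ℕ) : ℝ) ^ 41 - (c : ℝ) ^ 41) / 41 * G 19 ((e.1 : ℝ) / 100)
            + ((mainSum l (e.2 * 10 ^ 5) : ℚ) : ℝ) := by
        have hc := GQ_cast 19 ((e.1 : ℚ) / 100)
        push_cast at hc
        simp only [mainSum]
        push_cast
        rw [hc]
        ring
      rw [h5]
      exact add_le_add h4 ih

/-! ### The final numbers -/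

/-- number `n(d)` of values of `p` in degree `d` -/
def thr (d : ℕ) : ℕ := aOf tab d * d / 100

theorem thr_spec {d : ℕ} (hd : d ≤ DD) : ∃ e ∈ tab, aOf tab d = e.1 ∧ d ≤ e.2 * 10 ^ 5 :=
  aOf_spec tab 1 d (by simp [tab]) hd

theorem thr_two_mul {d : ℕ} (hd : d ≤ DD) : 2 * thr d ≤ d := by
  obtain ⟨e, he, h1, -⟩ := thr_spec hd
  have h2 := tab_range e he
  unfold thr
  rw [h1]
  have : e.1 * d / 100 ≤ 50 * d / 100 := Nat.div_le_div_right (Nat.mul_le_mul_right _ h2.2.1)
  omega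

theorem thr_pos {d : ℕ} (h2 : 2 ≤ d) (hd : d ≤ DD) : 1 ≤ thr d := by
  by_cases hs : d ≤ 99932 * 10 ^ 5
  · have h : aOf tab d = 50 := by
      unfold tab
      exact aOf_first hs
    unfold thr
    rw [h]
    omega
  · obtain ⟨e, he, h1, -⟩ := thr_spec hd
    have h3 := tab_range e he
    unfold thr
    rw [h1]
    have : 30 * d / 100 ≤ e.1 * d / 100 := Nat.div_le_div_right (Nat.mul_le_mul_right _ h3.1)
    omega

theorem thr_upper (d : ℕ) : ((thr d : ℕ) : ℝ) ≤ ((aOf tab d : ℕ) : ℝ) / 100 * d := by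
  have h : thr d * 100 ≤ aOf tab d * d := Nat.div_mul_le_self _ _
  have h' : ((thr d : ℕ) : ℝ) * 100 ≤ (aOf tab d : ℝ) * d := by exact_mod_cast h
  linarith only [h']

theorem thr_lower (d : ℕ) : ((aOf tab d : ℕ) : ℝ) / 100 * d - 1 ≤ ((thr d : ℕ) : ℝ) := by
  have h : aOf tab d * d ≤ thr d * 100 + 100 := by unfold thr; omega
  have h' : (aOf tab d : ℝ) * d ≤ ((thr d : ℕ) : ℝ) * 100 + 100 := by exact_mod_cast h
  (clear * - h'; linarith)

/-- the home condition in every degree -/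
theorem home_cond {d : ℕ} (h2 : 2 ≤ d) (hd : d ≤ DD) :
    ((d : ℝ) * (d + 40)) * Nn d (thr d) - (bQ : ℝ) * M2 d (thr d)
      < (xQ : ℝ) * (kk * (kk + 40)) * Nn d (thr d) := by
  have hb : (0 : ℝ) ≤ (bQ : ℝ) := by
    have : (0 : ℚ) ≤ bQ := by unfold bQ; norm_num
    exact_mod_cast this
  have hx : (0 : ℝ) ≤ (xQ : ℝ) := by
    have : (0 : ℚ) ≤ xQ := by unfold xQ; norm_num
    exact_mod_cast this
  by_cases hs : d < 10 ^ 9
  · apply cond_trivial (thr_pos h2 hd) hb
    have h1 : (d : ℝ) ≤ 10 ^ 9 := by exact_mod_cast hs.le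
    have h0 : (0 : ℝ) ≤ d := Nat.cast_nonneg d
    have h3 : (d : ℝ) * (d + 40) ≤ 10 ^ 9 * (10 ^ 9 + 40) :=
      mul_le_mul h1 (by (clear * - h1; linarith)) (by linarith only []) (by norm_num)
    refine lt_of_le_of_lt h3 ?_
    have e1 : (xQ : ℝ) = 399 / 400 := by unfold xQ; norm_num
    have e2 : ((kk : ℕ) : ℝ) = 10 ^ 10 := by unfold kk; norm_num
    rw [e1, e2]
    norm_num
  · obtain ⟨e, he, h1, h3⟩ := thr_spec hd
    have hr := tab_range e he
    have hst := tab_star e he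
    obtain ⟨s1, s2, s3⟩ := hst
    have hd1 : 1 ≤ d := by omega
    have hu0 : (0 : ℝ) ≤ (e.1 : ℝ) / 100 := by (clear * -; positivity)
    have hu1 : (e.1 : ℝ) / 100 ≤ 1 := by
      rw [div_le_one (by norm_num)]
      have : e.1 ≤ 100 := by omega
      exact_mod_cast this
    have hrpos : (0 : ℝ) < (e.2 : ℝ) / 10 ^ 5 := by
      have : (0 : ℝ) < e.2 := by exact_mod_cast hr.2.2
      (clear * - this; positivity)
    have hdr : (d : ℝ) ≤ (e.2 : ℝ) / 10 ^ 5 * ((kk : ℕ) : ℝ) := by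
      have e2 : ((kk : ℕ) : ℝ) = 10 ^ 10 := by unfold kk; norm_num
      rw [e2]
      have : (d : ℝ) ≤ e.2 * 10 ^ 5 := by exact_mod_cast h3
      linarith only [this]
    have hε : 1 / (d : ℝ) ≤ (eQ : ℝ) := by
      have e2 : (eQ : ℝ) = 1 / 10 ^ 9 := by unfold eQ; push_cast; rfl
      rw [e2]
      apply one_div_le_one_div_of_le (by positivity)
      have : 10 ^ 9 ≤ d := not_lt.1 hs
      exact_mod_cast this
    have s1' : (0 : ℝ) ≤ (xQ : ℝ) / ((e.2 : ℝ) / 10 ^ 5) ^ 2 + (bQ : ℝ) - 1 - 40 * (eQ : ℝ) := by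
      have h := (Rat.cast_le (K := ℝ)).2 s1
      push_cast at h
      exact h
    have g19 : ((GQ 19 ((e.1 : ℚ) / 100) : ℚ) : ℝ) = G 19 ((e.1 : ℝ) / 100) := by
      rw [GQ_cast]; push_cast; rfl
    have g20 : ((GQ 20 ((e.1 : ℚ) / 100) : ℚ) : ℝ) = G 20 ((e.1 : ℝ) / 100) := by
      rw [GQ_cast]; push_cast; rfl
    have s2' : (0 : ℝ) ≤ G 19 ((e.1 : ℝ) / 100) - (1 / 4) ^ 19 * (eQ : ℝ) := by
      have h := (Rat.cast_le (K := ℝ)).2 s2
      push_cast at h
      rwa [g19] at h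
    have s3' : 4 * (bQ : ℝ) * ((1 + 38 * (eQ : ℝ)) ^ 42
          * (G 20 ((e.1 : ℝ) / 100) + 19 * (eQ : ℝ) * (1 / 4) ^ 20))
        < ((xQ : ℝ) / ((e.2 : ℝ) / 10 ^ 5) ^ 2 + (bQ : ℝ) - 1 - 40 * (eQ : ℝ))
          * (G 19 ((e.1 : ℝ) / 100) - (1 / 4) ^ 19 * (eQ : ℝ)) := by
      have h := (Rat.cast_lt (K := ℝ)).2 s3
      push_cast at h
      rwa [g19, g20] at h
    have hlo := thr_lower d
    have hup := thr_upper d
    rw [h1] at hlo hup
    exact cond_of_star hd1 (thr_two_mul hd) hu0 hu1 hlo hup hx hb hrpos hdr hε s1' s2' s3'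

/-- the total count, lower bound -/
theorem total_lower :
    2 * (((mainSum tab 1 : ℚ) : ℝ) - (1 / 4) ^ 19 * ((DD : ℕ) : ℝ) ^ 40)
      ≤ (((∑ d ∈ Icc 2 DD, Nn d (thr d) : ℕ)) : ℝ) * cc := by
  have h1 := mainSum_le tab 1 tab_chain (fun e he => by
    have := tab_range e he
    omega)
  rw [tab_last] at h1
  have hset : Icc 2 DD = Ioc 1 DD := by
    ext d; simp only [mem_Icc, mem_Ioc]; omega
  rw [hset]
  push_cast
  rw [sum_mul]
  have h2 : ∀ d ∈ Ioc 1 DD,
      2 * ((d : ℝ) ^ 40 * G 19 (((aOf tab d : ℕ) : ℝ) / 100)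
        - (1 / 4) ^ 19 * ((DD : ℕ) : ℝ) ^ 39) ≤ (Nn d (thr d) : ℝ) * cc := by
    intro d hd
    obtain ⟨hd1, hd2⟩ := mem_Ioc.1 hd
    obtain ⟨e, he, h3, -⟩ := thr_spec hd2
    have hr := tab_range e he
    have hu0 : (0 : ℝ) ≤ ((aOf tab d : ℕ) : ℝ) / 100 := by (clear * -; positivity)
    have hu1 : ((aOf tab d : ℕ) : ℝ) / 100 ≤ 1 := by
      rw [div_le_one (by norm_num), h3]
      have : e.1 ≤ 100 := by omega
      exact_mod_cast this
    have h4 := Nn_lower (by omega : 1 ≤ d) (thr_two_mul hd2) hu0 hu1 (thr_lower d)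
    refine le_trans ?_ h4
    have h5 : (d : ℝ) ^ 39 ≤ ((DD : ℕ) : ℝ) ^ 39 :=
      pow_le_pow_left₀ (Nat.cast_nonneg d) (by exact_mod_cast hd2) _
    have h6 : (1 / 4 : ℝ) ^ 19 * (d : ℝ) ^ 39 ≤ (1 / 4 : ℝ) ^ 19 * ((DD : ℕ) : ℝ) ^ 39 :=
      mul_le_mul_of_nonneg_left h5 (by (clear * -; positivity))
    linarith only [h5]
  refine le_trans ?_ (sum_le_sum h2)
  rw [← mul_sum, sum_sub_distrib, sum_const, nsmul_eq_mul]
  have h7 : (((Ioc 1 DD).card : ℕ) : ℝ) * ((1 / 4) ^ 19 * ((DD : ℕ) : ℝ) ^ 39)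
      ≤ (1 / 4) ^ 19 * ((DD : ℕ) : ℝ) ^ 40 := by
    have h8 : (((Ioc 1 DD).card : ℕ) : ℝ) ≤ ((DD : ℕ) : ℝ) := by
      rw [Nat.card_Ioc]
      exact_mod_cast Nat.sub_le _ _
    have h9 : (0 : ℝ) ≤ (1 / 4) ^ 19 * ((DD : ℕ) : ℝ) ^ 39 := by positivity
    refine (mul_le_mul_of_nonneg_right h8 h9).trans (le_of_eq ?_)
    rw [pow_succ]
    ring
  linarith

/-- the final numerical comparison -/
theorem final_num :
    2 * (((kk : ℚ) + 41) ^ 41 / (Nat.factorial 41 : ℚ)) * (20 * (Nat.factorial 19 : ℚ) ^ 2)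
      < 2 * (mainSum tab 1 - (1 / 4) ^ 19 * (DD : ℚ) ^ 40) := by
  (clear * -; decide +kernel)

/-- the total count beats the Euclidean dimension -/
theorem total_gt :
    (41 + kk).choose kk + (40 + kk).choose (kk - 1) < ∑ d ∈ Icc 2 DD, Nn d (thr d) := by
  have h1 : (((41 + kk).choose kk : ℕ) : ℝ)
      ≤ (((kk : ℕ) : ℝ) + 41) ^ 41 / (Nat.factorial 41 : ℝ) := by
    have h := Nat.choose_le_pow_div (α := ℝ) 41 (41 + kk)
    rw [Nat.choose_symm_add] at h
    refine h.trans (le_of_eq ?_)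
    push_cast
    rw [add_comm (41 : ℝ)]
  have h2 : (40 + kk).choose (kk - 1) ≤ (41 + kk).choose kk := by
    have e1 : (40 + kk).choose (kk - 1) = (40 + kk).choose 41 := by
      have hk : kk - 1 + 41 = 40 + kk := by unfold kk; (clear * -; norm_num)
      rw [← hk, Nat.choose_symm_add]
    have e2 : (41 + kk).choose kk = (41 + kk).choose 41 := by
      rw [← Nat.choose_symm_add]
    rw [e1, e2]
    exact Nat.choose_le_choose 41 (by omega)
  have h3 : ((((41 + kk).choose kk + (40 + kk).choose (kk - 1) : ℕ)) : ℝ)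
      ≤ 2 * ((((kk : ℕ) : ℝ) + 41) ^ 41 / (Nat.factorial 41 : ℝ)) := by
    have h2' : (((40 + kk).choose (kk - 1) : ℕ) : ℝ) ≤ (((41 + kk).choose kk : ℕ) : ℝ) := by
      exact_mod_cast h2
    push_cast at *
    linarith
  have h4 : (2 * ((((kk : ℕ) : ℝ) + 41) ^ 41 / (Nat.factorial 41 : ℝ))) * cc
      < 2 * (((mainSum tab 1 : ℚ) : ℝ) - (1 / 4) ^ 19 * ((DD : ℕ) : ℝ) ^ 40) := by
    unfold cc
    have h := (Rat.cast_lt (K := ℝ)).2 final_num
    push_cast at h
    exact h
  have h5 := lt_of_le_of_lt (mul_le_mul_of_nonneg_right h3 cc_pos.le)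
    (lt_of_lt_of_le h4 total_lower)
  have h6 := lt_of_mul_lt_mul_right h5 cc_pos.le
  exact_mod_cast h6

/-- OUTPUT THEOREM B4 (numbers). -/
theorem B4_numbers :
    ∃ (k D : ℕ) (n : ℕ → ℕ), 1 ≤ k ∧ 2 ≤ D ∧
      (∀ d, 2 ≤ d → d ≤ D → 1 ≤ n d ∧ 2 * n d ≤ d ∧ 0 < Nn d (n d) ∧
        ((d : ℝ) * (d + 40)) * Nn d (n d) - (1 - 1 / (104999 / 100000)) * M2 d (n d)
          < (399 / 400) * (k * (k + 40)) * Nn d (n d)) ∧
      (41 + k).choose k + (40 + k).choose (k - 1) < ∑ d ∈ Icc 2 D, Nn d (n d) := by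
  refine ⟨kk, DD, thr, by unfold kk; norm_num, by unfold DD; norm_num, ?_, total_gt⟩
  intro d h2 hd
  refine ⟨thr_pos h2 hd, thr_two_mul hd, Nn_pos (thr_pos h2 hd), ?_⟩
  have h := home_cond h2 hd
  have e1 : (xQ : ℝ) = 399 / 400 := by unfold xQ; norm_num
  have e2 : (bQ : ℝ) = 1 - 1 / (104999 / 100000) := by unfold bQ; norm_num
  rw [e1, e2] at h
  exact h

end Vale.Agent.P225.B4
end
end

section

section

/-!
P225: the output of the counting module in the form of the interface, `CountOut 20`.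
-/

namespace Vale.Agent.P225.B4

open Finset

theorem Dpq_comm (p q : ℕ) : Dpq p q = Dpq q p := by
  unfold Dpq; ring

theorem B5_Dpq (p q : ℕ) : B5.Dpq 20 p q = Dpq p q := by
  rw [Dpq_eq, B5.Dpq]
  congr 1
  rcases Nat.eq_zero_or_pos p with hp | hp
  · subst hp
    simp
  · rcases Nat.eq_zero_or_pos q with hq | hq
    · subst hq
      simp
    · rw [if_neg (by omega)]
      have e1 : 20 + (p - 1) = 19 + p := by omega
      have e2 : 20 + (q - 1) = 19 + q := by omega
      rw [e1, e2]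

/-- threshold for the value `|p - q|` -/
def thetaOf (d n : ℕ) : ℕ := d - 2 * n + 2

theorem sum_Emul (f : ℕ → ℕ) {d n : ℕ} (hn : 2 * n ≤ d) (hn1 : 1 ≤ n) :
    ∑ μ ∈ Icc (thetaOf d n) d, f μ * B5.Emul 20 d μ
      = 2 * ∑ p ∈ range n, f (d - 2 * p) * Dpq p (d - p) := by
  have h1 : ∑ μ ∈ Icc (thetaOf d n) d, f μ * B5.Emul 20 d μ
      = ∑ p ∈ range (d + 1), (if thetaOf d n ≤ (2 * (p : ℤ) - d).natAbs then
          f ((2 * (p : ℤ) - d).natAbs) * Dpq p (d - p) else 0) := by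
    simp only [B5.Emul, mul_sum]
    rw [sum_comm]
    refine sum_congr rfl fun p hp => ?_
    have hp' : p ≤ d := Nat.lt_succ_iff.1 (mem_range.1 hp)
    have hle : (2 * (p : ℤ) - d).natAbs ≤ d := by omega
    simp only [B5_Dpq, mul_ite, mul_zero]
    rw [sum_ite_eq]
    simp only [mem_Icc]
    by_cases h : thetaOf d n ≤ (2 * (p : ℤ) - d).natAbs
    · rw [if_pos ⟨h, hle⟩, if_pos h]
    · rw [if_neg (fun h' => h h'.1), if_neg h]
  rw [h1]
  set g : ℕ → ℕ := fun p => if thetaOf d n ≤ (2 * (p : ℤ) - d).natAbs then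
          f ((2 * (p : ℤ) - d).natAbs) * Dpq p (d - p) else 0 with hg
  have hsub : range n ∪ (range n).image (fun p => d - p) ⊆ range (d + 1) := by
    intro p hp
    rw [mem_union, mem_image] at hp
    rw [mem_range]
    rcases hp with hp | ⟨q, hq, rfl⟩
    · have := mem_range.1 hp
      omega
    · omega
  have hzero : ∀ p ∈ range (d + 1), p ∉ range n ∪ (range n).image (fun p => d - p) →
      g p = 0 := by
    intro p hp hp'
    rw [mem_union, not_or, mem_range, mem_image] at hp'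
    have h2 : n ≤ p := not_lt.1 hp'.1
    have h3 : n ≤ d - p := by
      by_contra h4
      exact hp'.2 ⟨d - p, mem_range.2 (by omega), by have := mem_range.1 hp; omega⟩
    simp only [hg]
    rw [if_neg]
    unfold thetaOf
    omega
  have hdisj : Disjoint (range n) ((range n).image (fun p => d - p)) := by
    rw [Finset.disjoint_left]
    intro p hp hp'
    obtain ⟨q, hq, hqp⟩ := mem_image.1 hp'
    have := mem_range.1 hp
    have := mem_range.1 hq
    omega
  rw [← sum_subset hsub hzero, sum_union hdisj, sum_image (by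
    intro p hp q hq h
    have h1 := mem_range.1 (by exact_mod_cast hp : p ∈ range n)
    have h2 := mem_range.1 (by exact_mod_cast hq : q ∈ range n)
    simp only at h
    omega), ← sum_add_distrib, mul_sum]
  refine sum_congr rfl fun p hp => ?_
  have hp' := mem_range.1 hp
  have e1 : (2 * (p : ℤ) - d).natAbs = d - 2 * p := by omega
  have e2 : (2 * ((d - p : ℕ) : ℤ) - d).natAbs = d - 2 * p := by omega
  have e3 : thetaOf d n ≤ d - 2 * p := by unfold thetaOf; (clear * - hn hp' e2; omega)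
  have e4 : d - (d - p) = p := by omega
  simp only [hg]
  rw [e1, e2, if_pos e3, if_pos e3, e4, Dpq_comm (d - p) p]
  ring

theorem sum_Emul_one {d n : ℕ} (hn : 2 * n ≤ d) (hn1 : 1 ≤ n) :
    ∑ μ ∈ Icc (thetaOf d n) d, B5.Emul 20 d μ = Nn d n := by
  have h := sum_Emul (fun _ => 1) hn hn1
  simpa only [Nn, one_mul] using h

theorem sum_Emul_sq {d n : ℕ} (hn : 2 * n ≤ d) (hn1 : 1 ≤ n) :
    ∑ μ ∈ Icc (thetaOf d n) d, μ ^ 2 * B5.Emul 20 d μ = M2 d n :=
  sum_Emul (fun μ => μ ^ 2) hn hn1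

/-- The output of B4 in the form of the interface. -/
theorem countOut : B5.CountOut 20 := by
  obtain ⟨k, D, n, hk, -, h1, h2⟩ := B4_numbers
  refine ⟨399 / 400, 104999 / 100000, k, D, fun d => thetaOf d (n d), by norm_num, by norm_num,
    by norm_num, by norm_num, hk, ?_, ?_⟩
  · intro d hd hd'
    obtain ⟨hn1, hn2, hpos, hcond⟩ := h1 d hd hd'
    have s1 := sum_Emul_one hn2 hn1
    have s2 := sum_Emul_sq hn2 hn1
    have s1' : ∑ μ ∈ Icc (thetaOf d (n d)) d, ((B5.Emul 20 d μ : ℕ) : ℝ) = (Nn d (n d) : ℝ) := by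
      rw [← s1]; push_cast; rfl
    have s2' : ∑ μ ∈ Icc (thetaOf d (n d)) d, ((μ : ℝ) ^ 2 * ((B5.Emul 20 d μ : ℕ) : ℝ))
        = (M2 d (n d) : ℝ) := by
      rw [← s2]; push_cast; rfl
    refine ⟨by simpa only [s1] using hpos, ?_⟩
    simp only [s1', s2']
    have e : (2 : ℝ) * ((20 : ℕ) : ℝ) = 40 := by norm_num
    rw [e]
    exact hcond
  · have e : 2 * 20 + 1 + k = 41 + k := by omega
    have e' : 2 * 20 + k = 40 + k := by omega
    rw [e, e']
    refine lt_of_lt_of_le h2 (le_of_eq ?_)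
    refine sum_congr rfl fun d hd => ?_
    obtain ⟨hd1, hd2⟩ := mem_Icc.1 hd
    obtain ⟨hn1, hn2, -, -⟩ := h1 d hd1 hd2
    exact (sum_Emul_one hn2 hn1).symm

end Vale.Agent.P225.B4
end
end

section

section

/-!
# P225, design B, part B2: the global functions
-/

open Set Filter Topology
open scoped ContDiff

namespace Vale.Agent.P225.B2

variable {D : Type} [Fintype D] {ι : D → Type} [∀ d, Fintype (ι d)] [∀ d, DecidableEq (ι d)]
  {𝒥 : Type} (P : Dat D ι 𝒥) {l : ℕ} (word : Fin l → 𝒥) (t0 : ℝ) (Ψ : ℝ → ℝ)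
  (c : ℕ → Fin l → ℝ)

/-- global `η` -/
noncomputable def etaG (x : ℝ) : ℝ :=
  etaC P.eta0 (tq l t0 (idx l t0 x)) (c (idx l t0 x)) x

/-- global `σ` -/
noncomputable def sigG (l : ℕ) (x : ℝ) : ℝ :=
  sigC P.m Ψ P.eta0 l (tq l t0 (idx l t0 x)) x

/-- global `J` -/
noncomputable def JG (x : ℝ) : 𝒥 := JC P.J0 word (tq l t0 (idx l t0 x)) x

/-- global `Q` -/
noncomputable def QG (d : D) (x : ℝ) : (ι d → ℝ) →L[ℝ] (ι d → ℝ) :=
  P.QC word (tq l t0 (idx l t0 x)) (c (idx l t0 x)) d x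

variable {t0}

/-- `x` belongs to the closed cycle `j` (or to the past of it if `j = 0`). -/
def InCyc (l : ℕ) (t0 : ℝ) (j : ℕ) (x : ℝ) : Prop :=
  (tq l t0 j ≤ x ∨ j = 0) ∧ x ≤ tq l t0 (j + 1)

theorem inCyc_idx (ht0 : 1 ≤ t0) (x : ℝ) : InCyc l t0 (idx l t0 x) x := by
  refine ⟨?_, (idx_spec ht0 x).le⟩
  rcases lt_or_ge x t0 with h | h
  · right
    apply idx_eq_zero ht0
    have : tq l t0 0 < tq l t0 1 := tq_strictMono ht0 (by omega)
    exact lt_trans h this
  · left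
    exact idx_ge ht0 h

theorem inCyc_Icc (j : ℕ) {x : ℝ} (hx : x ∈ Icc (tq l t0 j) (tq l t0 (j + 1))) :
    InCyc l t0 j x := ⟨Or.inl hx.1, hx.2⟩

theorem inCyc_zero (ht0 : 1 ≤ t0) {x : ℝ} (hx : x ≤ t0) : InCyc l t0 0 x := by
  refine ⟨Or.inr rfl, ?_⟩
  have : tq l t0 0 < tq l t0 1 := tq_strictMono ht0 (by omega)
  exact le_trans hx this.le

/-- near a junction everything is trivial -/
theorem near_junction (ht0 : 1 ≤ t0) (j : ℕ) :
    ∀ᶠ y in 𝓝 (tq l t0 (j + 1)), tq l t0 (j + 1) - rr (tq l t0 j) ≤ y ∧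
      y ≤ tq l t0 (j + 1) + rr (tq l t0 (j + 1)) / 4 := by
  have h1 := rr_pos (t := tq l t0 j) (by linarith only [tq_ge_one (l := l) ht0 j])
  have h2 := rr_pos (t := tq l t0 (j + 1)) (by linarith only [tq_ge_one (l := l) ht0 (j + 1)])
  filter_upwards [Icc_mem_nhds (a := tq l t0 (j + 1) - rr (tq l t0 j))
    (b := tq l t0 (j + 1) + rr (tq l t0 (j + 1)) / 4) (by linarith) (by linarith only [h2])] with y hy
  exact hy

theorem etaG_eventuallyEq (ht0 : 1 ≤ t0) {j : ℕ} {x : ℝ} (hx : InCyc l t0 j x) :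
    etaG P t0 c =ᶠ[𝓝 x] etaC P.eta0 (tq l t0 j) (c j) := by
  have hpos : ∀ j, 0 < tq l t0 j := fun j => by linarith only [tq_ge_one (l := l) ht0 j]
  refine glue_eventuallyEq ht0 (fun j y => etaC P.eta0 (tq l t0 j) (c j) y) ?_ j hx.1 hx.2
  intro j
  filter_upwards [near_junction ht0 j] with y hy
  rw [etaC_left (hpos _) _ hy.2, etaC_right (hpos _) _]
  exact hy.1

theorem sigG_eventuallyEq (ht0 : 1 ≤ t0) {j : ℕ} {x : ℝ} (hx : InCyc l t0 j x) :
    sigG P t0 Ψ l =ᶠ[𝓝 x] sigC P.m Ψ P.eta0 l (tq l t0 j) := by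
  have hpos : ∀ j, 0 < tq l t0 j := fun j => by linarith only [tq_ge_one (l := l) ht0 j]
  refine glue_eventuallyEq ht0 (fun j y => sigC P.m Ψ P.eta0 l (tq l t0 j) y) ?_ j hx.1 hx.2
  intro j
  filter_upwards [near_junction ht0 j] with y hy
  have h1 : eh P.eta0 l (tq l t0 (j + 1)) y = 0 := by
    apply eh_left (hpos _)
    have := T1_ge (l := l) (hpos (j + 1))
    linarith only [hy, this]
  have h2 : eh P.eta0 l (tq l t0 j) y = 0 := by
    apply eh_right (hpos _)
    have h3 := hy.1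
    have h4 := rr_pos (hpos j)
    have h5 : tq l t0 (j + 1) = T3 l (tq l t0 j) := rfl
    rw [h5] at h3
    unfold T3 at h3
    linarith only [h3, h4]
  unfold sigC
  rw [h1, h2]

theorem QG_eq (ht0 : 1 ≤ t0) (d : D) (x : ℝ) :
    QG P word t0 c d x = P.C d • (1 : (ι d → ℝ) →L[ℝ] (ι d → ℝ)) -
      beta (etaG P t0 c x) • P.M (JG P word t0 x) d := by
  have hpos : ∀ j, 0 < tq l t0 j := fun j => by linarith [tq_ge_one (l := l) ht0 j]
  exact beta_JC P word (hpos _) _ d x

theorem QG_eventuallyEq (ht0 : 1 ≤ t0) (d : D) {j : ℕ} {x : ℝ} (hx : InCyc l t0 j x) :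
    QG P word t0 c d =ᶠ[𝓝 x] P.QC word (tq l t0 j) (c j) d := by
  have hpos : ∀ j, 0 < tq l t0 j := fun j => by linarith [tq_ge_one (l := l) ht0 j]
  refine glue_eventuallyEq ht0 (fun j y => P.QC word (tq l t0 j) (c j) d y) ?_ j hx.1 hx.2
  intro j
  filter_upwards [near_junction ht0 j] with y hy
  rw [beta_JC P word (hpos _), beta_JC P word (hpos _), etaC_left (hpos _) _ hy.2,
    etaC_right (hpos _) _ (by exact hy.1), beta_zero, zero_smul, zero_smul]

theorem etaG_contDiff (ht0 : 1 ≤ t0) : ContDiff ℝ ∞ (etaG P t0 c) := by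
  rw [contDiff_iff_contDiffAt]
  intro x
  exact (etaC_contDiff _ _ _).contDiffAt.congr_of_eventuallyEq
    (etaG_eventuallyEq P c ht0 (inCyc_idx ht0 x))

theorem sigC_contDiff (m : ℕ) (hΨ : ContDiff ℝ ∞ Ψ) (eta0 : ℝ) (l : ℕ) (t : ℝ) :
    ContDiff ℝ ∞ (sigC m Ψ eta0 l t) := by
  unfold sigC
  exact hΨ.mul (((eh_contDiff eta0 l t).div_const _).neg.exp)

theorem sigG_contDiff (ht0 : 1 ≤ t0) (hΨ : ContDiff ℝ ∞ Ψ) (l : ℕ) :
    ContDiff ℝ ∞ (sigG P t0 Ψ l) := by
  rw [contDiff_iff_contDiffAt]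
  intro x
  exact (sigC_contDiff _ _ hΨ _ _ _).contDiffAt.congr_of_eventuallyEq
    (sigG_eventuallyEq P Ψ ht0 (inCyc_idx ht0 x))

theorem QC_contDiff (t : ℝ) (c : Fin l → ℝ) (d : D) : ContDiff ℝ ∞ (P.QC word t c d) := by
  unfold Dat.QC Qp
  refine ContDiff.sub (ContDiff.sub contDiff_const (ContDiff.sum fun i _ => ?_)) ?_
  · exact (beta_contDiff.comp (contDiff_const.mul (chi_contDiff.comp (by fun_prop)))).smul
      contDiff_const
  · exact (beta_contDiff.comp (eh_contDiff _ _ _)).smul contDiff_const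

theorem QG_contDiff (ht0 : 1 ≤ t0) (d : D) : ContDiff ℝ ∞ (QG P word t0 c d) := by
  rw [contDiff_iff_contDiffAt]
  intro x
  exact (QC_contDiff P word _ _ d).contDiffAt.congr_of_eventuallyEq
    (QG_eventuallyEq P word c ht0 d (inCyc_idx ht0 x))

theorem JG_const (ht0 : 1 ≤ t0) (x : ℝ) :
    (∀ᶠ y in 𝓝 x, JG P word t0 y = JG P word t0 x) ∨ (∀ᶠ y in 𝓝 x, etaG P t0 c y = 0) := by
  have hpos : ∀ j, 0 < tq l t0 j := fun j => by linarith [tq_ge_one (l := l) ht0 j]
  set j := idx l t0 x with hj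
  -- either `x` is a junction, or `idx` is constant near `x`
  by_cases hjun : ∃ i, x = tq l t0 (i + 1)
  · right
    obtain ⟨i, rfl⟩ := hjun
    have hin : InCyc l t0 i (tq l t0 (i + 1)) :=
      ⟨Or.inl (tq_strictMono ht0 (by omega)).le, le_rfl⟩
    filter_upwards [etaG_eventuallyEq P c ht0 hin, near_junction ht0 i] with y hy hy2
    rw [hy, etaC_right (hpos _) _ (by exact hy2.1)]
  · have hidx : ∀ᶠ y in 𝓝 x, idx l t0 y = j := by
      obtain ⟨h1, h2⟩ := inCyc_idx (l := l) ht0 x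
      rcases Nat.eq_zero_or_pos j with h0 | h0
      · have h3 : x < tq l t0 1 := by
          have := idx_spec (l := l) ht0 x
          rw [← hj, h0] at this
          exact this
        filter_upwards [Iio_mem_nhds h3] with y hy
        rw [h0]
        exact idx_eq_zero ht0 hy
      · obtain ⟨i, hi⟩ : ∃ i, j = i + 1 := ⟨j - 1, by omega⟩
        have h3 : tq l t0 j < x := by
          rcases h1 with h1 | h1
          · refine lt_of_le_of_ne h1 fun h => hjun ⟨i, ?_⟩
            rw [← hi]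
            exact h.symm
          · omega
        filter_upwards [Ioo_mem_nhds h3 (idx_spec (l := l) ht0 x)] with y hy
        exact idx_eq ht0 hy.1.le hy.2
    rcases JC_const (P.J0) word P.eta0 (hpos j) (c j) x with h | h
    · left
      filter_upwards [h, hidx] with y hy hy2
      unfold JG
      rw [hy2]
      exact hy
    · right
      filter_upwards [h, hidx] with y hy hy2
      unfold etaG
      rw [hy2]
      exact hy

end Vale.Agent.P225.B2
end
end

section

section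

/-!
# Riemannian distance: Lipschitz functions, completeness, growth
-/

open Filter Topology MeasureTheory Set
open scoped ContDiff

namespace Vale.Agent.P225

namespace B

open RMetric

variable {n : ℕ} (g : RMetric n)

theorem quad_cont : Continuous fun p : Rn n × Rn n => g.quad p.1 p.2 := by
  unfold quad
  refine continuous_finsetSum _ fun i _ => continuous_finsetSum _ fun j _ => ?_
  have h := ((g.smooth i j).continuous).comp (continuous_fst : Continuous fun p : Rn n × Rn n => p.1)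
  have h1 : Continuous fun p : Rn n × Rn n => p.2 i :=
    (EuclideanSpace.proj i : Rn n →L[ℝ] ℝ).continuous.comp continuous_snd
  have h2 : Continuous fun p : Rn n × Rn n => p.2 j :=
    (EuclideanSpace.proj j : Rn n →L[ℝ] ℝ).continuous.comp continuous_snd
  exact (h.mul h1).mul h2

theorem quad_eq_dot (x v : Rn n) :
    g.quad x v = (v : Fin n → ℝ) ⬝ᵥ ((g.G x).mulVec (v : Fin n → ℝ)) := by
  unfold quad
  simp only [dotProduct, Matrix.mulVec, Finset.mul_sum]
  refine Finset.sum_congr rfl fun i _ => Finset.sum_congr rfl fun j _ => ?_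
  ring

theorem quad_pos {x v : Rn n} (hv : v ≠ 0) : 0 < g.quad x v := by
  rw [quad_eq_dot]
  have h := (g.pos x).dotProduct_mulVec_pos (x := (v : Fin n → ℝ)) (by
    intro h
    apply hv
    ext i
    exact congrFun h i)
  simpa only [gt_iff_lt, star_trivial] using h

theorem quad_smul (x v : Rn n) (t : ℝ) : g.quad x (t • v) = t ^ 2 * g.quad x v := by
  unfold quad
  simp only [Finset.mul_sum]
  refine Finset.sum_congr rfl fun i _ => Finset.sum_congr rfl fun j _ => ?_
  simp only [PiLp.smul_apply, smul_eq_mul]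
  ring

theorem speed_cont {c : ℝ → Rn n} (hc : ContDiff ℝ 1 c) :
    Continuous fun t => √(g.quad (c t) (deriv c t)) := by
  have h1 : Continuous (deriv c) := hc.continuous_deriv le_rfl
  exact ((quad_cont g).comp (hc.continuous.prodMk h1)).sqrt

theorem length_nonneg' (c : ℝ → Rn n) : 0 ≤ g.length c := by
  unfold RMetric.length
  exact intervalIntegral.integral_nonneg (by norm_num) fun t _ => Real.sqrt_nonneg _

/-- the straight segment -/
theorem seg_contDiff (x y : Rn n) : ContDiff ℝ 1 (fun t : ℝ => x + t • (y - x)) := by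
  fun_prop

theorem seg_deriv (x y : Rn n) (t : ℝ) : deriv (fun t : ℝ => x + t • (y - x)) t = y - x := by
  have h : HasDerivAt (fun t : ℝ => x + t • (y - x)) ((1 : ℝ) • (y - x)) t :=
    ((hasDerivAt_id t).smul_const (y - x)).const_add x
  rw [h.deriv, one_smul]

theorem dist_set_nonempty (x y : Rn n) :
    {L : ℝ | ∃ c : ℝ → Rn n, ContDiff ℝ 1 c ∧ c 0 = x ∧ c 1 = y ∧ L = g.length c}.Nonempty :=
  ⟨_, fun t => x + t • (y - x), seg_contDiff x y, by simp, by simp, rfl⟩

theorem dist_set_bdd (x y : Rn n) :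
    BddBelow {L : ℝ | ∃ c : ℝ → Rn n, ContDiff ℝ 1 c ∧ c 0 = x ∧ c 1 = y ∧ L = g.length c} :=
  ⟨0, by rintro L ⟨c, -, -, -, rfl⟩; exact length_nonneg' g c⟩

theorem dist_nonneg'' (x y : Rn n) : 0 ≤ g.dist x y :=
  Real.sInf_nonneg (by rintro L ⟨c, -, -, -, rfl⟩; exact length_nonneg' g c)

/-- A function whose differential is bounded by `C` in the metric is `C`-Lipschitz for the
Riemannian distance. -/
theorem lip {f : Rn n → ℝ} (hf : ContDiff ℝ 1 f) {C : ℝ} (hC : 0 ≤ C)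
    (h : ∀ x v : Rn n, |fderiv ℝ f x v| ≤ C * √(g.quad x v)) (x y : Rn n) :
    |f x - f y| ≤ C * g.dist x y := by
  have key : ∀ c : ℝ → Rn n, ContDiff ℝ 1 c → c 0 = x → c 1 = y →
      |f x - f y| ≤ C * g.length c := by
    intro c hc h0 h1
    have hd : ∀ t, HasDerivAt (fun t => f (c t)) (fderiv ℝ f (c t) (deriv c t)) t := by
      intro t
      have hc' : HasDerivAt c (deriv c t) t :=
        (hc.differentiable one_ne_zero t).hasDerivAt
      exact ((hf.differentiable one_ne_zero (c t)).hasFDerivAt).comp_hasDerivAt t hc'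
    have hcont : Continuous fun t => fderiv ℝ f (c t) (deriv c t) := by
      have h1 : Continuous (fderiv ℝ f) := hf.continuous_fderiv one_ne_zero
      exact (h1.comp hc.continuous).clm_apply (hc.continuous_deriv le_rfl)
    have hint := intervalIntegral.integral_eq_sub_of_hasDerivAt (a := 0) (b := 1)
      (fun t _ => hd t) (hcont.intervalIntegrable _ _)
    rw [h0, h1] at hint
    rw [abs_sub_comm, ← hint]
    calc |∫ t in (0 : ℝ)..1, fderiv ℝ f (c t) (deriv c t)|
        ≤ ∫ t in (0 : ℝ)..1, |fderiv ℝ f (c t) (deriv c t)| :=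
          intervalIntegral.abs_integral_le_integral_abs (by norm_num)
      _ ≤ ∫ t in (0 : ℝ)..1, C * √(g.quad (c t) (deriv c t)) := by
          apply intervalIntegral.integral_mono_on (by norm_num)
          · exact hcont.abs.intervalIntegrable _ _
          · exact ((speed_cont g hc).const_mul C).intervalIntegrable _ _
          · intro t _
            exact h _ _
      _ = C * g.length c := by
          rw [intervalIntegral.integral_const_mul]
          rfl
  rcases hC.eq_or_lt with h0 | hpos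
  · have := key (fun t => x + t • (y - x)) (seg_contDiff x y) (by simp) (by simp)
    rw [← h0] at this ⊢
    simpa using this
  · rw [mul_comm, ← div_le_iff₀ hpos]
    refine le_csInf (dist_set_nonempty g x y) ?_
    rintro L ⟨c, hc, h0, h1, rfl⟩
    rw [div_le_iff₀ hpos, mul_comm]
    exact key c hc h0 h1

theorem quad_le_sum' (y v : Rn n) : g.quad y v ≤ (∑ i, ∑ j, |g.G y i j|) * ‖v‖ ^ 2 := by
  unfold quad
  rw [Finset.sum_mul]
  refine Finset.sum_le_sum fun i _ => ?_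
  rw [Finset.sum_mul]
  refine Finset.sum_le_sum fun j _ => ?_
  have hi : |v i| ≤ ‖v‖ := by
    have := EuclideanSpace.norm_eq v
    have h2 := PiLp.norm_apply_le v i
    simpa only [ge_iff_le, Real.norm_eq_abs] using h2
  have hj : |v j| ≤ ‖v‖ := by
    have h2 := PiLp.norm_apply_le v j
    simpa only [ge_iff_le, Real.norm_eq_abs] using h2
  calc g.G y i j * v i * v j ≤ |g.G y i j * v i * v j| := le_abs_self _
    _ = |g.G y i j| * (|v i| * |v j|) := by rw [abs_mul, abs_mul]; ring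
    _ ≤ |g.G y i j| * ‖v‖ ^ 2 := by
        refine mul_le_mul_of_nonneg_left ?_ (abs_nonneg _)
        linarith only [mul_nonneg (sub_nonneg.2 hj) (sub_nonneg.2 (abs_nonneg (v j))), mul_nonneg (sub_nonneg.2 hj) (sub_nonneg.2 hj), mul_nonneg (sub_nonneg.2 hi) (sub_nonneg.2 (abs_nonneg (v j)))]

/-- On balls the Riemannian distance is bounded by a multiple of the Euclidean one. -/
theorem dist_le_on_ball (ρ : ℝ) : ∃ K : ℝ, 0 ≤ K ∧ ∀ x y : Rn n, ‖x‖ ≤ ρ → ‖y‖ ≤ ρ →
    g.dist x y ≤ K * ‖x - y‖ := by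
  have hc : Continuous fun x : Rn n => ∑ i, ∑ j, |g.G x i j| :=
    continuous_finsetSum _ fun i _ => continuous_finsetSum _ fun j _ =>
      (g.smooth i j).continuous.abs
  obtain ⟨B, hB⟩ := (isCompact_closedBall (0 : Rn n) ρ).exists_bound_of_continuousOn
    hc.continuousOn
  refine ⟨√(max B 0), Real.sqrt_nonneg _, fun x y hx hy => ?_⟩
  have hle : g.dist x y ≤ g.length (fun t => x + t • (y - x)) :=
    csInf_le (dist_set_bdd g x y) ⟨_, seg_contDiff x y, by simp, by simp, rfl⟩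
  refine hle.trans ?_
  unfold RMetric.length
  have hb : ∀ t ∈ Icc (0 : ℝ) 1, √(g.quad (x + t • (y - x))
      (deriv (fun t : ℝ => x + t • (y - x)) t)) ≤ √(max B 0) * ‖x - y‖ := by
    intro t ht
    rw [seg_deriv, norm_sub_rev, ← Real.sqrt_sq (norm_nonneg (y - x)),
      ← Real.sqrt_mul (le_max_right B 0)]
    apply Real.sqrt_le_sqrt
    refine (quad_le_sum' g _ _).trans ?_
    have hz : x + t • (y - x) ∈ Metric.closedBall (0 : Rn n) ρ := by
      have hconv : Convex ℝ (Metric.closedBall (0 : Rn n) ρ) := convex_closedBall _ _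
      have e : x + t • (y - x) = (1 - t) • x + t • y := by
        rw [smul_sub, sub_smul, one_smul]; abel
      rw [e]
      exact hconv (by simpa only [Metric.mem_closedBall, dist_zero_right] using hx) (by simpa only [Metric.mem_closedBall, dist_zero_right] using hy) (by linarith only [ht.2]) ht.1 (by ring)
    have h3 := hB _ hz
    rw [Real.norm_eq_abs] at h3
    have h4 : ∑ i, ∑ j, |g.G (x + t • (y - x)) i j| ≤ max B 0 :=
      (le_abs_self _).trans (h3.trans (le_max_left _ _))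
    exact mul_le_mul_of_nonneg_right h4 (sq_nonneg _)
  calc ∫ t in (0 : ℝ)..1, √(g.quad (x + t • (y - x)) (deriv (fun t : ℝ => x + t • (y - x)) t))
      ≤ ∫ _t in (0 : ℝ)..1, √(max B 0) * ‖x - y‖ := by
        apply intervalIntegral.integral_mono_on (by norm_num)
        · exact (speed_cont g (seg_contDiff x y)).intervalIntegrable _ _
        · exact continuous_const.intervalIntegrable _ _
        · exact hb
    _ = √(max B 0) * ‖x - y‖ := by simp only [intervalIntegral.integral_const_mul, intervalIntegral.integral_const, sub_zero, smul_eq_mul, one_mul]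

/-- The metric is bounded below on balls. -/
theorem quad_lower_on_ball (ρ : ℝ) : ∃ m : ℝ, 0 < m ∧ ∀ x v : Rn n, ‖x‖ ≤ ρ →
    m * ‖v‖ ^ 2 ≤ g.quad x v := by
  set K := Metric.closedBall (0 : Rn n) ρ ×ˢ Metric.sphere (0 : Rn n) 1 with hK
  have hcomp : IsCompact K := (isCompact_closedBall _ _).prod (isCompact_sphere _ _)
  rcases K.eq_empty_or_nonempty with he | hne
  · refine ⟨1, one_pos, fun x v hx => ?_⟩
    by_cases hv : v = 0
    · subst hv
      simp only [norm_zero, ne_eq, OfNat.ofNat_ne_zero, not_false_eq_true, zero_pow, mul_zero, quad, PiLp.zero_apply, Finset.sum_const_zero, Std.le_refl]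
    · exfalso
      have hm : (x, ‖v‖⁻¹ • v) ∈ K := by
        rw [hK]
        refine ⟨by simpa only [Metric.mem_closedBall, dist_zero_right] using hx, ?_⟩
        simp only [mem_sphere_iff_norm, sub_zero, norm_smul, norm_inv, norm_norm]
        exact inv_mul_cancel₀ (norm_ne_zero_iff.2 hv)
      rw [he] at hm
      exact hm
  · obtain ⟨p, hp, hmin⟩ := hcomp.exists_isMinOn hne (quad_cont g).continuousOn
    have hp2 : p.2 ≠ 0 := by
      intro h
      have : ‖p.2‖ = 1 := by simpa only [mem_sphere_iff_norm, sub_zero] using hp.2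
      rw [h] at this
      simp at this
    refine ⟨g.quad p.1 p.2, quad_pos g hp2, fun x v hx => ?_⟩
    by_cases hv : v = 0
    · subst hv
      simp only [quad, norm_zero, ne_eq, OfNat.ofNat_ne_zero, not_false_eq_true, zero_pow, mul_zero, PiLp.zero_apply, Finset.sum_const_zero, Std.le_refl]
    · have hm : (x, ‖v‖⁻¹ • v) ∈ K := by
        rw [hK]
        refine ⟨by simpa only [Metric.mem_closedBall, dist_zero_right] using hx, ?_⟩
        simp only [mem_sphere_iff_norm, sub_zero, norm_smul, norm_inv, norm_norm]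
        exact inv_mul_cancel₀ (norm_ne_zero_iff.2 hv)
      have h1 := hmin hm
      simp only [mem_ofPred_eq] at h1
      rw [quad_smul] at h1
      have hvp : 0 < ‖v‖ := norm_pos_iff.2 hv
      calc g.quad p.1 p.2 * ‖v‖ ^ 2 ≤ ((‖v‖⁻¹) ^ 2 * g.quad x v) * ‖v‖ ^ 2 :=
            mul_le_mul_of_nonneg_right h1 (sq_nonneg _)
        _ = g.quad x v := by field_simp

/-- A compactly supported `C¹` function is Lipschitz for the Riemannian distance. -/
theorem lip_of_compact {f : Rn n → ℝ} (hf : ContDiff ℝ 1 f) (hs : HasCompactSupport f) :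
    ∃ C : ℝ, 0 ≤ C ∧ ∀ x y, |f x - f y| ≤ C * g.dist x y := by
  obtain ⟨B, hB⟩ := (hs.fderiv (𝕜 := ℝ)).exists_bound_of_continuous
    (hf.continuous_fderiv one_ne_zero)
  obtain ⟨ρ, hρ⟩ := hs.isCompact.isBounded.subset_closedBall (0 : Rn n)
  obtain ⟨m, hm, hlow⟩ := quad_lower_on_ball g ρ
  have hB0 : 0 ≤ B := (norm_nonneg _).trans (hB 0)
  refine ⟨B / √m, by (clear * - hB0 hm; positivity), lip g hf (by (clear * - hB0 hm; positivity)) fun x v => ?_⟩
  by_cases hx : x ∈ tsupport f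
  · have h1 : ‖x‖ ≤ ρ := by simpa only [Metric.mem_closedBall, dist_zero_right] using hρ hx
    have h2 : √m * ‖v‖ ≤ √(g.quad x v) := by
      rw [← Real.sqrt_sq (norm_nonneg v), ← Real.sqrt_mul hm.le]
      exact Real.sqrt_le_sqrt (hlow x v h1)
    have hsm : 0 < √m := Real.sqrt_pos.2 hm
    calc |fderiv ℝ f x v| ≤ ‖fderiv ℝ f x‖ * ‖v‖ := (fderiv ℝ f x).le_opNorm v
      _ ≤ B * ‖v‖ := mul_le_mul_of_nonneg_right (hB x) (norm_nonneg _)
      _ = B / √m * (√m * ‖v‖) := by (clear * - hm; field_simp)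
      _ ≤ _ := mul_le_mul_of_nonneg_left h2 (by (clear * - hB0 hm; positivity))
  · have h0 : fderiv ℝ f x = 0 := by
      have : x ∉ tsupport (fderiv ℝ f) := fun h => hx (tsupport_fderiv_subset ℝ h)
      exact image_eq_zero_of_notMem_tsupport this
    rw [h0]
    simp only [zero_apply, abs_zero]
    (clear * - hB0 hm; positivity)

/-- If there is a proper `C¹` function with gradient bounded by one then the metric is
complete. -/
theorem complete_of_proper {R : Rn n → ℝ} (hR : ContDiff ℝ 1 R)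
    (hlip : ∀ x v : Rn n, |fderiv ℝ R x v| ≤ √(g.quad x v))
    (hprop : ∀ A : ℝ, ∃ ρ : ℝ, ∀ x, R x ≤ A → ‖x‖ ≤ ρ) : g.Complete := by
  intro u hu
  have hRl : ∀ x y, |R x - R y| ≤ g.dist x y := by
    intro x y
    have := lip g hR (C := 1) zero_le_one (fun x v => by rw [one_mul]; exact hlip x v) x y
    simpa only [ge_iff_le, one_mul] using this
  -- the sequence is bounded
  obtain ⟨N₀, hN₀⟩ := hu 1 one_pos
  obtain ⟨ρ, hρ⟩ := hprop (R (u N₀) + 1)
  have hbd : ∀ p ≥ N₀, ‖u p‖ ≤ ρ := by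
    intro p hp
    apply hρ
    have h1 := hRl (u p) (u N₀)
    have h2 := hN₀ p hp N₀ le_rfl
    have h3 := (abs_le.1 h1).2
    linarith only [h2, h3]
  have hρ0 : 0 ≤ ρ := (norm_nonneg _).trans (hbd N₀ le_rfl)
  -- the coordinates are Cauchy
  let b : ContDiffBump (0 : Rn n) := ⟨ρ + 1, ρ + 2, by linarith, by linarith only []⟩
  have hcoord : ∀ i : Fin n, ∃ C : ℝ, 0 ≤ C ∧ ∀ p ≥ N₀, ∀ q ≥ N₀,
      |u p i - u q i| ≤ C * g.dist (u p) (u q) := by
    intro i
    have hsm : ContDiff ℝ 1 (fun x : Rn n => b x * x i) := by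
      refine (b.contDiff).mul ?_
      exact (EuclideanSpace.proj i : Rn n →L[ℝ] ℝ).contDiff
    have hcs : HasCompactSupport (fun x : Rn n => b x * x i) :=
      HasCompactSupport.mul_right b.hasCompactSupport
    obtain ⟨C, hC, hh⟩ := lip_of_compact g hsm hcs
    refine ⟨C, hC, fun p hp q hq => ?_⟩
    have h1 : b (u p) = 1 := b.one_of_mem_closedBall (by
      simp only [mem_closedBall_zero_iff]
      exact (hbd p hp).trans (by change ρ ≤ ρ + 1; linarith only []))
    have h2 : b (u q) = 1 := b.one_of_mem_closedBall (by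
      simp only [mem_closedBall_zero_iff]
      exact (hbd q hq).trans (by change ρ ≤ ρ + 1; linarith only []))
    have := hh (u p) (u q)
    simpa only [h1, h2, one_mul] using this
  have hcau : ∀ i : Fin n, CauchySeq fun p => u p i := by
    intro i
    obtain ⟨C, hC, hh⟩ := hcoord i
    rw [Metric.cauchySeq_iff]
    intro ε hε
    obtain ⟨N, hN⟩ := hu (ε / (C + 1)) (by (clear * - hε hC; positivity))
    refine ⟨max N N₀, fun p hp q hq => ?_⟩
    rw [Real.dist_eq]
    have h1 := hh p ((le_max_right _ _).trans hp) q ((le_max_right _ _).trans hq)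
    have h2 := hN p ((le_max_left _ _).trans hp) q ((le_max_left _ _).trans hq)
    have h3 := dist_nonneg'' g (u p) (u q)
    calc |u p i - u q i| ≤ C * g.dist (u p) (u q) := h1
      _ ≤ (C + 1) * g.dist (u p) (u q) := by nlinarith only [h3]
      _ < (C + 1) * (ε / (C + 1)) := mul_lt_mul_of_pos_left h2 (by (clear * - hC; positivity))
      _ = ε := by (clear * - hC hε; field_simp)
  choose y hy using fun i => cauchySeq_tendsto_of_complete (hcau i)
  set x : Rn n := WithLp.toLp 2 y with hx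
  have hux : Tendsto u atTop (𝓝 x) := by
    have h1 : Tendsto (fun p => (WithLp.ofLp (u p) : Fin n → ℝ)) atTop (𝓝 y) :=
      tendsto_pi_nhds.2 hy
    have h2 := ((PiLp.continuous_toLp 2 (fun _ : Fin n => ℝ)).tendsto y).comp h1
    exact h2
  have hxn : ‖x‖ ≤ ρ := by
    refine le_of_tendsto hux.norm ?_
    exact eventually_atTop.2 ⟨N₀, fun p hp => hbd p hp⟩
  obtain ⟨K, hK, hKd⟩ := dist_le_on_ball g ρ
  refine ⟨x, fun ε hε => ?_⟩
  have h1 : Tendsto (fun p => K * ‖u p - x‖) atTop (𝓝 0) := by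
    have := (tendsto_iff_norm_sub_tendsto_zero.1 hux).const_mul K
    simpa only [mul_zero] using this
  obtain ⟨N, hN⟩ := eventually_atTop.1 (h1.eventually (gt_mem_nhds hε))
  refine ⟨max N N₀, fun p hp => ?_⟩
  exact (hKd _ _ (hbd p ((le_max_right _ _).trans hp)) hxn).trans_lt
    (hN p ((le_max_left _ _).trans hp))

/-! ### The radial function of the model metrics -/

section Model

variable {φ : ℝ → ℝ}

/-- the radial comparison function -/
noncomputable def radH (φ : ℝ → ℝ) (τ : ℝ) : ℝ :=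
  ∫ s in (0 : ℝ)..τ, Real.smoothTransition s * Real.exp (φ s)

theorem radH_hasDerivAt (hφ : Continuous φ) (τ : ℝ) :
    HasDerivAt (radH φ) (Real.smoothTransition τ * Real.exp (φ τ)) τ := by
  have hc : Continuous fun s => Real.smoothTransition s * Real.exp (φ s) :=
    Real.smoothTransition.continuous.mul (Real.continuous_exp.comp hφ)
  exact intervalIntegral.integral_hasDerivAt_right (hc.intervalIntegrable _ _)
    (hc.stronglyMeasurableAtFilter _ _) hc.continuousAt

theorem radH_zero {τ : ℝ} (hτ : τ ≤ 0) : radH φ τ = 0 := by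
  unfold radH
  rw [intervalIntegral.integral_congr (g := fun _ => (0 : ℝ))]
  · simp
  · intro s hs
    rw [uIcc_of_ge hτ] at hs
    simp [Real.smoothTransition.zero_of_nonpos hs.2]

/-- `e^φ` is controlled by the radial function. -/
theorem exp_le_radH {σ : ℝ → ℝ} (hφ : ∀ τ, HasDerivAt φ (σ τ) τ) (h0 : ∀ τ, 0 ≤ σ τ)
    (h1 : ∀ τ, σ τ ≤ 1) (τ : ℝ) : Real.exp (φ τ) ≤ Real.exp (φ 1) + radH φ τ := by
  have hcφ : Continuous φ := continuous_iff_continuousAt.2 fun t => (hφ t).continuousAt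
  have hmono : Monotone φ := monotone_of_hasDerivAt_nonneg (fun t => hφ t) h0
  have hnn : ∀ s, 0 ≤ Real.smoothTransition s * Real.exp (φ s) := fun s =>
    mul_nonneg (Real.smoothTransition.nonneg s) (Real.exp_pos _).le
  have hHmono : Monotone (radH φ) := monotone_of_hasDerivAt_nonneg
    (fun t => radH_hasDerivAt hcφ t) hnn
  rcases le_total τ 1 with h | h
  · have h2 : 0 ≤ radH φ τ := by
      rcases le_total τ 0 with h3 | h3
      · rw [radH_zero h3]
      · rw [← radH_zero (φ := φ) (le_refl (0 : ℝ))]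
        exact hHmono h3
    have := Real.exp_le_exp.2 (hmono h)
    linarith
  · -- on `[1, ∞)` compare derivatives
    have hH1 : 0 ≤ radH φ 1 := by
      rw [← radH_zero (φ := φ) (le_refl (0 : ℝ))]
      exact hHmono zero_le_one
    have hd : ∀ t, HasDerivAt (fun t => radH φ t - Real.exp (φ t))
        (Real.smoothTransition t * Real.exp (φ t) - Real.exp (φ t) * σ t) t := fun t =>
      (radH_hasDerivAt hcφ t).sub ((hφ t).exp)
    have hm : MonotoneOn (fun t => radH φ t - Real.exp (φ t)) (Ici 1) := by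
      apply monotoneOn_of_deriv_nonneg (convex_Ici 1)
      · exact fun t _ => (hd t).continuousAt.continuousWithinAt
      · exact fun t _ => (hd t).differentiableAt.differentiableWithinAt
      · intro t ht
        rw [interior_Ici] at ht
        rw [(hd t).deriv, Real.smoothTransition.one_of_one_le (le_of_lt ht)]
        nlinarith only [Real.exp_pos (φ t), h1 t]
    have := hm (mem_Ici.2 le_rfl) (mem_Ici.2 h) h
    simp only at this
    linarith only [hH1, this]

/-- the radial function on `ℝⁿ` -/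
noncomputable def rad (φ : ℝ → ℝ) (x : Rn n) : ℝ := radH φ (Real.log ‖x‖)

theorem rad_zero_near {x : Rn n} (hx : ‖x‖ < 1) : rad (n := n) φ =ᶠ[𝓝 x] fun _ => 0 := by
  have : ∀ᶠ y in 𝓝 x, ‖y‖ < 1 := (continuous_norm.tendsto x).eventually (gt_mem_nhds hx)
  filter_upwards [this] with y hy
  exact radH_zero (Real.log_nonpos (norm_nonneg _) hy.le)

theorem rad_hasFDerivAt (hφ : Continuous φ) {x : Rn n} (hx : x ≠ 0) :
    HasFDerivAt (rad (n := n) φ) ((Real.smoothTransition (Real.log ‖x‖) *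
      Real.exp (φ (Real.log ‖x‖)) * (‖x‖ ^ 2)⁻¹) • (innerSL ℝ x)) x := by
  have h1 : HasFDerivAt (fun y : Rn n => ‖y‖ ^ 2) (2 • innerSL ℝ x) x :=
    (hasStrictFDerivAt_norm_sq x).hasFDerivAt
  have hne : ‖x‖ ^ 2 ≠ 0 := by simpa using hx
  have h2 := (h1.log hne).const_mul (1 / 2 : ℝ)
  have h3 : (fun y : Rn n => (1 / 2 : ℝ) * Real.log (‖y‖ ^ 2)) = fun y : Rn n => Real.log ‖y‖ := by
    funext y
    rw [Real.log_pow]
    push_cast
    ring
  rw [h3] at h2
  have h4 := (radH_hasDerivAt hφ (Real.log ‖x‖)).comp_hasFDerivAt x h2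
  have h5 : ((Real.smoothTransition (Real.log ‖x‖) * Real.exp (φ (Real.log ‖x‖))) •
      (1 / 2 : ℝ) • (‖x‖ ^ 2)⁻¹ • 2 • innerSL ℝ x : Rn n →L[ℝ] ℝ) =
      (Real.smoothTransition (Real.log ‖x‖) * Real.exp (φ (Real.log ‖x‖)) * (‖x‖ ^ 2)⁻¹) •
        innerSL ℝ x := by
    rw [← Nat.cast_smul_eq_nsmul ℝ, smul_smul, smul_smul, smul_smul]
    congr 1
    push_cast
    ring
  rw [h5] at h4
  exact h4

theorem rad_contDiff (hφ : Continuous φ) : ContDiff ℝ 1 (rad (n := n) φ) := by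
  rw [contDiff_iff_contDiffAt]
  intro x
  by_cases hx : ‖x‖ < 1
  · exact (contDiffAt_const).congr_of_eventuallyEq (rad_zero_near hx)
  · have hx0 : x ≠ 0 := by
      rintro rfl
      simp only [norm_zero, zero_lt_one, not_true_eq_false] at hx
    have hH : ContDiff ℝ 1 (radH φ) := by
      rw [contDiff_one_iff_deriv]
      refine ⟨fun t => (radH_hasDerivAt hφ t).differentiableAt, ?_⟩
      have : deriv (radH φ) = fun s => Real.smoothTransition s * Real.exp (φ s) := by
        funext t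
        exact (radH_hasDerivAt hφ t).deriv
      rw [this]
      exact Real.smoothTransition.continuous.mul (Real.continuous_exp.comp hφ)
    have hn : ContDiffAt ℝ 1 (fun y : Rn n => Real.log ‖y‖) x :=
      (contDiffAt_norm ℝ hx0).log (norm_ne_zero_iff.2 hx0)
    exact hH.contDiffAt.comp x hn

variable {g}

/-- The gradient of the radial function is bounded by one. -/
theorem rad_lip (hφ : Continuous φ)
    (hP : ∀ x v : Rn n, x ≠ 0 → Real.exp (2 * φ (Real.log ‖x‖) - 2 * Real.log ‖x‖) *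
      (inner ℝ x v / ‖x‖) ^ 2 ≤ g.quad x v) (x v : Rn n) :
    |fderiv ℝ (rad (n := n) φ) x v| ≤ √(g.quad x v) := by
  by_cases hx : x = 0
  · have h0 : fderiv ℝ (rad (n := n) φ) x = 0 := by
      have h1 := (rad_zero_near (n := n) (φ := φ) (x := x) (by rw [hx]; simp only [norm_zero, zero_lt_one])).fderiv_eq (𝕜 := ℝ)
      rw [h1]
      simp only [fderiv_fun_const, Pi.zero_apply]
    rw [h0]
    simp only [zero_apply, abs_zero]
    (clear * -; positivity)
  · rw [(rad_hasFDerivAt hφ hx).fderiv]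
    have hn : 0 < ‖x‖ := norm_pos_iff.2 hx
    set τ := Real.log ‖x‖ with hτ
    have hexp : Real.exp τ = ‖x‖ := Real.exp_log hn
    simp only [smul_apply, smul_eq_mul, innerSL_apply_apply]
    have hs0 := Real.smoothTransition.nonneg τ
    have hs1 := Real.smoothTransition.le_one τ
    have h1 : √(Real.exp (2 * φ τ - 2 * τ) * (inner ℝ x v / ‖x‖) ^ 2) =
        Real.exp (φ τ) * (‖x‖ ^ 2)⁻¹ * |inner ℝ x v| := by
      have e1 : Real.exp (2 * φ τ - 2 * τ) = (Real.exp (φ τ) / ‖x‖) ^ 2 := by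
        rw [div_pow, ← hexp, ← Real.exp_nat_mul, ← Real.exp_nat_mul, ← Real.exp_sub]
        push_cast
        ring_nf
      rw [e1, ← mul_pow, Real.sqrt_sq_eq_abs, abs_mul, abs_div, abs_div, Real.abs_exp,
        abs_of_pos hn]
      field_simp
    calc |Real.smoothTransition τ * Real.exp (φ τ) * (‖x‖ ^ 2)⁻¹ * inner ℝ x v|
        = Real.smoothTransition τ * (Real.exp (φ τ) * (‖x‖ ^ 2)⁻¹ * |inner ℝ x v|) := by
          rw [abs_mul, abs_mul, abs_mul, abs_of_nonneg hs0, Real.abs_exp,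
            abs_of_nonneg (inv_nonneg.2 (sq_nonneg ‖x‖))]
          ring
      _ ≤ 1 * (Real.exp (φ τ) * (‖x‖ ^ 2)⁻¹ * |inner ℝ x v|) :=
          mul_le_mul_of_nonneg_right hs1 (by (clear * - hx; positivity))
      _ = √(Real.exp (2 * φ τ - 2 * τ) * (inner ℝ x v / ‖x‖) ^ 2) := by rw [h1, one_mul]
      _ ≤ _ := Real.sqrt_le_sqrt (hP x v hx)

/-- Completeness of the model metrics. -/
theorem model_complete {σ : ℝ → ℝ} (hφ : ∀ τ, HasDerivAt φ (σ τ) τ) (h0 : ∀ τ, 0 ≤ σ τ)
    (h1 : ∀ τ, σ τ ≤ 1) (hlim : Tendsto φ atTop atTop)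
    (hP : ∀ x v : Rn n, x ≠ 0 → Real.exp (2 * φ (Real.log ‖x‖) - 2 * Real.log ‖x‖) *
      (inner ℝ x v / ‖x‖) ^ 2 ≤ g.quad x v) : g.Complete := by
  have hcφ : Continuous φ := continuous_iff_continuousAt.2 fun t => (hφ t).continuousAt
  refine complete_of_proper g (rad_contDiff hcφ) (rad_lip hcφ hP) fun A => ?_
  obtain ⟨T, hT⟩ := eventually_atTop.1
    ((Real.tendsto_exp_atTop.comp hlim).eventually (eventually_gt_atTop (Real.exp (φ 1) + A)))
  refine ⟨Real.exp (max T 0), fun x hx => ?_⟩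
  by_contra hcon
  push Not at hcon
  have hn : 0 < ‖x‖ := (Real.exp_pos _).trans hcon
  have hlog : max T 0 < Real.log ‖x‖ := (Real.lt_log_iff_exp_lt hn).2 hcon
  have h2 := hT (Real.log ‖x‖) ((le_max_left _ _).trans hlog.le)
  have h3 := exp_le_radH hφ h0 h1 (Real.log ‖x‖)
  have h4 : radH φ (Real.log ‖x‖) ≤ A := hx
  simp only [Function.comp] at h2
  linarith

/-- Growth: a bound by `e^{kφ}` gives the polynomial growth of order `k` for the distance. -/
theorem model_growth {σ : ℝ → ℝ} (hφ : ∀ τ, HasDerivAt φ (σ τ) τ) (h0 : ∀ τ, 0 ≤ σ τ)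
    (h1 : ∀ τ, σ τ ≤ 1)
    (hP : ∀ x v : Rn n, x ≠ 0 → Real.exp (2 * φ (Real.log ‖x‖) - 2 * Real.log ‖x‖) *
      (inner ℝ x v / ‖x‖) ^ 2 ≤ g.quad x v) {u : Rn n → ℝ} (hu : Continuous u) (k : ℕ) {C : ℝ}
    (hC : ∀ x : Rn n, 1 ≤ ‖x‖ → |u x| ≤ C * Real.exp (k * φ (Real.log ‖x‖))) :
    ∃ C' : ℝ, ∀ x, |u x| ≤ C' * (1 + g.dist 0 x) ^ (k : ℝ) := by
  have hcφ : Continuous φ := continuous_iff_continuousAt.2 fun t => (hφ t).continuousAt
  obtain ⟨B, hB⟩ := (isCompact_closedBall (0 : Rn n) 1).exists_bound_of_continuousOn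
    hu.continuousOn
  set A := Real.exp (φ 1) + 1 with hA
  have hA1 : 1 ≤ A := by
    have := Real.exp_pos (φ 1)
    linarith only [this]
  refine ⟨max B 0 + max C 0 * A ^ k, fun x => ?_⟩
  have hd := dist_nonneg'' g (0 : Rn n) x
  have hone : (1 : ℝ) ≤ (1 + g.dist 0 x) ^ k := one_le_pow₀ (by linarith only [hd])
  rw [Real.rpow_natCast]
  rcases le_total ‖x‖ 1 with h | h
  · have h2 := hB x (by simpa only [Metric.mem_closedBall, dist_zero_right] using h)
    rw [Real.norm_eq_abs] at h2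
    calc |u x| ≤ max B 0 := h2.trans (le_max_left _ _)
      _ ≤ max B 0 + max C 0 * A ^ k := by
          have : 0 ≤ max C 0 * A ^ k := mul_nonneg (le_max_right _ _) (by positivity)
          linarith only [this]
      _ = (max B 0 + max C 0 * A ^ k) * 1 := (mul_one _).symm
      _ ≤ _ := mul_le_mul_of_nonneg_left hone (add_nonneg (le_max_right _ _)
          (mul_nonneg (le_max_right _ _) (by positivity)))
  · have hl := lip g (rad_contDiff (n := n) hcφ) (C := 1) zero_le_one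
      (fun x v => by rw [one_mul]; exact rad_lip hcφ hP x v) 0 x
    rw [one_mul] at hl
    have hr0 : rad (n := n) φ 0 = 0 := by
      unfold rad
      rw [norm_zero, Real.log_zero]
      exact radH_zero le_rfl
    rw [hr0, zero_sub, abs_neg] at hl
    have h3 : rad φ x ≤ g.dist 0 x := (le_abs_self _).trans hl
    have h4 := exp_le_radH hφ h0 h1 (Real.log ‖x‖)
    have h5 : Real.exp (φ (Real.log ‖x‖)) ≤ A * (1 + g.dist 0 x) := by
      have h6 : radH φ (Real.log ‖x‖) = rad φ x := rfl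
      have := Real.exp_pos (φ 1)
      linarith only [mul_nonneg (sub_nonneg.2 hA1) (sub_nonneg.2 hd), h6, h4, h3]
    have h7 : Real.exp (k * φ (Real.log ‖x‖)) ≤ (A * (1 + g.dist 0 x)) ^ k := by
      rw [Real.exp_nat_mul]
      exact pow_le_pow_left₀ (Real.exp_pos _).le h5 k
    calc |u x| ≤ C * Real.exp (k * φ (Real.log ‖x‖)) := hC x h
      _ ≤ max C 0 * Real.exp (k * φ (Real.log ‖x‖)) :=
          mul_le_mul_of_nonneg_right (le_max_left _ _) (Real.exp_pos _).le
      _ ≤ max C 0 * (A * (1 + g.dist 0 x)) ^ k :=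
          mul_le_mul_of_nonneg_left h7 (le_max_right _ _)
      _ = max C 0 * A ^ k * (1 + g.dist 0 x) ^ k := by rw [mul_pow]; ring
      _ ≤ _ := by
          apply mul_le_mul_of_nonneg_right _ (by positivity)
          have := le_max_right B 0
          linarith only [this]

end Model

end B

end Vale.Agent.P225
end
end

section

section

/-!
# Linear independence of the constructed harmonic functions and the final count
-/

open MvPolynomial

namespace Vale.Agent.P225.B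

theorem poly_zero_of_ball {n : ℕ} {p : MvPolynomial (Fin n) ℝ}
    (h : ∀ x : Rn n, ‖x‖ ≤ 1 → eval x.ofLp p = 0) : p = 0 := by
  refine funext_set (fun _ => Set.Icc (0 : ℝ) (1 / (n + 1))) (fun _ => ?_) ?_
  · exact Set.Icc_infinite (by positivity)
  · intro x hx
    rw [map_zero]
    apply h (WithLp.toLp 2 x)
    rw [EuclideanSpace.norm_eq, Real.sqrt_le_one]
    have h1 : ∀ i : Fin n, ‖(WithLp.toLp 2 x : Rn n) i‖ ^ 2 ≤ 1 / (n + 1) := by
      intro i
      have hi := hx i (Set.mem_univ i)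
      have h2 : (1 : ℝ) / (n + 1) ≤ 1 := by
        rw [div_le_one (by (clear * -; positivity))]
        have : (0 : ℝ) ≤ n := Nat.cast_nonneg n
        linarith only []
      simp only [Real.norm_eq_abs, sq_abs]
      have h3 : (0 : ℝ) ≤ x i := hi.1
      have h4 : x i ≤ 1 / (n + 1) := hi.2
      nlinarith only [h4, h2, h3]
    calc ∑ i, ‖(WithLp.toLp 2 x : Rn n) i‖ ^ 2 ≤ ∑ _i : Fin n, (1 : ℝ) / (n + 1) :=
          Finset.sum_le_sum fun i _ => h1 i
      _ = n / (n + 1) := by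
          rw [Finset.sum_const, Finset.card_univ, Fintype.card_fin, nsmul_eq_mul]
          ring
      _ ≤ 1 := by
          rw [div_le_one (by positivity)]
          linarith only []

/-- Bases of spaces of homogeneous polynomials of different degrees are jointly independent. -/
theorem sum_eq_zero_imp {n : ℕ} {D : Type} [Fintype D] {deg : D → ℕ}
    (hdeg : Function.Injective deg) {ι : D → Type} [∀ d, Fintype (ι d)]
    {p : (d : D) → ι d → MvPolynomial (Fin n) ℝ} (hp : ∀ d i, (p d i).IsHomogeneous (deg d))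
    (hli : ∀ d, LinearIndependent ℝ (p d)) (c : (d : D) → ι d → ℝ)
    (h : ∑ d, ∑ i, c d i • p d i = 0) (d : D) (i : ι d) : c d i = 0 := by
  classical
  have h1 := congrArg (homogeneousComponent (deg d)) h
  rw [map_sum, map_zero] at h1
  have h2 : ∀ e : D, homogeneousComponent (deg d) (∑ i, c e i • p e i) =
      if e = d then ∑ i, c e i • p e i else 0 := by
    intro e
    have hmem : ∑ i, c e i • p e i ∈ homogeneousSubmodule (Fin n) ℝ (deg e) :=
      Submodule.sum_mem _ fun i _ => Submodule.smul_mem _ _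
        ((mem_homogeneousSubmodule _ _).2 (hp e i))
    rw [homogeneousComponent_of_mem hmem]
    by_cases he : e = d
    · subst he
      simp only [↓reduceIte]
    · rw [if_neg he, if_neg]
      intro hh
      exact he (hdeg hh.symm)
  rw [Finset.sum_congr rfl (fun e _ => h2 e)] at h1
  simp only [Finset.sum_ite_eq', Finset.mem_univ, if_true] at h1
  exact Fintype.linearIndependent_iff.1 (hli d) (c d) h1 i

/-- The final count. -/
theorem count_final {n : ℕ} (g : RMetric n) (k : ℝ) {D : Type} [Fintype D] {deg : D → ℕ}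
    (hdeg : Function.Injective deg) {ι : D → Type} [∀ d, Fintype (ι d)]
    {p : (d : D) → ι d → MvPolynomial (Fin n) ℝ} (hp : ∀ d i, (p d i).IsHomogeneous (deg d))
    (hli : ∀ d, LinearIndependent ℝ (p d)) (S : (d : D) → Finset (ι d))
    (hu : ∀ d, ∀ i ∈ S d, ∃ u ∈ g.harm k, ∀ x : Rn n, ‖x‖ ≤ 1 → u x = eval x.ofLp (p d i))
    {N : ℕ} (hN : N ≤ ∑ d, (S d).card) :
    ∃ v : Fin N → (Rn n → ℝ), LinearIndependent ℝ v ∧ ∀ i, v i ∈ g.harm k := by
  classical
  let I := Σ d : D, {i : ι d // i ∈ S d}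
  choose! u hug hux using hu
  let v0 : I → (Rn n → ℝ) := fun a => u a.1 a.2.1
  have hli0 : LinearIndependent ℝ v0 := by
    rw [Fintype.linearIndependent_iff]
    intro c hc a
    let C : (d : D) → ι d → ℝ := fun d i => if h : i ∈ S d then c ⟨d, ⟨i, h⟩⟩ else 0
    have hz : ∑ d, ∑ i, C d i • p d i = 0 := by
      apply poly_zero_of_ball
      intro x hx
      rw [map_sum]
      have h1 : ∀ d, eval x.ofLp (∑ i, C d i • p d i) =
          ∑ i : {i : ι d // i ∈ S d}, c ⟨d, i⟩ * eval x.ofLp (p d i.1) := by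
        intro d
        rw [map_sum]
        have h2 : ∀ i, eval x.ofLp (C d i • p d i) = if h : i ∈ S d then
            c ⟨d, ⟨i, h⟩⟩ * eval x.ofLp (p d i) else 0 := by
          intro i
          simp only [C, smul_eval]
          split_ifs
          · rfl
          · simp
        rw [Finset.sum_congr rfl (fun i _ => h2 i), Finset.univ_eq_attach]
        rw [← Finset.sum_subset (Finset.subset_univ (S d)) (by
          intro i _ hi
          rw [dif_neg hi])]
        rw [← Finset.sum_attach (S d)]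
        refine Finset.sum_congr rfl fun i _ => ?_
        rw [dif_pos i.2]
      rw [Finset.sum_congr rfl (fun d _ => h1 d)]
      have h3 := congrFun hc x
      rw [Finset.sum_apply, Pi.zero_apply, Fintype.sum_sigma] at h3
      rw [← h3]
      refine Finset.sum_congr rfl fun d _ => Finset.sum_congr rfl fun i _ => ?_
      simp only [v0, Pi.smul_apply, smul_eq_mul]
      rw [hux d i.1 i.2 x hx]
    have h4 := sum_eq_zero_imp hdeg hp hli C hz a.1 a.2.1
    simpa [C, a.2.2] using h4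
  have hcard : Fintype.card (Fin N) ≤ Fintype.card I := by
    rw [Fintype.card_fin, Fintype.card_sigma]
    refine hN.trans (Finset.sum_le_sum fun d _ => ?_)
    rw [Fintype.card_coe]
  obtain ⟨e⟩ := Function.Embedding.nonempty_of_card_le hcard
  exact ⟨fun j => v0 (e j), hli0.comp e e.injective, fun j => hug _ _ (e j).2.2⟩

end Vale.Agent.P225.B
end
end

section

section

/-! B3-(3.6), part c: real eigenbasis and multiplicities. -/

set_option linter.all false

open MvPolynomial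

namespace Vale.Agent.P225.B

namespace M36

variable {σ : Type*}

/-- real part of the coefficients -/
noncomputable def reF (f : MvPolynomial σ ℂ) : MvPolynomial σ ℝ :=
  ∑ s ∈ f.support, monomial s (coeff s f).re

theorem coeff_reF (s : σ →₀ ℕ) (f : MvPolynomial σ ℂ) : coeff s (reF f) = (coeff s f).re := by
  classical
  rw [reF, coeff_sum]
  simp only [coeff_monomial]
  rw [Finset.sum_ite_eq']
  split_ifs with h
  · rfl
  · rw [notMem_support_iff.1 h]; simp

/-- imaginary part of the coefficients -/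
noncomputable def imF (f : MvPolynomial σ ℂ) : MvPolynomial σ ℝ :=
  ∑ s ∈ f.support, monomial s (coeff s f).im

theorem coeff_imF (s : σ →₀ ℕ) (f : MvPolynomial σ ℂ) : coeff s (imF f) = (coeff s f).im := by
  classical
  rw [imF, coeff_sum]
  simp only [coeff_monomial]
  rw [Finset.sum_ite_eq']
  split_ifs with h
  · rfl
  · rw [notMem_support_iff.1 h]; simp

theorem coeff_rsmul (c : ℝ) (s : σ →₀ ℕ) (f : MvPolynomial σ ℂ) :
    coeff s (c • f) = c * coeff s f := by
  rw [coeff_smul]; simp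

/-- real part as a real linear map -/
noncomputable def reP : MvPolynomial σ ℂ →ₗ[ℝ] MvPolynomial σ ℝ where
  toFun := reF
  map_add' f g := by ext s; simp [coeff_reF]
  map_smul' c f := by ext s; simp [coeff_reF, coeff_rsmul]

/-- imaginary part as a real linear map -/
noncomputable def imP : MvPolynomial σ ℂ →ₗ[ℝ] MvPolynomial σ ℝ where
  toFun := imF
  map_add' f g := by ext s; simp [coeff_imF]
  map_smul' c f := by ext s; simp [coeff_imF, coeff_rsmul]

/-- complexification of a polynomial -/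
noncomputable abbrev cm (g : MvPolynomial σ ℝ) : MvPolynomial σ ℂ := map Complex.ofRealHom g

theorem cm_re_im (f : MvPolynomial σ ℂ) : cm (reP f) + C Complex.I * cm (imP f) = f := by
  ext s
  rw [coeff_add, coeff_C_mul, coeff_map, coeff_map]
  change Complex.ofRealHom (coeff s (reF f)) + Complex.I * Complex.ofRealHom (coeff s (imF f)) = _
  rw [coeff_reF, coeff_imF]
  simp only [Complex.ofRealHom_eq_coe]
  rw [mul_comm]; exact Complex.re_add_im _

theorem cm_eq_zero {g h : MvPolynomial σ ℝ} (H : cm g + C Complex.I * cm h = 0) :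
    g = 0 ∧ h = 0 := by
  have H' : ∀ s, coeff s g = 0 ∧ coeff s h = 0 := by
    intro s
    have := congrArg (coeff s) H
    rw [coeff_add, coeff_C_mul, coeff_map, coeff_map, coeff_zero] at this
    simp only [Complex.ofRealHom_eq_coe] at this
    have h1 := congrArg Complex.re this
    have h2 := congrArg Complex.im this
    simp only [Complex.add_re, Complex.ofReal_re, Complex.mul_re, Complex.I_re, zero_mul, Complex.I_im, Complex.ofReal_im, mul_zero, sub_self, add_zero, Complex.zero_re, Complex.add_im, Complex.mul_im, one_mul, zero_add, Complex.zero_im] at h1 h2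
    exact ⟨h1, h2⟩
  exact ⟨by ext s; simpa using (H' s).1, by ext s; simpa using (H' s).2⟩

variable {m n : ℕ} (e : Fin n ≃ Fin (m+1) ⊕ Fin (m+1))

theorem plap_cm (g : MvPolynomial (Fin n) ℝ) : plap ℂ n (cm g) = cm (plap ℝ n g) := by
  rw [plap_apply, plap_apply]
  simp only [cm, map_sum]
  exact Finset.sum_congr rfl fun i _ => by rw [pderiv_map, pderiv_map]

theorem J0_map (i j : Fin n) : Complex.ofRealHom (J0 ℝ e i j) = J0 ℂ e i j := by
  simp only [J0]
  rcases e i with a | a <;> rcases e j with b | b <;> simp <;> split_ifs <;> simp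

theorem xi_cm (g : MvPolynomial (Fin n) ℝ) : xi (J0 ℂ e) (cm g) = cm (xi (J0 ℝ e) g) := by
  rw [xi_eq_sum, xi_eq_sum]
  simp only [cm, map_sum]
  refine Finset.sum_congr rfl fun i _ => ?_
  simp only [map_mul, map_sum, map_C, map_X, pderiv_map, J0_map]

theorem homog_re {d : ℕ} {f : MvPolynomial σ ℂ} (hf : f.IsHomogeneous d) :
    (reP f).IsHomogeneous d := by
  intro s hs
  apply hf
  intro h
  apply hs
  change coeff s (reF f) = 0
  rw [coeff_reF, h]; simp

theorem homog_im {d : ℕ} {f : MvPolynomial σ ℂ} (hf : f.IsHomogeneous d) :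
    (imP f).IsHomogeneous d := by
  intro s hs
  apply hf
  intro h
  apply hs
  change coeff s (imF f) = 0
  rw [coeff_imF, h]; simp

theorem HH_re_im {d : ℕ} {f : MvPolynomial (Fin n) ℂ} (hf : f ∈ HH ℂ n d) :
    reP f ∈ HH ℝ n d ∧ imP f ∈ HH ℝ n d := by
  rw [mem_HH] at hf
  have h := hf.2
  rw [← cm_re_im f, map_add, plap_cm, ← smul_eq_C_mul, map_smul, plap_cm, smul_eq_C_mul] at h
  obtain ⟨h1, h2⟩ := cm_eq_zero h
  exact ⟨mem_HH.2 ⟨homog_re hf.1, h1⟩, mem_HH.2 ⟨homog_im hf.1, h2⟩⟩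

theorem cm_rsmul (c : ℝ) (g : MvPolynomial σ ℝ) : cm (c • g) = (c : ℂ) • cm g := by
  ext s
  rw [coeff_map, coeff_smul, coeff_smul, coeff_map]
  simp only [smul_eq_mul, Complex.ofRealHom_eq_coe, Complex.ofReal_mul]

theorem xi_re_im {f : MvPolynomial (Fin n) ℂ} {c : ℝ}
    (hf : xi (J0 ℂ e) (xi (J0 ℂ e) f) = (c : ℂ) • f) :
    xi (J0 ℝ e) (xi (J0 ℝ e) (reP f)) = c • reP f ∧
      xi (J0 ℝ e) (xi (J0 ℝ e) (imP f)) = c • imP f := by
  have h : xi (J0 ℂ e) (xi (J0 ℂ e) f) - (c : ℂ) • f = 0 := sub_eq_zero.2 hf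
  have h2 : cm (xi (J0 ℝ e) (xi (J0 ℝ e) (reP f)) - c • reP f) +
      C Complex.I * cm (xi (J0 ℝ e) (xi (J0 ℝ e) (imP f)) - c • imP f) = 0 := by
    rw [← h]
    conv_rhs => rw [← cm_re_im f]
    have hx : ∀ g, xi (J0 ℂ e) (C Complex.I * g) = C Complex.I * xi (J0 ℂ e) g := by
      intro g; rw [Derivation.leibniz, derivation_C]; simp only [smul_eq_mul, mul_zero, add_zero]
    rw [map_add, map_add, hx, hx, xi_cm, xi_cm, xi_cm, xi_cm]
    have hs : ∀ a b : MvPolynomial (Fin n) ℝ, cm (a - b) = cm a - cm b := fun a b => map_sub _ a b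
    rw [hs, hs, cm_rsmul, cm_rsmul]
    simp only [smul_eq_C_mul]
    ring
  obtain ⟨h3, h4⟩ := cm_eq_zero h2
  exact ⟨sub_eq_zero.1 h3, sub_eq_zero.1 h4⟩

/-- Decomposition of complex harmonic polynomials into bidegrees. -/
theorem decomp {d : ℕ} {f : MvPolynomial (Fin n) ℂ} (hf : f ∈ HH ℂ n d) :
    ∃ h : ℕ → MvPolynomial (Fin n) ℂ, f = ∑ p ∈ Finset.range (d + 1), h p ∧
      ∀ p ∈ Finset.range (d + 1), h p ∈ HH ℂ n d ∧
        xi (J0 ℂ e) (xi (J0 ℂ e) (h p)) = ((-((p : ℝ) - ((d - p : ℕ) : ℝ)) ^ 2 : ℝ) : ℂ) • h p := by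
  classical
  obtain ⟨hf1, hf2⟩ := mem_HH.1 hf
  set g := Psi e f with hg
  have hgh : g.IsHomogeneous d := Psi_homog e hf1
  have hPhi : Phi e g = f := Phi_Psi e f
  have hLW : LW m g = 0 := by
    apply Phi_inj e
    rw [map_zero]
    have h4 : Phi e (4 * LW m g) = 0 := by rw [← plap_Phi, hPhi, hf2]
    rw [map_mul] at h4
    rcases mul_eq_zero.1 h4 with h | h
    · exfalso
      have h4' : (C (4 : ℂ) : MvPolynomial (Fin n) ℂ) = 4 := map_ofNat C 4
      have h5 : (Phi e) 4 = (4 : MvPolynomial (Fin n) ℂ) := map_ofNat (Phi e) 4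
      rw [h5, ← h4', C_eq_zero] at h
      norm_num at h
    · exact h
  have hdeg : ∀ s ∈ g.support, dl s + dr s = d := by
    intro s hs
    have h1 := hgh (mem_support_iff.1 hs)
    have e1 : s.degree = Finsupp.weight 1 s := by rw [Finsupp.degree_eq_weight_one]; rfl
    rw [← h1]
    change _ = Finsupp.weight 1 s
    rw [← e1, Finsupp.degree_eq_sum, Fintype.sum_sum_type]
    rfl
  set G : ℕ → MvPolynomial (Fin (m+1) ⊕ Fin (m+1)) ℂ :=
    fun p => ∑ s ∈ g.support with dl s = p, monomial s (coeff s g) with hG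
  have hGsum : g = ∑ p ∈ Finset.range (d + 1), G p := by
    rw [hG]
    rw [Finset.sum_fiberwise_of_maps_to (s := g.support) (t := Finset.range (d+1)) (g := dl)
      (f := fun s => monomial s (coeff s g))]
    · exact g.as_sum
    · intro s hs
      rw [Finset.mem_range]
      have := hdeg s hs
      omega
  have hGQ : ∀ p, G p ∈ Q m p (d - p) := by
    intro p
    refine Submodule.sum_mem _ fun s hs => ?_
    rw [Finset.mem_filter] at hs
    have := hdeg s hs.1
    exact mon_mem _ hs.2 (by omega)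
  have hsupp : ∀ p t, coeff t (LW m (G p)) ≠ 0 → dl t + 1 = p := by
    intro p t ht
    rcases p with _ | p
    · exfalso; apply ht; rw [LW_zero_left (hGQ 0)]; simp
    · rcases hq : d - (p + 1) with _ | q
      · exfalso; apply ht
        have := hGQ (p + 1)
        rw [hq] at this
        rw [LW_zero_right this]; simp
      · have := hGQ (p + 1)
        rw [hq] at this
        have h5 := (mem_Q.1 (LW_mem this) t ht).1
        omega
  have hGLW : ∀ p ∈ Finset.range (d + 1), LW m (G p) = 0 := by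
    intro p hp
    ext t
    rw [coeff_zero]
    by_contra ht
    have h1 := hsupp p t ht
    have h2 : coeff t (LW m g) = coeff t (LW m (G p)) := by
      rw [hGsum, map_sum, coeff_sum, Finset.sum_eq_single p]
      · intro p' _ hp'
        by_contra h3
        exact hp' (by rw [← hsupp p' t h3, h1])
      · intro h; exact absurd hp h
    rw [hLW, coeff_zero] at h2
    exact ht h2.symm
  refine ⟨fun p => Phi e (G p), ?_, ?_⟩
  · rw [← map_sum, ← hGsum, hPhi]
  · intro p hp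
    have hpd : p + (d - p) = d := by
      rw [Finset.mem_range] at hp; omega
    constructor
    · have := K_mem e (p := p) (q := d - p) (g := G p)
        (Submodule.mem_inf.2 ⟨hGQ p, LinearMap.mem_ker.2 (hGLW p hp)⟩)
      rwa [hpd] at this
    · rw [xi_sq_Q e (hGQ p)]
      congr 1
      push_cast
      ring

/-- complex eigenspace -/
noncomputable def WC (d k : ℕ) : Submodule ℂ (MvPolynomial (Fin n) ℂ) :=
  HH ℂ n d ⊓ LinearMap.ker (dop (xi (J0 ℂ e)) * dop (xi (J0 ℂ e)) + ((k : ℂ) ^ 2) • 1)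

/-- real eigenspace -/
noncomputable def WR (d k : ℕ) : Submodule ℝ (MvPolynomial (Fin n) ℝ) :=
  HH ℝ n d ⊓ LinearMap.ker (dop (xi (J0 ℝ e)) * dop (xi (J0 ℝ e)) + ((k : ℝ) ^ 2) • 1)

theorem mem_WC {d k : ℕ} {f : MvPolynomial (Fin n) ℂ} :
    f ∈ WC e d k ↔ f ∈ HH ℂ n d ∧ xi (J0 ℂ e) (xi (J0 ℂ e) f) = (-((k : ℂ) ^ 2)) • f := by
  rw [WC, Submodule.mem_inf, LinearMap.mem_ker]
  simp only [LinearMap.add_apply, Module.End.mul_apply, dop_apply, LinearMap.smul_apply,
    Module.End.one_apply]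
  rw [neg_smul, ← eq_neg_iff_add_eq_zero]

theorem mem_WR {d k : ℕ} {f : MvPolynomial (Fin n) ℝ} :
    f ∈ WR e d k ↔ f ∈ HH ℝ n d ∧ xi (J0 ℝ e) (xi (J0 ℝ e) f) = (-((k : ℝ) ^ 2)) • f := by
  rw [WR, Submodule.mem_inf, LinearMap.mem_ker]
  simp only [LinearMap.add_apply, Module.End.mul_apply, dop_apply, LinearMap.smul_apply,
    Module.End.one_apply]
  rw [neg_smul, ← eq_neg_iff_add_eq_zero]

theorem finite_HH {F : Type*} [Field F] (n d : ℕ) : Module.Finite F (HH F n d) := by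
  have h : HH F n d ≤ restrictTotalDegree (Fin n) F d := by
    intro f hf
    rw [mem_restrictTotalDegree]
    exact (mem_HH.1 hf).1.totalDegree_le
  exact Submodule.finiteDimensional_of_le h

instance instFiniteHH {F : Type*} [Field F] (n d : ℕ) : Module.Finite F (HH F n d) :=
  finite_HH n d

instance finWC (d k : ℕ) : Module.Finite ℂ (WC e d k) :=
  Submodule.finiteDimensional_of_le (inf_le_left : WC e d k ≤ HH ℂ n d)

instance finWR (d k : ℕ) : Module.Finite ℝ (WR e d k) :=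
  Submodule.finiteDimensional_of_le (inf_le_left : WR e d k ≤ HH ℝ n d)

theorem finrank_WC_le (d k : ℕ) : Module.finrank ℂ (WC e d k) ≤ Module.finrank ℝ (WR e d k) := by
  have h1 : ∀ f : WC e d k, reP (f : MvPolynomial (Fin n) ℂ) ∈ WR e d k ∧
      imP (f : MvPolynomial (Fin n) ℂ) ∈ WR e d k := by
    intro f
    obtain ⟨h1, h2⟩ := (mem_WC e).1 f.2
    have h3 := xi_re_im e (f := (f : MvPolynomial (Fin n) ℂ)) (c := -((k : ℝ) ^ 2))
      (by rw [h2]; push_cast; rfl)
    obtain ⟨h4, h5⟩ := HH_re_im h1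
    exact ⟨(mem_WR e).2 ⟨h4, h3.1⟩, (mem_WR e).2 ⟨h5, h3.2⟩⟩
  let T : WC e d k →ₗ[ℝ] (WR e d k × WR e d k) :=
    LinearMap.prod
      (LinearMap.codRestrict (WR e d k)
        (reP ∘ₗ (WC e d k).subtype.restrictScalars ℝ) (fun f => (h1 f).1))
      (LinearMap.codRestrict (WR e d k)
        (imP ∘ₗ (WC e d k).subtype.restrictScalars ℝ) (fun f => (h1 f).2))
  have hT : Function.Injective T := by
    rw [← LinearMap.ker_eq_bot, LinearMap.ker_eq_bot']
    intro f hf
    have h2 := congrArg (fun x => (x.1 : MvPolynomial (Fin n) ℝ)) hf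
    have h3 := congrArg (fun x => (x.2 : MvPolynomial (Fin n) ℝ)) hf
    have h2' : reP (f : MvPolynomial (Fin n) ℂ) = 0 := h2
    have h3' : imP (f : MvPolynomial (Fin n) ℂ) = 0 := h3
    apply Subtype.ext
    rw [← cm_re_im (f : MvPolynomial (Fin n) ℂ), h2', h3']
    simp only [cm, map_zero, mul_zero, add_zero, ZeroMemClass.coe_zero]
  have h4 := LinearMap.finrank_le_finrank_of_injective hT
  rw [Module.finrank_prod, finrank_real_of_complex] at h4
  (clear * - h4; omega)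

theorem finrank_WC_ge (hm : 1 ≤ m) (p q : ℕ) :
    (p < q → ((m + p).choose m * (m + q).choose m - (m + p - 1).choose m * (m + q - 1).choose m) +
      ((m + q).choose m * (m + p).choose m - (m + q - 1).choose m * (m + p - 1).choose m) ≤
      Module.finrank ℂ (WC e (p + q) (q - p))) ∧
    (p = q → (m + p).choose m * (m + q).choose m - (m + p - 1).choose m * (m + q - 1).choose m ≤
      Module.finrank ℂ (WC e (p + q) 0)) := by
  have hsub : ∀ p q k : ℕ, ((k : ℂ)) ^ 2 = ((p : ℂ) - q) ^ 2 → ∀ g ∈ K m p q,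
      Phi e g ∈ WC e (p + q) k := by
    intro p q k hk g hg
    refine (mem_WC e).2 ⟨K_mem e hg, ?_⟩
    rw [xi_sq_Q e (Submodule.mem_inf.1 hg).1, hk]
  have hinj : ∀ S : Submodule ℂ (MvPolynomial (Fin (m+1) ⊕ Fin (m+1)) ℂ),
      Module.finrank ℂ (S.map (Phi e).toLinearMap) = Module.finrank ℂ S := by
    intro S
    exact (LinearEquiv.finrank_eq (Submodule.equivMapOfInjective (Phi e).toLinearMap
      (Phi_inj e) S)).symm
  constructor
  · intro hpq
    have hk : (((q - p : ℕ) : ℂ)) ^ 2 = ((p : ℂ) - q) ^ 2 := by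
      rw [Nat.cast_sub hpq.le]; ring
    have hk' : (((q - p : ℕ) : ℂ)) ^ 2 = ((q : ℂ) - p) ^ 2 := by
      rw [Nat.cast_sub hpq.le]
    have h1 := finrank_K hm p q
    have h2 := finrank_K hm q p
    have hfin1 : Module.Finite ℂ (K m p q) :=
      Submodule.finiteDimensional_of_le (inf_le_left : K m p q ≤ Q m p q)
    have hfin2 : Module.Finite ℂ (K m q p) :=
      Submodule.finiteDimensional_of_le (inf_le_left : K m q p ≤ Q m q p)
    have hdis : K m p q ⊓ K m q p = ⊥ := by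
      rw [eq_bot_iff]
      intro g hg
      rw [Submodule.mem_bot]
      obtain ⟨hg1, hg2⟩ := Submodule.mem_inf.1 hg
      ext t
      rw [coeff_zero]
      by_contra ht
      have e1 := (mem_Q.1 (Submodule.mem_inf.1 hg1).1 t ht).1
      have e2 := (mem_Q.1 (Submodule.mem_inf.1 hg2).1 t ht).1
      omega
    have h3 := Submodule.finrank_sup_add_finrank_inf_eq (K m p q) (K m q p)
    rw [hdis, finrank_bot, add_zero] at h3
    have h4 : (K m p q ⊔ K m q p).map (Phi e).toLinearMap ≤ WC e (p + q) (q - p) := by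
      rw [Submodule.map_le_iff_le_comap, sup_le_iff]
      constructor
      · intro g hg; exact hsub p q _ hk g hg
      · intro g hg
        have := hsub q p (q - p) hk' g hg
        rw [add_comm q p] at this
        exact this
    have h5 := Submodule.finrank_mono h4
    rw [hinj] at h5
    omega
  · intro hpq
    subst hpq
    have h1 := finrank_K hm p p
    have h4 : (K m p p).map (Phi e).toLinearMap ≤ WC e (p + p) 0 := by
      rw [Submodule.map_le_iff_le_comap]
      intro g hg; exact hsub p p 0 (by simp) g hg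
    have h5 := Submodule.finrank_mono h4
    rw [hinj] at h5
    omega

theorem mem_eig {d k : ℕ} (f : HH ℝ n d) :
    f ∈ Module.End.eigenspace (rst (MM (J0 ℝ e)) d) ((k : ℝ) ^ 2) ↔
      (f : MvPolynomial (Fin n) ℝ) ∈ WR e d k := by
  rw [Module.End.mem_eigenspace_iff, mem_WR, Subtype.ext_iff,
    (pres_MM (J0_transpose e ℝ)).rst_coe, MM]
  simp only [LinearMap.neg_apply, Module.End.mul_apply, dop_apply, Submodule.coe_smul]
  constructor
  · intro h
    exact ⟨f.2, by rw [neg_smul, ← h, neg_neg]⟩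
  · intro h
    rw [h.2, neg_smul, neg_neg]

theorem finrank_eig (d k : ℕ) :
    Module.finrank ℝ (Module.End.eigenspace (rst (MM (J0 ℝ e)) d) ((k : ℝ) ^ 2)) =
      Module.finrank ℝ (WR e d k) := by
  have : (Module.End.eigenspace (rst (MM (J0 ℝ e)) d) ((k : ℝ) ^ 2)).map (HH ℝ n d).subtype =
      WR e d k := by
    ext f
    rw [Submodule.mem_map]
    constructor
    · rintro ⟨g, hg, rfl⟩
      exact (mem_eig e g).1 hg
    · intro hf
      exact ⟨⟨f, ((mem_WR e).1 hf).1⟩, (mem_eig e _).2 hf, rfl⟩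
  rw [← this]
  exact LinearEquiv.finrank_eq (Submodule.equivMapOfInjective (HH ℝ n d).subtype
    (Submodule.injective_subtype _) _)

theorem iSup_eig (d : ℕ) :
    ⨆ k : Fin (d + 1), Module.End.eigenspace (rst (MM (J0 ℝ e)) d) (((k : ℕ) : ℝ) ^ 2) = ⊤ := by
  rw [eq_top_iff]
  intro f _
  have hf : cm (f : MvPolynomial (Fin n) ℝ) ∈ HH ℂ n d := by
    obtain ⟨h1, h2⟩ := mem_HH.1 f.2
    exact mem_HH.2 ⟨h1.map _, by rw [plap_cm, h2]; exact map_zero _⟩
  obtain ⟨h, h1, h2⟩ := decomp e hf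
  have hre : reP (cm (f : MvPolynomial (Fin n) ℝ)) = f := by
    ext s
    change coeff s (reF _) = _
    rw [coeff_reF, coeff_map]
    simp only [Complex.ofRealHom_eq_coe, Complex.ofReal_re]
  have h3 : ∀ p ∈ Finset.range (d + 1), reP (h p) ∈ WR e d ((p - (d - p)) + ((d - p) - p)) := by
    intro p hp
    obtain ⟨h4, h5⟩ := h2 p hp
    refine (mem_WR e).2 ⟨(HH_re_im h4).1, ?_⟩
    rw [(xi_re_im e h5).1]
    congr 2
    rcases le_total p (d - p) with hle | hle
    · rw [Nat.sub_eq_zero_of_le hle, zero_add, Nat.cast_sub hle]; ring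
    · rw [Nat.sub_eq_zero_of_le hle, add_zero, Nat.cast_sub hle]
  have h6 : f = ∑ p ∈ (Finset.range (d + 1)).attach,
      (⟨reP (h p), ((mem_WR e).1 (h3 p p.2)).1⟩ : HH ℝ n d) := by
    apply Subtype.ext
    rw [Submodule.coe_sum]
    simp only
    rw [Finset.sum_attach (Finset.range (d+1)) (fun p => reP (h p)), ← map_sum, ← h1, hre]
  rw [h6]
  refine Submodule.sum_mem _ fun p _ => ?_
  have hp := Finset.mem_range.1 p.2
  refine Submodule.mem_iSup_of_mem (⟨(p - (d - p)) + ((d - p) - p), by omega⟩ : Fin (d+1)) ?_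
  exact (mem_eig e _).2 (h3 p p.2)

end M36

/-- The number `D_{pq}`. -/
def Dpq (m p q : ℕ) : ℕ :=
  (m + p).choose m * (m + q).choose m - (m + p - 1).choose m * (m + q - 1).choose m

open M36 in
/-- (3.6): an eigenbasis of `M_{J₀}` on `H_d` with the multiplicities. -/
theorem b36 {m n : ℕ} (hm : 1 ≤ m) (e : Fin n ≃ Fin (m+1) ⊕ Fin (m+1)) (d : ℕ) :
    ∃ (N : ℕ) (b : Module.Basis (Fin N) ℝ (HH ℝ n d)) (nu : Fin N → ℕ),
      (∀ i, nu i ≤ d) ∧
      (∀ i, rst (MM (J0 ℝ e)) d (b i) = ((nu i : ℝ) ^ 2) • b i) ∧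
      ∀ p q, p + q = d →
        (p < q → Dpq m p q + Dpq m q p ≤ (Finset.univ.filter (fun i => nu i = q - p)).card) ∧
        (p = q → Dpq m p q ≤ (Finset.univ.filter (fun i => nu i = 0)).card) := by
  classical
  set W : Fin (d + 1) → Submodule ℝ (HH ℝ n d) := fun k =>
    Module.End.eigenspace (rst (MM (J0 ℝ e)) d) (((k : ℕ) : ℝ) ^ 2) with hW
  have hind : iSupIndep W := by
    refine (Module.End.eigenspaces_iSupIndep (rst (MM (J0 ℝ e)) d)).comp
      (f := fun k : Fin (d+1) => (((k : ℕ) : ℝ) ^ 2)) ?_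
    intro a b hab
    apply Fin.ext
    have h1 : ((a : ℕ) : ℝ) = ((b : ℕ) : ℝ) :=
      (pow_left_inj₀ (Nat.cast_nonneg _) (Nat.cast_nonneg _) two_ne_zero).1 hab
    exact_mod_cast h1
  have hint : DirectSum.IsInternal W :=
    DirectSum.isInternal_submodule_of_iSupIndep_of_iSup_eq_top hind (iSup_eig e d)
  haveI hfree : ∀ k, Module.Free ℝ (W k) := fun k => Module.Free.of_divisionRing ℝ (W k)
  haveI hfin : ∀ k, Module.Finite ℝ (W k) := fun k => FiniteDimensional.finiteDimensional_submodule (W k)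
  let b0 := hint.collectedBasis (fun k => Module.finBasis ℝ (W k))
  let eq := Fintype.equivFin (Σ k : Fin (d+1), Fin (Module.finrank ℝ (W k)))
  have hcard : ∀ k : Fin (d+1), (Finset.univ.filter
      (fun i : Fin (Fintype.card (Σ k : Fin (d+1), Fin (Module.finrank ℝ (W k)))) =>
        (((eq.symm i).1 : Fin (d+1)) : ℕ) = k)).card = Module.finrank ℝ (W k) := by
    intro k
    have h1 : (Finset.univ.filter
      (fun i : Fin (Fintype.card (Σ k : Fin (d+1), Fin (Module.finrank ℝ (W k)))) =>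
        (((eq.symm i).1 : Fin (d+1)) : ℕ) = k)) =
      (Finset.univ : Finset (Fin (Module.finrank ℝ (W k)))).map
        ((Function.Embedding.sigmaMk (β := fun k : Fin (d+1) => Fin (Module.finrank ℝ (W k))) k).trans
          eq.toEmbedding) := by
      ext i
      rw [Finset.mem_filter, Finset.mem_map]
      constructor
      · intro h
        have h2 : (eq.symm i).1 = k := Fin.ext h.2
        obtain ⟨x, hx⟩ : ∃ x, eq.symm i = x := ⟨_, rfl⟩
        rw [hx] at h2
        obtain ⟨k', j⟩ := x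
        change k' = k at h2
        subst h2
        refine ⟨j, Finset.mem_univ _, ?_⟩
        change eq ⟨k', j⟩ = i
        rw [← hx, Equiv.apply_symm_apply]
      · rintro ⟨j, -, rfl⟩
        refine ⟨Finset.mem_univ _, ?_⟩
        change (((eq.symm (eq ⟨k, j⟩)).1 : Fin (d+1)) : ℕ) = k
        rw [Equiv.symm_apply_apply]
    rw [h1, Finset.card_map, Finset.card_univ, Fintype.card_fin]
  refine ⟨_, b0.reindex eq, fun i => ((eq.symm i).1 : ℕ), ?_, ?_, ?_⟩
  · intro i
    exact Nat.lt_succ_iff.1 (eq.symm i).1.2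
  · intro i
    rw [Module.Basis.reindex_apply]
    have := hint.collectedBasis_mem (fun k => Module.finBasis ℝ (W k)) (eq.symm i)
    exact Module.End.mem_eigenspace_iff.1 this
  · intro p q hpq
    have hge := finrank_WC_ge e hm p q
    rw [hpq] at hge
    constructor
    · intro hlt
      have h1 := hcard ⟨q - p, by (clear * - hpq hlt; omega)⟩
      simp only at h1
      rw [h1, hW]
      simp only
      rw [finrank_eig]
      exact (hge.1 hlt).trans (finrank_WC_le e d _)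
    · intro heq
      have h1 := hcard ⟨0, by omega⟩
      simp only at h1
      rw [h1, hW]
      simp only
      rw [finrank_eig]
      exact (hge.2 heq).trans (finrank_WC_le e d _)

theorem J0_mem_JJ {m n : ℕ} (e : Fin n ≃ Fin (m+1) ⊕ Fin (m+1)) : J0 ℝ e ∈ JJ n :=
  ⟨M36.J0_transpose e ℝ, M36.J0_sq e ℝ⟩

end Vale.Agent.P225.B
end
end

section

section

/-! `EigOut m` for `m ≥ 1` (output of B3-36). -/

set_option linter.all false

open MvPolynomial

namespace Vale.Agent.P225.B5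

open Vale.Agent.P225.B

theorem Dpq_eq {m : ℕ} (hm : 1 ≤ m) (p q : ℕ) : Dpq m p q = B.Dpq m p q := by
  rw [Dpq, B.Dpq]
  congr 1
  split_ifs with h
  · rcases h with h | h
    · subst h
      rw [Nat.choose_eq_zero_of_lt (by omega : m + 0 - 1 < m), zero_mul]
    · subst h
      rw [Nat.choose_eq_zero_of_lt (by omega : m + 0 - 1 < m), mul_zero]
  · push Not at h
    have h1 : m + (p - 1) = m + p - 1 := by omega
    have h2 : m + (q - 1) = m + q - 1 := by omega
    rw [h1, h2]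

/-- a splitting of the coordinates -/
noncomputable def splitE (m : ℕ) : Fin (2 * m + 2) ≃ Fin (m + 1) ⊕ Fin (m + 1) :=
  (finCongr (by ring)).trans finSumFinEquiv.symm

theorem eigOut (m : ℕ) (hm : 1 ≤ m) : EigOut m := by
  refine ⟨⟨J0 ℝ (splitE m), J0_mem_JJ (splitE m)⟩, fun d => ?_⟩
  obtain ⟨N, b, nu, h1, h2, h3⟩ := b36 hm (splitE m) d
  refine ⟨N, b, nu, h2, h1, fun k => ?_⟩
  rw [Emul]
  simp only [Dpq_eq hm]
  rw [← Finset.sum_filter]
  by_cases hk : k = 0
  · subst hk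
    by_cases hd : d % 2 = 0
    · have hs : (Finset.range (d + 1)).filter (fun p : ℕ => (2 * (p : ℤ) - (d : ℤ)).natAbs = 0) =
          {d / 2} := by
        ext p
        simp only [Finset.mem_filter, Finset.mem_range, Finset.mem_singleton]
        omega
      rw [hs, Finset.sum_singleton]
      have h4 : d - d / 2 = d / 2 := by omega
      rw [h4]
      exact (h3 (d / 2) (d / 2) (by (clear * - hd; omega))).2 rfl
    · have hs : (Finset.range (d + 1)).filter (fun p : ℕ => (2 * (p : ℤ) - (d : ℤ)).natAbs = 0) = ∅ := by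
        ext p
        simp only [Finset.mem_filter, Finset.mem_range, Finset.notMem_empty, iff_false]
        omega
      rw [hs, Finset.sum_empty]
      exact Nat.zero_le _
  · by_cases hd : k ≤ d ∧ (d - k) % 2 = 0
    · obtain ⟨hkd, hpar⟩ := hd
      have hs : (Finset.range (d + 1)).filter (fun p : ℕ => (2 * (p : ℤ) - (d : ℤ)).natAbs = k) =
          {(d - k) / 2, (d - k) / 2 + k} := by
        ext p
        simp only [Finset.mem_filter, Finset.mem_range, Finset.mem_insert, Finset.mem_singleton]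
        omega
      have hne : (d - k) / 2 ≠ (d - k) / 2 + k := by omega
      rw [hs, Finset.sum_pair hne]
      have h4 : d - (d - k) / 2 = (d - k) / 2 + k := by (clear * - hkd hpar hne; omega)
      have h5 : d - ((d - k) / 2 + k) = (d - k) / 2 := by omega
      have h6 : (d - k) / 2 + k - (d - k) / 2 = k := by (clear * - h4 h5; omega)
      rw [h4, h5]
      have := (h3 ((d - k) / 2) ((d - k) / 2 + k) (by omega)).1 (by (clear * - hkd hne h4 h5 h6; omega))
      rw [h6] at this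
      exact this
    · have hs : (Finset.range (d + 1)).filter (fun p : ℕ => (2 * (p : ℤ) - (d : ℤ)).natAbs = k) = ∅ := by
        ext p
        simp only [Finset.mem_filter, Finset.mem_range, Finset.notMem_empty, iff_false]
        omega
      rw [hs, Finset.sum_empty]
      exact Nat.zero_le _

end Vale.Agent.P225.B5
end
end

section

section

/-!
# P225, design B, part B2: the pulse phase, reduction to a two-speed system
-/

open Set Filter Topology
open scoped ContDiff Interval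

namespace Vale.Agent.P225.B2

variable {V : Type*} [NormedAddCommGroup V] [NormedSpace ℝ V] {l : ℕ}

/-- `∑ β(δ cᵢ χ(x-i)) Mᵢ` in the rescaled time -/
noncomputable def Nop (M : Fin l → V →L[ℝ] V) (r : ℝ) (c : Fin l → ℝ) (x : ℝ) : V →L[ℝ] V :=
  ∑ i : Fin l, beta (r⁻¹ * c i * chi (x - (i : ℝ))) • M i

/-- `η'` in the rescaled time -/
noncomputable def hh (r : ℝ) (c : Fin l → ℝ) (x : ℝ) : ℝ :=
  ∑ i : Fin l, r⁻¹ ^ 2 * c i * deriv chi (x - (i : ℝ))

/-- the two-speed system of the pulse phase; `q = 2m(Ψ(t + r x) - Ψ_∞)` -/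
noncomputable def psys (s ss kap : ℝ) (M : Fin l → V →L[ℝ] V) (r : ℝ) (q : ℝ → ℝ)
    (c : Fin l → ℝ) : Sys V where
  A x := -(r * kap) • Nop M r c x - (r * kap * s * hh r c x) • (1 : V →L[ℝ] V)
  A0 x := -(2 * kap) • ∑ i : Fin l, (c i * chi (x - (i : ℝ))) • M i
  b x := (r * kap) • Nop M r c x - (r * kap * ss * (q x + hh r c x)) • (1 : V →L[ℝ] V)
  c x := -(r * kap) • Nop M r c x - (r * kap * s * (q x + hh r c x)) • (1 : V →L[ℝ] V)
  e x := (r * kap) • Nop M r c x - (r * kap * ss * (q x + hh r c x)) • (1 : V →L[ℝ] V) +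
    (r * kap * s * q x) • (1 : V →L[ℝ] V)

/-- inverse of the reference growth -/
noncomputable def Einv (s kap r : ℝ) (q : ℝ → ℝ) (x : ℝ) : ℝ :=
  Real.exp (-(r * (s * x - kap * s * ∫ y in (0 : ℝ)..x, q y)))

theorem Einv_pos (s kap r : ℝ) (q : ℝ → ℝ) (x : ℝ) : 0 < Einv s kap r q x := Real.exp_pos _

theorem Einv_zero (s kap r : ℝ) (q : ℝ → ℝ) : Einv s kap r q 0 = 1 := by simp only [Einv, mul_zero, intervalIntegral.integral_same, sub_self, neg_zero, Real.exp_zero]

theorem hasDerivAt_Einv {s kap r : ℝ} {q : ℝ → ℝ} (hq : Continuous q) (x : ℝ) :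
    HasDerivAt (Einv s kap r q) (-(r * (s - kap * s * q x)) * Einv s kap r q x) x := by
  have h1 : HasDerivAt (fun x => ∫ y in (0 : ℝ)..x, q y) (q x) x :=
    intervalIntegral.integral_hasDerivAt_right (hq.intervalIntegrable _ _)
      (hq.stronglyMeasurableAtFilter _ _) hq.continuousAt
  have h2 : HasDerivAt (fun x => -(r * (s * x - kap * s * ∫ y in (0 : ℝ)..x, q y)))
      (-(r * (s * 1 - kap * s * q x))) x :=
    (((hasDerivAt_id x).const_mul s).sub (h1.const_mul (kap * s))).const_mul r |>.neg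
  exact (h2.exp).congr_deriv (by unfold Einv; ring)

theorem phase_deriv {m : ℕ} {Pinf s ss kap r t : ℝ} {Ψ : ℝ → ℝ}
    {M : Fin l → V →L[ℝ] V} {c : Fin l → ℝ} {w w1 : ℝ → V}
    (hr : 0 < r) (hss : ss = s + 2 * m * Pinf) (hkap : kap * (s + ss) = 1)
    (hΨ : Continuous Ψ)
    (hep : ∀ x, deriv (ep r t c) x = hh r c ((x - t) / r))
    (h : Sol (fun x => 2 * m * Ψ x + deriv (ep r t c) x) (Qp (s * ss) M r t c)
      (Icc t (t + l * r)) w w1) :
    let q : ℝ → ℝ := fun x => 2 * m * (Ψ (t + r * x) - Pinf)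
    (∀ x ∈ Icc (0 : ℝ) l, HasDerivAt
      (fun x => Einv s kap r q x • (w1 (t + r * x) + ss • w (t + r * x)))
      ((psys s ss kap M r q c).A x (Einv s kap r q x • (w1 (t + r * x) + ss • w (t + r * x))) +
        (psys s ss kap M r q c).b x (Einv s kap r q x • (w1 (t + r * x) - s • w (t + r * x)))) x) ∧
    (∀ x ∈ Icc (0 : ℝ) l, HasDerivAt
      (fun x => Einv s kap r q x • (w1 (t + r * x) - s • w (t + r * x)))
      (-((r * (s + ss)) • (Einv s kap r q x • (w1 (t + r * x) - s • w (t + r * x)))) +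
        ((psys s ss kap M r q c).c x (Einv s kap r q x • (w1 (t + r * x) + ss • w (t + r * x))) +
        (psys s ss kap M r q c).e x
          (Einv s kap r q x • (w1 (t + r * x) - s • w (t + r * x))))) x) := by
  intro q
  have hq : Continuous q := by
    show Continuous (fun x => 2 * m * (Ψ (t + r * x) - Pinf))
    fun_prop
  have hmem : ∀ x ∈ Icc (0 : ℝ) l, t + r * x ∈ Icc t (t + l * r) := by
    intro x hx
    constructor
    · nlinarith only [mul_nonneg hr.le hx.1]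
    · have := mul_le_mul_of_nonneg_left hx.2 hr.le
      linarith only [this]
  have hlin : ∀ x : ℝ, HasDerivAt (fun x => t + r * x) r x := fun x => by
    simpa only [hasDerivAt_const_add_iff, id_eq, mul_one] using ((hasDerivAt_id x).const_mul r).const_add t
  have dw : ∀ x ∈ Icc (0 : ℝ) l, HasDerivAt (fun x => w (t + r * x)) (r • w1 (t + r * x)) x :=
    fun x hx => (h.d0 _ (hmem x hx)).scomp x (hlin x)
  have harg : ∀ x : ℝ, (t + r * x - t) / r = x := fun x => by field_simp; ring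
  have dw1 : ∀ x ∈ Icc (0 : ℝ) l, HasDerivAt (fun x => w1 (t + r * x))
      (r • (((s * ss) • w (t + r * x) - Nop M r c x (w (t + r * x))) -
        (2 * m * Ψ (t + r * x) + hh r c x) • w1 (t + r * x))) x := by
    intro x hx
    have h1 := (h.d1 _ (hmem x hx)).scomp x (hlin x)
    refine h1.congr_deriv ?_
    have e1 : Qp (s * ss) M r t c (t + r * x) (w (t + r * x)) =
        (s * ss) • w (t + r * x) - Nop M r c x (w (t + r * x)) := by
      simp only [Qp, Nop, harg, sub_apply, smul_apply, one_apply_eq_self]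
    simp only [e1, hep, harg]
  have hPsi : ∀ x, 2 * m * Ψ (t + r * x) = 2 * m * Pinf + q x := fun x => by
    show 2 * (m : ℝ) * Ψ (t + r * x) = 2 * m * Pinf + 2 * m * (Ψ (t + r * x) - Pinf)
    ring
  clear_value q
  constructor
  · intro x hx
    have d1 := (hasDerivAt_Einv (s := s) (kap := kap) (r := r) hq x).smul
      ((dw1 x hx).add ((dw x hx).const_smul ss))
    refine d1.congr_deriv ?_
    set y := w (t + r * x) with hy
    set y1 := w1 (t + r * x) with hy1
    set E := Einv s kap r q x with hE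
    simp only [psys, sub_apply, smul_apply, one_apply_eq_self, map_smul, map_add,
      map_sub, hPsi, Pi.add_apply, Pi.smul_apply]
    simp only [← hy, ← hy1, ← hE]
    set Ny := Nop M r c x y with hNy
    set Ny1 := Nop M r c x y1 with hNy1
    set H := hh r c x with hH
    have hP : 2 * (m : ℝ) * Pinf = ss - s := by rw [hss]; ring
    rw [hP]
    linear_combination (norm := module) hkap • ((r * E) • Ny) + hkap • ((r * E * (q x + H)) • y1)
  · intro x hx
    have d1 := (hasDerivAt_Einv (s := s) (kap := kap) (r := r) hq x).smul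
      ((dw1 x hx).sub ((dw x hx).const_smul s))
    refine d1.congr_deriv ?_
    set y := w (t + r * x) with hy
    set y1 := w1 (t + r * x) with hy1
    set E := Einv s kap r q x with hE
    simp only [hPsi, Pi.sub_apply, Pi.smul_apply, psys, map_smul, map_add, sub_apply, smul_apply, one_apply_eq_self, map_sub, add_apply]
    simp only [← hy, ← hy1, ← hE]
    set Ny := Nop M r c x y with hNy
    set Ny1 := Nop M r c x y1 with hNy1
    set H := hh r c x with hH
    have hP : 2 * (m : ℝ) * Pinf = ss - s := by rw [hss]; ring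
    rw [hP]
    linear_combination (norm := module) hkap • ((r * E) • Ny) + hkap • ((r * E * (q x + H)) • y1)

end Vale.Agent.P225.B2
end
end

section

section

/-!
P225, design B, modules D3, D4: the ideal word `V0' = -2κ ∑ᵢ cᵢ χ(x-i) Mᵢ V0`, its bounds, and
elementary bounds on `β`, `χ`, `η_p`.
-/

open Set Filter Topology
open scoped ContDiff

namespace Vale.Agent.P225.B2

/-! ### bounds on `chi` and `beta` -/

theorem chi_hasCompactSupport : HasCompactSupport chi := by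
  refine HasCompactSupport.intro (K := Icc (1 / 4) (3 / 4)) isCompact_Icc fun x hx => ?_
  rw [mem_Icc, not_and_or, not_le, not_le] at hx
  rcases hx with h | h
  · exact chi_left h.le
  · exact chi_right h.le

theorem chi_differentiable : Differentiable ℝ chi := chi_contDiff.differentiable (by simp)

theorem deriv_chi_continuous : Continuous (deriv chi) :=
  chi_contDiff.continuous_deriv (by simp only [WithTop.one_le_coe, le_top])

/-- I3 -/
theorem chi_bounds : ∃ C : ℝ, 1 ≤ C ∧ ∀ x, |chi x| ≤ C ∧ |deriv chi x| ≤ C := by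
  obtain ⟨C1, h1⟩ := chi_contDiff.continuous.bounded_above_of_compact_support
    chi_hasCompactSupport
  obtain ⟨C2, h2⟩ := deriv_chi_continuous.bounded_above_of_compact_support
    chi_hasCompactSupport.deriv
  refine ⟨max 1 (max C1 C2), le_max_left _ _, fun x => ⟨?_, ?_⟩⟩
  · exact (h1 x).trans ((le_max_left _ _).trans (le_max_right _ _))
  · exact (h2 x).trans ((le_max_right _ _).trans (le_max_right _ _))

theorem ep_hasDerivAt {l : ℕ} {r : ℝ} (hr : 0 < r) (t : ℝ) (c : Fin l → ℝ) (x : ℝ) :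
    HasDerivAt (ep r t c) (∑ i : Fin l, r⁻¹ ^ 2 * c i * deriv chi ((x - t) / r - (i : ℝ))) x := by
  unfold ep
  refine HasDerivAt.fun_sum fun i _ => ?_
  have h1 : HasDerivAt (fun x : ℝ => (x - t) / r - (i : ℝ)) (1 / r) x :=
    (((hasDerivAt_id x).sub_const t).div_const r).sub_const _
  have h2 := ((chi_differentiable _).hasDerivAt.comp x h1).const_mul (r⁻¹ * c i)
  refine h2.congr_deriv ?_
  field_simp

theorem deriv_ep {l : ℕ} {r : ℝ} (hr : 0 < r) (t : ℝ) (c : Fin l → ℝ) (x : ℝ) :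
    deriv (ep r t c) x = ∑ i : Fin l, r⁻¹ ^ 2 * c i * deriv chi ((x - t) / r - (i : ℝ)) :=
  (ep_hasDerivAt hr t c x).deriv

/-- I2 -/
theorem beta_diff {y y' : ℝ} (hy : |y| ≤ 1) (hy' : |y'| ≤ 1) :
    |(beta y - beta y') - 2 * (y - y')| ≤ 30 * (|y| + |y'|) * |y - y'| := by
  set f : ℝ → ℝ := fun u => beta u - 2 * u with hf
  have hd : ∀ u, HasDerivAt f (2 * Real.exp (-2 * u) - 2) u := by
    intro u
    have h1 : HasDerivAt (fun u : ℝ => -2 * u) (-2 * 1) u := (hasDerivAt_id u).const_mul (-2)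
    have h2 := (h1.exp.const_sub 1).sub ((hasDerivAt_id u).const_mul 2)
    refine h2.congr_deriv ?_
    ring
  set m := |y| + |y'| with hm
  have hm0 : 0 ≤ m := by positivity
  have hseg : ∀ u ∈ uIcc y' y, |u| ≤ 1 ∧ |u| ≤ m := by
    intro u hu
    rw [mem_uIcc] at hu
    rcases hu with ⟨h1, h2⟩ | ⟨h1, h2⟩
    · constructor
      · exact abs_le.2 ⟨by linarith only [h1, (abs_le.1 hy').1], by linarith only [h2, (abs_le.1 hy).2]⟩
      · refine abs_le.2 ⟨?_, ?_⟩
        · linarith only [h1, neg_abs_le y', abs_nonneg y]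
        · linarith [le_abs_self y, abs_nonneg y']
    · constructor
      · exact abs_le.2 ⟨by linarith [(abs_le.1 hy).1], by linarith only [h2, (abs_le.1 hy').2]⟩
      · refine abs_le.2 ⟨?_, ?_⟩
        · linarith only [h1, neg_abs_le y, abs_nonneg y']
        · linarith only [h2, le_abs_self y', abs_nonneg y]
  have hbound : ∀ u ∈ uIcc y' y, ‖2 * Real.exp (-2 * u) - 2‖ ≤ 30 * m := by
    intro u hu
    obtain ⟨h1, h2⟩ := hseg u hu
    have h3 : 2 * Real.exp (-2 * u) - 2 = 2 * (Real.exp (-2 * u) - 1) := by ring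
    rw [h3, Real.norm_eq_abs, abs_mul, abs_of_pos (by norm_num : (0:ℝ) < 2)]
    have he : Real.exp 2 ≤ 7.5 := by
      have h5 := Real.exp_one_lt_d9
      have h6 : Real.exp 2 = Real.exp 1 * Real.exp 1 := by rw [← Real.exp_add]; norm_num
      rw [h6]
      have h7 := Real.exp_pos 1
      nlinarith only [h5, h7]
    have h4 : |Real.exp (-2 * u) - 1| ≤ 2 * |u| * 7.5 := by
      have h5 := Real.add_one_le_exp (-2 * u)
      have h6 := Real.add_one_le_exp (-(-2 * u))
      have h7 : Real.exp (-2 * u) ≤ 7.5 := by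
        refine le_trans (Real.exp_le_exp.2 ?_) he
        linarith only [(abs_le.1 h1).1]
      have h8 : Real.exp (-2 * u) * Real.exp (-(-2 * u)) = 1 := by
        rw [← Real.exp_add]; simp
      have h9 := Real.exp_pos (-2 * u)
      have h10 : Real.exp (-2 * u) * (1 - (-2 * u)) ≤ 1 := by
        calc Real.exp (-2 * u) * (1 - (-2 * u)) ≤ Real.exp (-2 * u) * Real.exp (-(-2 * u)) := by
              refine mul_le_mul_of_nonneg_left ?_ h9.le
              linarith only [h6]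
          _ = 1 := h8
      rw [abs_le]
      constructor
      · have : -(2 * |u|) ≤ -2 * u := by linarith only [le_abs_self u]
        linarith only [abs_nonneg u, this, h5]
      · have h11 : Real.exp (-2 * u) - 1 ≤ Real.exp (-2 * u) * (-2 * u) := by linarith only [h10]
        refine h11.trans ?_
        have h12 : -2 * u ≤ 2 * |u| := by linarith only [neg_abs_le u]
        calc Real.exp (-2 * u) * (-2 * u) ≤ Real.exp (-2 * u) * (2 * |u|) :=
              mul_le_mul_of_nonneg_left h12 h9.le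
          _ ≤ 7.5 * (2 * |u|) := mul_le_mul_of_nonneg_right h7 (by (clear * -; positivity))
          _ = 2 * |u| * 7.5 := by ring
    linarith only [h2, h4]
  have key := Convex.norm_image_sub_le_of_norm_hasDerivWithin_le (f := f) (s := uIcc y' y)
    (f' := fun u => 2 * Real.exp (-2 * u) - 2) (C := 30 * m) (x := y') (y := y)
    (fun u _ => (hd u).hasDerivWithinAt) hbound (convex_uIcc y' y) left_mem_uIcc right_mem_uIcc
  rw [Real.norm_eq_abs, Real.norm_eq_abs] at key
  have e : f y - f y' = (beta y - beta y') - 2 * (y - y') := by rw [hf]; ring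
  rwa [e] at key

theorem beta_sub_le {y y' : ℝ} (hy : |y| ≤ 1) (hy' : |y'| ≤ 1) :
    |beta y - beta y'| ≤ 62 * |y - y'| := by
  have h := beta_diff hy hy'
  have h1 : |beta y - beta y'| ≤ |(beta y - beta y') - 2 * (y - y')| + |2 * (y - y')| := by
    have := abs_add_le ((beta y - beta y') - 2 * (y - y')) (2 * (y - y'))
    rwa [sub_add_cancel] at this
  have h2 : |2 * (y - y')| = 2 * |y - y'| := by rw [abs_mul]; norm_num
  have h3 : 30 * (|y| + |y'|) * |y - y'| ≤ 60 * |y - y'| :=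
    mul_le_mul_of_nonneg_right (by linarith only [hy, hy']) (abs_nonneg _)
  linarith only [h, h1, h2, h3]

theorem beta_sub_two_le {y : ℝ} (hy : |y| ≤ 1) : |beta y - 2 * y| ≤ 30 * |y| ^ 2 := by
  have h := beta_diff hy (y' := 0) (by simp only [abs_zero, zero_le_one])
  rw [beta_zero] at h
  simp only [sub_zero, abs_zero, add_zero] at h
  calc _ ≤ _ := h
    _ = _ := by ring

theorem beta_abs_le {y : ℝ} (hy : |y| ≤ 1) : |beta y| ≤ 62 * |y| := by
  have h := beta_sub_le hy (y' := 0) (by simp only [abs_zero, zero_le_one])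
  rwa [beta_zero, sub_zero, sub_zero] at h

/-! ### the ideal word -/

section ideal

variable {V : Type*} [NormedAddCommGroup V] [NormedSpace ℝ V]

/-- the ideal transfer map at (rescaled) time `x` -/
noncomputable def idealMap (kap : ℝ) :
    {l : ℕ} → (Fin l → V →L[ℝ] V) → (Fin l → ℝ) → ℝ → V →L[ℝ] V
  | 0, _, _, _ => 1
  | l + 1, M, c, x => NormedSpace.exp ((-(2 * kap * c (Fin.last l)) * Th (x - l)) • M (Fin.last l)) *
      idealMap kap (fun i : Fin l => M i.castSucc) (fun i : Fin l => c i.castSucc) x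

theorem idealMap_zero (kap : ℝ) {l : ℕ} (M : Fin l → V →L[ℝ] V) (c : Fin l → ℝ) {x : ℝ}
    (hx : x ≤ 1 / 4) : idealMap kap M c x = 1 := by
  induction l with
  | zero => rfl
  | succ l ih =>
    rw [idealMap, ih, Th_zero, mul_zero, zero_smul, NormedSpace.exp_zero, one_mul]
    have : (0:ℝ) ≤ l := by positivity
    linarith

theorem idealMap_end (kap : ℝ) {l : ℕ} (M : Fin l → V →L[ℝ] V) (c : Fin l → ℝ) {x : ℝ}
    (hx : (l : ℝ) - 1 / 4 ≤ x) : idealMap kap M c x = wordMap kap M c := by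
  induction l with
  | zero => rfl
  | succ l ih =>
    push_cast at hx
    rw [idealMap, wordMap, ih _ _ (by linarith only [hx]), Th_one (by linarith), mul_one]

theorem hasDerivAt_Th' (x : ℝ) : HasDerivAt Th (chi x) x := by
  unfold chi
  exact ((Th_contDiff (n := ⊤)).differentiable (by simp) x).hasDerivAt

theorem idealMap_hasDerivAt [CompleteSpace V] (kap : ℝ) {l : ℕ} (M : Fin l → V →L[ℝ] V)
    (c : Fin l → ℝ) (x : ℝ) :
    HasDerivAt (idealMap kap M c)
      (((-(2 * kap)) • ∑ i : Fin l, (c i * chi (x - i)) • M i) * idealMap kap M c x) x := by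
  induction l with
  | zero =>
    have : idealMap kap M c = fun _ => 1 := by funext y; rfl
    rw [this]
    simpa using hasDerivAt_const x (1 : V →L[ℝ] V)
  | succ l ih =>
    have h1 := ih (fun i : Fin l => M i.castSucc) (fun i : Fin l => c i.castSucc)
    set N := M (Fin.last l) with hN
    set c1 := -(2 * kap * c (Fin.last l)) with hc1
    have h2 : HasDerivAt (fun y : ℝ => c1 * Th (y - l)) (c1 * chi (x - l)) x := by
      have h3 : HasDerivAt (fun y : ℝ => y - (l : ℝ)) 1 x := (hasDerivAt_id x).sub_const _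
      have h4 := (hasDerivAt_Th' (x - l)).comp x h3
      simpa only [Function.comp_apply, mul_one] using h4.const_mul c1
    have h3 : HasDerivAt (fun y : ℝ => NormedSpace.exp ((c1 * Th (y - l)) • N))
        ((c1 * chi (x - l)) • (N * NormedSpace.exp ((c1 * Th (x - l)) • N))) x := by
      have h4 := hasDerivAt_exp_smul_const' (𝕂 := ℝ) N (c1 * Th (x - l))
      exact h4.scomp x h2
    have h4 := h3.mul h1
    have e : idealMap kap M c = (fun y : ℝ => NormedSpace.exp ((c1 * Th (y - l)) • N)) *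
        idealMap kap (fun i : Fin l => M i.castSucc) (fun i : Fin l => c i.castSucc) := by
      funext y
      rfl
    rw [e]
    refine h4.congr_deriv ?_
    rw [Fin.sum_univ_castSucc]
    simp only [Fin.val_castSucc, Fin.val_last, Pi.mul_apply]
    set Y := idealMap kap (fun i : Fin l => M i.castSucc) (fun i : Fin l => c i.castSucc) x with hY
    set X := NormedSpace.exp ((c1 * Th (x - l)) • N) with hX
    set S := ∑ i : Fin l, (c i.castSucc * chi (x - i)) • M i.castSucc with hS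
    rcases le_total x (l + 1 / 4 : ℝ) with hx | hx
    · have hX1 : X = 1 := by
        rw [hX, Th_zero (by (clear * - hx; linarith)), mul_zero, zero_smul, NormedSpace.exp_zero]
      have hchi : chi (x - l) = 0 := chi_left (by linarith only [hx])
      rw [hX1, hchi]
      simp only [mul_zero, mul_one, zero_smul, zero_mul, neg_smul, neg_mul, Algebra.smul_mul_assoc, mul_neg, Algebra.mul_smul_comm, one_mul, zero_add, add_zero]
    · have hS0 : S = 0 := by
        rw [hS]
        refine Finset.sum_eq_zero fun i _ => ?_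
        rw [chi_right, mul_zero, zero_smul]
        have : (i : ℝ) + 1 ≤ l := by exact_mod_cast i.2
        linarith
      rw [hS0]
      simp only [smul_zero, zero_mul, mul_zero, add_zero, zero_add]
      rw [smul_smul, smul_mul_assoc, smul_mul_assoc, mul_assoc]
      congr 1
      rw [hc1]; ring

end ideal

end Vale.Agent.P225.B2
end
end

section

section

/-!
# P225, design B, part B2: the pulse phase, coefficient bounds
-/

open Set Filter Topology
open scoped ContDiff Interval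

namespace Vale.Agent.P225.B2

variable {V : Type*} [NormedAddCommGroup V] [NormedSpace ℝ V] {l : ℕ}

theorem norm_sum_smul_le (a : Fin l → ℝ) (M : Fin l → V →L[ℝ] V) {k : ℝ}
    (h : ∀ i, |a i| ≤ k) : ‖∑ i, a i • M i‖ ≤ k * ∑ i, ‖M i‖ := by
  rw [Finset.mul_sum]
  refine (norm_sum_le _ _).trans (Finset.sum_le_sum fun i _ => ?_)
  rw [norm_smul, Real.norm_eq_abs]
  exact mul_le_mul_of_nonneg_right (h i) (norm_nonneg _)

theorem norm_smul_one_le (a : ℝ) : ‖a • (1 : V →L[ℝ] V)‖ ≤ |a| := by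
  rw [norm_smul, Real.norm_eq_abs]
  calc |a| * ‖(1 : V →L[ℝ] V)‖ ≤ |a| * 1 :=
        mul_le_mul_of_nonneg_left ContinuousLinearMap.norm_id_le (abs_nonneg _)
    _ = |a| := mul_one _

section bounds

variable {CX R r X ρ : ℝ} {c c' : Fin l → ℝ}

theorem arg_le (hr : 0 < r) (hR : 0 ≤ R) (hCX : ∀ x, |chi x| ≤ CX) (hc : ‖c‖ ≤ R)
    (hX : X = (R + 1) * CX) (x : ℝ) (i : Fin l) : |r⁻¹ * c i * chi (x - (i : ℝ))| ≤ X / r := by
  have h0 : 0 ≤ CX := (abs_nonneg _).trans (hCX 0)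
  rw [abs_mul, abs_mul, abs_of_pos (inv_pos.2 hr), hX]
  have h1 : |c i| ≤ R + 1 := by
    have := norm_le_pi_norm c i
    rw [Real.norm_eq_abs] at this; linarith
  have h2 : |c i| * |chi (x - (i : ℝ))| ≤ (R + 1) * CX :=
    mul_le_mul h1 (hCX _) (abs_nonneg _) (by linarith)
  calc r⁻¹ * |c i| * |chi (x - (i : ℝ))| = r⁻¹ * (|c i| * |chi (x - (i : ℝ))|) := by ring
    _ ≤ r⁻¹ * ((R + 1) * CX) := mul_le_mul_of_nonneg_left h2 (inv_pos.2 hr).le
    _ = _ := by ring

theorem argdiff_le (hr : 0 < r) (hR : 0 ≤ R) (hCX : ∀ x, |chi x| ≤ CX) (hρ : ‖c - c'‖ ≤ ρ)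
    (hX : X = (R + 1) * CX) (x : ℝ) (i : Fin l) :
    |r⁻¹ * c i * chi (x - (i : ℝ)) - r⁻¹ * c' i * chi (x - (i : ℝ))| ≤ X * ρ / r := by
  have h0 : 0 ≤ CX := (abs_nonneg _).trans (hCX 0)
  have hρ0 : 0 ≤ ρ := (norm_nonneg _).trans hρ
  have e : r⁻¹ * c i * chi (x - (i : ℝ)) - r⁻¹ * c' i * chi (x - (i : ℝ)) =
    r⁻¹ * ((c i - c' i) * chi (x - (i : ℝ))) := by ring
  rw [e, abs_mul, abs_mul, abs_of_pos (inv_pos.2 hr), hX]
  have h1 : |c i - c' i| ≤ ρ := by
    have := norm_le_pi_norm (c - c') i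
    rw [Real.norm_eq_abs] at this; exact this.trans hρ
  have h2 : |c i - c' i| * |chi (x - (i : ℝ))| ≤ ρ * CX :=
    mul_le_mul h1 (hCX _) (abs_nonneg _) hρ0
  have h3 : ρ * CX ≤ (R + 1) * CX * ρ := by nlinarith only [mul_nonneg hR (mul_nonneg h0 hρ0)]
  calc r⁻¹ * (|c i - c' i| * |chi (x - (i : ℝ))|) ≤ r⁻¹ * ((R + 1) * CX * ρ) :=
        mul_le_mul_of_nonneg_left (h2.trans h3) (inv_pos.2 hr).le
    _ = _ := by ring

theorem hh_le (hr : 1 ≤ r) (hR : 0 ≤ R) (hCX : ∀ x, |deriv chi x| ≤ CX) (hc : ‖c‖ ≤ R)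
    (hX : X = (R + 1) * CX) (x : ℝ) : |r * hh r c x| ≤ l * X / r := by
  have hr0 : 0 < r := by linarith only [hr]
  have h0 : 0 ≤ CX := (abs_nonneg _).trans (hCX 0)
  have e : r * hh r c x = ∑ i : Fin l, r⁻¹ * (c i * deriv chi (x - (i : ℝ))) := by
    unfold hh
    rw [Finset.mul_sum]
    refine Finset.sum_congr rfl fun i _ => ?_
    field_simp
  rw [e]
  refine (Finset.abs_sum_le_sum_abs _ _).trans ?_
  have h1 : ∀ i : Fin l, |r⁻¹ * (c i * deriv chi (x - (i : ℝ)))| ≤ X / r := by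
    intro i
    rw [abs_mul, abs_mul, abs_of_pos (inv_pos.2 hr0), hX]
    have h1 : |c i| ≤ R + 1 := by
      have := norm_le_pi_norm c i
      rw [Real.norm_eq_abs] at this; linarith only [hc, this]
    have h2 : |c i| * |deriv chi (x - (i : ℝ))| ≤ (R + 1) * CX :=
      mul_le_mul h1 (hCX _) (abs_nonneg _) (by linarith only [hR])
    calc r⁻¹ * (|c i| * |deriv chi (x - (i : ℝ))|)
        ≤ r⁻¹ * ((R + 1) * CX) := mul_le_mul_of_nonneg_left h2 (inv_pos.2 hr0).le
      _ = _ := by ring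
  refine (Finset.sum_le_card_nsmul _ _ _ fun i _ => h1 i).trans ?_
  rw [Finset.card_univ, Fintype.card_fin, nsmul_eq_mul, mul_div_assoc]

theorem hhdiff_le (hr : 1 ≤ r) (hR : 0 ≤ R) (hCX : ∀ x, |deriv chi x| ≤ CX)
    (hρ : ‖c - c'‖ ≤ ρ) (hX : X = (R + 1) * CX) (x : ℝ) :
    |r * hh r c x - r * hh r c' x| ≤ l * X / r * ρ := by
  have hr0 : 0 < r := by linarith
  have h0 : 0 ≤ CX := (abs_nonneg _).trans (hCX 0)
  have hρ0 : 0 ≤ ρ := (norm_nonneg _).trans hρ
  have e : r * hh r c x - r * hh r c' x =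
      ∑ i : Fin l, r⁻¹ * ((c i - c' i) * deriv chi (x - (i : ℝ))) := by
    unfold hh
    rw [Finset.mul_sum, Finset.mul_sum, ← Finset.sum_sub_distrib]
    refine Finset.sum_congr rfl fun i _ => ?_
    (clear * - hr; field_simp)
  rw [e]
  refine (Finset.abs_sum_le_sum_abs _ _).trans ?_
  have h1 : ∀ i : Fin l, |r⁻¹ * ((c i - c' i) * deriv chi (x - (i : ℝ)))| ≤ X / r * ρ := by
    intro i
    rw [abs_mul, abs_mul, abs_of_pos (inv_pos.2 hr0), hX]
    have h1 : |c i - c' i| ≤ ρ := by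
      have := norm_le_pi_norm (c - c') i
      rw [Real.norm_eq_abs] at this; exact this.trans hρ
    have h2 : |c i - c' i| * |deriv chi (x - (i : ℝ))| ≤ ρ * CX :=
      mul_le_mul h1 (hCX _) (abs_nonneg _) hρ0
    have h3 : ρ * CX ≤ (R + 1) * CX * ρ := by linarith only [mul_nonneg hR (mul_nonneg h0 hρ0)]
    calc r⁻¹ * (|c i - c' i| * |deriv chi (x - (i : ℝ))|)
        ≤ r⁻¹ * ((R + 1) * CX * ρ) := mul_le_mul_of_nonneg_left (h2.trans h3) (inv_pos.2 hr0).le
      _ = _ := by ring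
  refine (Finset.sum_le_card_nsmul _ _ _ fun i _ => h1 i).trans ?_
  rw [Finset.card_univ, Fintype.card_fin, nsmul_eq_mul]
  exact le_of_eq (by ring)

theorem rNop_eq (kap r : ℝ) (M : Fin l → V →L[ℝ] V) (c : Fin l → ℝ) (x : ℝ) :
    (r * kap) • Nop M r c x =
      ∑ i : Fin l, (kap * (r * beta (r⁻¹ * c i * chi (x - (i : ℝ))))) • M i := by
  unfold Nop
  rw [Finset.smul_sum]
  refine Finset.sum_congr rfl fun i _ => ?_
  rw [smul_smul]; congr 1; ring

theorem A0_eq {kap r : ℝ} (hr : 0 < r) (M : Fin l → V →L[ℝ] V) (c : Fin l → ℝ) (x : ℝ) :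
    (2 * kap) • ∑ i : Fin l, (c i * chi (x - (i : ℝ))) • M i =
      ∑ i : Fin l, (kap * (r * (2 * (r⁻¹ * c i * chi (x - (i : ℝ)))))) • M i := by
  rw [Finset.smul_sum]
  refine Finset.sum_congr rfl fun i _ => ?_
  rw [smul_smul]; congr 1; field_simp

variable {kap : ℝ} (M : Fin l → V →L[ℝ] V)

theorem rNop_le (hr : 0 < r) (hR : 0 ≤ R) (hCX : ∀ x, |chi x| ≤ CX) (hc : ‖c‖ ≤ R)
    (hX : X = (R + 1) * CX) (hXr : X / r ≤ 1) (hk : 0 ≤ kap) (x : ℝ) :
    ‖(r * kap) • Nop M r c x‖ ≤ kap * (62 * X) * ∑ i, ‖M i‖ := by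
  rw [rNop_eq]
  refine norm_sum_smul_le _ _ fun i => ?_
  have h1 := arg_le hr hR hCX hc hX x i
  have h2 := beta_abs_le (h1.trans hXr)
  rw [abs_mul, abs_mul, abs_of_nonneg hk, abs_of_pos hr]
  refine mul_le_mul_of_nonneg_left ?_ hk
  calc r * |beta (r⁻¹ * c i * chi (x - (i : ℝ)))| ≤ r * (62 * (X / r)) :=
        mul_le_mul_of_nonneg_left (h2.trans (by linarith only [h1])) hr.le
    _ = 62 * X := by field_simp

theorem rNop_diff (hr : 0 < r) (hR : 0 ≤ R) (hCX : ∀ x, |chi x| ≤ CX) (hc : ‖c‖ ≤ R)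
    (hc' : ‖c'‖ ≤ R) (hρ : ‖c - c'‖ ≤ ρ)
    (hX : X = (R + 1) * CX) (hXr : X / r ≤ 1) (hk : 0 ≤ kap) (x : ℝ) :
    ‖(r * kap) • Nop M r c x - (r * kap) • Nop M r c' x‖ ≤
      kap * (62 * X) * ρ * ∑ i, ‖M i‖ := by
  rw [rNop_eq, rNop_eq, ← Finset.sum_sub_distrib]
  simp only [← sub_smul]
  refine norm_sum_smul_le _ _ fun i => ?_
  have h1 := arg_le hr hR hCX hc hX x i
  have h1' := arg_le hr hR hCX hc' hX x i
  have h2 := beta_sub_le (h1.trans hXr) (h1'.trans hXr)
  have h3 := argdiff_le hr hR hCX hρ hX x i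
  rw [← mul_sub, ← mul_sub, abs_mul, abs_mul, abs_of_nonneg hk, abs_of_pos hr,
    mul_assoc kap (62 * X) ρ]
  refine mul_le_mul_of_nonneg_left ?_ hk
  calc r * |beta (r⁻¹ * c i * chi (x - (i : ℝ))) - beta (r⁻¹ * c' i * chi (x - (i : ℝ)))|
        ≤ r * (62 * (X * ρ / r)) :=
        mul_le_mul_of_nonneg_left (h2.trans (by linarith only [h3])) hr.le
    _ = 62 * X * ρ := by (clear * - hr; field_simp)

theorem rNop_A0 (hr : 0 < r) (hR : 0 ≤ R) (hCX : ∀ x, |chi x| ≤ CX) (hc : ‖c‖ ≤ R)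
    (hX : X = (R + 1) * CX) (hXr : X / r ≤ 1) (hk : 0 ≤ kap) (x : ℝ) :
    ‖(r * kap) • Nop M r c x - (2 * kap) • ∑ i : Fin l, (c i * chi (x - (i : ℝ))) • M i‖ ≤
      kap * (60 * X ^ 2 / r) * ∑ i, ‖M i‖ := by
  rw [rNop_eq, A0_eq hr, ← Finset.sum_sub_distrib]
  simp only [← sub_smul]
  refine norm_sum_smul_le _ _ fun i => ?_
  have h1 := arg_le hr hR hCX hc hX x i
  have h2 := beta_sub_two_le (h1.trans hXr)
  rw [← mul_sub, ← mul_sub, abs_mul, abs_mul, abs_of_nonneg hk, abs_of_pos hr]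
  refine mul_le_mul_of_nonneg_left ?_ hk
  have h3 : |r⁻¹ * c i * chi (x - (i : ℝ))| ^ 2 ≤ (X / r) ^ 2 :=
    pow_le_pow_left₀ (abs_nonneg _) h1 2
  have h4 : 0 ≤ (X / r) ^ 2 := by (clear * -; positivity)
  calc r * |beta (r⁻¹ * c i * chi (x - (i : ℝ))) - 2 * (r⁻¹ * c i * chi (x - (i : ℝ)))|
        ≤ r * (60 * (X / r) ^ 2) :=
        mul_le_mul_of_nonneg_left (h2.trans (by linarith only [h3, h4])) hr.le
    _ = 60 * X ^ 2 / r := by field_simp

theorem rNop_A0_diff (hr : 0 < r) (hR : 0 ≤ R) (hCX : ∀ x, |chi x| ≤ CX) (hc : ‖c‖ ≤ R)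
    (hc' : ‖c'‖ ≤ R) (hρ : ‖c - c'‖ ≤ ρ)
    (hX : X = (R + 1) * CX) (hXr : X / r ≤ 1) (hk : 0 ≤ kap) (x : ℝ) :
    ‖((r * kap) • Nop M r c x - (r * kap) • Nop M r c' x) -
      ((2 * kap) • ∑ i : Fin l, (c i * chi (x - (i : ℝ))) • M i -
      (2 * kap) • ∑ i : Fin l, (c' i * chi (x - (i : ℝ))) • M i)‖ ≤
      kap * (60 * X ^ 2 / r) * ρ * ∑ i, ‖M i‖ := by
  rw [rNop_eq, rNop_eq, A0_eq hr, A0_eq hr, ← Finset.sum_sub_distrib, ← Finset.sum_sub_distrib,
    ← Finset.sum_sub_distrib]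
  simp only [← sub_smul]
  refine norm_sum_smul_le _ _ fun i => ?_
  have h1 := arg_le hr hR hCX hc hX x i
  have h1' := arg_le hr hR hCX hc' hX x i
  have h2 := beta_diff (h1.trans hXr) (h1'.trans hXr)
  have h3 := argdiff_le hr hR hCX hρ hX x i
  have hX0 : 0 ≤ X / r := (abs_nonneg _).trans h1
  set y := r⁻¹ * c i * chi (x - (i : ℝ)) with hy
  set y' := r⁻¹ * c' i * chi (x - (i : ℝ)) with hy'
  have e : kap * (r * beta y) - kap * (r * beta y') - (kap * (r * (2 * y)) - kap * (r * (2 * y')))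
    = kap * (r * ((beta y - beta y') - 2 * (y - y'))) := by ring
  rw [e, abs_mul, abs_mul, abs_of_nonneg hk, abs_of_pos hr, mul_assoc]
  refine mul_le_mul_of_nonneg_left ?_ hk
  have h4 : 30 * (|y| + |y'|) * |y - y'| ≤ 30 * (X / r + X / r) * (X * ρ / r) :=
    mul_le_mul (by linarith only [h1, h1']) h3 (abs_nonneg _) (by (clear * - hX0; positivity))
  calc r * |(beta y - beta y') - 2 * (y - y')| ≤ r * (30 * (X / r + X / r) * (X * ρ / r)) :=
        mul_le_mul_of_nonneg_left (h2.trans h4) hr.le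
    _ = 60 * X ^ 2 / r * ρ := by field_simp; ring

theorem A0_le (hR : 0 ≤ R) (hCX : ∀ x, |chi x| ≤ CX) (hc : ‖c‖ ≤ R)
    (hX : X = (R + 1) * CX) (hk : 0 ≤ kap) (x : ℝ) :
    ‖(2 * kap) • ∑ i : Fin l, (c i * chi (x - (i : ℝ))) • M i‖ ≤
      kap * (62 * X) * ∑ i, ‖M i‖ := by
  rw [A0_eq one_pos]
  refine norm_sum_smul_le _ _ fun i => ?_
  have h1 := arg_le one_pos hR hCX hc hX x i
  have hX0 : 0 ≤ X := by simpa only [div_one] using (abs_nonneg _).trans h1
  rw [abs_mul, abs_of_nonneg hk, one_mul, abs_mul, abs_two]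
  refine mul_le_mul_of_nonneg_left ?_ hk
  rw [div_one] at h1
  linarith

theorem A0_diff (hR : 0 ≤ R) (hCX : ∀ x, |chi x| ≤ CX) (hρ : ‖c - c'‖ ≤ ρ)
    (hX : X = (R + 1) * CX) (hk : 0 ≤ kap) (x : ℝ) :
    ‖(2 * kap) • ∑ i : Fin l, (c i * chi (x - (i : ℝ))) • M i -
      (2 * kap) • ∑ i : Fin l, (c' i * chi (x - (i : ℝ))) • M i‖ ≤
      kap * (62 * X) * ρ * ∑ i, ‖M i‖ := by
  rw [A0_eq one_pos, A0_eq one_pos, ← Finset.sum_sub_distrib]
  simp only [← sub_smul]
  refine norm_sum_smul_le _ _ fun i => ?_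
  have h3 := argdiff_le one_pos hR hCX hρ hX x i
  have hX0 : 0 ≤ X * ρ := by simpa only [div_one] using (abs_nonneg _).trans h3
  rw [← mul_sub, ← mul_sub, ← mul_sub, abs_mul, abs_of_nonneg hk, one_mul, abs_mul, abs_two,
    mul_assoc kap (62 * X) ρ]
  refine mul_le_mul_of_nonneg_left ?_ hk
  rw [div_one] at h3
  linarith only [h3, hX0]

end bounds

end Vale.Agent.P225.B2
end
end

section

section

/-!
# P225, design B, part B2: the pulse phase, bounds for the two-speed system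
-/

open Set Filter Topology
open scoped ContDiff Interval

namespace Vale.Agent.P225.B2

variable {V : Type*} [NormedAddCommGroup V] [NormedSpace ℝ V] {l : ℕ}

/-- bound of the slow coefficients -/
noncomputable def kK (l : ℕ) (s kap X MM : ℝ) : ℝ := kap * (62 * X) * MM + kap * s * (l * X)

/-- bound of the error of the slow coefficient (times `r`) -/
noncomputable def kA (l : ℕ) (s kap X MM : ℝ) : ℝ :=
  kap * (60 * X ^ 2) * MM + kap * s * (l * X)

/-- bound of the couplings -/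
noncomputable def kB (m l : ℕ) (s ss kap X MM : ℝ) : ℝ :=
  kap * (62 * X) * MM + kap * (s + ss) * (2 * m + l * X)

section

variable {CX R r X ρ s ss kap eps1 : ℝ} {m : ℕ} {c c' : Fin l → ℝ} {q : ℝ → ℝ}
  (M : Fin l → V →L[ℝ] V)

theorem psys_Bd (hr : 1 ≤ r) (hR : 0 ≤ R) (hCX : ∀ x, |chi x| ≤ CX ∧ |deriv chi x| ≤ CX)
    (hc : ‖c‖ ≤ R) (hX : X = (R + 1) * CX) (hXr : X / r ≤ 1) (hk : 0 ≤ kap) (hs : 0 ≤ s)
    (hss : 0 ≤ ss) (he : 0 ≤ eps1) (hq : ∀ x ∈ Icc (0 : ℝ) l, |q x| ≤ 2 * m * eps1) :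
    (psys s ss kap M r q c).Bd (kK l s kap X (∑ i, ‖M i‖))
      (kB m l s ss kap X (∑ i, ‖M i‖) * (1 + r * eps1)) (kA l s kap X (∑ i, ‖M i‖) / r) l := by
  have hr0 : 0 < r := by linarith only [hr]
  have hCX0 : 0 ≤ CX := (abs_nonneg _).trans (hCX 0).1
  have hX0 : 0 ≤ X := by rw [hX]; (clear * - hR hCX0; positivity)
  set MM := ∑ i, ‖M i‖ with hMM
  have hMM0 : 0 ≤ MM := Finset.sum_nonneg fun _ _ => norm_nonneg _
  have hN := fun x => rNop_le M hr0 hR (fun x => (hCX x).1) hc hX hXr hk x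
  have hA := fun x => rNop_A0 M hr0 hR (fun x => (hCX x).1) hc hX hXr hk x
  have hA0 := fun x => A0_le M hR (fun x => (hCX x).1) hc hX hk x
  have hH := fun x => hh_le hr hR (fun x => (hCX x).2) hc hX x
  have hlX : l * X / r ≤ l * X := div_le_self (by (clear * - hX0; positivity)) hr
  have hsc : ∀ x, ‖(r * kap * s * hh r c x) • (1 : V →L[ℝ] V)‖ ≤ kap * s * (l * X) / r := by
    intro x
    refine (norm_smul_one_le _).trans ?_
    have e : r * kap * s * hh r c x = kap * s * (r * hh r c x) := by ring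
    rw [e, abs_mul, abs_of_nonneg (by (clear * - hk hs; positivity) : 0 ≤ kap * s)]
    have := mul_le_mul_of_nonneg_left (hH x) (by (clear * - hk hs; positivity) : 0 ≤ kap * s)
    linarith only [this, (by ring : kap * s * (l * X / r) = kap * s * (l * X) / r)]
  have hsc' : kap * s * (l * X) / r ≤ kap * s * (l * X) := div_le_self (by (clear * - hk hs hX0; positivity)) hr
  have hmix : ∀ u : ℝ, 0 ≤ u → ∀ x ∈ Icc (0 : ℝ) l,
      ‖(r * kap * u * (q x + hh r c x)) • (1 : V →L[ℝ] V)‖ ≤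
        kap * u * (2 * m + l * X) * (1 + r * eps1) := by
    intro u hu x hx
    refine (norm_smul_one_le _).trans ?_
    have e : r * kap * u * (q x + hh r c x) = kap * u * (r * q x + r * hh r c x) := by ring
    rw [e, abs_mul, abs_of_nonneg (by (clear * - hk hu; positivity) : 0 ≤ kap * u), mul_assoc (kap * u)]
    refine mul_le_mul_of_nonneg_left ?_ (by (clear * - hk hu; positivity))
    have h1 : |r * q x| ≤ 2 * m * (r * eps1) := by
      rw [abs_mul, abs_of_pos hr0]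
      have := mul_le_mul_of_nonneg_left (hq x hx) hr0.le
      linarith only [this]
    have h2 := abs_add_le (r * q x) (r * hh r c x)
    have h3 : 0 ≤ l * X * (r * eps1) := by (clear * - hX0 hr he; positivity)
    have h4 : (0:ℝ) ≤ 2 * m := by (clear * -; positivity)
    linarith only [hH x, h3, h2, h1, hlX]
  have hqq : ∀ x ∈ Icc (0 : ℝ) l, ‖(r * kap * s * q x) • (1 : V →L[ℝ] V)‖ ≤
        kap * s * (2 * m) * (r * eps1) := by
    intro x hx
    refine (norm_smul_one_le _).trans ?_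
    have e : r * kap * s * q x = kap * s * (r * q x) := by ring
    rw [e, abs_mul, abs_of_nonneg (by (clear * - hk hs; positivity) : 0 ≤ kap * s), mul_assoc (kap * s)]
    refine mul_le_mul_of_nonneg_left ?_ (by (clear * - hk hs; positivity))
    rw [abs_mul, abs_of_pos hr0]
    have := mul_le_mul_of_nonneg_left (hq x hx) hr0.le
    linarith only [this]
  have hre : 0 ≤ r * eps1 := by (clear * - hr he; positivity)
  have hNM0 : 0 ≤ kap * (62 * X) * MM := by (clear * - hk hX0; positivity)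
  have hmix0 : ∀ u : ℝ, 0 ≤ u → 0 ≤ kap * u * (2 * m + l * X) := fun u hu => by (clear * - hk hu hX0; positivity)
  refine ⟨fun x hx => ?_, fun x hx => ?_, fun x hx => ?_, fun x hx => ?_, fun x hx => ?_,
    fun x hx => ?_⟩
  · show ‖-(r * kap) • Nop M r c x - (r * kap * s * hh r c x) • (1 : V →L[ℝ] V)‖ ≤ _
    refine (norm_sub_le _ _).trans ?_
    rw [neg_smul, norm_neg]
    have := hN x
    have := hsc x
    unfold kK
    linarith
  · show ‖-(2 * kap) • ∑ i : Fin l, (c i * chi (x - (i : ℝ))) • M i‖ ≤ _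
    rw [neg_smul, norm_neg]
    have := hA0 x
    have h0 : 0 ≤ kap * s * (l * X) := by (clear * - hk hs hX0; positivity)
    unfold kK
    linarith only [this, h0]
  · show ‖(-(r * kap) • Nop M r c x - (r * kap * s * hh r c x) • (1 : V →L[ℝ] V)) -
      -(2 * kap) • ∑ i : Fin l, (c i * chi (x - (i : ℝ))) • M i‖ ≤ _
    have e : (-(r * kap) • Nop M r c x - (r * kap * s * hh r c x) • (1 : V →L[ℝ] V)) -
      -(2 * kap) • ∑ i : Fin l, (c i * chi (x - (i : ℝ))) • M i =
      -(((r * kap) • Nop M r c x - (2 * kap) • ∑ i : Fin l, (c i * chi (x - (i : ℝ))) • M i) +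
        (r * kap * s * hh r c x) • (1 : V →L[ℝ] V)) := by
      rw [neg_smul, neg_smul]; abel
    rw [e, norm_neg]
    refine (norm_add_le _ _).trans ?_
    have h1 := hA x
    have h2 := hsc x
    unfold kA
    have e2 : (kap * (60 * X ^ 2) * MM + kap * s * (l * X)) / r =
      kap * (60 * X ^ 2 / r) * MM + kap * s * (l * X) / r := by ring
    rw [e2]
    linarith only [h2, h1]
  · show ‖(r * kap) • Nop M r c x - (r * kap * ss * (q x + hh r c x)) • (1 : V →L[ℝ] V)‖ ≤ _
    refine (norm_sub_le _ _).trans ?_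
    have h1 := hN x
    have h2 := hmix ss hss x hx
    have h3 : 0 ≤ kap * s * (2 * m + l * X) * (1 + r * eps1) := by
      have := hmix0 s hs; (clear * - hk hs hX0 hr he; positivity)
    have h4 : 0 ≤ kap * (62 * X) * MM * (r * eps1) := by (clear * - hk hX0 hr he; positivity)
    unfold kB
    linarith
  · show ‖-(r * kap) • Nop M r c x - (r * kap * s * (q x + hh r c x)) • (1 : V →L[ℝ] V)‖ ≤ _
    refine (norm_sub_le _ _).trans ?_
    rw [neg_smul, norm_neg]
    have h1 := hN x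
    have h2 := hmix s hs x hx
    have h3 : 0 ≤ kap * ss * (2 * m + l * X) * (1 + r * eps1) := by
      have := hmix0 ss hss; (clear * - hk hss hX0 hr he; positivity)
    have h4 : 0 ≤ kap * (62 * X) * MM * (r * eps1) := by (clear * - hk hX0 hr he; positivity)
    unfold kB
    linarith
  · show ‖(r * kap) • Nop M r c x - (r * kap * ss * (q x + hh r c x)) • (1 : V →L[ℝ] V) +
      (r * kap * s * q x) • (1 : V →L[ℝ] V)‖ ≤ _
    refine (norm_add_le _ _).trans ?_
    refine (add_le_add (norm_sub_le _ _) le_rfl).trans ?_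
    have h1 := hN x
    have h2 := hmix ss hss x hx
    have h3 := hqq x hx
    have h4 : 0 ≤ kap * (62 * X) * MM * (r * eps1) := by (clear * - hk hX0 hr he; positivity)
    have h5 : 0 ≤ kap * s * (2 * m + l * X) := by (clear * - hk hs hX0; positivity)
    have h6 : 0 ≤ kap * s * (l * X) * (r * eps1) := by (clear * - hk hs hX0 hr he; positivity)
    unfold kB
    linarith

theorem psys_Bd2 (hr : 1 ≤ r) (hR : 0 ≤ R) (hCX : ∀ x, |chi x| ≤ CX ∧ |deriv chi x| ≤ CX)
    (hc : ‖c‖ ≤ R) (hc' : ‖c'‖ ≤ R) (hρ : ‖c - c'‖ ≤ ρ) (hX : X = (R + 1) * CX)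
    (hXr : X / r ≤ 1) (hk : 0 ≤ kap) (hs : 0 ≤ s) (hss : 0 ≤ ss) (he : 0 ≤ eps1) :
    (psys s ss kap M r q c).Bd2 (psys s ss kap M r q c') (kK l s kap X (∑ i, ‖M i‖))
      (kB m l s ss kap X (∑ i, ‖M i‖) * (1 + r * eps1)) (kA l s kap X (∑ i, ‖M i‖) / r) l
      ρ := by
  have hr0 : 0 < r := by linarith only [hr]
  have hρ0 : 0 ≤ ρ := (norm_nonneg _).trans hρ
  have hCX0 : 0 ≤ CX := (abs_nonneg _).trans (hCX 0).1
  have hX0 : 0 ≤ X := by rw [hX]; positivity
  set MM := ∑ i, ‖M i‖ with hMM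
  have hMM0 : 0 ≤ MM := Finset.sum_nonneg fun _ _ => norm_nonneg _
  have hN := fun x => rNop_diff M hr0 hR (fun x => (hCX x).1) hc hc' hρ hX hXr hk x
  have hA := fun x => rNop_A0_diff M hr0 hR (fun x => (hCX x).1) hc hc' hρ hX hXr hk x
  have hA0 := fun x => A0_diff M hR (fun x => (hCX x).1) hρ hX hk x
  have hH := fun x => hhdiff_le hr hR (fun x => (hCX x).2) hρ hX x
  have hlX : l * X / r ≤ l * X := div_le_self (by (clear * - hX0; positivity)) hr
  have hsc : ∀ u : ℝ, 0 ≤ u → ∀ x, ‖(r * kap * u * hh r c x) • (1 : V →L[ℝ] V) -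
      (r * kap * u * hh r c' x) • (1 : V →L[ℝ] V)‖ ≤ kap * u * (l * X) / r * ρ := by
    intro u hu x
    rw [← sub_smul]
    refine (norm_smul_one_le _).trans ?_
    have e : r * kap * u * hh r c x - r * kap * u * hh r c' x =
      kap * u * (r * hh r c x - r * hh r c' x) := by ring
    rw [e, abs_mul, abs_of_nonneg (by positivity : 0 ≤ kap * u)]
    have := mul_le_mul_of_nonneg_left (hH x) (by (clear * - hk hu; positivity) : 0 ≤ kap * u)
    linarith [(by ring : kap * u * (l * X / r * ρ) = kap * u * (l * X) / r * ρ), this]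
  have hsc2 : ∀ u : ℝ, 0 ≤ u → ∀ x, ‖(r * kap * u * hh r c x) • (1 : V →L[ℝ] V) -
      (r * kap * u * hh r c' x) • (1 : V →L[ℝ] V)‖ ≤ kap * u * (l * X) * ρ := by
    intro u hu x
    refine (hsc u hu x).trans (mul_le_mul_of_nonneg_right (div_le_self (by (clear * - hk hu hX0; positivity)) hr) hρ0)
  have hmix : ∀ u : ℝ, 0 ≤ u → ∀ x,
      ‖(r * kap * u * (q x + hh r c x)) • (1 : V →L[ℝ] V) -
        (r * kap * u * (q x + hh r c' x)) • (1 : V →L[ℝ] V)‖ ≤ kap * u * (l * X) * ρ := by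
    intro u hu x
    have e : (r * kap * u * (q x + hh r c x)) • (1 : V →L[ℝ] V) -
        (r * kap * u * (q x + hh r c' x)) • (1 : V →L[ℝ] V) =
        (r * kap * u * hh r c x) • (1 : V →L[ℝ] V) -
      (r * kap * u * hh r c' x) • (1 : V →L[ℝ] V) := by
      rw [← sub_smul, ← sub_smul]; congr 1; ring
    rw [e]; exact hsc2 u hu x
  have hNM0 : 0 ≤ kap * (62 * X) * MM := by (clear * - hk hX0; positivity)
  have hre : 0 ≤ r * eps1 := by positivity
  have hB : ∀ u : ℝ, 0 ≤ u → u ≤ s + ss → kap * (62 * X) * ρ * MM + kap * u * (l * X) * ρ ≤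
      kB m l s ss kap X MM * (1 + r * eps1) * ρ := by
    intro u hu hus
    refine le_trans ?_ (mul_le_mul_of_nonneg_right
      (le_mul_of_one_le_right (by unfold kB; (clear * - hk hX0 hs hss; positivity)) (by linarith only [hre])) hρ0)
    unfold kB
    have h1 : kap * u * (l * X) ≤ kap * (s + ss) * (l * X) :=
      mul_le_mul_of_nonneg_right (mul_le_mul_of_nonneg_left hus hk) (by (clear * - hX0; positivity))
    have h2 : 0 ≤ kap * (s + ss) * (2 * m) := by (clear * - hk hs hss; positivity)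
    have h3 : kap * u * (l * X) * ρ ≤ kap * (s + ss) * (2 * m + l * X) * ρ :=
      mul_le_mul_of_nonneg_right (by linarith) hρ0
    linarith only [h3]
  refine ⟨fun x hx => ?_, fun x hx => ?_, fun x hx => ?_, fun x hx => ?_, fun x hx => ?_,
    fun x hx => ?_⟩
  · show ‖(-(r * kap) • Nop M r c x - (r * kap * s * hh r c x) • (1 : V →L[ℝ] V)) -
      (-(r * kap) • Nop M r c' x - (r * kap * s * hh r c' x) • (1 : V →L[ℝ] V))‖ ≤ _
    have e : (-(r * kap) • Nop M r c x - (r * kap * s * hh r c x) • (1 : V →L[ℝ] V)) -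
      (-(r * kap) • Nop M r c' x - (r * kap * s * hh r c' x) • (1 : V →L[ℝ] V)) =
      -(((r * kap) • Nop M r c x - (r * kap) • Nop M r c' x) +
        ((r * kap * s * hh r c x) • (1 : V →L[ℝ] V) -
        (r * kap * s * hh r c' x) • (1 : V →L[ℝ] V))) := by
      rw [neg_smul, neg_smul]; abel
    rw [e, norm_neg]
    refine (norm_add_le _ _).trans ((add_le_add (hN x) (hsc2 s hs x)).trans (le_of_eq ?_))
    unfold kK; ring
  · show ‖-(2 * kap) • ∑ i : Fin l, (c i * chi (x - (i : ℝ))) • M i -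
      -(2 * kap) • ∑ i : Fin l, (c' i * chi (x - (i : ℝ))) • M i‖ ≤ _
    have e : -(2 * kap) • ∑ i : Fin l, (c i * chi (x - (i : ℝ))) • M i -
      -(2 * kap) • ∑ i : Fin l, (c' i * chi (x - (i : ℝ))) • M i =
      -((2 * kap) • ∑ i : Fin l, (c i * chi (x - (i : ℝ))) • M i -
      (2 * kap) • ∑ i : Fin l, (c' i * chi (x - (i : ℝ))) • M i) := by
      rw [neg_smul, neg_smul]; abel
    rw [e, norm_neg]
    refine (hA0 x).trans ?_
    have h0 : 0 ≤ kap * s * (l * X) * ρ := by (clear * - hk hs hX0 hρ0; positivity)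
    unfold kK
    linarith only [h0]
  · show ‖((-(r * kap) • Nop M r c x - (r * kap * s * hh r c x) • (1 : V →L[ℝ] V)) -
      (-(r * kap) • Nop M r c' x - (r * kap * s * hh r c' x) • (1 : V →L[ℝ] V))) -
      (-(2 * kap) • ∑ i : Fin l, (c i * chi (x - (i : ℝ))) • M i -
      -(2 * kap) • ∑ i : Fin l, (c' i * chi (x - (i : ℝ))) • M i)‖ ≤ _
    have e : ((-(r * kap) • Nop M r c x - (r * kap * s * hh r c x) • (1 : V →L[ℝ] V)) -
      (-(r * kap) • Nop M r c' x - (r * kap * s * hh r c' x) • (1 : V →L[ℝ] V))) -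
      (-(2 * kap) • ∑ i : Fin l, (c i * chi (x - (i : ℝ))) • M i -
      -(2 * kap) • ∑ i : Fin l, (c' i * chi (x - (i : ℝ))) • M i) =
      -((((r * kap) • Nop M r c x - (r * kap) • Nop M r c' x) -
      ((2 * kap) • ∑ i : Fin l, (c i * chi (x - (i : ℝ))) • M i -
      (2 * kap) • ∑ i : Fin l, (c' i * chi (x - (i : ℝ))) • M i)) +
        ((r * kap * s * hh r c x) • (1 : V →L[ℝ] V) -
        (r * kap * s * hh r c' x) • (1 : V →L[ℝ] V))) := by
      simp only [neg_smul]; abel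
    rw [e, norm_neg]
    refine (norm_add_le _ _).trans ((add_le_add (hA x) (hsc s hs x)).trans (le_of_eq ?_))
    unfold kA; ring
  · show ‖((r * kap) • Nop M r c x - (r * kap * ss * (q x + hh r c x)) • (1 : V →L[ℝ] V)) -
      ((r * kap) • Nop M r c' x - (r * kap * ss * (q x + hh r c' x)) • (1 : V →L[ℝ] V))‖ ≤ _
    have e : ((r * kap) • Nop M r c x - (r * kap * ss * (q x + hh r c x)) • (1 : V →L[ℝ] V)) -
      ((r * kap) • Nop M r c' x - (r * kap * ss * (q x + hh r c' x)) • (1 : V →L[ℝ] V)) =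
      ((r * kap) • Nop M r c x - (r * kap) • Nop M r c' x) -
      ((r * kap * ss * (q x + hh r c x)) • (1 : V →L[ℝ] V) -
        (r * kap * ss * (q x + hh r c' x)) • (1 : V →L[ℝ] V)) := by abel
    rw [e]
    exact (norm_sub_le _ _).trans ((add_le_add (hN x) (hmix ss hss x)).trans
      (hB ss hss (by linarith only [hs])))
  · show ‖(-(r * kap) • Nop M r c x - (r * kap * s * (q x + hh r c x)) • (1 : V →L[ℝ] V)) -
      (-(r * kap) • Nop M r c' x - (r * kap * s * (q x + hh r c' x)) • (1 : V →L[ℝ] V))‖ ≤ _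
    have e : (-(r * kap) • Nop M r c x - (r * kap * s * (q x + hh r c x)) • (1 : V →L[ℝ] V)) -
      (-(r * kap) • Nop M r c' x - (r * kap * s * (q x + hh r c' x)) • (1 : V →L[ℝ] V)) =
      -(((r * kap) • Nop M r c x - (r * kap) • Nop M r c' x) +
      ((r * kap * s * (q x + hh r c x)) • (1 : V →L[ℝ] V) -
        (r * kap * s * (q x + hh r c' x)) • (1 : V →L[ℝ] V))) := by
      rw [neg_smul, neg_smul]; abel
    rw [e, norm_neg]
    exact (norm_add_le _ _).trans ((add_le_add (hN x) (hmix s hs x)).trans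
      (hB s hs (by linarith only [hss])))
  · show ‖((r * kap) • Nop M r c x - (r * kap * ss * (q x + hh r c x)) • (1 : V →L[ℝ] V) +
      (r * kap * s * q x) • (1 : V →L[ℝ] V)) -
      ((r * kap) • Nop M r c' x - (r * kap * ss * (q x + hh r c' x)) • (1 : V →L[ℝ] V) +
      (r * kap * s * q x) • (1 : V →L[ℝ] V))‖ ≤ _
    have e : ((r * kap) • Nop M r c x - (r * kap * ss * (q x + hh r c x)) • (1 : V →L[ℝ] V) +
      (r * kap * s * q x) • (1 : V →L[ℝ] V)) -
      ((r * kap) • Nop M r c' x - (r * kap * ss * (q x + hh r c' x)) • (1 : V →L[ℝ] V) +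
      (r * kap * s * q x) • (1 : V →L[ℝ] V)) =
      ((r * kap) • Nop M r c x - (r * kap) • Nop M r c' x) -
      ((r * kap * ss * (q x + hh r c x)) • (1 : V →L[ℝ] V) -
        (r * kap * ss * (q x + hh r c' x)) • (1 : V →L[ℝ] V)) := by abel
    rw [e]
    exact (norm_sub_le _ _).trans ((add_le_add (hN x) (hmix ss hss x)).trans
      (hB ss hss (by linarith only [hs])))

end

end Vale.Agent.P225.B2
end
end

section

section

/-!
# The Laplacian of `∑ⱼ fⱼ(t) pⱼ(x)`, `pⱼ` harmonic polynomials, for the model metric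
-/

open Filter Topology
open scoped ContDiff

namespace Vale.Agent.P225

open RMetric

namespace B

variable {n : ℕ}

/-- evaluation of a polynomial -/
noncomputable def ev (p : MvPolynomial (Fin n) ℝ) (x : Rn n) : ℝ := MvPolynomial.eval x.ofLp p

theorem ev_contDiff (p : MvPolynomial (Fin n) ℝ) {m : WithTop ℕ∞} : ContDiff ℝ m (ev p) := by
  unfold ev
  simp only [MvPolynomial.eval_eq']
  refine ContDiff.sum fun m _ => contDiff_const.mul ?_
  refine contDiff_prod fun i _ => ?_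
  refine ContDiff.pow ?_ _
  fun_prop

theorem ev_diff (p : MvPolynomial (Fin n) ℝ) : Differentiable ℝ (ev p) :=
  (ev_contDiff p (m := 1)).differentiable (by simp)

theorem pd_ev (k : Fin n) (p : MvPolynomial (Fin n) ℝ) (x : Rn n) :
    pd k (ev p) x = ev (MvPolynomial.pderiv k p) x := by
  induction p using MvPolynomial.induction_on with
  | C a =>
    have h : ev (MvPolynomial.C a) = fun _ : Rn n => a := by
      funext y; simp [ev]
    rw [h, pd_const, MvPolynomial.pderiv_C]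
    simp [ev]
  | add p q hp hq =>
    have h : ev (p + q) = fun y : Rn n => ev p y + ev q y := by
      funext y; simp only [ev, map_add]
    rw [h, pd_add (ev_diff p x) (ev_diff q x), hp, hq, map_add]
    simp only [ev, map_add]
  | mul_X p i hp =>
    have h : ev (p * MvPolynomial.X i) = fun y : Rn n => ev p y * y i := by
      funext y; simp only [ev, map_mul, MvPolynomial.eval_X]
    rw [h, pd_mul (ev_diff p x) (diff_coord i x), hp, pd_coord, Derivation.leibniz,
      MvPolynomial.pderiv_X]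
    by_cases hik : i = k
    · subst hik
      simp [ev]
      ring
    · rw [Pi.single_eq_of_ne hik, if_neg hik]
      simp only [ev, mul_zero, add_zero, smul_eq_mul, zero_add, map_mul, MvPolynomial.eval_X]
      ring

theorem sum_x_ev {d : ℕ} {p : MvPolynomial (Fin n) ℝ} (hp : p.IsHomogeneous d) (x : Rn n) :
    ∑ i, x i * ev (MvPolynomial.pderiv i p) x = d * ev p x := by
  have h := congrArg (MvPolynomial.eval x.ofLp) hp.sum_X_mul_pderiv
  simp only [map_sum, map_mul, MvPolynomial.eval_X, nsmul_eq_mul, map_natCast] at h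
  exact h

theorem ev_xi (J : Matrix (Fin n) (Fin n) ℝ) (p : MvPolynomial (Fin n) ℝ) (x : Rn n) :
    ev (xi J p) x = ∑ i, yy J x i * ev (MvPolynomial.pderiv i p) x := by
  unfold ev yy
  rw [xi_eq_sum]
  simp only [map_sum, map_mul, MvPolynomial.eval_C, MvPolynomial.eval_X]

theorem sum_ev_plap {d : ℕ} {p : MvPolynomial (Fin n) ℝ} (hp : p ∈ HH ℝ n d) (x : Rn n) :
    ∑ i, ev (MvPolynomial.pderiv i (MvPolynomial.pderiv i p)) x = 0 := by
  have h := (mem_HH.1 hp).2
  rw [plap_apply] at h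
  have h2 := congrArg (MvPolynomial.eval x.ofLp) h
  rw [map_sum, map_zero] at h2
  exact h2

/-- first derivative of a sum -/
theorem pd_sep {ι : Type*} [Fintype ι] {p : ι → MvPolynomial (Fin n) ℝ} {f f1 : ι → ℝ → ℝ}
    {x : Rn n} (hf : ∀ j, HasDerivAt (f j) (f1 j (tt x)) (tt x)) (i : Fin n) :
    pd i (fun y => ∑ j, f j (tt y) * ev (p j) y) x =
      ∑ j, (f1 j (tt x) * (x i * ev (p j) x) + f j (tt x) * ev (MvPolynomial.pderiv i (p j)) x) := by
  have hd : ∀ j, DifferentiableAt ℝ (fun y : Rn n => f j (tt y)) x := fun j =>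
    DifferentiableAt.comp (g := f j) x (hf j).differentiableAt (diff_tt x)
  rw [pd_sum (f := fun j y => f j (tt y) * ev (p j) y) (fun j _ => (hd j).mul (ev_diff (p j) x))]
  apply Finset.sum_congr rfl; intro j _
  rw [pd_mul (hd j) (ev_diff (p j) x), pd_comp_tt i x (hf j).differentiableAt, (hf j).deriv, pd_ev]
  ring

/-- The Laplacian of a separated sum. -/
theorem lap_sep {g : RMetric n} {J : Matrix (Fin n) (Fin n) ℝ} (hJ : IsJ J) {F K : ℝ → ℝ}
    {x : Rn n} (hg : g.G =ᶠ[𝓝 x] GG J F K) (hF : ∀ᶠ t in 𝓝 (tt x), DifferentiableAt ℝ F t)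
    (hK : DifferentiableAt ℝ K (tt x))
    (hF0 : 0 < F (tt x)) (hP0 : 0 < F (tt x) + 2 * tt x * K (tt x))
    {ι : Type*} [Fintype ι] {d : ℕ} {p : ι → MvPolynomial (Fin n) ℝ} (hp : ∀ j, p j ∈ HH ℝ n d)
    {f f1 : ι → ℝ → ℝ} {f2 : ι → ℝ}
    (hfs : ∀ j, ContDiffAt ℝ 2 (f j) (tt x))
    (hf : ∀ j, ∀ᶠ t in 𝓝 (tt x), HasDerivAt (f j) (f1 j t) t)
    (hf1 : ∀ j, HasDerivAt (f1 j) (f2 j) (tt x)) {u : Rn n → ℝ}
    (hu : u =ᶠ[𝓝 x] fun y => ∑ j, f j (tt y) * ev (p j) y) :
    g.lap u x = (F (tt x))⁻¹ * ∑ j, ((2 * tt x * f2 j + (n + 2 * d) * f1 j (tt x) +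
      (((n : ℝ) - 3) * (deriv F (tt x) / F (tt x)) +
        deriv (fun t => F t + 2 * t * K t) (tt x) / (F (tt x) + 2 * tt x * K (tt x))) / 2 *
          (2 * tt x * f1 j (tt x) + d * f j (tt x))) * ev (p j) x -
      K (tt x) / (F (tt x) + 2 * tt x * K (tt x)) * f j (tt x) * ev (xi J (xi J (p j))) x) := by
  have ct : ContinuousAt (tt : Rn n → ℝ) x := (diff_tt x).continuousAt
  set B := (((n : ℝ) - 3) * (deriv F (tt x) / F (tt x)) +
        deriv (fun t => F t + 2 * t * K t) (tt x) / (F (tt x) + 2 * tt x * K (tt x))) / 2 with hB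
  set κ := K (tt x) / (F (tt x) + 2 * tt x * K (tt x)) with hκ
  set u0 : Rn n → ℝ := fun y => ∑ j, f j (tt y) * ev (p j) y with hu0
  have hus : ContDiffAt ℝ 2 u0 x := by
    refine ContDiffAt.sum fun j _ => ?_
    have htt : ContDiff ℝ 2 (tt : Rn n → ℝ) := by
      unfold tt; fun_prop
    exact (ContDiffAt.comp x (hfs j) htt.contDiffAt).mul
      (ev_contDiff (p j)).contDiffAt
  have hfe : ∀ᶠ y in 𝓝 x, ∀ j, HasDerivAt (f j) (f1 j (tt y)) (tt y) := by
    rw [eventually_all]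
    intro j
    exact ct.eventually (hf j)
  have hpd : ∀ i, pd i u0 =ᶠ[𝓝 x] fun y => ∑ j, (f1 j (tt y) * (y i * ev (p j) y) +
      f j (tt y) * ev (MvPolynomial.pderiv i (p j)) y) := by
    intro i
    filter_upwards [hfe] with y hy
    exact pd_sep hy i
  have hf0 : ∀ j, HasDerivAt (f j) (f1 j (tt x)) (tt x) := fun j => (hf j).self_of_nhds
  have hdf : ∀ j, DifferentiableAt ℝ (fun y : Rn n => f j (tt y)) x := fun j =>
    DifferentiableAt.comp (g := f j) x (hf0 j).differentiableAt (diff_tt x)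
  have hdf1 : ∀ j, DifferentiableAt ℝ (fun y : Rn n => f1 j (tt y)) x := fun j =>
    DifferentiableAt.comp (g := f1 j) x (hf1 j).differentiableAt (diff_tt x)
  -- second derivatives
  have hpd2 : ∀ i, pd i (pd i u0) x = ∑ j, (f2 j * ev (p j) x * (x i * x i) +
      f1 j (tt x) * ev (p j) x + 2 * f1 j (tt x) * (x i * ev (MvPolynomial.pderiv i (p j)) x) +
      f j (tt x) * ev (MvPolynomial.pderiv i (MvPolynomial.pderiv i (p j))) x) := by
    intro i
    rw [pd_congr (hpd i)]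
    have e1 : ∀ j, DifferentiableAt ℝ (fun y : Rn n => y i * ev (p j) y) x := fun j =>
      (diff_coord i x).mul (ev_diff (p j) x)
    have e2 : ∀ j, DifferentiableAt ℝ (fun y : Rn n => f1 j (tt y) * (y i * ev (p j) y)) x :=
      fun j => (hdf1 j).mul (e1 j)
    have e3 : ∀ j, DifferentiableAt ℝ (fun y : Rn n => f j (tt y) *
        ev (MvPolynomial.pderiv i (p j)) y) x := fun j =>
      (hdf j).mul (ev_diff (MvPolynomial.pderiv i (p j)) x)
    rw [pd_sum (f := fun j y => f1 j (tt y) * (y i * ev (p j) y) + f j (tt y) *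
      ev (MvPolynomial.pderiv i (p j)) y) (fun j _ => (e2 j).add (e3 j))]
    apply Finset.sum_congr rfl; intro j _
    rw [pd_add (e2 j) (e3 j), pd_mul (hdf1 j) (e1 j), pd_mul (diff_coord i x) (ev_diff (p j) x),
      pd_mul (hdf j) (ev_diff (MvPolynomial.pderiv i (p j)) x),
      pd_comp_tt i x (hf1 j).differentiableAt, (hf1 j).deriv,
      pd_comp_tt i x (hf0 j).differentiableAt, (hf0 j).deriv, pd_ev, pd_ev, pd_coord, if_pos rfl]
    ring
  -- ξ u0
  have hξ : (fun y => ∑ i, yy J y i * pd i u0 y) =ᶠ[𝓝 x] fun y =>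
      ∑ j, f j (tt y) * ev (xi J (p j)) y := by
    filter_upwards [hfe] with y hy
    have e1 : ∀ i, pd i u0 y = _ := fun i => pd_sep hy i
    have e2 : ∀ i, yy J y i * pd i u0 y = ∑ j, (f1 j (tt y) * ev (p j) y * (y i * yy J y i) +
        f j (tt y) * (yy J y i * ev (MvPolynomial.pderiv i (p j)) y)) := by
      intro i
      rw [e1, Finset.mul_sum]
      apply Finset.sum_congr rfl; intro j _; ring
    rw [Finset.sum_congr rfl (fun i _ => e2 i), Finset.sum_comm]
    apply Finset.sum_congr rfl; intro j _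
    rw [Finset.sum_add_distrib, ← Finset.mul_sum, ← Finset.mul_sum, sum_xy hJ, ev_xi]
    ring
  have hξ2 : ∑ i, yy J x i * pd i (fun y => ∑ j, yy J y j * pd j u0 y) x =
      ∑ j, f j (tt x) * ev (xi J (xi J (p j))) x := by
    have e2 : ∀ i, yy J x i * pd i (fun y => ∑ j, yy J y j * pd j u0 y) x =
        ∑ j, (f1 j (tt x) * ev (xi J (p j)) x * (x i * yy J x i) +
        f j (tt x) * (yy J x i * ev (MvPolynomial.pderiv i (xi J (p j))) x)) := by
      intro i
      rw [pd_congr hξ, pd_sep (p := fun j => xi J (p j)) hf0 i, Finset.mul_sum]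
      apply Finset.sum_congr rfl; intro j _; ring
    rw [Finset.sum_congr rfl (fun i _ => e2 i), Finset.sum_comm]
    apply Finset.sum_congr rfl; intro j _
    rw [Finset.sum_add_distrib, ← Finset.mul_sum, ← Finset.mul_sum, sum_xy hJ, ev_xi J (xi J (p j))]
    ring
  have hS1 : ∑ i, x i * pd i u0 x = ∑ j, (2 * tt x * f1 j (tt x) + d * f j (tt x)) * ev (p j) x := by
    have e2 : ∀ i, x i * pd i u0 x = ∑ j, (f1 j (tt x) * ev (p j) x * (x i * x i) +
        f j (tt x) * (x i * ev (MvPolynomial.pderiv i (p j)) x)) := by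
      intro i
      rw [(hpd i).self_of_nhds, Finset.mul_sum]
      apply Finset.sum_congr rfl; intro j _; ring
    rw [Finset.sum_congr rfl (fun i _ => e2 i), Finset.sum_comm]
    apply Finset.sum_congr rfl; intro j _
    rw [Finset.sum_add_distrib, ← Finset.mul_sum, ← Finset.mul_sum, sum_xx,
      sum_x_ev (mem_HH.1 (hp j)).1]
    ring
  have hS2 : ∑ i, pd i (pd i u0) x = ∑ j, (2 * tt x * f2 j + (n + 2 * d) * f1 j (tt x)) *
      ev (p j) x := by
    rw [Finset.sum_congr rfl (fun i _ => hpd2 i), Finset.sum_comm]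
    apply Finset.sum_congr rfl; intro j _
    rw [Finset.sum_add_distrib, Finset.sum_add_distrib, Finset.sum_add_distrib, ← Finset.mul_sum,
      ← Finset.mul_sum, ← Finset.mul_sum, ← Finset.mul_sum, sum_xx, sum_x_ev (mem_HH.1 (hp j)).1,
      sum_ev_plap (hp j)]
    simp only [Finset.sum_const, Finset.card_univ, Fintype.card_fin, nsmul_eq_mul]
    ring
  rw [lap_congr (g' := g) Filter.EventuallyEq.rfl hu,
    lap_GG hJ hg hF hK hF0 hP0 hus, hξ2, hS1, hS2]
  congr 1
  rw [← hB, ← hκ, Finset.mul_sum, Finset.mul_sum, ← Finset.sum_add_distrib,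
    ← Finset.sum_sub_distrib]
  apply Finset.sum_congr rfl; intro j _
  ring

end B

end Vale.Agent.P225
end
end

section

section

/-!
P225, route B, part B3: the real Lie algebra generated by the operators `κ_d M_J` contains all
families of operators with zero traces.
-/

open MvPolynomial

namespace Vale.Agent.P225.B

variable {n D : ℕ}

/-- Version with the closure under conjugations as a hypothesis. -/
theorem b3_gen_conj (hn : 6 ≤ n) (hev : Even n) (kap : ℕ → ℝ)
    (hk : ∀ d, 2 ≤ d → d ≤ D → kap d ≠ 0) (g : Submodule ℝ (BA ℝ n D))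
    (hbr : ∀ X ∈ g, ∀ Y ∈ g, X * Y - Y * X ∈ g)
    (hconj : ∀ U : Matrix (Fin n) (Fin n) ℝ, U.transpose * U = 1 → ∀ X ∈ g,
      blk D (rop U) * X * blk D (rop U.transpose) ∈ g)
    (hJ : ∀ J ∈ JJ n, bsc kap (blk D (MM J)) ∈ g) :
    ∀ X : BA ℝ n D, (∀ d, LinearMap.trace ℝ _ (X d) = 0) → X ∈ g := by
  intro X hX
  refine sl_of_gC (fun A hA => ?_) hX
  have h01 : (⟨0, by omega⟩ : Fin n) ≠ ⟨1, by omega⟩ := by
    intro h
    have := congrArg Fin.val h
    simp at this
  refine b3_sl h01 (by omega) (fun d => (kap d : ℂ)) ?_ (gC g) (gC_bracket hbr) ?_ ?_ A hA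
  · intro d h2 hd
    exact_mod_cast hk d h2 hd
  · intro U hU X hX
    exact gC_conj hconj U hU X hX
  · intro j hj2 _
    exact b3_raise hn hev (fun d => (kap d : ℂ)) (gC g) (gC_bracket hbr)
      (fun J hJ' => gC_MM hJ'.1 (hJ J hJ')) h01 j hj2

theorem rop_transpose_mul {U : Matrix (Fin n) (Fin n) ℝ} (hU : U.transpose * U = 1) :
    (blk D (rop U.transpose) : BA ℝ n D) * blk D (rop U) = 1 := by
  have h1 : U.transpose.transpose * U.transpose = 1 := by
    rw [Matrix.transpose_transpose]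
    exact mul_eq_one_comm.1 hU
  rw [← blk_mul (pres_rop h1) (pres_rop hU), ← rop_mul, hU, rop_one]
  funext d
  exact rst_one _

theorem rop_MM {U : Matrix (Fin n) (Fin n) ℝ} (hU : U.transpose * U = 1)
    (J : Matrix (Fin n) (Fin n) ℝ) :
    rop U * MM J * rop U.transpose = MM (U * J * U.transpose) := by
  refine LinearMap.ext fun f => ?_
  have h1 : rot U (rot U.transpose f) = f := by
    rw [← rot_mul, mul_eq_one_comm.1 hU, rot_one]
  rw [Module.End.mul_apply, Module.End.mul_apply, MM, MM, LinearMap.neg_apply,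
    LinearMap.neg_apply, map_neg, Module.End.mul_apply, Module.End.mul_apply, rop_apply, rop_apply,
    dop_apply, dop_apply, dop_apply, dop_apply, rot_xi hU, rot_xi hU, h1]

/-- Conjugation of the generators. -/
theorem conj_gen {U : Matrix (Fin n) (Fin n) ℝ} (hU : U.transpose * U = 1)
    {J : Matrix (Fin n) (Fin n) ℝ} (hJ : J.transpose = -J) (kap : ℕ → ℝ) :
    blk D (rop U) * bsc kap (blk D (MM J)) * blk D (rop U.transpose) =
      bsc kap (blk D (MM (U * J * U.transpose))) := by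
  have h1 : U.transpose.transpose * U.transpose = 1 := by
    rw [Matrix.transpose_transpose]
    exact mul_eq_one_comm.1 hU
  rw [← rop_MM hU, blk_mul ((pres_rop hU).mul (pres_MM hJ)) (pres_rop h1),
    blk_mul (pres_rop hU) (pres_MM hJ)]
  funext d
  refine LinearMap.ext fun f => ?_
  change rst (rop U) d ((kap d • rst (MM J) d) (rst (rop U.transpose) d f)) =
    (kap d • (rst (rop U) d * rst (MM J) d * rst (rop U.transpose) d)) f
  rw [LinearMap.smul_apply, map_smul]
  rfl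

theorem conj_JJ {U : Matrix (Fin n) (Fin n) ℝ} (hU : U.transpose * U = 1)
    {J : Matrix (Fin n) (Fin n) ℝ} (hJ : J ∈ JJ n) : U * J * U.transpose ∈ JJ n := by
  have h2 : U * U.transpose = 1 := mul_eq_one_comm.1 hU
  constructor
  · rw [Matrix.transpose_mul, Matrix.transpose_mul, Matrix.transpose_transpose, hJ.1]
    rw [neg_mul, mul_neg, mul_assoc]
  · calc U * J * U.transpose * (U * J * U.transpose)
        = U * J * (U.transpose * U) * J * U.transpose := by simp only [mul_assoc]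
      _ = U * (J * J) * U.transpose := by
          rw [hU, mul_one, mul_assoc U]
      _ = -1 := by rw [hJ.2, mul_neg, mul_one, neg_mul, h2]

/-- **Main algebraic statement**: a real space of families of operators closed under the bracket
which contains all `κ M_J` contains all families with zero traces. -/
theorem b3_gen (hn : 6 ≤ n) (hev : Even n) (kap : ℕ → ℝ)
    (hk : ∀ d, 2 ≤ d → d ≤ D → kap d ≠ 0) (g : Submodule ℝ (BA ℝ n D))
    (hbr : ∀ X ∈ g, ∀ Y ∈ g, X * Y - Y * X ∈ g)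
    (hJ : ∀ J ∈ JJ n, bsc kap (blk D (MM J)) ∈ g) :
    ∀ X : BA ℝ n D, (∀ d, LinearMap.trace ℝ _ (X d) = 0) → X ∈ g := by
  let P : Submodule ℝ (BA ℝ n D) → Prop := fun g' =>
    (∀ X ∈ g', ∀ Y ∈ g', X * Y - Y * X ∈ g') ∧ (∀ J ∈ JJ n, bsc kap (blk D (MM J)) ∈ g')
  let g0 : Submodule ℝ (BA ℝ n D) := sInf {g' | P g'}
  have h0 : P g0 := by
    constructor
    · intro X hX Y hY
      rw [Submodule.mem_sInf] at hX hY ⊢
      intro g' hg'
      exact hg'.1 X (hX g' hg') Y (hY g' hg')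
    · intro J hJ1
      rw [Submodule.mem_sInf]
      intro g' hg'
      exact hg'.2 J hJ1
  have hle : g0 ≤ g := sInf_le ⟨hbr, hJ⟩
  have hcj : ∀ U : Matrix (Fin n) (Fin n) ℝ, U.transpose * U = 1 → ∀ X ∈ g0,
      blk D (rop U) * X * blk D (rop U.transpose) ∈ g0 := by
    intro U hU
    have hUU := rop_transpose_mul (D := D) hU
    let g1 : Submodule ℝ (BA ℝ n D) :=
      { carrier := {Y | Y ∈ g0 ∧ blk D (rop U) * Y * blk D (rop U.transpose) ∈ g0}
        add_mem' := by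
          rintro x y ⟨hx, hx'⟩ ⟨hy, hy'⟩
          refine ⟨g0.add_mem hx hy, ?_⟩
          rw [mul_add, add_mul]
          exact g0.add_mem hx' hy'
        zero_mem' := ⟨g0.zero_mem, by rw [mul_zero, zero_mul]; exact g0.zero_mem⟩
        smul_mem' := by
          rintro c x ⟨hx, hx'⟩
          refine ⟨g0.smul_mem c hx, ?_⟩
          rw [mul_smul_comm, smul_mul_assoc]
          exact g0.smul_mem c hx' }
    have h1 : P g1 := by
      constructor
      · rintro X ⟨hX, hX'⟩ Y ⟨hY, hY'⟩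
        refine ⟨h0.1 X hX Y hY, ?_⟩
        have h2 := h0.1 _ hX' _ hY'
        have h3 : ∀ A B : BA ℝ n D, blk D (rop U) * A * blk D (rop U.transpose) *
            (blk D (rop U) * B * blk D (rop U.transpose)) =
            blk D (rop U) * (A * B) * blk D (rop U.transpose) := by
          intro A B
          calc _ = blk D (rop U) * A * (blk D (rop U.transpose) * blk D (rop U)) * B *
                blk D (rop U.transpose) := by simp only [mul_assoc]
            _ = _ := by rw [hUU, mul_one, mul_assoc (blk D (rop U)) A B]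
        rw [h3, h3] at h2
        have h4 : blk D (rop U) * (X * Y - Y * X) * blk D (rop U.transpose) =
            blk D (rop U) * (X * Y) * blk D (rop U.transpose) -
              blk D (rop U) * (Y * X) * blk D (rop U.transpose) := by
          have h5 := @mul_sub (BA ℝ n D) _ (blk D (rop U)) (X * Y) (Y * X)
          have h6 := @sub_mul (BA ℝ n D) _ (blk D (rop U) * (X * Y)) (blk D (rop U) * (Y * X))
            (blk D (rop U.transpose))
          exact (congrArg (fun Z => Z * blk D (rop U.transpose)) h5).trans h6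
        rw [h4]
        exact h2
      · intro J hJ1
        refine ⟨h0.2 J hJ1, ?_⟩
        rw [conj_gen hU hJ1.1]
        exact h0.2 _ (conj_JJ hU hJ1)
    have h2 : g0 ≤ g1 := sInf_le h1
    intro X hX
    exact (h2 hX).2
  intro X hX
  exact hle (b3_gen_conj hn hev kap hk g0 h0.1 hcj h0.2 X hX)

end Vale.Agent.P225.B
end
end

section

section

/-!
# P225, route B, B3-35 (B): cyclic permutations of finite sets
-/

open Finset
open scoped Fin.CommRing

namespace Vale.Agent.P225.B3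

theorem finRotate_iterate (n : ℕ) (j : ℕ) (k : Fin (n + 1)) :
    (finRotate (n + 1))^[j] k = k + (j : Fin (n + 1)) := by
  induction j with
  | zero => simp
  | succ j ih => rw [Function.iterate_succ_apply', ih, finRotate_apply, Nat.cast_succ,
      add_assoc]

/-- Every finite set `S` is an orbit (cycle) of a permutation. -/
theorem exists_cyc {ι : Type} [DecidableEq ι] (S : Finset ι) :
    ∃ σ : Equiv.Perm ι, (∀ i ∈ S, σ i ∈ S) ∧ ∀ i ∈ S, σ^[S.card] i = i ∧
      ∀ f : ι → ℝ, ∑ j ∈ Finset.range S.card, f (σ^[j] i) = ∑ x ∈ S, f x := by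
  classical
  rcases Nat.eq_zero_or_pos S.card with h0 | h0
  · rw [Finset.card_eq_zero] at h0
    subst h0
    exact ⟨1, by simp only [notMem_empty, Equiv.Perm.coe_one, id_eq, imp_self, implies_true], by simp only [notMem_empty, Equiv.Perm.coe_one, card_empty, Function.iterate_zero, id_eq, range_zero, Function.iterate_id, sum_const, zero_nsmul, sum_empty, implies_true, and_self]⟩
  · obtain ⟨n, hn⟩ : ∃ n, S.card = n + 1 := ⟨S.card - 1, by omega⟩
    let e : S ≃ Fin (n + 1) := S.equivFinOfCardEq hn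
    let τ : Equiv.Perm S := (e.trans (finRotate (n + 1))).trans e.symm
    have hτ : ∀ (j : ℕ) (x : S), τ^[j] x = e.symm (e x + (j : Fin (n + 1))) := by
      intro j x
      rw [← finRotate_iterate]
      induction j with
      | zero => simp
      | succ j ih =>
        rw [Function.iterate_succ_apply', ih, Function.iterate_succ_apply']
        simp only [Equiv.trans_apply, Equiv.apply_symm_apply, finRotate_apply, τ]
    let σ : Equiv.Perm ι := Equiv.Perm.ofSubtype τ
    have hσ1 : ∀ x : S, σ (x : ι) = (τ x : ι) := fun x => by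
      simp only [Equiv.Perm.ofSubtype_apply_coe, σ]
    have hσ : ∀ (j : ℕ) (x : S), σ^[j] (x : ι) = (τ^[j] x : ι) := by
      intro j x
      induction j with
      | zero => rfl
      | succ j ih => rw [Function.iterate_succ_apply', ih, hσ1, Function.iterate_succ_apply']
    refine ⟨σ, fun i hi => ?_, fun i hi => ⟨?_, fun f => ?_⟩⟩
    · rw [hσ1 ⟨i, hi⟩]; exact (τ ⟨i, hi⟩).2
    · rw [hσ _ ⟨i, hi⟩, hτ, hn]
      have : ((n + 1 : ℕ) : Fin (n + 1)) = 0 := by simp
      rw [this, add_zero, Equiv.symm_apply_apply]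
    · rw [hn, Finset.sum_range (fun j => f (σ^[j] i))]
      have h1 : ∀ j : Fin (n + 1), f (σ^[(j : ℕ)] i) =
          (fun k : Fin (n + 1) => f (e.symm k)) ((Equiv.addLeft (e ⟨i, hi⟩)) j) := by
        intro j
        rw [hσ _ ⟨i, hi⟩, hτ]
        simp only [Fin.cast_val_eq_self, Equiv.coe_addLeft]
      rw [Finset.sum_congr rfl fun j _ => h1 j,
        Equiv.sum_comp (Equiv.addLeft (e ⟨i, hi⟩)) (fun k : Fin (n + 1) => f (e.symm k)),
        ← Finset.sum_coe_sort S f]
      exact Equiv.sum_comp e.symm (fun x : S => f x)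

/-- Version for families: permutations `π d` cycling the sets `S d`, realised with signs in a
submonoid containing all exponentials. -/
theorem signed_cyc {D : Type} [Fintype D] [DecidableEq D] {ι : D → Type} [∀ d, Fintype (ι d)]
    [∀ d, DecidableEq (ι d)] (H : Submonoid ((d : D) → (ι d → ℝ) →L[ℝ] (ι d → ℝ)))
    (hH : ∀ X, NormedSpace.exp X ∈ H) (S : ∀ d, Finset (ι d)) :
    ∃ T ∈ H, ∃ (pi : ∀ d, ι d → ι d) (sg : ∀ d, ι d → ℝ),
      (∀ d i, |sg d i| = 1) ∧
      (∀ d, ∀ i ∈ S d, pi d i ∈ S d) ∧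
      (∀ d i, T d (Pi.single i 1) = sg d i • Pi.single (pi d i) 1) ∧
      (∀ d, ∀ i ∈ S d, (pi d)^[(S d).card] i = i ∧
        ∀ f : ι d → ℝ, ∑ j ∈ Finset.range (S d).card, f ((pi d)^[j] i) = ∑ x ∈ S d, f x) := by
  choose σ hσ1 hσ2 using fun d => exists_cyc (S d)
  obtain ⟨T, hT, sg, hsg, hTs⟩ := signed_perm H hH σ
  exact ⟨T, hT, fun d => σ d, sg, hsg, hσ1, hTs, hσ2⟩

end Vale.Agent.P225.B3
end
end

section

section

/-!
P225, route B, B3-35 (C): the Lie algebra statement in coordinates.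
-/

open MvPolynomial

namespace Vale.Agent.P225.B5

open Vale.Agent.P225.B

section one

variable {n d : ℕ} {ι : Type} [Fintype ι] [DecidableEq ι] (b : Module.Basis ι ℝ (HH ℝ n d))

theorem opc_apply (T : Module.End ℝ (HH ℝ n d)) (v : ι → ℝ) :
    opc b T v = b.equivFun (T (b.equivFun.symm v)) := rfl

theorem opc_mul (T U : Module.End ℝ (HH ℝ n d)) : opc b (T * U) = opc b T * opc b U := by
  refine ContinuousLinearMap.ext fun v => ?_
  rw [ContinuousLinearMap.mul_def, ContinuousLinearMap.comp_apply, opc_apply, opc_apply, opc_apply,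
    LinearEquiv.symm_apply_apply]
  rfl

theorem opc_add (T U : Module.End ℝ (HH ℝ n d)) : opc b (T + U) = opc b T + opc b U := by
  refine ContinuousLinearMap.ext fun v => ?_
  rw [_root_.add_apply, opc_apply, opc_apply, opc_apply, LinearMap.add_apply, map_add]

theorem opc_smul (c : ℝ) (T : Module.End ℝ (HH ℝ n d)) : opc b (c • T) = c • opc b T := by
  refine ContinuousLinearMap.ext fun v => ?_
  rw [_root_.smul_apply, opc_apply, opc_apply, LinearMap.smul_apply, map_smul]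

theorem opc_sub (T U : Module.End ℝ (HH ℝ n d)) : opc b (T - U) = opc b T - opc b U := by
  refine ContinuousLinearMap.ext fun v => ?_
  rw [_root_.sub_apply, opc_apply, opc_apply, opc_apply, LinearMap.sub_apply, map_sub]

theorem opc_surj (X : (ι → ℝ) →L[ℝ] (ι → ℝ)) :
    ∃ T : Module.End ℝ (HH ℝ n d), opc b T = X ∧
      LinearMap.trace ℝ _ T = LinearMap.trace ℝ _ (X : (ι → ℝ) →ₗ[ℝ] (ι → ℝ)) := by
  refine ⟨b.equivFun.symm.conj (X : (ι → ℝ) →ₗ[ℝ] (ι → ℝ)), ?_, ?_⟩
  · refine ContinuousLinearMap.ext fun v => ?_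
    rw [opc_apply, LinearEquiv.conj_apply_apply, LinearEquiv.symm_symm,
      LinearEquiv.apply_symm_apply, LinearEquiv.apply_symm_apply]
    rfl
  · exact LinearMap.trace_conj' _ _

end one

section fam

variable {n D : ℕ} {ι : Finset.Icc 2 D → Type} [∀ d, Fintype (ι d)] [∀ d, DecidableEq (ι d)]
  (b : ∀ d : Finset.Icc 2 D, Module.Basis (ι d) ℝ (HH ℝ n d))

/-- The families of operators in coordinates. -/
abbrev CA {D : ℕ} (ι : Finset.Icc 2 D → Type) [∀ d, Fintype (ι d)] [∀ d, DecidableEq (ι d)] :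
    Type := (d : Finset.Icc 2 D) → (ι d → ℝ) →L[ℝ] (ι d → ℝ)

/-- Passage to coordinates. -/
noncomputable def toCA : BA ℝ n D →ₗ[ℝ] CA ι where
  toFun := fun X d => opc (b d) (X d)
  map_add' := fun X Y => funext fun d => opc_add (b d) (X d) (Y d)
  map_smul' := fun c X => funext fun d => opc_smul (b d) c (X d)

theorem toCA_apply (X : BA ℝ n D) (d : Finset.Icc 2 D) : toCA b X d = opc (b d) (X d) := rfl

theorem toCA_br (X Y : BA ℝ n D) :
    toCA b (X * Y - Y * X) = toCA b X * toCA b Y - toCA b Y * toCA b X := by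
  funext d
  rw [Pi.sub_apply, Pi.mul_apply, Pi.mul_apply, toCA_apply, toCA_apply, toCA_apply, ← opc_mul,
    ← opc_mul, ← opc_sub]
  rfl

theorem toCA_surj (X : CA ι) : ∃ T : BA ℝ n D, toCA b T = X ∧ ∀ d, LinearMap.trace ℝ _ (T d) =
    LinearMap.trace ℝ _ (X d : (ι d → ℝ) →ₗ[ℝ] (ι d → ℝ)) := by
  choose T hT1 hT2 using fun d => opc_surj (b d) (X d)
  exact ⟨T, funext fun d => hT1 d, hT2⟩

theorem toCA_gen (κ : Finset.Icc 2 D → ℝ) (kap : ℕ → ℝ) (hkap : ∀ d : Finset.Icc 2 D, kap d = κ d)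
    (J : Matrix (Fin n) (Fin n) ℝ) : toCA b (bsc kap (blk D (MM J))) =
      fun d : Finset.Icc 2 D => κ d • opc (b d) (rst (MM J) d) := by
  funext d
  rw [toCA_apply, ← hkap]
  exact opc_smul _ _ _

/-- The Lie algebra statement in coordinates. -/
theorem hgen_inst (hn : 6 ≤ n) (hev : Even n) (κ : Finset.Icc 2 D → ℝ) (hκ : ∀ d, 0 < κ d)
    (g : Submodule ℝ (CA ι))
    (hJ : ∀ J : JJ n, (fun d : Finset.Icc 2 D => κ d • opc (b d) (rst (MM J.1) d)) ∈ g)
    (hbr : ∀ X ∈ g, ∀ Y ∈ g, X * Y - Y * X ∈ g) :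
    ∀ X : CA ι, (∀ d, LinearMap.trace ℝ _ (X d : (ι d → ℝ) →ₗ[ℝ] (ι d → ℝ)) = 0) → X ∈ g := by
  have hkap : ∀ d : Finset.Icc 2 D,
      (fun d : ℕ => if h : d ∈ Finset.Icc 2 D then κ ⟨d, h⟩ else 1) d = κ d := fun d => dif_pos d.2
  have hg' : ∀ X, X ∈ g.comap (toCA b) ↔ toCA b X ∈ g := fun _ => Iff.rfl
  have hall : ∀ X : BA ℝ n D, (∀ d, LinearMap.trace ℝ _ (X d) = 0) → X ∈ g.comap (toCA b) := by
    refine b3_gen hn hev (fun d : ℕ => if h : d ∈ Finset.Icc 2 D then κ ⟨d, h⟩ else 1) ?_ _ ?_ ?_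
    · intro d h2 hd
      have := hkap ⟨d, Finset.mem_Icc.2 ⟨h2, hd⟩⟩
      exact fun h => (hκ _).ne' (this.symm.trans h)
    · intro X hX Y hY
      rw [hg'] at hX hY ⊢
      rw [toCA_br]
      exact hbr _ hX _ hY
    · intro J hJ1
      rw [hg', toCA_gen b κ _ hkap]
      exact hJ ⟨J, hJ1⟩
  intro X hX
  obtain ⟨T, hT1, hT2⟩ := toCA_surj b X
  rw [← hT1]
  exact (hg' T).1 (hall T fun d => (hT2 d).trans (hX d))

end fam

/-- The statement about words (B3-35 (A)). -/
def WordsOut : Prop :=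
  ∀ (D : Type) [Fintype D] [DecidableEq D] (ι : D → Type) [∀ d, Fintype (ι d)]
    [∀ d, DecidableEq (ι d)] (𝒥 : Type) (M : 𝒥 → (d : D) → (ι d → ℝ) →L[ℝ] (ι d → ℝ))
    (κ : D → ℝ),
    (∀ g : Submodule ℝ ((d : D) → (ι d → ℝ) →L[ℝ] (ι d → ℝ)),
      (∀ J, (fun d => κ d • M J d) ∈ g) → (∀ X ∈ g, ∀ Y ∈ g, X * Y - Y * X ∈ g) →
      ∀ X : (d : D) → (ι d → ℝ) →L[ℝ] (ι d → ℝ),
        (∀ d, LinearMap.trace ℝ _ (X d : (ι d → ℝ) →ₗ[ℝ] (ι d → ℝ)) = 0) → X ∈ g) →
    ∃ H : Submonoid ((d : D) → (ι d → ℝ) →L[ℝ] (ι d → ℝ)), (∀ X, NormedSpace.exp X ∈ H) ∧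
      ∀ T ∈ H, ∃ (l : ℕ) (word : Fin l → 𝒥) (c0 : Fin l → ℝ) (lam0 : D → ℝ)
        (F' : ((Fin l → ℝ) × (D → ℝ)) →L[ℝ] ((d : D) → (ι d → ℝ) →L[ℝ] (ι d → ℝ))),
        HasStrictFDerivAt (fun (x : (Fin l → ℝ) × (D → ℝ)) (d : D) => Real.exp (-(x.2 d)) •
          B2.wordMap (κ d) (fun i => M (word i) d) x.1) F' (c0, lam0) ∧
        Function.Surjective F' ∧
        (fun d => Real.exp (-(lam0 d)) • B2.wordMap (κ d) (fun i => M (word i) d) c0) = T

/-- `AlgOut` from the statement about words. -/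
theorem algOut_of (hW : WordsOut) {m : ℕ} (hm : 2 ≤ m) : AlgOut m := by
  intro Dm ι _ _ b κ hκ S
  obtain ⟨H, hexp, hH⟩ := hW (Finset.Icc 2 Dm) ι (JJ (2 * m + 2))
    (fun J d => opc (b d) (rst (MM J.1) d)) κ
    (fun g hJ hbr => hgen_inst b (by omega) ⟨m + 1, by ring⟩ κ hκ g hJ hbr)
  obtain ⟨T, hT, pi, sg, h1, h2, h3, h4⟩ := B3.signed_cyc H hexp S
  obtain ⟨l, word, c0, lam0, F', hF, hs, hv⟩ := hH T hT
  refine ⟨l, word, c0, lam0, F', pi, sg, hF, hs, h1, h2, fun d i _ => ?_, h4⟩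
  have h5 := congrFun hv d
  rw [h5]
  exact h3 d i

end Vale.Agent.P225.B5
end
end

section

section

/-!
P225, route B: the algebraic input `AlgOut m` for `m ≥ 2`.
-/

namespace Vale.Agent.P225.B5

theorem wordsOut : WordsOut := by
  intro D _ _ ι _ _ 𝒥 M κ hgen
  obtain ⟨H, h1, h2⟩ := B3b.words_main κ M ∅ (fun φ hφ => absurd hφ (Set.notMem_empty φ))
    (fun g hJ hbr _ X hX => hgen g hJ hbr X hX)
  refine ⟨H, h1, fun T hT => ?_⟩
  obtain ⟨l, w, c, lam, F', h3, h4, h5⟩ := h2 T hT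
  exact ⟨l, w, c, lam, F', h4, h5, h3⟩

/-- The algebraic input. -/
theorem algOut {m : ℕ} (hm : 2 ≤ m) : AlgOut m := algOut_of wordsOut hm

end Vale.Agent.P225.B5
end
end

section

section

/-!
# P225, design B, part B2: assembly (D10)
-/

open Set Filter Topology
open scoped ContDiff

namespace Vale.Agent.P225.B2

theorem Curv.congr {m : ℕ} {σ σ' η η' : ℝ → ℝ} {x : ℝ} (h : Curv m σ' η' x)
    (hσ : σ =ᶠ[𝓝 x] σ') (hη : η =ᶠ[𝓝 x] η') : Curv m σ η x := by
  unfold Curv at h ⊢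
  rw [hσ.deriv_eq, hη.deriv_eq, hη.deriv.deriv_eq, hσ.eq_of_nhds, hη.eq_of_nhds]
  exact h

variable {D : Type} [Fintype D] {ι : D → Type} [∀ d, Fintype (ι d)] [∀ d, DecidableEq (ι d)]
  {𝒥 : Type}

/-- Statement of `curv_cycle`. -/
def CurvCycleStmt (P : Dat D ι 𝒥) (l : ℕ) (R : ℝ) : Prop :=
    ∃ a : ℝ, 0 < a ∧ ∃ tst : ℝ, 1 ≤ tst ∧ ∀ t : ℝ, tst ≤ t → ∀ c : Fin l → ℝ, ‖c‖ ≤ R →
      ∀ Ψ : ℝ → ℝ, ∀ x ∈ Icc t (T3 l t),
        (∀ᶠ y in 𝓝 x, Ψ y = P.Pinf + a * y ^ (-(1 / 2) : ℝ)) →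
        Curv P.m (sigC P.m Ψ P.eta0 l t) (etaC P.eta0 t c) x ∧
          P.sig0 ≤ sigC P.m Ψ P.eta0 l t x ∧ sigC P.m Ψ P.eta0 l t x ≤ 1

/-- Statement of `curv_core`. -/
def CurvCoreStmt (m : ℕ) (Pinf a : ℝ) : Prop :=
    ∃ tst : ℝ, 1 ≤ tst ∧ ∀ t0 : ℝ, tst ≤ t0 →
      ContDiff ℝ ∞ (PsiG Pinf a t0) ∧
      (∀ x, x ≤ 5 / 16 * t0 → PsiG Pinf a t0 x = 1) ∧
      (∀ x, 7 / 16 * t0 ≤ x → PsiG Pinf a t0 x = Pinf + a * x ^ (-(1 / 2) : ℝ)) ∧
      (∀ x, Pinf ≤ PsiG Pinf a t0 x ∧ PsiG Pinf a t0 x ≤ 1) ∧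
      (∀ η : ℝ → ℝ, ∀ x, (∀ᶠ y in 𝓝 x, η y = 0) → Curv m (PsiG Pinf a t0) η x)

/-- Statement of `cycle_step`. -/
def CycleStepStmt (P : Dat D ι 𝒥) (Q : Ctl P) : Prop :=
    ∃ ε0 : ℝ, 0 < ε0 ∧ ε0 < 1 / 2 ∧ ∀ a : ℝ, 0 < a → ∃ tst : ℝ, 1 ≤ tst ∧ ∃ K : ℝ, 0 ≤ K ∧
      ∀ t : ℝ, tst ≤ t → ∀ Ψ : ℝ → ℝ, ContDiff ℝ ∞ Ψ →
      (∀ x ∈ Icc t (T3 Q.l t), P.Pinf ≤ Ψ x ∧ Ψ x ≤ P.Pinf + a * x ^ (-(1 / 2) : ℝ)) →
      ∀ Z : (d : D) → (ι d → ℝ) →L[ℝ] (ι d → ℝ), (∀ d, ‖Z d‖ ≤ ε0) →
      ∃ c : Fin Q.l → ℝ, ‖c - Q.c0‖ ≤ 1 ∧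
      ∃ Z' : (d : D) → (ι d → ℝ) →L[ℝ] (ι d → ℝ), (∀ d, ‖Z' d‖ ≤ ε0) ∧
      ∃ Λ : (d : D) → ι d → ℝ, CycleOK P Q Ψ t K Z c Z' Λ

/-- Statement of `growth_cycles`. -/
def GrowthStmt (P : Dat D ι 𝒥) (Q : Ctl P) : Prop :=
  ∀ (t0 : ℝ) (_ : 1 ≤ t0) (Ψ : ℝ → ℝ)
    (_ : ∀ x, t0 ≤ x → P.Pinf ≤ Ψ x ∧ Ψ x ≤ 1) (K : ℝ) (_ : 0 ≤ K)
    (Z : ℕ → (d : D) → (ι d → ℝ) →L[ℝ] (ι d → ℝ)) (c : ℕ → Fin Q.l → ℝ)
    (Λ : ℕ → (d : D) → ι d → ℝ) (_ : ∀ j d, ‖Z j d‖ ≤ 1 / 2) (_ : ∀ j, ‖c j - Q.c0‖ ≤ 1)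
    (_ : ∀ j, CycleOK P Q Ψ (tq Q.l t0 j) K (Z j) (c j) (Z (j + 1)) (Λ j))
    (φ σ : ℝ → ℝ) (_ : ∀ x, HasDerivAt φ (σ x) x) (_ : ∀ x, P.sig0 ≤ σ x) (d : D)
    (i : ι d) (_ : i ∈ Q.Sset d) (w w1 : ℝ → ι d → ℝ)
    (_ : ∀ j, Sol (P.pC Ψ (tq Q.l t0 j) (c j)) (P.QC Q.word (tq Q.l t0 j) (c j) d)
      (Icc (tq Q.l t0 j) (tq Q.l t0 (j + 1))) w w1)
    (ρ : ℝ) (_ : w1 t0 + P.ss d • w t0 = ρ • Pi.single i 1)
    (_ : w1 t0 - P.s d • w t0 = Z 0 d (w1 t0 + P.ss d • w t0)),
    ∃ K' : ℝ, ∀ x, t0 ≤ x → ‖w x‖ ≤ K' * Real.exp (Q.k * φ x)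

/-- The recursion over the cycles. -/
theorem exists_seq (P : Dat D ι 𝒥) (Q : Ctl P) (Ψ : ℝ → ℝ) (K ε0 t0 : ℝ)
    (h : ∀ j, ∀ Z : (d : D) → (ι d → ℝ) →L[ℝ] (ι d → ℝ), (∀ d, ‖Z d‖ ≤ ε0) →
      ∃ c : Fin Q.l → ℝ, ‖c - Q.c0‖ ≤ 1 ∧
      ∃ Z' : (d : D) → (ι d → ℝ) →L[ℝ] (ι d → ℝ), (∀ d, ‖Z' d‖ ≤ ε0) ∧
      ∃ Λ : (d : D) → ι d → ℝ, CycleOK P Q Ψ (tq Q.l t0 j) K Z c Z' Λ)
    (Z0 : (d : D) → (ι d → ℝ) →L[ℝ] (ι d → ℝ)) (hZ0 : ∀ d, ‖Z0 d‖ ≤ ε0) :
    ∃ (Z : ℕ → (d : D) → (ι d → ℝ) →L[ℝ] (ι d → ℝ)) (c : ℕ → Fin Q.l → ℝ)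
      (Λ : ℕ → (d : D) → ι d → ℝ), Z 0 = Z0 ∧ (∀ j d, ‖Z j d‖ ≤ ε0) ∧
      (∀ j, ‖c j - Q.c0‖ ≤ 1) ∧
      ∀ j, CycleOK P Q Ψ (tq Q.l t0 j) K (Z j) (c j) (Z (j + 1)) (Λ j) := by
  choose! cF hc ZF hZ ΛF hΛ using h
  let Zs : ℕ → (d : D) → (ι d → ℝ) →L[ℝ] (ι d → ℝ) := fun j => Nat.rec Z0 (fun j Z => ZF j Z) j
  have h1 : ∀ j d, ‖Zs j d‖ ≤ ε0 := by
    intro j
    induction j with
    | zero => exact hZ0
    | succ j ih => exact hZ j (Zs j) ih
  exact ⟨Zs, fun j => cF j (Zs j), fun j => ΛF j (Zs j), rfl, h1, fun j => hc j _ (h1 j),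
    fun j => hΛ j _ (h1 j)⟩

/-- D10. -/
theorem main_of (P : Dat D ι 𝒥) (Q : Ctl P)
    (hcurv : ∀ R, CurvCycleStmt P Q.l R)
    (hcore : ∀ a, 0 < a → CurvCoreStmt P.m P.Pinf a)
    (hstep : CycleStepStmt P Q) (hgrowth : GrowthStmt P Q) :
    ∃ (σ η φ : ℝ → ℝ) (J : ℝ → 𝒥) (K : ℝ),
      ContDiff ℝ ∞ σ ∧ ContDiff ℝ ∞ η ∧ ContDiff ℝ ∞ φ ∧ (∀ x, HasDerivAt φ (σ x) x) ∧
      (∀ x ≤ 0, σ x = 1 ∧ η x = 0 ∧ φ x = x) ∧ (∀ x, P.sig0 ≤ σ x ∧ σ x ≤ 1) ∧
      (∀ x, (∀ᶠ y in 𝓝 x, J y = J x) ∨ (∀ᶠ y in 𝓝 x, η y = 0)) ∧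
      (∀ x, Curv P.m σ η x) ∧
      ∀ d, ∀ i ∈ Q.Sset d, ∃ w w1 : ℝ → (ι d → ℝ), ContDiff ℝ ∞ w ∧
        (∀ x ≤ 0, w x = Real.exp (P.deg d * x) • Pi.single i 1) ∧
        Sol (fun x => 2 * P.m * σ x + deriv η x)
          (fun x => P.C d • (1 : (ι d → ℝ) →L[ℝ] (ι d → ℝ)) - beta (η x) • P.M (J x) d)
          univ w w1 ∧
        ∀ x, 0 ≤ x → ‖w x‖ ≤ K * Real.exp (Q.k * φ x) := by
  obtain ⟨ε0, hε0, hε0', hstep⟩ := hstep
  obtain ⟨a, ha, tst1, htst1, hcurv⟩ := hcurv (‖Q.c0‖ + 1)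
  obtain ⟨tst2, htst2, hcore⟩ := hcore a ha
  obtain ⟨tst3, htst3, K, hK, hstep⟩ := hstep a ha
  have hcd := fun d => Core.core P.m P.hm P.Pinf a P.hP0 P.hP1 ha (P.deg d) (P.hdeg d) ε0 hε0
  choose tst4 htst4 hcd using hcd
  obtain ⟨t0, h01, h02, h03, h04⟩ : ∃ t0, tst1 ≤ t0 ∧ tst2 ≤ t0 ∧ tst3 ≤ t0 ∧ ∀ d, tst4 d ≤ t0 := by
    refine ⟨tst1 + tst2 + tst3 + ∑ d, |tst4 d|, ?_, ?_, ?_, fun d => ?_⟩
    · have : 0 ≤ ∑ d, |tst4 d| := Finset.sum_nonneg fun _ _ => abs_nonneg _
      (clear * - hε0 hε0' htst2 htst3 this; linarith)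
    · have : 0 ≤ ∑ d, |tst4 d| := Finset.sum_nonneg fun _ _ => abs_nonneg _
      linarith only [htst1, htst3, this]
    · have : 0 ≤ ∑ d, |tst4 d| := Finset.sum_nonneg fun _ _ => abs_nonneg _
      linarith
    · have h1 : |tst4 d| ≤ ∑ d, |tst4 d| :=
        Finset.single_le_sum (f := fun d => |tst4 d|) (fun _ _ => abs_nonneg _) (Finset.mem_univ d)
      linarith only [htst1, htst2, htst3, h1, le_abs_self (tst4 d)]
  have ht0 : 1 ≤ t0 := le_trans htst1 h01
  obtain ⟨hΨs, hΨ1, hΨ2, hΨ3, hΨ4⟩ := hcore t0 h02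
  set Ψ := PsiG P.Pinf a t0 with hΨ
  have hsm := tq_strictMono (l := Q.l) ht0
  have htq : ∀ j, t0 ≤ tq Q.l t0 j := fun j => by
    have := hsm.monotone (Nat.zero_le j)
    exact this
  -- the scalar solutions in the core
  have hf : ∀ d, ∃ f f1 : ℝ → ℝ, Sol (fun x => 2 * P.m * Ψ x)
      (fun _ => P.C d • (1 : ℝ →L[ℝ] ℝ)) univ f f1 ∧ f 0 = 1 ∧ f1 0 = P.deg d := fun d =>
    sol_exists (by have := hΨs.continuous; fun_prop) continuous_const 0 1 _
  choose f f1 hfS hf0 hf10 using hf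
  have hfc : ∀ d, (∀ x ∈ Icc 0 t0, 1 ≤ f d x ∧ 0 < f1 d x) ∧
      |f1 d t0 - P.s d * f d t0| ≤ ε0 * (f1 d t0 + P.ss d * f d t0) := by
    intro d
    have := hcd d t0 (h04 d) (f d) (f1 d) (fun x _ => (hfS d).d0 x trivial) (fun x _ => by
      refine ((hfS d).d1 x trivial).congr_deriv ?_
      simp only [Dat.C, smul_apply, one_apply_eq_self, smul_eq_mul]
      rfl) (hf0 d) (hf10 d)
    exact this
  have hs : ∀ d, 0 < P.s d := fun d => by
    unfold Dat.s sroot
    have h1 : 0 < P.C d := by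
      unfold Dat.C
      have : (1 : ℝ) ≤ P.deg d := by exact_mod_cast P.hdeg d
      (clear * - this; positivity)
    have h2 : (P.m * P.Pinf : ℝ) < √((P.m * P.Pinf) ^ 2 + P.C d) := by
      apply Real.lt_sqrt_of_sq_lt
      linarith only [h1]
    linarith only [h2]
  have hss : ∀ d, 0 < P.ss d := fun d => by
    unfold Dat.ss
    have := hs d
    have := P.hP0
    (clear hgrowth hε0 hε0' a ha tst1 htst1 hcurv tst2 htst2 hcore tst3 htst3 K hK hstep tst4 htst4 hcd t0 h01 h02 h03 h04 ht0 Ψ hΨs hΨ1 hΨ2 hΨ3 hΨ4 hΨ hsm htq f f1 hfS hf0 hf10 hfc; positivity)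
  have hρ : ∀ d, 0 < f1 d t0 + P.ss d * f d t0 := fun d => by
    have h1 := (hfc d).1 t0 ⟨by linarith only [htst1, h01], le_rfl⟩
    have h2 := hss d
    have h3 : 0 < f d t0 := by linarith only [h1]
    have := h1.2
    (clear * - this h2 h3; positivity)
  -- the initial memory
  let Z0 : (d : D) → (ι d → ℝ) →L[ℝ] (ι d → ℝ) := fun d =>
    ((f1 d t0 - P.s d * f d t0) / (f1 d t0 + P.ss d * f d t0)) •
      (1 : (ι d → ℝ) →L[ℝ] (ι d → ℝ))
  have hZ0 : ∀ d, ‖Z0 d‖ ≤ ε0 := by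
    intro d
    refine ContinuousLinearMap.opNorm_le_bound _ hε0.le fun x => ?_
    simp only [Z0, smul_apply, one_apply_eq_self, norm_smul,
      Real.norm_eq_abs, abs_div, abs_of_pos (hρ d)]
    gcongr
    rw [div_le_iff₀ (hρ d)]
    exact (hfc d).2
  obtain ⟨Z, c, Λ, hZz, hZ, hc, hOK⟩ := exists_seq P Q Ψ K ε0 t0 (fun j Z hZ => by
    refine hstep (tq Q.l t0 j) (le_trans h03 (htq j)) Ψ hΨs (fun x hx => ?_) Z hZ
    have hx1 : t0 ≤ x := le_trans (htq j) hx.1
    exact ⟨(hΨ3 x).1, (hΨ2 x (by linarith only [htst1, h01, hx1])).le⟩) Z0 hZ0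
  -- global functions
  have hcn : ∀ j, ‖c j‖ ≤ ‖Q.c0‖ + 1 := fun j => by
    have h1 : c j = Q.c0 + (c j - Q.c0) := by abel
    calc ‖c j‖ = ‖Q.c0 + (c j - Q.c0)‖ := by rw [← h1]
      _ ≤ ‖Q.c0‖ + ‖c j - Q.c0‖ := norm_add_le _ _
      _ ≤ ‖Q.c0‖ + 1 := by linarith only [hc j]
  have hσs : ContDiff ℝ ∞ (sigG P t0 Ψ Q.l) := sigG_contDiff P Ψ ht0 hΨs Q.l
  have hηs : ContDiff ℝ ∞ (etaG P t0 c) := etaG_contDiff P c ht0
  -- for `x ≤ t0`
  have hη0 : ∀ x ≤ t0, ∀ᶠ y in 𝓝 x, etaG P t0 c y = 0 := by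
    intro x hx
    have h1 := etaG_eventuallyEq P c ht0 (inCyc_zero (l := Q.l) ht0 hx)
    have h2 : x < tq Q.l t0 0 + rr (tq Q.l t0 0) / 4 := by
      have := rr_pos (t := t0) (by linarith only [htst1, h01])
      simp only [tq]
      linarith only [hx, this]
    filter_upwards [h1, Iio_mem_nhds h2] with y hy hy2
    rw [hy]
    exact etaC_left (by simp only [tq]; linarith only [htst1, h01]) _ hy2.le
  have hσ0 : ∀ x ≤ t0, ∀ᶠ y in 𝓝 x, sigG P t0 Ψ Q.l y = Ψ y := by
    intro x hx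
    have h1 := sigG_eventuallyEq P Ψ ht0 (inCyc_zero (l := Q.l) ht0 hx)
    have h2 : x < T1 Q.l (tq Q.l t0 0) + rr (tq Q.l t0 0) / 4 := by
      have h3 := rr_pos (t := t0) (by linarith only [htst1, h01])
      have h4 := T1_ge (l := Q.l) (t := t0) (by linarith only [htst1, h01])
      simp only [tq]
      linarith only [hx, h3, h4]
    filter_upwards [h1, Iio_mem_nhds h2] with y hy hy2
    rw [hy]
    unfold sigC
    rw [eh_left (by simp only [tq]; linarith only [htst1, h01]) hy2.le]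
    simp only [zero_div, neg_zero, Real.exp_zero, mul_one]
  -- curvature
  have hCurv : ∀ x, Curv P.m (sigG P t0 Ψ Q.l) (etaG P t0 c) x ∧
      P.sig0 ≤ sigG P t0 Ψ Q.l x ∧ sigG P t0 Ψ Q.l x ≤ 1 := by
    intro x
    rcases lt_or_ge x t0 with hx | hx
    · have h1 := hσ0 x hx.le
      have h2 := hη0 x hx.le
      refine ⟨(hΨ4 _ x h2).congr h1 EventuallyEq.rfl, ?_, ?_⟩
      · rw [h1.self_of_nhds]
        refine le_trans ?_ (hΨ3 x).1
        unfold Dat.sig0
        have h3 : Real.exp (-(P.eta0 / (2 * P.m + 1))) ≤ 1 := by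
          apply Real.exp_le_one_iff.2
          have := P.heta0
          have : 0 ≤ P.eta0 / (2 * P.m + 1) := by (clear * - this; positivity)
          linarith only [this]
        have := P.hP0
        nlinarith only [h3, this]
      · rw [h1.self_of_nhds]
        exact (hΨ3 x).2
    · set j := idx Q.l t0 x with hj
      have hin := inCyc_idx (l := Q.l) ht0 x
      have h1 := sigG_eventuallyEq P Ψ ht0 hin
      have h2 := etaG_eventuallyEq P c ht0 hin
      have h3 : x ∈ Icc (tq Q.l t0 j) (T3 Q.l (tq Q.l t0 j)) := ⟨idx_ge ht0 hx, hin.2⟩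
      have h4 : ∀ᶠ y in 𝓝 x, Ψ y = P.Pinf + a * y ^ (-(1 / 2) : ℝ) := by
        filter_upwards [Ioi_mem_nhds (show 7 / 16 * t0 < x by linarith only [htst1, h01, hx])] with y hy
        exact hΨ2 y (le_of_lt hy)
      obtain ⟨h5, h6, h7⟩ := hcurv (tq Q.l t0 j) (le_trans h01 (htq j)) (c j) (hcn j) Ψ x h3 h4
      refine ⟨h5.congr h1 h2, ?_, ?_⟩
      · rw [h1.self_of_nhds]; exact h6
      · rw [h1.self_of_nhds]; exact h7
  -- `φ`
  let φ : ℝ → ℝ := fun x => ∫ y in (0 : ℝ)..x, sigG P t0 Ψ Q.l y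
  have hφd : ∀ x, HasDerivAt φ (sigG P t0 Ψ Q.l x) x := fun x =>
    intervalIntegral.integral_hasDerivAt_right (hσs.continuous.intervalIntegrable _ _)
      (hσs.continuous.stronglyMeasurableAtFilter _ _) hσs.continuous.continuousAt
  have hφs : ContDiff ℝ ∞ φ := by
    have h1 : deriv φ = sigG P t0 Ψ Q.l := funext fun x => (hφd x).deriv
    have h2 : ContDiff ℝ (∞ + 1) φ := by
      rw [contDiff_succ_iff_deriv]
      refine ⟨fun x => (hφd x).differentiableAt, by simp, ?_⟩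
      rw [h1]
      exact hσs
    simpa using h2
  have hσ1 : ∀ x ≤ 0, sigG P t0 Ψ Q.l x = 1 := fun x hx => by
    rw [(hσ0 x (by linarith only [htst1, h01, hx])).self_of_nhds]
    exact hΨ1 x (by linarith only [htst1, h01, hx])
  have hφ0 : ∀ x ≤ 0, φ x = x := by
    intro x hx
    have h1 : φ x = ∫ y in (0 : ℝ)..x, (1 : ℝ) := by
      refine intervalIntegral.integral_congr fun y hy => ?_
      rw [uIcc_of_ge hx] at hy
      exact hσ1 y hy.2
    rw [h1]
    simp
  have hφnn : ∀ x, 0 ≤ x → 0 ≤ φ x := by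
    intro x hx
    refine intervalIntegral.integral_nonneg hx fun y _ => ?_
    refine le_trans ?_ (hCurv y).2.1
    unfold Dat.sig0
    have := P.hP0
    (clear * - this; positivity)
  -- coefficients
  have hpc : ContDiff ℝ ∞ (fun x => 2 * P.m * sigG P t0 Ψ Q.l x + deriv (etaG P t0 c) x) := by
    have h1 : ContDiff ℝ ∞ (deriv (etaG P t0 c)) := by
      have h := (contDiff_succ_iff_deriv (n := ∞) (f := etaG P t0 c) (𝕜 := ℝ)).1
        (by simpa only [ENat.coe_top_add_one] using hηs)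
      exact h.2.2
    fun_prop
  have hp_core : ∀ x ≤ t0, 2 * P.m * sigG P t0 Ψ Q.l x + deriv (etaG P t0 c) x
      = 2 * P.m * Ψ x := by
    intro x hx
    have h1 : etaG P t0 c =ᶠ[𝓝 x] fun _ => 0 := hη0 x hx
    rw [(hσ0 x hx).self_of_nhds, h1.deriv_eq]
    simp
  have hQ_core : ∀ d, ∀ x ≤ t0, QG P Q.word t0 c d x = P.C d • 1 := by
    intro d x hx
    rw [QG_eq P Q.word c ht0, (hη0 x hx).self_of_nhds, beta_zero, zero_smul, sub_zero]
  -- the solutions
  have hsol : ∀ d, ∀ i ∈ Q.Sset d, ∃ w w1 : ℝ → (ι d → ℝ), ContDiff ℝ ∞ w ∧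
        (∀ x ≤ 0, w x = Real.exp (P.deg d * x) • Pi.single i 1) ∧
        Sol (fun x => 2 * P.m * sigG P t0 Ψ Q.l x + deriv (etaG P t0 c) x)
          (QG P Q.word t0 c d) univ w w1 ∧
        ∃ K', ∀ x, 0 ≤ x → ‖w x‖ ≤ K' * Real.exp (Q.k * φ x) := by
    intro d i hi
    obtain ⟨w, w1, hw, hw0, hw10⟩ := sol_exists hpc.continuous
      (QG_contDiff P Q.word c ht0 d).continuous 0 (Pi.single i (1 : ℝ) : ι d → ℝ)
      ((P.deg d : ℝ) • (Pi.single i (1 : ℝ) : ι d → ℝ))
    refine ⟨w, w1, (sol_smooth hpc (QG_contDiff P Q.word c ht0 d) hw).1, ?_, hw, ?_⟩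
    · -- left of zero
      intro x hx
      let e : ℝ → ι d → ℝ := fun y => Real.exp (P.deg d * y) • Pi.single i 1
      let e1 : ℝ → ι d → ℝ := fun y => (P.deg d * Real.exp (P.deg d * y)) • Pi.single i 1
      have he : Sol (fun x => 2 * P.m * sigG P t0 Ψ Q.l x + deriv (etaG P t0 c) x)
          (QG P Q.word t0 c d) (Icc x 0) e e1 := by
        constructor
        · intro y _
          have h1 : HasDerivAt (fun y : ℝ => Real.exp (P.deg d * y))
              (P.deg d * Real.exp (P.deg d * y)) y := by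
            have h2 : HasDerivAt (fun y : ℝ => P.deg d * y) ((P.deg d : ℝ) * 1) y :=
              (hasDerivAt_id y).const_mul _
            exact h2.exp.congr_deriv (by ring)
          exact h1.smul_const _
        · intro y hy
          have h1 : HasDerivAt (fun y : ℝ => P.deg d * Real.exp (P.deg d * y))
              (P.deg d * (P.deg d * Real.exp (P.deg d * y))) y := by
            have h2 : HasDerivAt (fun y : ℝ => P.deg d * y) ((P.deg d : ℝ) * 1) y :=
              (hasDerivAt_id y).const_mul _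
            exact (h2.exp.congr_deriv (by ring)).const_mul _
          refine (h1.smul_const _).congr_deriv ?_
          have hy0 : y ≤ t0 := by linarith only [htst1, h01, hy.2]
          have h3 : 2 * P.m * sigG P t0 Ψ Q.l y + deriv (etaG P t0 c) y = 2 * P.m := by
            rw [hp_core y hy0, hΨ1 y (by linarith only [htst1, h01, hy.2]), mul_one]
          simp only [e, e1]
          rw [hQ_core d y hy0, h3, smul_apply,
            one_apply_eq_self, smul_smul, smul_smul, ← sub_smul]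
          congr 1
          unfold Dat.C
          ring
      have h := sol_unique_Icc hpc.continuous (QG_contDiff P Q.word c ht0 d).continuous
        (hw.mono (subset_univ _)) he (t₀ := 0) ⟨hx, le_rfl⟩ (by simp [e, hw0]) (by
          simp only [hw10, mul_zero, Real.exp_zero, mul_one, e1]) x ⟨le_rfl, hx⟩
      exact h.1
    · -- the core
      have hcoreS : Sol (fun x => 2 * P.m * sigG P t0 Ψ Q.l x + deriv (etaG P t0 c) x)
          (QG P Q.word t0 c d) (Icc 0 t0) (fun y => f d y • Pi.single i 1)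
          (fun y => f1 d y • Pi.single i 1) := by
        constructor
        · intro y _
          exact ((hfS d).d0 y trivial).smul_const _
        · intro y hy
          refine (((hfS d).d1 y trivial).smul_const _).congr_deriv ?_
          rw [hQ_core d y hy.2, hp_core y hy.2]
          simp only [smul_apply, one_apply_eq_self, smul_eq_mul, sub_smul, smul_smul]
      have hcw := sol_unique_Icc hpc.continuous (QG_contDiff P Q.word c ht0 d).continuous
        (hw.mono (subset_univ _)) hcoreS (t₀ := 0) ⟨le_rfl, by linarith only [htst1, h01]⟩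
        (by simp only [hf0, hw0, one_smul]) (by simp only [hf10, hw10])
      obtain ⟨hwt, hwt1⟩ := hcw t0 ⟨by linarith only [htst1, h01], le_rfl⟩
      have hv : w1 t0 + P.ss d • w t0 = (f1 d t0 + P.ss d * f d t0) • Pi.single i 1 := by
        rw [hwt, hwt1, add_smul, smul_smul]
      have hz : w1 t0 - P.s d • w t0 = Z 0 d (w1 t0 + P.ss d • w t0) := by
        rw [hv, hZz, hwt, hwt1]
        simp only [Z0, smul_apply, one_apply_eq_self, smul_smul]
        rw [div_mul_cancel₀ _ (hρ d).ne', sub_smul]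
      obtain ⟨K', hK'⟩ := hgrowth t0 ht0 Ψ (fun x _ => hΨ3 x) K hK Z c Λ
        (fun j d => le_trans (hZ j d) hε0'.le) hc hOK φ (sigG P t0 Ψ Q.l) hφd
        (fun x => (hCurv x).2.1) d i hi w w1 (fun j => by
          refine (hw.mono (subset_univ _)).congr (fun x hx => ?_) (fun x hx => ?_)
          · have hin := inCyc_Icc (l := Q.l) (t0 := t0) j hx
            unfold Dat.pC
            rw [(sigG_eventuallyEq P Ψ ht0 hin).self_of_nhds,
              (etaG_eventuallyEq P c ht0 hin).deriv_eq]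
          · have hin := inCyc_Icc (l := Q.l) (t0 := t0) j hx
            rw [(QG_eventuallyEq P Q.word c ht0 d hin).self_of_nhds])
        _ hv hz
      -- bound on the core
      obtain ⟨B, hB⟩ := (isCompact_Icc (a := (0 : ℝ)) (b := t0)).exists_bound_of_continuousOn
        (f := w) (fun x _ => (hw.d0 x trivial).continuousAt.continuousWithinAt)
      refine ⟨max K' B, fun x hx => ?_⟩
      have hexp : 1 ≤ Real.exp (Q.k * φ x) := Real.one_le_exp (mul_nonneg Q.hk (hφnn x hx))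
      rcases le_or_gt x t0 with h | h
      · have h1 := hB x ⟨hx, h⟩
        have h2 : 0 ≤ B := le_trans (norm_nonneg _) h1
        calc ‖w x‖ ≤ B := h1
          _ ≤ max K' B := le_max_right _ _
          _ = max K' B * 1 := (mul_one _).symm
          _ ≤ _ := by (clear * - hexp h2; gcongr)
      · refine le_trans (hK' x h.le) ?_
        gcongr
        exact le_max_left _ _
  choose! w w1 hws hw0 hwS Kw hKw using hsol
  refine ⟨sigG P t0 Ψ Q.l, etaG P t0 c, φ, JG P Q.word t0,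
    ∑ d, ∑ i ∈ Q.Sset d, |Kw d i|, hσs, hηs, hφs, hφd, fun x hx => ⟨hσ1 x hx,
      (hη0 x (by linarith only [htst1, h01, hx])).self_of_nhds, hφ0 x hx⟩, fun x => (hCurv x).2,
    fun x => JG_const P Q.word c ht0 x, fun x => (hCurv x).1, fun d i hi =>
    ⟨w d i, w1 d i, hws d i hi, hw0 d i hi, ?_, fun x hx => ?_⟩⟩
  · refine (hwS d i hi).congr (fun _ _ => rfl) (fun x _ => ?_)
    rw [QG_eq P Q.word c ht0]
  · refine le_trans (hKw d i hi x hx) ?_
    gcongr
    calc Kw d i ≤ |Kw d i| := le_abs_self _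
      _ ≤ ∑ i ∈ Q.Sset d, |Kw d i| :=
        Finset.single_le_sum (f := fun i => |Kw d i|) (fun _ _ => abs_nonneg _) hi
      _ ≤ ∑ d, ∑ i ∈ Q.Sset d, |Kw d i| :=
        Finset.single_le_sum (f := fun d => ∑ i ∈ Q.Sset d, |Kw d i|)
          (fun _ _ => Finset.sum_nonneg fun _ _ => abs_nonneg _) (Finset.mem_univ d)

end Vale.Agent.P225.B2
end
end

section

section

/-!
# P225, design B, part B2: the main theorem, from the vector form of the pulse phase
-/

open Set Filter Topology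
open scoped ContDiff

namespace Vale.Agent.P225.B2

variable {D : Type} [Fintype D] {ι : D → Type} [∀ d, Fintype (ι d)] [∀ d, DecidableEq (ι d)]
  {𝒥 : Type}

theorem curvCycleStmt (P : Dat D ι 𝒥) (l : ℕ) (R : ℝ) : CurvCycleStmt P l R :=
  curv_cycle_proof P l R

theorem curvCoreStmt (P : Dat D ι 𝒥) (a : ℝ) (ha : 0 < a) : CurvCoreStmt P.m P.Pinf a :=
  curv_core_proof P.m P.hm P.Pinf a P.hP0 P.hP1 ha

theorem growthStmt (P : Dat D ι 𝒥) (Q : Ctl P) : GrowthStmt P Q :=
  fun _t0 ht0 Ψ hΨ K hK Z c Λ hZ hc hOK φ σ hφ hσ d i hi w w1 hw ρ hv hz =>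
    growth_cycles P Q ht0 Ψ hΨ K hK Z c Λ hZ hc hOK φ σ hφ hσ d i hi w w1 hw ρ hv hz

/-- The vector form of the pulse phase, for all spaces. -/
def PulseVecAll : Prop :=
  ∀ (V : Type) [NormedAddCommGroup V] [NormedSpace ℝ V] [FiniteDimensional ℝ V]
    (m : ℕ) (_ : 1 ≤ m) (Pinf : ℝ) (_ : 0 < Pinf) (s : ℝ) (_ : 0 < s) (l : ℕ)
    (M : Fin l → V →L[ℝ] V) (R : ℝ) (om : ℝ) (_ : 0 < om), PulseVecStmt V m Pinf s M R om

theorem pulseStmt (h : PulseVecAll) : Cyc.PulseStmt :=
  fun V _ _ _ m hm Pinf hP s hs _l M R om hom =>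
    pulse_phase_of m Pinf hP s hs M R om hom (h V m hm Pinf hP s hs _ M R om hom)

theorem cycleStepStmt (h : PulseVecAll) (P : Dat D ι 𝒥) (Q : Ctl P) : CycleStepStmt P Q :=
  Cyc.cycle_step_of (pulseStmt h) P Q

theorem main_of_vec (h : PulseVecAll) (P : Dat D ι 𝒥) (Q : Ctl P) :
    ∃ (σ η φ : ℝ → ℝ) (J : ℝ → 𝒥) (K : ℝ),
      ContDiff ℝ ∞ σ ∧ ContDiff ℝ ∞ η ∧ ContDiff ℝ ∞ φ ∧ (∀ x, HasDerivAt φ (σ x) x) ∧
      (∀ x ≤ 0, σ x = 1 ∧ η x = 0 ∧ φ x = x) ∧ (∀ x, P.sig0 ≤ σ x ∧ σ x ≤ 1) ∧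
      (∀ x, (∀ᶠ y in 𝓝 x, J y = J x) ∨ (∀ᶠ y in 𝓝 x, η y = 0)) ∧
      (∀ x, Curv P.m σ η x) ∧
      ∀ d, ∀ i ∈ Q.Sset d, ∃ w w1 : ℝ → (ι d → ℝ), ContDiff ℝ ∞ w ∧
        (∀ x ≤ 0, w x = Real.exp (P.deg d * x) • Pi.single i 1) ∧
        Sol (fun x => 2 * P.m * σ x + deriv η x)
          (fun x => P.C d • (1 : (ι d → ℝ) →L[ℝ] (ι d → ℝ)) - beta (η x) • P.M (J x) d)
          univ w w1 ∧
        ∀ x, 0 ≤ x → ‖w x‖ ≤ K * Real.exp (Q.k * φ x) :=
  main_of P Q (fun R => curvCycleStmt P Q.l R) (fun a ha => curvCoreStmt P a ha)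
    (cycleStepStmt h P Q) (growthStmt P Q)

end Vale.Agent.P225.B2
end
end

section

section

/-!
# P225, design B, part B2: the pulse phase at the level of vectors
-/

open Set Filter Topology
open scoped ContDiff Interval

namespace Vale.Agent.P225.B2

section

variable {V : Type*} [NormedAddCommGroup V] [NormedSpace ℝ V]

theorem psys_isSol [CompleteSpace V] {l m : ℕ} {Pinf s ss kap r t : ℝ} {Ψ : ℝ → ℝ}
    {M : Fin l → V →L[ℝ] V} {c : Fin l → ℝ} {w w1 : ℝ → V}
    (hr : 0 < r) (hss : ss = s + 2 * m * Pinf) (hkap : kap * (s + ss) = 1)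
    (hΨ : Continuous Ψ)
    (h : Sol (fun x => 2 * m * Ψ x + deriv (ep r t c) x) (Qp (s * ss) M r t c)
      (Icc t (t + l * r)) w w1) :
    (psys s ss kap M r (fun x => 2 * m * (Ψ (t + r * x) - Pinf)) c).IsSol (r * (s + ss)) l
      (fun x => Einv s kap r (fun x => 2 * m * (Ψ (t + r * x) - Pinf)) x •
        (w1 (t + r * x) + ss • w (t + r * x)))
      (fun x => Einv s kap r (fun x => 2 * m * (Ψ (t + r * x) - Pinf)) x •
        (w1 (t + r * x) - s • w (t + r * x)))
      (fun x => idealMap kap M c x (w1 t + ss • w t)) := by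
  have hd := phase_deriv hr hss hkap hΨ (fun x => deriv_ep hr t c x) h
  refine ⟨hd.1, hd.2, fun x _ => ?_, ?_⟩
  · have h1 := (idealMap_hasDerivAt kap M c x).clm_apply
      (hasDerivAt_const x (w1 t + ss • w t))
    refine h1.congr_deriv ?_
    rw [map_zero, add_zero]
    rfl
  · rw [idealMap_zero _ _ _ (by norm_num)]
    simp only [one_apply_eq_self, Einv_zero, mul_zero, add_zero, one_smul]

theorem small_bounds {kap s ss CB CA ε eps1 r μ : ℝ} (hk0 : 0 < kap)
    (hkap : kap * (s + ss) = 1) (hsum0 : 0 < s + ss) (hCB0 : 0 ≤ CB) (hCA0 : 0 ≤ CA)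
    (hε0 : 0 < ε) (hrε : 1 ≤ r * ε) (hr0 : 0 < r) (he1 : eps1 ≤ ε)
    (he2 : eps1 ^ 2 * r ≤ ε)
    (hμ : μ = (16 * kap * CB + 32 * kap * CB ^ 2 + CA + 1) * ε) (hμ1 : μ ≤ 1) :
    8 * (CB * (1 + r * eps1)) ≤ r * (s + ss) ∧
      4 * (CB * (1 + r * eps1)) / (r * (s + ss)) ≤ μ ∧
      4 * (CB * (1 + r * eps1)) / (r * (s + ss)) * (2 * (CB * (1 + r * eps1))) ≤ μ ∧
      CA / r ≤ μ ∧ ε ≤ μ := by
  have hω : 0 < r * (s + ss) := by (clear * - hr0 hsum0; positivity)
  have hrinv : 1 / r ≤ ε := by rw [div_le_iff₀ hr0]; linarith only [hrε]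
  have hBr : CB * (1 + r * eps1) / r ≤ 2 * CB * ε := by
    rw [div_le_iff₀ hr0]
    have h1 : 1 + r * eps1 ≤ 2 * (r * ε) := by
      have := mul_le_mul_of_nonneg_left he1 hr0.le
      linarith only [hrε, this]
    have := mul_le_mul_of_nonneg_left h1 hCB0
    linarith only [this]
  have hBω : ∀ x : ℝ, x / (r * (s + ss)) = kap * (x / r) := by
    intro x
    have h2 : kap = 1 / (s + ss) := by rw [eq_div_iff hsum0.ne']; exact hkap
    rw [h2]; (clear * - hsum0 hr0; field_simp)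
  have h1 : 0 ≤ 16 * kap * CB * ε := by (clear * - hk0 hCB0 hε0; positivity)
  have h2 : 0 ≤ 32 * kap * CB ^ 2 * ε := by (clear * - hk0 hε0; positivity)
  have h3 : 0 ≤ CA * ε := by positivity
  have e : μ = 16 * kap * CB * ε + 32 * kap * CB ^ 2 * ε + CA * ε + ε := by rw [hμ]; ring
  refine ⟨?_, ?_, ?_, ?_, ?_⟩
  · have h5 : 8 * (CB * (1 + r * eps1)) / (r * (s + ss)) ≤ 1 := by
      rw [hBω]
      have : kap * (8 * (CB * (1 + r * eps1)) / r) =
        8 * kap * (CB * (1 + r * eps1) / r) := by ring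
      rw [this]
      have h2 := mul_le_mul_of_nonneg_left hBr (by positivity : 0 ≤ 8 * kap)
      (clear s ss hkap hsum0 he2 hω hrinv hBω h1 e this; linarith)
    rwa [div_le_one hω] at h5
  · rw [hBω]
    have : kap * (4 * (CB * (1 + r * eps1)) / r) =
      4 * kap * (CB * (1 + r * eps1) / r) := by ring
    rw [this]
    have h2 := mul_le_mul_of_nonneg_left hBr (by positivity : 0 ≤ 4 * kap)
    (clear s ss hkap hsum0 he2 hμ1 hω hrinv hBω e this; linarith)
  · rw [hBω]
    have e : kap * (4 * (CB * (1 + r * eps1)) / r) * (2 * (CB * (1 + r * eps1))) =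
      8 * kap * CB ^ 2 * ((1 + r * eps1) ^ 2 / r) := by ring
    rw [e]
    have h3 : (1 + r * eps1) ^ 2 / r ≤ 4 * ε := by
      rw [div_le_iff₀ hr0]
      have h4 : (1 + r * eps1) ^ 2 ≤ 2 + 2 * (r * eps1) ^ 2 := by
        nlinarith only [sq_nonneg (1 - r * eps1)]
      have h5 : (r * eps1) ^ 2 ≤ ε * r := by
        have := mul_le_mul_of_nonneg_right he2 hr0.le
        linarith only [this]
      linarith only [hrε, h4, h5]
    have h4 := mul_le_mul_of_nonneg_left h3 (by (clear * - hk0; positivity) : 0 ≤ 8 * kap * CB ^ 2)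
    (clear s ss hkap hsum0 he1 hμ1 hω hrinv hBr hBω h2 e; linarith)
  · have : CA / r ≤ CA * ε := by
      rw [div_eq_mul_one_div]; exact mul_le_mul_of_nonneg_left hrinv hCA0
    linarith only [hε0, hμ, h1, h2, this]
  · linarith only [hμ, h1, h2, h3]

theorem Einv_inv_le {l m : ℕ} {s kap r eps1 : ℝ} {q : ℝ → ℝ} (hs : 0 ≤ s) (hk : 0 ≤ kap)
    (hr : 0 ≤ r) (he : eps1 ≤ 1)
    (hqb : ∀ x ∈ Icc (0 : ℝ) l, |q x| ≤ 2 * m * eps1) :
    (Einv s kap r q l)⁻¹ ≤ Real.exp (l * (s + kap * s * (2 * m)) * r) := by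
  rw [Einv, ← Real.exp_neg, neg_neg]
  refine Real.exp_le_exp.2 ?_
  have hint : |∫ y in (0 : ℝ)..l, q y| ≤ 2 * m * eps1 * |(l : ℝ) - 0| := by
    have hc : ∀ x ∈ Ι (0 : ℝ) (l : ℝ), ‖q x‖ ≤ 2 * m * eps1 := fun x hx => by
      rw [uIoc_of_le (Nat.cast_nonneg l)] at hx
      exact hqb x ⟨hx.1.le, hx.2⟩
    exact intervalIntegral.norm_integral_le_of_norm_le_const hc
  rw [sub_zero, abs_of_nonneg (by (clear * -; positivity) : (0 : ℝ) ≤ l)] at hint
  have h6 : -∫ y in (0 : ℝ)..l, q y ≤ 2 * m * l := by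
    have h7 : -∫ y in (0 : ℝ)..l, q y ≤ |∫ y in (0 : ℝ)..l, q y| := neg_le_abs _
    have h8 : 2 * m * eps1 * (l : ℝ) ≤ 2 * m * l := by
      have h9 : (0 : ℝ) ≤ 2 * m * l := by (clear * -; positivity)
      linarith only [mul_nonneg (sub_nonneg.2 he) (sub_nonneg.2 h9)]
    linarith only [hint, h7, h8]
  have h7 := mul_le_mul_of_nonneg_left h6 (by (clear * - hk hs; positivity) : 0 ≤ kap * s)
  have h8 : s * l - kap * s * ∫ y in (0 : ℝ)..l, q y ≤ l * (s + kap * s * (2 * m)) := by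
    linarith only [h7]
  have := mul_le_mul_of_nonneg_left h8 hr
  linarith only [this]

/-- the data of the final estimate -/
structure PD (l m : ℕ) (M : Fin l → V →L[ℝ] V) (R s ss kap Pinf CX X ε eps1 r om μ t : ℝ)
    (Ψ : ℝ → ℝ) : Prop where
  hs : 0 < s
  hss0 : 0 < ss
  hss : ss = s + 2 * m * Pinf
  hk0 : 0 < kap
  hkap : kap * (s + ss) = 1
  hCX : ∀ x, |chi x| ≤ CX ∧ |deriv chi x| ≤ CX
  hX : X = (|R| + 1) * CX
  hX0 : 0 < X
  hr1 : 1 ≤ r
  hrX : X / r ≤ 1
  he0 : 0 ≤ eps1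
  hqb : ∀ x ∈ Icc (0 : ℝ) l, |2 * m * (Ψ (t + r * x) - Pinf)| ≤ 2 * m * eps1
  hΨ : Continuous Ψ
  hμ0 : 0 ≤ μ
  hμ1 : μ ≤ 1
  h8 : 8 * (kB m l s ss kap X (∑ i, ‖M i‖) * (1 + r * eps1)) ≤ r * (s + ss)
  h1 : 4 * (kB m l s ss kap X (∑ i, ‖M i‖) * (1 + r * eps1)) / (r * (s + ss)) ≤ μ
  h2 : 4 * (kB m l s ss kap X (∑ i, ‖M i‖) * (1 + r * eps1)) / (r * (s + ss)) *
    (2 * (kB m l s ss kap X (∑ i, ‖M i‖) * (1 + r * eps1))) ≤ μ
  h3 : kA l s kap X (∑ i, ‖M i‖) / r ≤ μ
  h4 : ε ≤ μ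
  hom : Cslow (kK l s kap X (∑ i, ‖M i‖)) l * μ ≤ om

theorem sum_norm_nonneg {l : ℕ} (M : Fin l → V →L[ℝ] V) : 0 ≤ ∑ i, ‖M i‖ :=
  Finset.sum_nonneg fun _ _ => norm_nonneg _

theorem PD.size [CompleteSpace V] {l m : ℕ} {M : Fin l → V →L[ℝ] V}
    {R s ss kap Pinf CX X ε eps1 r om μ t : ℝ} {Ψ : ℝ → ℝ}
    (D : PD l m M R s ss kap Pinf CX X ε eps1 r om μ t Ψ) {c : Fin l → ℝ} (hc : ‖c‖ ≤ R)
    {w w1 : ℝ → V}
    (hsol : Sol (fun x => 2 * m * Ψ x + deriv (ep r t c) x) (Qp (s * ss) M r t c)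
      (Icc t (t + l * r)) w w1) (hmem : ‖w1 t - s • w t‖ ≤ ε * ‖w1 t + ss • w t‖) :
    let E := Einv s kap r (fun x => 2 * m * (Ψ (t + r * x) - Pinf)) l
    ‖E • (w1 (t + r * l) + ss • w (t + r * l)) - wordMap kap M c (w1 t + ss • w t)‖ ≤
        om * ‖w1 t + ss • w t‖ ∧
      ‖E • (w1 (t + r * l) - s • w (t + r * l))‖ ≤ om * ‖w1 t + ss • w t‖ := by
  intro E
  have hr0 : 0 < r := by linarith only [D.hr1]
  have hMM := sum_norm_nonneg M
  have hS := psys_isSol (M := M) hr0 D.hss D.hkap D.hΨ hsol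
  have hbd := psys_Bd (m := m) (s := s) (ss := ss)
    (q := fun x => 2 * m * (Ψ (t + r * x) - Pinf)) M D.hr1 (abs_nonneg R) D.hCX
    (hc.trans (le_abs_self R)) D.hX D.hrX D.hk0.le D.hs.le D.hss0.le D.he0 D.hqb
  have hs := D.hs
  have hss := D.hss0
  have hk := D.hk0
  have hX := D.hX0
  have he := D.he0
  have hK00 : 0 ≤ kK l s kap X (∑ i, ‖M i‖) := by unfold kK; (clear * - hk hX hs; positivity)
  have hB0 : 0 ≤ kB m l s ss kap X (∑ i, ‖M i‖) * (1 + r * eps1) := by
    unfold kB; (clear * - hk hX hs hss hr0 he; (clear * - hk hX hs hss hr0 he; positivity))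
  have hA0 : 0 ≤ kA l s kap X (∑ i, ‖M i‖) / r := by unfold kA; (clear * - hk hX hs hr0; positivity)
  have key := slow_single (N := ‖w1 t + ss • w t‖) hK00 hB0 hA0 (Nat.cast_nonneg l) D.hμ0
    D.hμ1 (by positivity) D.h8 D.h1 D.h2 D.h3 hbd hS
      (by simp only [mul_zero, add_zero, Einv_zero, one_smul]; exact le_rfl)
      (by
        simp only [Einv_zero, mul_zero, add_zero, one_smul]
        exact hmem.trans (mul_le_mul_of_nonneg_right D.h4 (norm_nonneg _)))
  rw [idealMap_end kap M c (by linarith only [] : (l : ℝ) - 1 / 4 ≤ l)] at key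
  have kk := mul_le_mul_of_nonneg_right D.hom (norm_nonneg (w1 t + ss • w t))
  exact ⟨key.1.trans kk, key.2.trans kk⟩

theorem PD.lip [CompleteSpace V] {l m : ℕ} {M : Fin l → V →L[ℝ] V}
    {R s ss kap Pinf CX X ε eps1 r om μ t : ℝ} {Ψ : ℝ → ℝ}
    (D : PD l m M R s ss kap Pinf CX X ε eps1 r om μ t Ψ) {c c' : Fin l → ℝ} (hc : ‖c‖ ≤ R)
    (hc' : ‖c'‖ ≤ R) {w w1 w' w1' : ℝ → V}
    (hsol : Sol (fun x => 2 * m * Ψ x + deriv (ep r t c) x) (Qp (s * ss) M r t c)
      (Icc t (t + l * r)) w w1)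
    (hsol' : Sol (fun x => 2 * m * Ψ x + deriv (ep r t c') x) (Qp (s * ss) M r t c')
      (Icc t (t + l * r)) w' w1') (hw : w' t = w t) (hw1 : w1' t = w1 t)
    (hmem : ‖w1 t - s • w t‖ ≤ ε * ‖w1 t + ss • w t‖) :
    let E := Einv s kap r (fun x => 2 * m * (Ψ (t + r * x) - Pinf)) l
    ‖(E • (w1 (t + r * l) + ss • w (t + r * l)) - E • (w1' (t + r * l) + ss • w' (t + r * l)))
        - (wordMap kap M c (w1 t + ss • w t) - wordMap kap M c' (w1 t + ss • w t))‖ ≤
        om * (‖c - c'‖ * ‖w1 t + ss • w t‖) ∧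
      ‖E • (w1 (t + r * l) - s • w (t + r * l)) - E • (w1' (t + r * l) - s • w' (t + r * l))‖ ≤
        om * (‖c - c'‖ * ‖w1 t + ss • w t‖) := by
  intro E
  have hr0 : 0 < r := by linarith only [D.hr1]
  have hMM := sum_norm_nonneg M
  have hS := psys_isSol (M := M) hr0 D.hss D.hkap D.hΨ hsol
  have hS' := psys_isSol (M := M) hr0 D.hss D.hkap D.hΨ hsol'
  have hbd := psys_Bd (m := m) (s := s) (ss := ss)
    (q := fun x => 2 * m * (Ψ (t + r * x) - Pinf)) M D.hr1 (abs_nonneg R) D.hCX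
    (hc.trans (le_abs_self R)) D.hX D.hrX D.hk0.le D.hs.le D.hss0.le D.he0 D.hqb
  have hbd' := psys_Bd (m := m) (s := s) (ss := ss)
    (q := fun x => 2 * m * (Ψ (t + r * x) - Pinf)) M D.hr1 (abs_nonneg R) D.hCX
    (hc'.trans (le_abs_self R)) D.hX D.hrX D.hk0.le D.hs.le D.hss0.le D.he0 D.hqb
  have hbd2 := psys_Bd2 (m := m) (s := s) (ss := ss) (eps1 := eps1) (ρ := ‖c - c'‖)
    (q := fun x => 2 * m * (Ψ (t + r * x) - Pinf)) M D.hr1 (abs_nonneg R) D.hCX
    (hc.trans (le_abs_self R)) (hc'.trans (le_abs_self R)) le_rfl D.hX D.hrX D.hk0.le D.hs.le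
    D.hss0.le D.he0
  have hs := D.hs
  have hss := D.hss0
  have hk := D.hk0
  have hX := D.hX0
  have he := D.he0
  have hK00 : 0 ≤ kK l s kap X (∑ i, ‖M i‖) := by unfold kK; (clear * - hk hX hs; positivity)
  have hB0 : 0 ≤ kB m l s ss kap X (∑ i, ‖M i‖) * (1 + r * eps1) := by
    unfold kB; (clear * - hk hX hs hss hr0 he; (clear * - hk hX hs hss hr0 he; positivity))
  have hA0 : 0 ≤ kA l s kap X (∑ i, ‖M i‖) / r := by unfold kA; (clear * - hk hX hs hr0; positivity)
  have key := slow_final (N := ‖w1 t + ss • w t‖) hK00 hB0 hA0 (Nat.cast_nonneg l)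
    (norm_nonneg (c - c')) D.hμ0 D.hμ1 (by (clear * - hr0 hs hss; positivity)) D.h8 D.h1 D.h2 D.h3 hbd hbd' hbd2 hS hS'
      (by simp only [mul_zero, add_zero, hw, hw1]) (by simp only [mul_zero, add_zero, hw, hw1])
      (by simp only [mul_zero, add_zero, Einv_zero, one_smul]; exact le_rfl)
      (by
        simp only [Einv_zero, mul_zero, add_zero, one_smul]
        exact hmem.trans (mul_le_mul_of_nonneg_right D.h4 (norm_nonneg _)))
  rw [idealMap_end kap M c (by linarith only [] : (l : ℝ) - 1 / 4 ≤ l),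
    idealMap_end kap M c' (by linarith only [] : (l : ℝ) - 1 / 4 ≤ l), hw, hw1] at key
  have kk := mul_le_mul_of_nonneg_right D.hom
    (mul_nonneg (norm_nonneg (c - c')) (norm_nonneg (w1 t + ss • w t)))
  exact ⟨key.1.trans kk, key.2.trans kk⟩

theorem pulse_vec [CompleteSpace V] (m : ℕ) (Pinf : ℝ) (hP : 0 < Pinf) (s : ℝ) (hs : 0 < s)
    {l : ℕ} (M : Fin l → V →L[ℝ] V) (R : ℝ) (om : ℝ) (hom : 0 < om) :
    ∃ ε : ℝ, 0 < ε ∧ ∃ K : ℝ, ∀ r : ℝ, 1 / ε ≤ r → ∀ t : ℝ, ∀ Ψ : ℝ → ℝ, Continuous Ψ →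
      ∀ eps1 : ℝ, 0 ≤ eps1 → eps1 ≤ ε → eps1 ^ 2 * r ≤ ε →
      (∀ x ∈ Icc t (t + l * r), |Ψ x - Pinf| ≤ eps1) →
      ∃ g : ℝ, 0 < g ∧ g ≤ Real.exp (K * r) ∧
        (∀ c, ‖c‖ ≤ R → ∀ w w1 : ℝ → V,
          Sol (fun x => 2 * m * Ψ x + deriv (ep r t c) x) (Qp (s * (s + 2 * m * Pinf)) M r t c)
            (Icc t (t + l * r)) w w1 →
          ‖w1 t - s • w t‖ ≤ ε * ‖w1 t + (s + 2 * m * Pinf) • w t‖ →
          ‖(w1 (t + l * r) + (s + 2 * m * Pinf) • w (t + l * r)) -
              g • wordMap (1 / (2 * s + 2 * m * Pinf)) M c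
                (w1 t + (s + 2 * m * Pinf) • w t)‖
              ≤ om * g * ‖w1 t + (s + 2 * m * Pinf) • w t‖ ∧
            ‖w1 (t + l * r) - s • w (t + l * r)‖
              ≤ om * g * ‖w1 t + (s + 2 * m * Pinf) • w t‖) ∧
        (∀ c c', ‖c‖ ≤ R → ‖c'‖ ≤ R → ∀ w w1 w' w1' : ℝ → V,
          Sol (fun x => 2 * m * Ψ x + deriv (ep r t c) x) (Qp (s * (s + 2 * m * Pinf)) M r t c)
            (Icc t (t + l * r)) w w1 →
          Sol (fun x => 2 * m * Ψ x + deriv (ep r t c') x)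
            (Qp (s * (s + 2 * m * Pinf)) M r t c') (Icc t (t + l * r)) w' w1' →
          w' t = w t → w1' t = w1 t →
          ‖w1 t - s • w t‖ ≤ ε * ‖w1 t + (s + 2 * m * Pinf) • w t‖ →
          ‖((w1 (t + l * r) + (s + 2 * m * Pinf) • w (t + l * r)) -
              g • wordMap (1 / (2 * s + 2 * m * Pinf)) M c
                (w1 t + (s + 2 * m * Pinf) • w t)) -
            ((w1' (t + l * r) + (s + 2 * m * Pinf) • w' (t + l * r)) -
              g • wordMap (1 / (2 * s + 2 * m * Pinf)) M c'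
                (w1 t + (s + 2 * m * Pinf) • w t))‖
              ≤ om * g * ‖c - c'‖ * ‖w1 t + (s + 2 * m * Pinf) • w t‖ ∧
            ‖(w1 (t + l * r) - s • w (t + l * r)) - (w1' (t + l * r) - s • w' (t + l * r))‖
              ≤ om * g * ‖c - c'‖ * ‖w1 t + (s + 2 * m * Pinf) • w t‖) := by
  obtain ⟨CX, hCX1, hCX⟩ := chi_bounds
  have hss0 : 0 < s + 2 * m * Pinf := by positivity
  have hden : 2 * s + 2 * m * Pinf = s + (s + 2 * m * Pinf) := by ring
  have hk0 : 0 < 1 / (2 * s + 2 * m * Pinf) := by (clear * - hs hP; positivity)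
  have hkap : 1 / (2 * s + 2 * m * Pinf) * (s + (s + 2 * m * Pinf)) = 1 := by
    rw [hden]; exact one_div_mul_cancel (by (clear * - hs hP; positivity))
  generalize hssd : s + 2 * m * Pinf = ss at *
  generalize hkapd : 1 / (2 * s + 2 * m * Pinf) = kap at *
  obtain ⟨X, hX⟩ : ∃ X, X = (|R| + 1) * CX := ⟨_, rfl⟩
  have hX1 : 1 ≤ X := by
    rw [hX]; nlinarith only [hCX1, abs_nonneg R]
  have hX0 : 0 < X := by linarith only [hX1]
  have hMM0 := sum_norm_nonneg M
  have hK00 : 0 ≤ kK l s kap X (∑ i, ‖M i‖) := by unfold kK; (clear * - hk0 hX1 hs; positivity)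
  have hCA0 : 0 ≤ kA l s kap X (∑ i, ‖M i‖) := by unfold kA; (clear * - hk0 hX1 hs; positivity)
  have hCB0 : 0 ≤ kB m l s ss kap X (∑ i, ‖M i‖) := by unfold kB; (clear * - hk0 hX1 hs hss0; positivity)
  obtain ⟨CA, hCA⟩ : ∃ x, x = kA l s kap X (∑ i, ‖M i‖) := ⟨_, rfl⟩
  obtain ⟨CB, hCB⟩ : ∃ x, x = kB m l s ss kap X (∑ i, ‖M i‖) := ⟨_, rfl⟩
  obtain ⟨C1, hC1⟩ : ∃ x, x = Cslow (kK l s kap X (∑ i, ‖M i‖)) l := ⟨_, rfl⟩
  rw [← hCA] at hCA0
  rw [← hCB] at hCB0
  obtain ⟨Cm, hCm⟩ : ∃ x, x = 16 * kap * CB + 32 * kap * CB ^ 2 + CA + 1 := ⟨_, rfl⟩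
  have hCm1 : 1 ≤ Cm := by
    have : 0 ≤ 16 * kap * CB + 32 * kap * CB ^ 2 + CA := by (clear * - hk0 hCB0 hCA0; positivity)
    linarith only [hCm, this]
  have hCm0 : 0 < Cm := by linarith only [hCm1]
  have hC10 : 0 < C1 := by rw [hC1]; exact Cslow_pos (by (clear * -; positivity))
  obtain ⟨ε, hε⟩ : ∃ x, x = min (1 / X) (min (1 / Cm) (om / (C1 * Cm))) := ⟨_, rfl⟩
  have hε0 : 0 < ε := by
    rw [hε]; refine lt_min (by (clear * - hX1; positivity)) (lt_min (by positivity) (by positivity))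
  have hεX : ε * X ≤ 1 := by
    have : ε ≤ 1 / X := by rw [hε]; exact min_le_left _ _
    rwa [le_div_iff₀ hX0] at this
  have hεC : Cm * ε ≤ 1 := by
    have : ε ≤ 1 / Cm := by rw [hε]; exact (min_le_right _ _).trans (min_le_left _ _)
    rw [le_div_iff₀ hCm0] at this; linarith only [this]
  have hεo : C1 * (Cm * ε) ≤ om := by
    have : ε ≤ om / (C1 * Cm) := by rw [hε]; exact (min_le_right _ _).trans (min_le_right _ _)
    rw [le_div_iff₀ (by (clear * - hC10 hCm1; positivity))] at this; linarith only [this]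
  have hε1 : ε ≤ 1 := by nlinarith only [hεX, hX1]
  clear hε
  refine ⟨ε, hε0, l * (s + kap * s * (2 * m)), ?_⟩
  intro r hr t Ψ hΨ eps1 he0 he1 he2 hPsi
  have hr0 : 0 < r := lt_of_lt_of_le (by (clear * - hε0; positivity)) hr
  have hrε : 1 ≤ r * ε := by rwa [div_le_iff₀ hε0] at hr
  have hr1 : 1 ≤ r := by nlinarith only [hε1, hrε, hε0]
  have hrX : X / r ≤ 1 := by
    rw [div_le_one hr0]
    nlinarith only [hεX, hrε, hε0]
  have hqb : ∀ x ∈ Icc (0 : ℝ) l, |2 * m * (Ψ (t + r * x) - Pinf)| ≤ 2 * m * eps1 := by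
    intro x hx
    have hmem : t + r * x ∈ Icc t (t + l * r) := by
      constructor
      · nlinarith only [mul_nonneg hr0.le hx.1]
      · have := mul_le_mul_of_nonneg_left hx.2 hr0.le
        linarith only [this]
    rw [abs_mul, abs_of_nonneg (by (clear * -; positivity) : (0 : ℝ) ≤ 2 * m)]
    exact mul_le_mul_of_nonneg_left (hPsi _ hmem) (by (clear * -; positivity))
  obtain ⟨a8, a1, a2, a3, a4⟩ := small_bounds hk0 hkap (by positivity) hCB0 hCA0 hε0 hrε hr0
    he1 he2 (μ := Cm * ε) (by rw [hCm]) hεC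
  have D : PD l m M R s ss kap Pinf CX X ε eps1 r om (Cm * ε) t Ψ :=
    ⟨hs, hss0, hssd.symm, hk0, hkap, hCX, hX, hX0, hr1, hrX, he0, hqb, hΨ, by (clear * - hCm1 hε0; positivity), hεC,
      by rw [← hCB]; exact a8, by rw [← hCB]; exact a1, by rw [← hCB]; exact a2,
      by rw [← hCA]; exact a3, a4, by rw [← hC1]; exact hεo⟩
  have hgb := Einv_inv_le (s := s) (kap := kap) (r := r) hs.le hk0.le hr0.le (he1.trans hε1) hqb
  have hsz := fun (c : Fin l → ℝ) (hc : ‖c‖ ≤ R) (w w1 : ℝ → V) h1 h2 =>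
    D.size hc (w := w) (w1 := w1) h1 h2
  have hli := fun (c c' : Fin l → ℝ) (hc : ‖c‖ ≤ R) (hc' : ‖c'‖ ≤ R) (w w1 w' w1' : ℝ → V)
    h1 h2 h3 h4 h5 => D.lip hc hc' (w := w) (w1 := w1) (w' := w') (w1' := w1') h1 h2 h3 h4 h5
  have hcomm : t + (l : ℝ) * r = t + r * l := by ring
  have hE0 : 0 < Einv s kap r (fun x => 2 * m * (Ψ (t + r * x) - Pinf)) l := Einv_pos _ _ _ _ _
  simp only at hsz hli
  generalize Einv s kap r (fun x => 2 * m * (Ψ (t + r * x) - Pinf)) l = E at *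
  refine ⟨E⁻¹, inv_pos.2 hE0, hgb, ?_, ?_⟩
  · intro c hc w w1 hsol hmem
    have key := hsz c hc w w1 hsol hmem
    rw [hcomm]
    constructor
    · have e : (w1 (t + r * l) + ss • w (t + r * l)) -
          E⁻¹ • wordMap kap M c (w1 t + ss • w t) =
          E⁻¹ • (E • (w1 (t + r * l) + ss • w (t + r * l)) -
          wordMap kap M c (w1 t + ss • w t)) := by
        rw [smul_sub, smul_smul, inv_mul_cancel₀ hE0.ne', one_smul]
      rw [e, norm_smul, Real.norm_of_nonneg (inv_pos.2 hE0).le]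
      have := mul_le_mul_of_nonneg_left key.1 (inv_pos.2 hE0).le
      linarith only [this]
    · have e : (w1 (t + r * l) - s • w (t + r * l)) =
          E⁻¹ • (E • (w1 (t + r * l) - s • w (t + r * l))) := by
        rw [smul_smul, inv_mul_cancel₀ hE0.ne', one_smul]
      rw [e, norm_smul, Real.norm_of_nonneg (inv_pos.2 hE0).le]
      have := mul_le_mul_of_nonneg_left key.2 (inv_pos.2 hE0).le
      linarith only [this]
  · intro c c' hc hc' w w1 w' w1' hsol hsol' hw hw1 hmem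
    have key := hli c c' hc hc' w w1 w' w1' hsol hsol' hw hw1 hmem
    rw [hcomm]
    constructor
    · have e : ((w1 (t + r * l) + ss • w (t + r * l)) -
          E⁻¹ • wordMap kap M c (w1 t + ss • w t)) -
          ((w1' (t + r * l) + ss • w' (t + r * l)) -
          E⁻¹ • wordMap kap M c' (w1 t + ss • w t)) =
          E⁻¹ • ((E • (w1 (t + r * l) + ss • w (t + r * l)) -
          E • (w1' (t + r * l) + ss • w' (t + r * l))) -
          (wordMap kap M c (w1 t + ss • w t) - wordMap kap M c' (w1 t + ss • w t))) := by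
        simp only [smul_sub, smul_smul, smul_add, inv_mul_cancel_left₀ hE0.ne',
          inv_mul_cancel₀ hE0.ne', one_smul]
        abel
      rw [e, norm_smul, Real.norm_of_nonneg (inv_pos.2 hE0).le]
      have := mul_le_mul_of_nonneg_left key.1 (inv_pos.2 hE0).le
      linarith only [this]
    · have e : (w1 (t + r * l) - s • w (t + r * l)) - (w1' (t + r * l) - s • w' (t + r * l)) =
          E⁻¹ • (E • (w1 (t + r * l) - s • w (t + r * l)) -
            E • (w1' (t + r * l) - s • w' (t + r * l))) := by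
        rw [← smul_sub, smul_smul, inv_mul_cancel₀ hE0.ne', one_smul]
      rw [e, norm_smul, Real.norm_of_nonneg (inv_pos.2 hE0).le]
      have := mul_le_mul_of_nonneg_left key.2 (inv_pos.2 hE0).le
      linarith only [this]

end

end Vale.Agent.P225.B2
end
end

section

section

/-!
# P225, design B, part B2: the main theorem of the dynamical part
-/

open Set Filter Topology
open scoped ContDiff

namespace Vale.Agent.P225.B2

theorem pulseVecAll : PulseVecAll := by
  intro V _ _ _ m _hm Pinf hP s hs l M R om hom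
  have : CompleteSpace V := FiniteDimensional.complete ℝ V
  obtain ⟨ε, hε, K, hK⟩ := pulse_vec m Pinf hP s hs M R om hom
  refine ⟨ε, hε, K, fun r hr t Ψ hΨ ε1 h0 h1 h2 hb => ?_⟩
  obtain ⟨g, hg, hgK, hsize, hlip⟩ := hK r hr t Ψ hΨ ε1 h0 h1 h2 hb
  exact ⟨g, hg, hgK, hsize, fun c c' hc hc' w w1 w' w1' hs1 hs2 e1 e2 hm =>
    hlip c c' hc hc' w w1 w' w1' hs1 hs2 e1.symm e2.symm hm⟩

variable {D : Type} [Fintype D] {ι : D → Type} [∀ d, Fintype (ι d)] [∀ d, DecidableEq (ι d)]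
  {𝒥 : Type}

/-- B2. -/
theorem main (P : Dat D ι 𝒥) (Q : Ctl P) :
    ∃ (σ η φ : ℝ → ℝ) (J : ℝ → 𝒥) (K : ℝ),
      ContDiff ℝ ∞ σ ∧ ContDiff ℝ ∞ η ∧ ContDiff ℝ ∞ φ ∧ (∀ x, HasDerivAt φ (σ x) x) ∧
      (∀ x ≤ 0, σ x = 1 ∧ η x = 0 ∧ φ x = x) ∧ (∀ x, P.sig0 ≤ σ x ∧ σ x ≤ 1) ∧
      (∀ x, (∀ᶠ y in 𝓝 x, J y = J x) ∨ (∀ᶠ y in 𝓝 x, η y = 0)) ∧
      (∀ x, Curv P.m σ η x) ∧
      ∀ d, ∀ i ∈ Q.Sset d, ∃ w w1 : ℝ → (ι d → ℝ), ContDiff ℝ ∞ w ∧
        (∀ x ≤ 0, w x = Real.exp (P.deg d * x) • Pi.single i 1) ∧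
        Sol (fun x => 2 * P.m * σ x + deriv η x)
          (fun x => P.C d • (1 : (ι d → ℝ) →L[ℝ] (ι d → ℝ)) - beta (η x) • P.M (J x) d)
          univ w w1 ∧
        ∀ x, 0 ≤ x → ‖w x‖ ≤ K * Real.exp (Q.k * φ x) :=
  main_of_vec pulseVecAll P Q

end Vale.Agent.P225.B2
end
end

section

section

/-!
# The functions `usol` are harmonic for the global metric
-/

open Filter Topology
open scoped ContDiff

namespace Vale.Agent.P225

open RMetric

namespace B

variable {n : ℕ}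

/-- derivative of `F + 2 t K` -/
theorem deriv_P {φ η : ℝ → ℝ} {s e t : ℝ} (ht : 0 < t)
    (hf : HasDerivAt φ s (Real.log (2 * t) / 2)) (hg : HasDerivAt η e (Real.log (2 * t) / 2)) :
    deriv (fun t => Fo φ t + 2 * t * Ko φ η t) t =
      (Fo φ t + 2 * t * Ko φ η t) * ((s - 1 + e) / t) := by
  have h1 : HasDerivAt (fun t => Fo φ t * Real.exp (2 * η (Real.log (2 * t) / 2)))
      (Fo φ t * ((s - 1) / t) * Real.exp (2 * η (Real.log (2 * t) / 2)) +
        Fo φ t * (Real.exp (2 * η (Real.log (2 * t) / 2)) * (2 * (e / (2 * t))))) t :=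
    (hasDerivAt_Fo ht hf).mul ((hasDerivAt_comp_tau ht hg).const_mul 2).exp
  have h2 : (fun t => Fo φ t + 2 * t * Ko φ η t) =ᶠ[𝓝 t]
      fun t => Fo φ t * Real.exp (2 * η (Real.log (2 * t) / 2)) := by
    filter_upwards [lt_mem_nhds ht] with s hs
    exact Fo_Ko φ η hs
  rw [h2.deriv_eq, h1.deriv, Fo_Ko φ η ht]
  (clear * - ht; field_simp)

/-- The functions `usol` are harmonic. -/
theorem BData.lap_usol (D : BData n) {m : ℕ} (hn : n = 2 * m + 2) {ι : Type*} [Fintype ι]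
    [DecidableEq ι] {d : ℕ} {p : ι → MvPolynomial (Fin n) ℝ} (hp : ∀ j, p j ∈ HH ℝ n d)
    {M : ℝ → (ι → ℝ) →L[ℝ] (ι → ℝ)}
    (hM : ∀ t j, -(xi (D.J t) (xi (D.J t) (p j))) = ∑ i, (M t (Pi.single j 1)) i • p i)
    {σ : ℝ → ℝ} (hσ : ∀ t, HasDerivAt D.φ (σ t) t)
    {w w1 : ℝ → ι → ℝ} (hw : ContDiff ℝ ∞ w) {v : ι → ℝ}
    (h0 : ∀ t ≤ 0, w t = Real.exp (d * t) • v)
    (hs : B2.Sol (fun x => 2 * m * σ x + deriv D.η x)
      (fun x => ((d : ℝ) * (d + 2 * m)) • (1 : (ι → ℝ) →L[ℝ] (ι → ℝ)) -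
        B2.beta (D.η x) • M x) Set.univ w w1) (x : Rn n) :
    D.met.lap (usol d p w) x = 0 := by
  by_cases hx : x = 0
  · -- near the origin: harmonic polynomial, Euclidean metric
    subst hx
    have hu : usol d p w =ᶠ[𝓝 (0 : Rn n)] fun y => ∑ j, (fun _ : ℝ => v j) (tt y) * ev (p j) y := by
      filter_upwards [Metric.ball_mem_nhds (0 : Rn n) one_pos] with y hy
      rw [mem_ball_zero_iff] at hy
      rw [usol_of_norm_le (fun j => (mem_HH.1 (hp j)).1) h0 hy.le]
      rfl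
    have hg : D.met.G =ᶠ[𝓝 (0 : Rn n)] GG (D.J 0) (fun _ => 1) (fun _ => 0) := by
      filter_upwards [D.gmat_one] with y hy
      rw [met_G, hy]
      ext i j
      simp [GG, Matrix.one_apply]
    rw [lap_sep (D.isJ 0) hg (Filter.Eventually.of_forall fun t => differentiableAt_const _)
      (differentiableAt_const _) one_pos (by simp) hp
      (f := fun j _ => v j) (f1 := fun _ _ => 0) (f2 := fun _ => 0)
      (fun j => contDiffAt_const)
      (fun j => Filter.Eventually.of_forall fun t => hasDerivAt_const _ _)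
      (fun j => hasDerivAt_const _ _) hu]
    simp only [inv_one, mul_zero, add_zero, deriv_const', div_one, zero_div, zero_add, zero_mul, sub_self, Finset.sum_const_zero]
  · -- away from the origin
    have ht : 0 < tt x := tt_pos hx
    set t := tt x with htdef
    set τ := Real.log (2 * t) / 2 with hτ
    have hτx : Real.log ‖x‖ = τ := by
      rw [hτ, htdef, tt_eq, BData.log_aux]
    set J := D.J τ with hJdef
    have hJ : IsJ J := D.isJ τ
    have hg : D.met.G =ᶠ[𝓝 x] GG J (Fo D.φ) (Ko D.φ D.η) := by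
      have := D.gmat_GG hx
      rw [hτx] at this
      exact this
    -- the coefficient functions
    have hdη : ∀ s, HasDerivAt D.η (deriv D.η s) s := fun s =>
      ((D.η_smooth.differentiable (by simp)) s).hasDerivAt
    have hwj : ∀ j s, HasDerivAt (fun s => w s j) (w1 s j) s := fun j s =>
      (hasDerivAt_pi.1 (hs.d0 s (Set.mem_univ s))) j
    set w2 : ι → ℝ := fun j => (((d : ℝ) * (d + 2 * m)) * w τ j -
      B2.beta (D.η τ) * (M τ (w τ)) j) - (2 * m * σ τ + deriv D.η τ) * w1 τ j with hw2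
    have hw1j : ∀ j, HasDerivAt (fun s => w1 s j) (w2 j) τ := by
      intro j
      have := (hasDerivAt_pi.1 (hs.d1 τ (Set.mem_univ τ))) j
      refine this.congr_deriv ?_
      simp only [sub_apply, smul_apply, one_apply_eq_self, Pi.sub_apply, Pi.smul_apply, smul_eq_mul, hw2]
    set f : ι → ℝ → ℝ := fun j t => Real.exp (-(d * (Real.log (2 * t) / 2))) *
      w (Real.log (2 * t) / 2) j with hf
    set f1 : ι → ℝ → ℝ := fun j t => Real.exp (-(d * (Real.log (2 * t) / 2))) *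
      (w1 (Real.log (2 * t) / 2) j - d * w (Real.log (2 * t) / 2) j) / (2 * t) with hf1
    set f2 : ι → ℝ := fun j => Real.exp (-(d * τ)) *
      (w2 j - 2 * d * w1 τ j + d ^ 2 * w τ j - 2 * (w1 τ j - d * w τ j)) / (4 * t ^ 2) with hf2
    have hE : ∀ s, 0 < s → HasDerivAt (fun t : ℝ => Real.exp (-(d * (Real.log (2 * t) / 2))))
        (Real.exp (-(d * (Real.log (2 * s) / 2))) * (-(d * (1 / (2 * s))))) s := by
      intro s hs0
      exact (((hasDerivAt_tau hs0).const_mul (d : ℝ)).neg).exp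
    have hfd : ∀ j s, 0 < s → HasDerivAt (f j) (f1 j s) s := by
      intro j s hs0
      refine ((hE s hs0).mul (hasDerivAt_comp_tau hs0 (hwj j _))).congr_deriv ?_
      simp only [hf1]
      field_simp
      ring
    have hf1d : ∀ j, HasDerivAt (f1 j) (f2 j) t := by
      intro j
      have e1 : HasDerivAt (fun s => w1 (Real.log (2 * s) / 2) j) (w2 j / (2 * t)) t :=
        hasDerivAt_comp_tau ht (hw1j j)
      have e2 : HasDerivAt (fun s => w (Real.log (2 * s) / 2) j) (w1 τ j / (2 * t)) t :=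
        hasDerivAt_comp_tau ht (hwj j τ)
      have e3 : HasDerivAt (fun s : ℝ => 2 * s) 2 t := by
        simpa using (hasDerivAt_id t).const_mul (2 : ℝ)
      refine (((hE t ht).mul (e1.sub (e2.const_mul (d : ℝ)))).div e3
        (by positivity)).congr_deriv ?_
      simp only [hf2, ← hτ, Pi.mul_apply, Pi.sub_apply]
      field_simp
      ring
    have hfs : ∀ j, ContDiffAt ℝ 2 (f j) t := by
      intro j
      have h1 : ContDiffAt ℝ 2 (fun t : ℝ => Real.log (2 * t) / 2) t :=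
        ((contDiffAt_const.mul contDiffAt_id).log (by positivity)).div_const 2
      have h2 : ContDiff ℝ 2 (fun s => w s j) := by
        have := contDiff_infty.1 (contDiff_pi.1 hw j) 2
        exact_mod_cast this
      exact ((contDiffAt_const.mul h1).neg.exp).mul (h2.contDiffAt.comp t h1)
    have hu : usol d p w =ᶠ[𝓝 x] fun y => ∑ j, f j (tt y) * ev (p j) y := by
      have hne : ∀ᶠ y in 𝓝 x, y ≠ 0 := isOpen_ne.mem_nhds hx
      filter_upwards [hne] with y hy
      have hy0 := norm_pos_iff.2 hy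
      unfold usol
      rw [Finset.mul_sum]
      apply Finset.sum_congr rfl; intro j _
      have e1 : Real.log (2 * tt y) / 2 = Real.log ‖y‖ := by
        rw [tt_eq, BData.log_aux]
      simp only [hf, e1]
      have e2 : Real.exp (-(d * Real.log ‖y‖)) = (‖y‖ ^ d)⁻¹ := by
        rw [Real.exp_neg, ← Real.log_pow, Real.exp_log (by positivity)]
      rw [e2]
      unfold ev
      ring
    have hFd : ∀ᶠ s in 𝓝 t, DifferentiableAt ℝ (Fo D.φ) s := by
      filter_upwards [lt_mem_nhds ht] with s hs0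
      exact (hasDerivAt_Fo hs0 (hσ _)).differentiableAt
    have hKd : DifferentiableAt ℝ (Ko D.φ D.η) t :=
      (hasDerivAt_Ko ht (hσ _) (hdη _)).differentiableAt
    have hF0 := Fo_pos D.φ ht
    have hP0 := Fo_Ko_pos D.φ D.η ht
    rw [lap_sep hJ hg hFd hKd hF0 hP0 hp hfs
      (fun j => by filter_upwards [lt_mem_nhds ht] with s hs0; exact hfd j s hs0) hf1d hu]
    rw [← htdef, (hasDerivAt_Fo ht (hσ _)).deriv, deriv_P ht (hσ _) (hdη _), ← hτ]
    have e3 : Fo D.φ t * ((σ τ - 1) / t) / Fo D.φ t = (σ τ - 1) / t := by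
      (clear * - hF0 ht; field_simp)
    have e4 : (Fo D.φ t + 2 * t * Ko D.φ D.η t) * ((σ τ - 1 + deriv D.η τ) / t) /
        (Fo D.φ t + 2 * t * Ko D.φ D.η t) = (σ τ - 1 + deriv D.η τ) / t := by
      rw [mul_div_assoc, mul_comm, div_mul_cancel₀]
      exact hP0.ne'
    have e5 : Ko D.φ D.η t / (Fo D.φ t + 2 * t * Ko D.φ D.η t) = B2.beta (D.η τ) / (2 * t) := by
      rw [Fo_Ko D.φ D.η ht]
      unfold Ko B2.beta
      rw [← hτ]
      have : Real.exp (-2 * D.η τ) = (Real.exp (2 * D.η τ))⁻¹ := by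
        rw [← Real.exp_neg]; ring_nf
      rw [this]
      have hexp := Real.exp_pos (2 * D.η τ)
      (clear * - hF0 ht; field_simp)
    have hnr : (n : ℝ) = 2 * m + 2 := by exact_mod_cast hn
    rw [e3, e4, e5]
    set E := Real.exp (-(d * τ)) with hEdef
    set β := B2.beta (D.η τ) with hβ
    have e6 : ∀ j, (2 * t * f2 j + (n + 2 * d) * f1 j t +
        ((((n : ℝ) - 3) * ((σ τ - 1) / t) + (σ τ - 1 + deriv D.η τ) / t) / 2) *
          (2 * t * f1 j t + d * f j t)) * ev (p j) x -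
        β / (2 * t) * f j t * ev (xi J (xi J (p j))) x =
        -(E * β / (2 * t)) * ((M τ (w τ)) j * ev (p j) x) -
        (E * β / (2 * t)) * (w τ j * ev (xi J (xi J (p j))) x) := by
      intro j
      simp only [hf2, hw2, hf1, ← hτ, ← hEdef, hf]
      rw [hnr]
      field_simp
      ring
    rw [Finset.sum_congr rfl (fun j _ => e6 j), Finset.sum_sub_distrib, ← Finset.mul_sum,
      ← Finset.mul_sum]
    have e7 : ∑ j, (M τ (w τ)) j * ev (p j) x = -∑ j, w τ j * ev (xi J (xi J (p j))) x := by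
      have h1 : ∀ j, -ev (xi J (xi J (p j))) x = ∑ i, (M τ (Pi.single j 1)) i * ev (p i) x := by
        intro j
        have := congrArg (fun q => ev q x) (hM τ j)
        simp only [ev, map_neg, map_sum, MvPolynomial.smul_eval] at this
        exact this
      have h2 : w τ = ∑ j, w τ j • (Pi.single j 1 : ι → ℝ) := by
        funext i
        rw [Finset.sum_apply]
        simp only [Pi.smul_apply, Pi.single_apply, smul_eq_mul, mul_ite, mul_one, mul_zero, Finset.sum_ite_eq, Finset.mem_univ, ↓reduceIte]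
      have h3 : ∀ i, (M τ (w τ)) i = ∑ j, w τ j * (M τ (Pi.single j 1)) i := by
        intro i
        conv_lhs => rw [h2]
        rw [map_sum, Finset.sum_apply]
        apply Finset.sum_congr rfl; intro j _
        rw [map_smul, Pi.smul_apply, smul_eq_mul]
      rw [← Finset.sum_neg_distrib]
      have h4 : ∀ j, -(w τ j * ev (xi J (xi J (p j))) x) =
          ∑ i, w τ j * (M τ (Pi.single j 1)) i * ev (p i) x := by
        intro j
        rw [← mul_neg, h1, Finset.mul_sum]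
        apply Finset.sum_congr rfl; intro i _; ring
      rw [Finset.sum_congr rfl (fun j _ => h4 j), Finset.sum_comm]
      apply Finset.sum_congr rfl; intro i _
      rw [h3, Finset.sum_mul]
    rw [e7]
    ring

end B

end Vale.Agent.P225
end
end

section

section

/-!
# P225, route B, final assembly
-/

open MvPolynomial Filter Topology
open scoped ContDiff

namespace Vale.Agent.P225.B5

open Vale.Agent.P225.B

/-- Growth of the functions `usol`. -/
theorem abs_usol_le {n d : ℕ} {ι : Type} [Fintype ι] {p : ι → MvPolynomial (Fin n) ℝ}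
    (hp : ∀ j, (p j).IsHomogeneous d) (w : ℝ → ι → ℝ) :
    ∃ C : ℝ, 0 ≤ C ∧ ∀ x : Rn n, |usol d p w x| ≤ C * ‖w (Real.log ‖x‖)‖ := by
  classical
  refine ⟨∑ m ∈ (Finset.univ : Finset (Fin n)).finsuppAntidiag d, ∑ j, |(p j).coeff m|,
    by positivity, fun x => ?_⟩
  rw [usol_eq_uf]
  refine (abs_uf_le (fun τ => homog_sum hp _) x).trans ?_
  rw [Finset.sum_mul]
  refine Finset.sum_le_sum fun m _ => ?_
  rw [coeff_sum, Finset.sum_mul]
  refine (Finset.abs_sum_le_sum_abs _ _).trans (Finset.sum_le_sum fun j _ => ?_)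
  rw [coeff_smul, smul_eq_mul, abs_mul, mul_comm]
  refine mul_le_mul_of_nonneg_left ?_ (abs_nonneg _)
  exact norm_le_pi_norm (w (Real.log ‖x‖)) j

/-- **Final assembly.** -/
theorem final {m : ℕ} (hm : 1 ≤ m) (hA : AlgOut m) (hE : EigOut m) (hC : CountOut m) :
    ∃ g : RMetric (2 * m + 2), g.Complete ∧ RMetric.RicciNonneg g ∧ ∃ k : ℕ, 1 ≤ k ∧
      ∃ v : Fin ((2 * m + 1 + k).choose k + (2 * m + k).choose (k - 1) + 1) →
        (Rn (2 * m + 2) → ℝ), LinearIndependent ℝ v ∧ ∀ i, v i ∈ g.harm k := by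
  classical
  obtain ⟨x, h, k, Dm, θ, hx, hh, hhx, hxh, hk, hcount, htot⟩ := hC
  obtain ⟨J0, hE⟩ := hE
  choose N b μ hb hμd hmul using hE
  -- the states
  choose S hSθ hSsum using fun d : ℕ =>
    exists_states (μ d) (Emul m d) (hmul d) (Finset.Icc (θ d) d)
  have hcard : ∀ d, (S d).card = ∑ k ∈ Finset.Icc (θ d) d, Emul m d k := by
    intro d
    have := hSsum d (fun _ => 1)
    simp only [Finset.sum_const, nsmul_eq_mul, mul_one, one_mul] at this
    exact_mod_cast this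
  have hsx : 0 < √x := Real.sqrt_pos.2 hx
  have hlog : 0 ≤ Real.log h / 2 := div_nonneg (Real.log_nonneg hh) (by norm_num)
  set eta0 : ℝ := Real.log h / 2 with heta0
  set q : ℝ := 2 * m + 1 with hq
  have hq0 : 0 < q := by positivity
  have hsig : √x * Real.exp (eta0 / q) * Real.exp (-(eta0 / q)) = √x := by
    rw [mul_assoc, ← Real.exp_add, add_neg_cancel, Real.exp_zero, mul_one]
  -- the static data
  let P : B2.Dat (Finset.Icc 2 Dm) (fun d => Fin (N d)) (JJ (2 * m + 2)) :=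
    { m := m
      hm := hm
      Pinf := √x * Real.exp (eta0 / q)
      hP0 := by (clear * - hx; positivity)
      hP1 := by
        have h1 : (√x * Real.exp (eta0 / q)) ^ (2 * (2 * m + 1)) < 1 := by
          have e1 : (√x * Real.exp (eta0 / q)) ^ (2 * (2 * m + 1)) = x ^ (2 * m + 1) * h := by
            rw [mul_pow, pow_mul, Real.sq_sqrt hx.le, ← Real.exp_nat_mul]
            congr 1
            have : ((2 * (2 * m + 1) : ℕ) : ℝ) * (eta0 / q) = Real.log h := by
              rw [heta0, hq]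
              push_cast
              field_simp
            rw [this, Real.exp_log (by linarith only [hh])]
          rw [e1]
          exact hxh
        by_contra hcon
        push Not at hcon
        have := one_le_pow₀ (n := 2 * (2 * m + 1)) hcon
        linarith only [h1, this]
      eta0 := eta0
      heta0 := hlog
      strict := by
        have e1 : Real.exp (2 * eta0) = h := by
          rw [heta0, mul_div_cancel₀ _ (two_ne_zero), Real.exp_log (by linarith only [hh])]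
        show Real.exp (2 * eta0) + m * (√x * Real.exp (eta0 / q) *
          Real.exp (-(eta0 / q))) ^ 2 < m + 1
        rw [hsig, Real.sq_sqrt hx.le, e1]
        exact hhx
      deg := fun d => d.1
      hdeg := fun d => (Nat.le_succ 1).trans (Finset.mem_Icc.1 d.2).1
      J0 := J0
      M := fun J d => opc (b d) (rst (MM J.1) d)
      mu := fun d i => (μ d i : ℝ) ^ 2
      hmu0 := fun d i => sq_nonneg _
      hmu := by
        intro d i
        have h1 : (μ d i : ℝ) ≤ (d : ℕ) := by exact_mod_cast hμd d i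
        have h2 : (0 : ℝ) ≤ μ d i := Nat.cast_nonneg _
        have h3 : (0 : ℝ) ≤ ((d : ℕ) : ℝ) * (2 * m) := by (clear * - hm; positivity)
        nlinarith only [h1]
      hM0 := fun d i => opc_single (b d) _ (hb d i) }
  have hPsig : P.sig0 = √x := hsig
  -- the control data
  have hkap : ∀ d, 0 < P.kap d := by
    intro d
    have hC0 : 0 ≤ P.C d := by
      show (0 : ℝ) ≤ ((P.deg d : ℕ) : ℝ) * (P.deg d + 2 * P.m)
      positivity
    have h1 : 0 < P.m * P.Pinf := mul_pos (by exact_mod_cast P.hm) P.hP0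
    have h2 : P.m * P.Pinf ≤ √((P.m * P.Pinf) ^ 2 + P.C d) := by
      apply Real.le_sqrt_of_sq_le
      linarith only [hC0]
    show 0 < 1 / (2 * P.s d + 2 * P.m * P.Pinf)
    have h3 : 0 ≤ P.s d := by
      show 0 ≤ -(P.m * P.Pinf) + √((P.m * P.Pinf) ^ 2 + P.C d)
      linarith only [h2]
    have : 0 < 2 * P.s d + 2 * P.m * P.Pinf := by nlinarith only [h1, h3]
    positivity
  obtain ⟨l, word, c0, lam0, F', pi, sg, hF, hsurj, hsg, hpi, hT, hcyc⟩ :=
    hA Dm (fun d => Fin (N d)) (fun d => b d) P.kap hkap (fun d => S d)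
  let Q : B2.Ctl P :=
    { l := l
      word := word
      c0 := c0
      lam0 := lam0
      F' := F'
      hF := hF
      hsurj := hsurj
      Sset := fun d => S d
      pi := pi
      hpi := hpi
      sg := sg
      hsg := hsg
      hT := hT
      k := k
      hk := Nat.cast_nonneg k
      havg := by
        intro d i hi
        have hne : (S d).Nonempty := ⟨i, hi⟩
        refine ⟨(S d).card, Finset.card_pos.2 hne, (hcyc d i hi).1, ?_⟩
        rw [(hcyc d i hi).2 (fun j => P.S d j - k * P.sig0)]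
        have hd := Finset.mem_Icc.1 d.2
        have hmain := (hcount d hd.1 hd.2).2
        have e1 : ((S d).card : ℝ) = ∑ μ ∈ Finset.Icc (θ d) d, (Emul m d μ : ℝ) := by
          rw [hcard]
          push_cast
          rfl
        have e2 : ∑ i ∈ S d, (μ d i : ℝ) ^ 2 =
            ∑ μ ∈ Finset.Icc (θ d) (d : ℕ), ((μ : ℝ) ^ 2 * Emul m d μ) :=
          hSsum d (fun k => (k : ℝ) ^ 2)
        rw [← e1, ← e2] at hmain
        have := mean_exponent (m := m) hx hh (k := k) (μ d) d (hμd d) (S d) hne hmain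
        rw [hPsig]
        refine lt_of_eq_of_lt (Finset.sum_congr rfl fun j _ => ?_) this
        show B2.sroot P.m P.sig0 (P.C d - B2.beta P.eta0 * P.mu d j) - k * √x = _
        rw [hPsig]
        rfl }
  obtain ⟨σ, η, φ, J, K, hσs, hηs, hφs, hφ, hinit, hσb, hJ, hcurv, hw⟩ := B2.main P Q
  have hσ0 : ∀ t, 0 ≤ σ t := fun t => by
    have h1 := (hσb t).1
    rw [hPsig] at h1
    exact hsx.le.trans h1
  -- the metric
  let D : BData (2 * m + 2) :=
    { φ := φ
      η := η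
      J := fun t => (J t).1
      φ_smooth := hφs
      η_smooth := hηs
      J_skew := fun t => (J t).2.1
      J_sq := fun t => (J t).2.2
      J_loc := fun t => (hJ t).symm.imp id (fun h => h.mono fun s hs => congrArg Subtype.val hs)
      φ_init := fun t ht => (hinit t ht).2.2
      η_init := fun t ht => (hinit t ht).2.1 }
  have hdφ : deriv φ = σ := funext fun t => (hφ t).deriv
  have hlim : Tendsto φ atTop atTop := by
    have h1 : ∀ t, 0 ≤ t → φ 0 + √x * t ≤ φ t := by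
      intro t ht
      have hd : ∀ s, HasDerivAt (fun s => φ s - √x * s) (σ s - √x * 1) s := fun s =>
        (hφ s).sub ((hasDerivAt_id s).const_mul (√x))
      have hmono : Monotone fun s => φ s - √x * s :=
        monotone_of_hasDerivAt_nonneg hd (fun s => by
          have h1 := (hσb s).1
          rw [hPsig] at h1
          show (0 : ℝ) ≤ σ s - √x * 1
          linarith only [h1])
      have := hmono ht
      simp only [mul_zero, sub_zero] at this
      linarith only [this]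
    refine tendsto_atTop_mono' atTop (f₁ := fun t => φ 0 + √x * t) ?_ ?_
    · filter_upwards [eventually_ge_atTop 0] with t ht
      exact h1 t ht
    · exact tendsto_atTop_add_const_left _ _ (Tendsto.const_mul_atTop hsx tendsto_id)
  have hP : ∀ x v : Rn (2 * m + 2), x ≠ 0 → Real.exp (2 * φ (Real.log ‖x‖) - 2 * Real.log ‖x‖) *
      (inner ℝ x v / ‖x‖) ^ 2 ≤ D.met.quad x v := fun x v hx => D.quad_ge hx v
  refine ⟨D.met, model_complete hφ hσ0 (fun t => (hσb t).2) hlim hP, ?_, k, hk, ?_⟩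
  · -- Ricci
    have hcast : (((2 * m + 2 : ℕ) : ℝ)) = 2 * m + 2 := by push_cast; ring
    refine D.ricciNonneg (fun t => ?_) (fun t => ?_) (fun t => ?_)
    · have h1 := (hcurv t).1
      show 0 ≤ -(((2 * m + 2 : ℕ) : ℝ) - 1) * deriv (deriv φ) t - deriv (deriv η) t -
        deriv φ t * deriv η t - deriv η t ^ 2
      rw [hdφ, hcast]
      have e : -((2 * (m : ℝ) + 2) - 1) * deriv σ t = -((2 * P.m + 1) * deriv σ t) := by
        show -((2 * (m : ℝ) + 2) - 1) * deriv σ t = -((2 * (m : ℝ) + 1) * deriv σ t)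
        ring
      rw [e]
      exact h1
    · have h1 := (hcurv t).2.1
      show 0 ≤ (((2 * m + 2 : ℕ) : ℝ) - 2) * (Real.exp (2 * η t) - deriv φ t ^ 2) -
        deriv (deriv φ) t - (((2 * m + 2 : ℕ) : ℝ) - 1) * deriv φ t * deriv η t -
        deriv η t ^ 2 - deriv (deriv η) t
      rw [hdφ, hcast]
      have e1 : (2 * (m : ℝ) + 2) - 2 = 2 * P.m := by
        show (2 * (m : ℝ) + 2) - 2 = 2 * (m : ℝ)
        ring
      have e2 : (2 * (m : ℝ) + 2) - 1 = 2 * P.m + 1 := by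
        show (2 * (m : ℝ) + 2) - 1 = 2 * (m : ℝ) + 1
        ring
      rw [e1, e2]
      exact h1
    · have h1 := (hcurv t).2.2
      show 0 ≤ (((2 * m + 2 : ℕ) : ℝ)) - 2 * Real.exp (2 * η t) -
        (((2 * m + 2 : ℕ) : ℝ) - 2) * deriv φ t ^ 2 - deriv (deriv φ) t - deriv φ t * deriv η t
      rw [hdφ, hcast]
      have e1 : (2 * (m : ℝ) + 2) - 2 = 2 * P.m := by
        show (2 * (m : ℝ) + 2) - 2 = 2 * (m : ℝ)
        ring
      rw [e1]
      have e3 : (2 * (m : ℝ) + 2) = 2 * P.m + 2 := rfl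
      rw [e3]
      exact h1
  · -- the harmonic functions
    refine count_final D.met k (D := Finset.Icc 2 Dm) (deg := fun d => (d : ℕ))
      Subtype.val_injective (ι := fun d => Fin (N d))
      (p := fun d i => ((b d i : HH ℝ (2 * m + 2) d) : MvPolynomial (Fin (2 * m + 2)) ℝ))
      (fun d i => ((mem_HH).1 (b d i).2).1) (fun d => ?_) (fun d => S d) ?_ ?_
    · exact (b d).linearIndependent.map' (Submodule.subtype _) (Submodule.ker_subtype _)
    · intro d i hi
      obtain ⟨w, w1, hws, hw0, hsol, hgr⟩ := hw d i hi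
      have hhom : ∀ j, (((b d j : HH ℝ (2 * m + 2) d) :
          MvPolynomial (Fin (2 * m + 2)) ℝ)).IsHomogeneous d := fun j =>
        ((mem_HH).1 (b d j).2).1
      refine ⟨usol d (fun j => ((b d j : HH ℝ (2 * m + 2) d) :
        MvPolynomial (Fin (2 * m + 2)) ℝ)) w, ⟨usol_contDiff hhom hws hw0, fun x => ?_, ?_⟩, ?_⟩
      · refine BData.lap_usol D (m := m) rfl (fun j => (b d j).2)
          (M := fun t => opc (b d) (rst (MM (J t).1) d)) ?_ hφ hws hw0 hsol x
        intro t j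
        have h1 := congrArg Subtype.val (opc_expand (b d) (rst (MM (J t).1) d) j)
        rw [(pres_MM (J t).2.1).rst_coe] at h1
        rw [Submodule.coe_sum] at h1
        simp only [Submodule.coe_smul] at h1
        rw [← h1]
        rfl
      · obtain ⟨C, hC, hCw⟩ := abs_usol_le hhom w
        refine model_growth hφ hσ0 (fun t => (hσb t).2) hP
          (usol_contDiff hhom hws hw0).continuous k (C := C * K) fun x hx => ?_
        have hl : 0 ≤ Real.log ‖x‖ := Real.log_nonneg hx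
        refine (hCw x).trans ?_
        rw [mul_assoc]
        exact mul_le_mul_of_nonneg_left (hgr _ hl) hC
      · intro x hx
        rw [usol_of_norm_le hhom hw0 hx]
        rw [Finset.sum_eq_single i]
        · simp only [Pi.single_eq_same, one_mul]
        · intro j _ hj
          simp only [ne_eq, hj, not_false_eq_true, Pi.single_eq_of_ne, zero_mul]
        · intro h
          exact absurd (Finset.mem_univ i) h
    · have e : ∑ d : Finset.Icc 2 Dm, (S (d : ℕ)).card =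
          ∑ d ∈ Finset.Icc 2 Dm, ∑ μ ∈ Finset.Icc (θ d) d, Emul m d μ := by
        rw [← Finset.sum_coe_sort (Finset.Icc 2 Dm) (fun d => ∑ μ ∈ Finset.Icc (θ d) d,
          Emul m d μ)]
        exact Finset.sum_congr rfl fun d _ => hcard d
      rw [e]
      exact htot

end Vale.Agent.P225.B5
end
end

section

section

/-!
# P225, route B: the counterexample on `ℝ⁴²`
-/

namespace Vale.Agent.P225.B5

/-- Yau's dimension comparison fails on `ℝ⁴²`. -/
theorem final20 :
    ∃ g : RMetric 42, g.Complete ∧ g.RicciNonneg ∧ ∃ k : ℕ, 1 ≤ k ∧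
      ∃ v : Fin ((42 + k - 1).choose k + (42 + k - 2).choose (k - 1) + 1) → (Rn 42 → ℝ),
        LinearIndependent ℝ v ∧ ∀ i, v i ∈ g.harm k := by
  obtain ⟨g, hg, hr, k, hk, v, hv, hh⟩ :=
    final (m := 20) (by norm_num) (algOut (by norm_num)) (eigOut 20 (by norm_num)) B4.countOut
  refine ⟨g, hg, hr, k, hk, ?_⟩
  have e1 : 42 + k - 1 = 2 * 20 + 1 + k := by omega
  have e2 : 42 + k - 2 = 2 * 20 + k := by omega
  rw [e1, e2]
  exact ⟨v, hv, hh⟩

end Vale.Agent.P225.B5
end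
end
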